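import Crest.Agent.R4C.Base_935
import Crest.Agent.R4C.Asm_946
import Crest.Agent.R4C.PureFL_232

-- ▼ part R4C/MX_946
section

/-!
# MX: Theorem C with a low relation (row 4, note 2832 (A)), helper946

* `mx_core`  : abstract finite form (levels of the low mass, dyadic low gcd, Schur test)
* `mx`       : `M = M0 * M1`, sets `B`, `B'` of divisors of `M`, relation `Rel`;
  inputs: low HVW with relation (exponent `ρ`), high bilinear Theorem C (exponent `η < ρ - 1/2`).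
-/

set_option autoImplicit false

namespace Crest.Agent.R4C.MXx946

open Finset

/-! ### geometric sums over finite sets of integers -/


/-- the level weight -/
noncomputable def g (α η : ℝ) (y : ℝ) : ℝ := y ^ α * (max 1 y⁻¹) ^ η

lemma g_nonneg {α η y : ℝ} (hy : 0 ≤ y) : 0 ≤ g α η y := by
  unfold g
  have : 0 ≤ max 1 y⁻¹ := le_max_of_le_left zero_le_one
  positivity



/-- the truncated level weight -/
noncomputable def gK (α η K : ℝ) (j : ℤ) : ℝ := if (2 : ℝ) ^ j ≤ K then g α η ((2 : ℝ) ^ j) else 0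






/-! ### Schur test -/






/-! ### the core -/

section core

variable {Z : Type*} {S S' : Finset Z} {I : Finset ℕ} {n V V' : Z → ℝ} {L : ℝ} {e : Z → Z → ℝ}
  {gam : ℕ → Z → Z → Prop} {ell : ℕ → Z → Z → ℝ} {C1 C2 ρ η K : ℝ}

/-- the levels of positive mass -/
noncomputable def pos (S : Finset Z) (V : Z → ℝ) : Finset Z := by
  classical exact S.filter (fun z => 0 < V z)

/-- one level -/
noncomputable def lv (S : Finset Z) (V : Z → ℝ) (k : ℤ) : Finset Z := by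
  classical exact (pos S V).filter (fun z => Int.log 2 (V z) = k)

lemma mem_pos {z : Z} : z ∈ pos S V ↔ z ∈ S ∧ 0 < V z := by
  unfold pos; rw [Finset.mem_filter]

lemma mem_lv {z : Z} {k : ℤ} : z ∈ lv S V k ↔ z ∈ S ∧ 0 < V z ∧ Int.log 2 (V z) = k := by
  unfold lv; rw [Finset.mem_filter, mem_pos, and_assoc]


lemma lv_low {z : Z} {k : ℤ} (hz : z ∈ lv S V k) : (2 : ℝ) ^ k ≤ V z := by
  obtain ⟨_, h, rfl⟩ := mem_lv.1 hz
  have := Int.zpow_log_le_self (b := 2) (r := V z) (by norm_num) h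
  exact_mod_cast this

lemma lv_up {z : Z} {k : ℤ} (hz : z ∈ lv S V k) : V z < (2 : ℝ) ^ (k + 1) := by
  obtain ⟨_, _, rfl⟩ := mem_lv.1 hz
  have := Int.lt_zpow_succ_log_self (b := 2) (by norm_num) (V z)
  exact_mod_cast this

/-- level mass -/
noncomputable def mk (S : Finset Z) (n V : Z → ℝ) (L : ℝ) (k : ℤ) : ℝ :=
  L * ∑ z ∈ lv S V k, n z * V z








end core

end Crest.Agent.R4C.MXx946
end

-- ▼ part R4C/AsmLev_946

/-!
# Assembly with level sets (BLOCK S3 v1.2, note 3174; 52's 3113), helper946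

* `SetBd M R E` : `Σ_{z ∈ S, z' ∈ S', R z z'} gcd ν ν ≤ E (ν S ν S')^(1/2)` for all sets `S, S'`
  of divisors of `M`; closed under unions (`or`, `exists_mem`), `diag` (constant 1),
  `of_quad` (from a quadratic bound with constant `C`, constant `4 C`), `pureC` (constant 16),
  `pureFL` (constant 16)
* `asm_levels` : general level functions, kernel `A i Ψ(k,k') (w k w' k')^(1/2)`
* `schur_a`, `schur_b` : the two Schur forms
* `mxA` : MX(A), light members, one theorem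
-/

set_option autoImplicit false

namespace Crest.Agent.R4C.AsmLevx946

open Finset Crest.Agent.R4C.Basex935 Crest.Agent.R4C.Asmx946

open Classical in
/-- bilinear bound for sets -/
def SetBd (M : ℕ) (R : ℕ → ℕ → Prop) (E : ℝ) : Prop :=
  ∀ S S' : Finset ℕ, S ⊆ M.divisors → S' ⊆ M.divisors →
    ∑ z ∈ S, ∑ z' ∈ S', (if R z z' then (Nat.gcd z z' : ℝ) * nu M z * nu M z' else 0) ≤
      E * √((∑ z ∈ S, nu M z) * ∑ z ∈ S', nu M z)

lemma term_nonneg (M z z' : ℕ) : 0 ≤ (Nat.gcd z z' : ℝ) * nu M z * nu M z' :=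
  mul_nonneg (mul_nonneg (Nat.cast_nonneg _) (nu_nonneg _ _)) (nu_nonneg _ _)

lemma sum_nu_nonneg (M : ℕ) (S : Finset ℕ) : 0 ≤ ∑ z ∈ S, nu M z :=
  Finset.sum_nonneg fun z _ => nu_nonneg M z

namespace SetBd

variable {M : ℕ} {R R' : ℕ → ℕ → Prop} {E E' : ℝ}

lemma mono (h : SetBd M R E) (hR : ∀ z z', z ∣ M → z' ∣ M → R' z z' → R z z') (hE : E ≤ E') :
    SetBd M R' E' := by
  classical
  intro S S' hS hS'
  refine le_trans ?_ ((h S S' hS hS').trans (mul_le_mul_of_nonneg_right hE (Real.sqrt_nonneg _)))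
  refine Finset.sum_le_sum fun z hz => Finset.sum_le_sum fun z' hz' => ?_
  have h1 := (Nat.mem_divisors.1 (hS hz)).1
  have h2 := (Nat.mem_divisors.1 (hS' hz')).1
  by_cases h3 : R' z z'
  · rw [if_pos h3, if_pos (hR z z' h1 h2 h3)]
  · rw [if_neg h3]
    split_ifs
    · exact term_nonneg M z z'
    · exact le_rfl

lemma or (h : SetBd M R E) (h' : SetBd M R' E') :
    SetBd M (fun z z' => R z z' ∨ R' z z') (E + E') := by
  classical
  intro S S' hS hS'
  rw [add_mul]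
  refine le_trans ?_ (add_le_add (h S S' hS hS') (h' S S' hS hS'))
  rw [← Finset.sum_add_distrib]
  refine Finset.sum_le_sum fun z hz => ?_
  rw [← Finset.sum_add_distrib]
  refine Finset.sum_le_sum fun z' hz' => ?_
  have h0 := term_nonneg M z z'
  by_cases h1 : R z z' <;> by_cases h2 : R' z z' <;> (simp [h1, h2]; try linarith)

lemma exists_mem {τ : Type*} {T : Finset τ} {N : τ → ℕ → ℕ → Prop} {ε : τ → ℝ}
    (h : ∀ t ∈ T, SetBd M (N t) (ε t)) :
    SetBd M (fun z z' => ∃ t ∈ T, N t z z') (∑ t ∈ T, ε t) := by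
  classical
  intro S S' hS hS'
  rw [Finset.sum_mul]
  refine le_trans ?_ (Finset.sum_le_sum fun t ht => h t ht S S' hS hS')
  have e : ∑ t ∈ T, ∑ z ∈ S, ∑ z' ∈ S',
      (if N t z z' then (Nat.gcd z z' : ℝ) * nu M z * nu M z' else 0) =
      ∑ z ∈ S, ∑ z' ∈ S', ∑ t ∈ T,
        (if N t z z' then (Nat.gcd z z' : ℝ) * nu M z * nu M z' else 0) := by
    rw [Finset.sum_comm]
    exact Finset.sum_congr rfl fun z _ => Finset.sum_comm
  rw [e]
  refine Finset.sum_le_sum fun z hz => Finset.sum_le_sum fun z' hz' => ?_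
  have h0 := term_nonneg M z z'
  have hs : ∀ t ∈ T, 0 ≤ (if N t z z' then (Nat.gcd z z' : ℝ) * nu M z * nu M z' else 0) := by
    intro t _
    split_ifs
    · exact h0
    · exact le_rfl
  split_ifs with h1
  · obtain ⟨t, ht, h2⟩ := h1
    have h3 := Finset.single_le_sum hs ht
    rwa [if_pos h2] at h3
  · exact Finset.sum_nonneg hs

lemma diag (M : ℕ) : SetBd M (fun z z' => z = z') 1 := by
  classical
  intro S S' hS hS'
  have h1 : ∑ z ∈ S, ∑ z' ∈ S', (if z = z' then (Nat.gcd z z' : ℝ) * nu M z * nu M z' else 0) ≤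
      ∑ z ∈ S ∩ S', nu M z := by
    rw [← Finset.sum_filter_add_sum_filter_not S (fun z => z ∈ S')]
    have e1 : S.filter (fun z => z ∈ S') = S ∩ S' := by
      ext z; simp
    rw [e1]
    have e2 : ∑ z ∈ S with ¬ z ∈ S', ∑ z' ∈ S',
        (if z = z' then (Nat.gcd z z' : ℝ) * nu M z * nu M z' else 0) = 0 := by
      refine Finset.sum_eq_zero fun z hz => Finset.sum_eq_zero fun z' hz' => ?_
      rw [Finset.mem_filter] at hz
      rw [if_neg (fun h : z = z' => hz.2 (by rw [h]; exact hz'))]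
    rw [e2, add_zero]
    refine Finset.sum_le_sum fun z hz => ?_
    rw [Finset.mem_inter] at hz
    rw [Finset.sum_ite_eq, if_pos hz.2, Nat.gcd_self]
    have h3 := PureL2x232.V_le (Nat.mem_divisors.1 (hS hz.1)).1
    calc (z : ℝ) * nu M z * nu M z ≤ 1 * nu M z := mul_le_mul_of_nonneg_right h3 (nu_nonneg _ _)
      _ = nu M z := one_mul _
  have h2 : ∑ z ∈ S ∩ S', nu M z ≤ ∑ z ∈ S, nu M z :=
    Finset.sum_le_sum_of_subset_of_nonneg Finset.inter_subset_left fun z _ _ => nu_nonneg _ _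
  have h3 : ∑ z ∈ S ∩ S', nu M z ≤ ∑ z ∈ S', nu M z :=
    Finset.sum_le_sum_of_subset_of_nonneg Finset.inter_subset_right fun z _ _ => nu_nonneg _ _
  rw [one_mul]
  refine le_trans (le_of_eq ?_) (h1.trans (Real.le_sqrt_of_sq_le ?_))
  · refine Finset.sum_congr rfl fun z _ => Finset.sum_congr rfl fun z' _ => ?_
    by_cases h5 : z = z' <;> simp [h5]
  rw [sq]
  exact mul_le_mul h2 h3 (sum_nu_nonneg _ _) (sum_nu_nonneg _ _)






end SetBd


/-! ### General level functions -/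

section levels

variable {κ κ' : Type*} [DecidableEq κ] [DecidableEq κ'] {M0 M1 : ℕ} {Φ : ℕ → ℕ → ℝ}
  {R : ℕ → ℕ → ℕ → Prop} {E : ℝ} {lev : ℕ → ℕ → κ} {lev' : ℕ → ℕ → κ'} {Lv : Finset κ}
  {Lv' : Finset κ'} {A : ℕ → ℝ} {w : κ → ℝ} {w' : κ' → ℝ} {Ψ : κ → κ' → ℝ}

/-- mass of a level -/
noncomputable def mm (M1 : ℕ) (lev : ℕ → ℕ → κ) (A : ℕ → ℝ) (w : κ → ℝ) (i : ℕ) (k : κ) : ℝ :=
  A i * w k * ∑ z ∈ M1.divisors with lev i z = k, nu M1 z

lemma mm_nonneg (hA : ∀ i, 0 ≤ A i) (hw : ∀ k, 0 ≤ w k) (i : ℕ) (k : κ) :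
    0 ≤ mm M1 lev A w i k :=
  mul_nonneg (mul_nonneg (hA i) (hw k)) (sum_nu_nonneg _ _)



omit [DecidableEq κ] [DecidableEq κ'] in
/-- Schur test, masses summable over `i` at every level -/
theorem schur_b {ι : Type*} (I : Finset ι) (Lv : Finset κ) (Lv' : Finset κ')
    {Ψ : κ → κ' → ℝ} (hΨ : ∀ k k', 0 ≤ Ψ k k')
    {m : ι → κ → ℝ} {m' : ι → κ' → ℝ} (hm : ∀ i k, 0 ≤ m i k)
    (hm' : ∀ i k, 0 ≤ m' i k) {Q Q' : ℝ} (hQ : ∀ k ∈ Lv, ∑ i ∈ I, m i k ≤ Q)
    (hQ' : ∀ k ∈ Lv', ∑ i ∈ I, m' i k ≤ Q') :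
    ∑ i ∈ I, ∑ k ∈ Lv, ∑ k' ∈ Lv', Ψ k k' * √(m i k * m' i k') ≤
      (∑ k ∈ Lv, ∑ k' ∈ Lv', Ψ k k') * √(Q * Q') := by
  classical
  have e0 : ∑ i ∈ I, ∑ k ∈ Lv, ∑ k' ∈ Lv', Ψ k k' * √(m i k * m' i k') =
      ∑ k ∈ Lv, ∑ k' ∈ Lv', Ψ k k' * ∑ i ∈ I, √(m i k * m' i k') := by
    rw [Finset.sum_comm]
    refine Finset.sum_congr rfl fun k _ => ?_
    rw [Finset.sum_comm]
    refine Finset.sum_congr rfl fun k' _ => ?_
    rw [Finset.mul_sum]
  rw [e0, Finset.sum_mul]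
  refine Finset.sum_le_sum fun k hk => ?_
  rw [Finset.sum_mul]
  refine Finset.sum_le_sum fun k' hk' => ?_
  refine mul_le_mul_of_nonneg_left ?_ (hΨ k k')
  have h3 := Finset.sum_sq_le_sum_mul_sum_of_sq_le_mul I
    (r := fun i => √(m i k * m' i k')) (f := fun i => m i k) (g := fun i => m' i k')
    (fun i _ => hm i k) (fun i _ => hm' i k')
    (fun i _ => by rw [Real.sq_sqrt (mul_nonneg (hm i k) (hm' i k'))])
  have hQ0 : 0 ≤ Q := (Finset.sum_nonneg fun i _ => hm i k).trans (hQ k hk)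
  exact Real.le_sqrt_of_sq_le (h3.trans (mul_le_mul (hQ k hk) (hQ' k' hk')
    (Finset.sum_nonneg fun i _ => hm' i k') hQ0))

end levels

/-! ### MX(A) -/


end Crest.Agent.R4C.AsmLevx946
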