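import Crest.Agent.R4C.HVWt_19

/-!
# Dyadic / level-set summation toolkit (helper281; leaf 459 of row 4)

Pure real analysis (`Finset` sums, explicit constants; `gC a = 1 / (1 - 2^(-a))`):

* `sum_le_left`, `sum_le_right` : one-sided geometric sums over scales `2^k`, `k : ℤ`.
* `sum_min_le` : `S k ≤ a 2^(kα)`, `S k ≤ b 2^(-kβ)` ⟹ `∑ S k ≤ (gC α + gC β) a^(β/(α+β)) b^(α/(α+β))`.
* `sum_scale_min_le` : `∑ 2^(kη) min u (v 2^(-kθ)) ≤ C u^(1-η/θ) v^(η/θ)`.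
* `schur` (Schur test), `cauchy_dyadic` : `∑ a_i b_j 2^(-ε|i-j|) ≤ 2 gC ε (∑ a²)^(1/2) (∑ b²)^(1/2)`.
* `sum_dyadic_nat`, `sum_dyadic_real` : splitting of a sum into dyadic classes.
* `level_le` : `f ≤ ∑ 2^(-i) 1[2^(-i-1) < f ≤ 2^(-i)]`; `level_mass` : the masses of the levels.

Energies of `Base_935`:

* `En M X F` (exact scale), `Wt M θ F = ∑ gcd^θ ν ν F`.
* `Wt_le` : `Wt M (1-η) F ≤ ∑_k 2^(-kη) En M (2^k) F`;
  `Wt_interp` : from `En ≤ A₁ X^(η₁)`, `En ≤ A₂ X^(η₂)`, `η₁ < η < η₂` to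
  `Wt M (1-η) F ≤ C A₁^((η₂-η)/(η₂-η₁)) A₂^((η-η₁)/(η₂-η₁))`.
* `wt_hvw`    : `∑ gcd^(1-η) ν ν f f' ≤ C (ν f)^((1+η)/2) (ν f')^((1+η)/2)`, `0 < η < 1`.
* `hvw_below` : `∑_{gcd < X} gcd ν ν f f' ≤ C X^η (..)`; `hvw_above` : `∑_{gcd ≥ X} gcd^(1-θ) ..
  ≤ C X^(-(θ-η)) (..)`, `θ > η`.
* `hvw_lp`    : `En` with `(∑ ν f^p)^κ`, any `p` with `p κ < 1`.
-/

set_option autoImplicit false

open Finset

namespace Crest.Agent.R4C.Dyadx281

open Crest.Agent.R4C.Basex935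

/-! ### geometric sums -/

/-- the geometric constant `1 / (1 - 2^(-a))` -/
noncomputable def gC (a : ℝ) : ℝ := 1 / (1 - (2 : ℝ) ^ (-a))

lemma two_neg_lt_one {a : ℝ} (ha : 0 < a) : (2 : ℝ) ^ (-a) < 1 :=
  Real.rpow_lt_one_of_one_lt_of_neg (by norm_num) (by linarith)

lemma gC_pos {a : ℝ} (ha : 0 < a) : 0 < gC a := by
  have := two_neg_lt_one ha
  unfold gC
  exact one_div_pos.2 (by linarith)


lemma geom_range {a : ℝ} (ha : 0 < a) (n : ℕ) :
    ∑ k ∈ range n, (2 : ℝ) ^ (-(a * k)) ≤ gC a := by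
  have h := two_neg_lt_one ha
  have h0 : (0 : ℝ) < (2 : ℝ) ^ (-a) := Real.rpow_pos_of_pos (by norm_num) _
  have e : ∀ k : ℕ, (2 : ℝ) ^ (-(a * k)) = ((2 : ℝ) ^ (-a)) ^ k := by
    intro k
    rw [← Real.rpow_natCast, ← Real.rpow_mul (by norm_num)]
    congr 1
    ring
  rw [Finset.sum_congr rfl fun k _ => e k]
  have := geom_sum_eq (x := (2 : ℝ) ^ (-a)) h.ne n
  rw [this]
  unfold gC
  have e2 : (((2 : ℝ) ^ (-a)) ^ n - 1) / ((2 : ℝ) ^ (-a) - 1) =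
      (1 - ((2 : ℝ) ^ (-a)) ^ n) / (1 - (2 : ℝ) ^ (-a)) := by
    rw [← neg_div_neg_eq]
    congr 1 <;> ring
  rw [e2]
  exact div_le_div_of_nonneg_right (by linarith [pow_pos h0 n]) (by linarith)

lemma geom_finset {a : ℝ} (ha : 0 < a) (s : Finset ℕ) :
    ∑ k ∈ s, (2 : ℝ) ^ (-(a * k)) ≤ gC a := by
  obtain ⟨n, hn⟩ : ∃ n, s ⊆ range n := by
    refine ⟨s.sup id + 1, fun k hk => ?_⟩
    rw [Finset.mem_range]
    have : k ≤ s.sup id := Finset.le_sup (f := id) hk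
    omega
  exact (Finset.sum_le_sum_of_subset_of_nonneg hn fun k _ _ =>
    (Real.rpow_pos_of_pos (by norm_num) _).le).trans (geom_range ha n)

/-- scales below `x₀` -/
lemma sum_below {a : ℝ} (ha : 0 < a) (s : Finset ℤ) (x0 : ℝ) (h : ∀ k ∈ s, (k : ℝ) ≤ x0) :
    ∑ k ∈ s, (2 : ℝ) ^ (a * (k - x0)) ≤ gC a := by
  classical
  have hfl : ∀ k ∈ s, k ≤ ⌊x0⌋ := fun k hk => Int.le_floor.2 (h k hk)
  calc ∑ k ∈ s, (2 : ℝ) ^ (a * (k - x0))
      ≤ ∑ k ∈ s, (2 : ℝ) ^ (-(a * ((⌊x0⌋ - k).toNat : ℕ))) := by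
        refine Finset.sum_le_sum fun k hk => ?_
        refine Real.rpow_le_rpow_of_exponent_le (by norm_num) ?_
        have h1 : (((⌊x0⌋ - k).toNat : ℕ) : ℝ) = (⌊x0⌋ : ℝ) - k := by
          have h2 : (((⌊x0⌋ - k).toNat : ℕ) : ℤ) = ⌊x0⌋ - k :=
            Int.toNat_of_nonneg (by linarith [hfl k hk])
          have h3 : ((((⌊x0⌋ - k).toNat : ℕ) : ℤ) : ℝ) = ((⌊x0⌋ - k : ℤ) : ℝ) := by rw [h2]
          push_cast at h3
          simpa using h3
        rw [h1]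
        nlinarith [Int.floor_le x0]
    _ = ∑ j ∈ s.image (fun k => (⌊x0⌋ - k).toNat), (2 : ℝ) ^ (-(a * (j : ℕ))) := by
        rw [Finset.sum_image]
        intro k hk k' hk' he
        simp only at he
        have e1 : (((⌊x0⌋ - k).toNat : ℕ) : ℤ) = ⌊x0⌋ - k :=
          Int.toNat_of_nonneg (by linarith [hfl k hk])
        have e2 : (((⌊x0⌋ - k').toNat : ℕ) : ℤ) = ⌊x0⌋ - k' :=
          Int.toNat_of_nonneg (by linarith [hfl k' hk'])
        rw [he] at e1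
        linarith
    _ ≤ gC a := geom_finset ha _

/-- scales above `x₀` -/
lemma sum_above {a : ℝ} (ha : 0 < a) (s : Finset ℤ) (x0 : ℝ) (h : ∀ k ∈ s, x0 ≤ (k : ℝ)) :
    ∑ k ∈ s, (2 : ℝ) ^ (-(a * (k - x0))) ≤ gC a := by
  classical
  have := sum_below ha (s.image fun k => -k) (-x0) (by
    intro k hk
    rw [Finset.mem_image] at hk
    obtain ⟨j, hj, rfl⟩ := hk
    push_cast
    linarith [h j hj])
  rw [Finset.sum_image (by intro x _ y _ hxy; simpa using hxy)] at this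
  refine le_trans (le_of_eq ?_) this
  refine Finset.sum_congr rfl fun k _ => ?_
  congr 1
  push_cast
  ring

/-- one-sided sum: all scales `≤ x₀`, increasing bound -/
lemma sum_le_left {a A x0 : ℝ} (ha : 0 < a) (hA : 0 ≤ A) (s : Finset ℤ)
    (h : ∀ k ∈ s, (k : ℝ) ≤ x0) (S : ℤ → ℝ) (hS : ∀ k ∈ s, S k ≤ A * (2 : ℝ) ^ (a * k)) :
    ∑ k ∈ s, S k ≤ gC a * (A * (2 : ℝ) ^ (a * x0)) := by
  calc ∑ k ∈ s, S k ≤ ∑ k ∈ s, (A * (2 : ℝ) ^ (a * x0)) * (2 : ℝ) ^ (a * (k - x0)) := by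
        refine Finset.sum_le_sum fun k hk => (hS k hk).trans (le_of_eq ?_)
        rw [mul_assoc, ← Real.rpow_add (by norm_num)]
        congr 2
        ring
    _ = (A * (2 : ℝ) ^ (a * x0)) * ∑ k ∈ s, (2 : ℝ) ^ (a * (k - x0)) := by
        rw [Finset.mul_sum]
    _ ≤ (A * (2 : ℝ) ^ (a * x0)) * gC a := by
        refine mul_le_mul_of_nonneg_left (sum_below ha s x0 h) ?_
        exact mul_nonneg hA (Real.rpow_pos_of_pos (by norm_num) _).le
    _ = _ := by ring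

/-- one-sided sum: all scales `≥ x₀`, decreasing bound -/
lemma sum_le_right {b B x0 : ℝ} (hb : 0 < b) (hB : 0 ≤ B) (s : Finset ℤ)
    (h : ∀ k ∈ s, x0 ≤ (k : ℝ)) (S : ℤ → ℝ) (hS : ∀ k ∈ s, S k ≤ B * (2 : ℝ) ^ (-(b * k))) :
    ∑ k ∈ s, S k ≤ gC b * (B * (2 : ℝ) ^ (-(b * x0))) := by
  calc ∑ k ∈ s, S k ≤ ∑ k ∈ s, (B * (2 : ℝ) ^ (-(b * x0))) * (2 : ℝ) ^ (-(b * (k - x0))) := by
        refine Finset.sum_le_sum fun k hk => (hS k hk).trans (le_of_eq ?_)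
        rw [mul_assoc, ← Real.rpow_add (by norm_num)]
        congr 2
        ring
    _ = (B * (2 : ℝ) ^ (-(b * x0))) * ∑ k ∈ s, (2 : ℝ) ^ (-(b * (k - x0))) := by
        rw [Finset.mul_sum]
    _ ≤ (B * (2 : ℝ) ^ (-(b * x0))) * gC b := by
        refine mul_le_mul_of_nonneg_left (sum_above hb s x0 h) ?_
        exact mul_nonneg hB (Real.rpow_pos_of_pos (by norm_num) _).le
    _ = _ := by ring

lemma cross_value {a b α β : ℝ} (ha : 0 < a) (hb : 0 < b) (hα : 0 < α) (hβ : 0 < β) :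
    a * (2 : ℝ) ^ (α * (Real.logb 2 (b / a) / (α + β))) =
      a ^ (β / (α + β)) * b ^ (α / (α + β)) := by
  have hs : 0 < α + β := by linarith
  have e1 : (2 : ℝ) ^ (α * (Real.logb 2 (b / a) / (α + β))) = (b / a) ^ (α / (α + β)) := by
    have : α * (Real.logb 2 (b / a) / (α + β)) = Real.logb 2 (b / a) * (α / (α + β)) := by
      field_simp
    rw [this, Real.rpow_mul (by norm_num),
      Real.rpow_logb (by norm_num) (by norm_num) (div_pos hb ha)]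
  rw [e1, Real.div_rpow hb.le ha.le]
  have e2 : a ^ (β / (α + β)) = a / a ^ (α / (α + β)) := by
    have : β / (α + β) = 1 - α / (α + β) := by field_simp; ring
    rw [this, Real.rpow_sub ha, Real.rpow_one]
  rw [e2]
  field_simp

lemma cross_value' {a b α β : ℝ} (ha : 0 < a) (hb : 0 < b) (hα : 0 < α) (hβ : 0 < β) :
    b * (2 : ℝ) ^ (-(β * (Real.logb 2 (b / a) / (α + β)))) =
      a ^ (β / (α + β)) * b ^ (α / (α + β)) := by
  have hs : 0 < α + β := by linarith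
  have h := cross_value hb ha hβ hα
  have e : Real.logb 2 (a / b) = -Real.logb 2 (b / a) := by
    rw [← Real.logb_inv, inv_div]
  rw [e] at h
  have e2 : β * (-Real.logb 2 (b / a) / (β + α)) = -(β * (Real.logb 2 (b / a) / (α + β))) := by
    rw [add_comm β α]
    ring
  rw [e2] at h
  rw [h, add_comm β α]
  ring

/-- **two-sided geometric sum**: increasing and decreasing bound at every scale -/
theorem sum_min_le {a b α β : ℝ} (ha : 0 ≤ a) (hb : 0 ≤ b) (hα : 0 < α) (hβ : 0 < β)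
    (s : Finset ℤ) (S : ℤ → ℝ) (h1 : ∀ k ∈ s, S k ≤ a * (2 : ℝ) ^ (α * k))
    (h2 : ∀ k ∈ s, S k ≤ b * (2 : ℝ) ^ (-(β * k))) :
    ∑ k ∈ s, S k ≤ (gC α + gC β) * (a ^ (β / (α + β)) * b ^ (α / (α + β))) := by
  classical
  have hs : 0 < α + β := by linarith
  have hpos : 0 ≤ (gC α + gC β) * (a ^ (β / (α + β)) * b ^ (α / (α + β))) :=
    mul_nonneg (add_nonneg (gC_pos hα).le (gC_pos hβ).le)
      (mul_nonneg (Real.rpow_nonneg ha _) (Real.rpow_nonneg hb _))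
  rcases ha.eq_or_lt with ha0 | ha0
  · refine le_trans (Finset.sum_nonpos fun k hk => ?_) hpos
    have := h1 k hk
    rw [← ha0] at this
    simpa using this
  rcases hb.eq_or_lt with hb0 | hb0
  · refine le_trans (Finset.sum_nonpos fun k hk => ?_) hpos
    have := h2 k hk
    rw [← hb0] at this
    simpa using this
  set x0 : ℝ := Real.logb 2 (b / a) / (α + β) with hx0
  rw [← Finset.sum_filter_add_sum_filter_not s (fun k : ℤ => (k : ℝ) ≤ x0)]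
  have A1 : ∑ k ∈ s.filter (fun k : ℤ => (k : ℝ) ≤ x0), S k ≤ gC α * (a * (2 : ℝ) ^ (α * x0)) :=
    sum_le_left hα ha _ (fun k hk => (Finset.mem_filter.1 hk).2) S
      (fun k hk => h1 k (Finset.mem_filter.1 hk).1)
  have A2 : ∑ k ∈ s.filter (fun k : ℤ => ¬ (k : ℝ) ≤ x0), S k ≤
      gC β * (b * (2 : ℝ) ^ (-(β * x0))) :=
    sum_le_right hβ hb _ (fun k hk => (not_le.1 (Finset.mem_filter.1 hk).2).le) S
      (fun k hk => h2 k (Finset.mem_filter.1 hk).1)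
  rw [cross_value ha0 hb0 hα hβ] at A1
  rw [cross_value' ha0 hb0 hα hβ] at A2
  calc _ ≤ _ := add_le_add A1 A2
    _ = _ := by ring



/-! ### Schur test and Cauchy over dyadic classes -/





/-! ### dyadic classes -/

/-- splitting into the dyadic classes of a natural number -/
theorem sum_dyadic_nat {ι : Type*} (s : Finset ι) (g : ι → ℕ) (F : ι → ℝ) (n : ℕ)
    (hg : ∀ x ∈ s, g x ≠ 0) (hn : ∀ x ∈ s, g x < 2 ^ n) :
    ∑ x ∈ s, F x =
      ∑ k ∈ range n, ∑ x ∈ s, (if 2 ^ k ≤ g x ∧ g x < 2 ^ (k + 1) then F x else 0) := by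
  classical
  rw [Finset.sum_comm]
  refine Finset.sum_congr rfl fun x hx => ?_
  have h0 := hg x hx
  have hl : Nat.log 2 (g x) < n := Nat.log_lt_of_lt_pow h0 (hn x hx)
  rw [Finset.sum_eq_single (Nat.log 2 (g x))]
  · rw [if_pos]
    exact ⟨Nat.pow_log_le_self 2 h0, Nat.lt_pow_succ_log_self (by norm_num) _⟩
  · intro k _ hk
    rw [if_neg]
    rintro ⟨h1, h2⟩
    exact hk (Nat.log_eq_of_pow_le_of_lt_pow h1 h2).symm
  · intro h
    exact absurd (Finset.mem_range.2 hl) h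


/-! ### level sets -/

/-- indicator of the level `2^(-i-1) < y ≤ 2^(-i)` -/
noncomputable def lev (i : ℕ) (y : ℝ) : ℝ :=
  if (2 : ℝ) ^ (-((i : ℝ) + 1)) < y ∧ y ≤ (2 : ℝ) ^ (-(i : ℝ)) then 1 else 0

lemma lev_nonneg (i : ℕ) (y : ℝ) : 0 ≤ lev i y := by
  unfold lev
  split_ifs <;> norm_num

lemma lev_le_one (i : ℕ) (y : ℝ) : lev i y ≤ 1 := by
  unfold lev
  split_ifs <;> norm_num





/-! ### energies -/

/-- energy at the exact scale `[X, 2X)` -/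
noncomputable def En (M : ℕ) (X : ℝ) (F : ℕ → ℕ → ℝ) : ℝ :=
  ∑ b ∈ M.divisors, ∑ c ∈ M.divisors,
    (if X ≤ (Nat.gcd b c : ℝ) ∧ (Nat.gcd b c : ℝ) < 2 * X then
      (Nat.gcd b c : ℝ) * nu M b * nu M c * F b c else 0)

/-- weighted energy `∑ gcd^θ ν ν F` -/
noncomputable def Wt (M : ℕ) (θ : ℝ) (F : ℕ → ℕ → ℝ) : ℝ :=
  ∑ b ∈ M.divisors, ∑ c ∈ M.divisors, (Nat.gcd b c : ℝ) ^ θ * nu M b * nu M c * F b c


/-- splitting of `∑_{b,c|M} G b c` into the dyadic classes of `gcd b c` -/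
lemma sum_gcd_split (M : ℕ) (G : ℕ → ℕ → ℝ) :
    ∑ b ∈ M.divisors, ∑ c ∈ M.divisors, G b c =
      ∑ k ∈ range (M + 1), ∑ b ∈ M.divisors, ∑ c ∈ M.divisors,
        (if (2 : ℝ) ^ k ≤ (Nat.gcd b c : ℝ) ∧ (Nat.gcd b c : ℝ) < 2 * (2 : ℝ) ^ k then G b c
          else 0) := by
  classical
  rw [← Finset.sum_product' M.divisors M.divisors G]
  rw [sum_dyadic_nat (M.divisors ×ˢ M.divisors) (fun x => Nat.gcd x.1 x.2) _ (M + 1)]
  · refine Finset.sum_congr rfl fun k _ => ?_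
    rw [← Finset.sum_product' M.divisors M.divisors
      (fun b c => if (2 : ℝ) ^ k ≤ (Nat.gcd b c : ℝ) ∧ (Nat.gcd b c : ℝ) < 2 * (2 : ℝ) ^ k then
        G b c else 0)]
    refine Finset.sum_congr rfl fun x _ => ?_
    have e : (2 ^ k ≤ Nat.gcd x.1 x.2 ∧ Nat.gcd x.1 x.2 < 2 ^ (k + 1)) ↔
        ((2 : ℝ) ^ k ≤ (Nat.gcd x.1 x.2 : ℝ) ∧ (Nat.gcd x.1 x.2 : ℝ) < 2 * (2 : ℝ) ^ k) := by
      have e1 : (2 : ℝ) * 2 ^ k = ((2 ^ (k + 1) : ℕ) : ℝ) := by push_cast; ring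
      have e2 : (2 : ℝ) ^ k = ((2 ^ k : ℕ) : ℝ) := by push_cast; ring
      rw [e1, e2, Nat.cast_le, Nat.cast_lt]
    simp only [e]
  · intro x hx
    rw [Finset.mem_product] at hx
    exact (Nat.gcd_pos_of_pos_left _ (Nat.pos_of_mem_divisors hx.1)).ne'
  · intro x hx
    rw [Finset.mem_product] at hx
    have h1 : Nat.gcd x.1 x.2 ≤ M :=
      (Nat.gcd_le_left _ (Nat.pos_of_mem_divisors hx.1)).trans (Nat.divisor_le hx.1)
    have h2 : M + 1 < 2 ^ (M + 1) := Nat.lt_two_pow_self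
    omega

/-- weighted energy from the exact scales -/
theorem Wt_le {M : ℕ} {η : ℝ} (hη : 0 ≤ η) {F : ℕ → ℕ → ℝ} (hF : ∀ b c, 0 ≤ F b c) :
    Wt M (1 - η) F ≤ ∑ k ∈ range (M + 1), (2 : ℝ) ^ (-(η * k)) * En M ((2 : ℝ) ^ k) F := by
  unfold Wt En
  rw [sum_gcd_split]
  refine Finset.sum_le_sum fun k _ => ?_
  rw [Finset.mul_sum]
  refine Finset.sum_le_sum fun b _ => ?_
  rw [Finset.mul_sum]
  refine Finset.sum_le_sum fun c _ => ?_
  split_ifs with h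
  · have h2k : (0 : ℝ) < (2 : ℝ) ^ k := by positivity
    have hg : (0 : ℝ) < (Nat.gcd b c : ℝ) := h2k.trans_le h.1
    have e1 : (Nat.gcd b c : ℝ) ^ (1 - η) = (Nat.gcd b c : ℝ) ^ (-η) * (Nat.gcd b c : ℝ) := by
      rw [sub_eq_neg_add, Real.rpow_add hg, Real.rpow_one]
    have e2 : (Nat.gcd b c : ℝ) ^ (-η) ≤ (2 : ℝ) ^ (-(η * k)) := by
      calc (Nat.gcd b c : ℝ) ^ (-η) ≤ ((2 : ℝ) ^ k) ^ (-η) :=
            Real.rpow_le_rpow_of_nonpos h2k h.1 (by linarith)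
        _ = _ := by
            rw [← Real.rpow_natCast, ← Real.rpow_mul (by norm_num)]
            congr 1
            ring
    have h3 : 0 ≤ (Nat.gcd b c : ℝ) * nu M b * nu M c * F b c :=
      mul_nonneg (mul_nonneg (mul_nonneg (Nat.cast_nonneg _) (nu_nonneg _ _))
        (nu_nonneg _ _)) (hF b c)
    calc (Nat.gcd b c : ℝ) ^ (1 - η) * nu M b * nu M c * F b c =
        (Nat.gcd b c : ℝ) ^ (-η) * ((Nat.gcd b c : ℝ) * nu M b * nu M c * F b c) := by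
          rw [e1]; ring
      _ ≤ _ := mul_le_mul_of_nonneg_right e2 h3
  · simp


/-! ### consequences of HVW -/

lemma mass_nonneg {M : ℕ} {f : ℕ → ℝ} (hf : ∀ x, 0 ≤ f x) :
    0 ≤ ∑ b ∈ M.divisors, nu M b * f b :=
  Finset.sum_nonneg fun b _ => mul_nonneg (nu_nonneg _ _) (hf b)

lemma hvw_En {κ : ℝ} (hκ : 1 / 2 < κ) (hκ1 : κ < 1) :
    ∃ C : ℝ, 0 < C ∧ ∀ (M : ℕ) (X : ℝ) (f f' : ℕ → ℝ), M ≠ 0 → 0 < X →
      (∀ x, 0 ≤ f x) → (∀ x, f x ≤ 1) → (∀ x, 0 ≤ f' x) → (∀ x, f' x ≤ 1) →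
      En M X (fun b c => f b * f' c) ≤ C * X ^ (2 * κ - 1) *
          ((∑ b ∈ M.divisors, nu M b * f b) ^ κ * (∑ b ∈ M.divisors, nu M b * f' b) ^ κ) :=
  Crest.Agent.R4C.ThmRx19.hvw_b hκ hκ1


/-- all scales below `X` -/
theorem hvw_below {κ : ℝ} (hκ : 1 / 2 < κ) (hκ1 : κ < 1) :
    ∃ C : ℝ, 0 < C ∧ ∀ (M : ℕ) (X : ℝ) (f f' : ℕ → ℝ), M ≠ 0 → 0 < X →
      (∀ x, 0 ≤ f x) → (∀ x, f x ≤ 1) → (∀ x, 0 ≤ f' x) → (∀ x, f' x ≤ 1) →
      ∑ b ∈ M.divisors, ∑ c ∈ M.divisors,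
        (if (Nat.gcd b c : ℝ) < X then
          (Nat.gcd b c : ℝ) * nu M b * nu M c * (f b * f' c) else 0) ≤ C * X ^ (2 * κ - 1) *
          ((∑ b ∈ M.divisors, nu M b * f b) ^ κ * (∑ b ∈ M.divisors, nu M b * f' b) ^ κ) := by
  obtain ⟨C1, hC1, H1⟩ := hvw_En hκ hκ1
  have hη : 0 < 2 * κ - 1 := by linarith
  refine ⟨gC (2 * κ - 1) * C1, mul_pos (gC_pos hη) hC1, ?_⟩
  intro M X f f' hM hX h1 h2 h3 h4
  set A : ℝ := (∑ b ∈ M.divisors, nu M b * f b) ^ κ * (∑ b ∈ M.divisors, nu M b * f' b) ^ κ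
    with hA
  have hA0 : 0 ≤ A := mul_nonneg (Real.rpow_nonneg (mass_nonneg h1) _)
    (Real.rpow_nonneg (mass_nonneg h3) _)
  have hF : ∀ b c, 0 ≤ f b * f' c := fun b c => mul_nonneg (h1 b) (h3 c)
  classical
  set T : Finset ℕ := (range (M + 1)).filter (fun k => (2 : ℝ) ^ k < X) with hT
  rw [sum_gcd_split]
  calc _ ≤ ∑ k ∈ T, En M ((2 : ℝ) ^ k) (fun b c => f b * f' c) := by
        rw [hT, Finset.sum_filter]
        refine Finset.sum_le_sum fun k _ => ?_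
        split_ifs with hk
        · unfold En
          refine Finset.sum_le_sum fun b _ => Finset.sum_le_sum fun c _ => ?_
          split_ifs
          · exact le_rfl
          · exact mul_nonneg (mul_nonneg (mul_nonneg (Nat.cast_nonneg _) (nu_nonneg _ _))
              (nu_nonneg _ _)) (hF b c)
          · exact le_rfl
        · refine Finset.sum_nonpos fun b _ => Finset.sum_nonpos fun c _ => ?_
          split_ifs with h5 h6
          · exact absurd (h5.1.trans_lt h6) hk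
          · exact le_rfl
          · exact le_rfl
    _ = ∑ k ∈ T.map Nat.castEmbedding,
        En M ((2 : ℝ) ^ (k : ℤ).toNat) (fun b c => f b * f' c) := by
        rw [Finset.sum_map]
        simp
    _ ≤ gC (2 * κ - 1) * ((C1 * A) * (2 : ℝ) ^ ((2 * κ - 1) * Real.logb 2 X)) := by
        refine sum_le_left hη (mul_nonneg hC1.le hA0) _ ?_ _ ?_
        · intro k hk
          rw [Finset.mem_map] at hk
          obtain ⟨j, hj, rfl⟩ := hk
          have hj2 := (Finset.mem_filter.1 hj).2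
          rw [Real.le_logb_iff_rpow_le (by norm_num) hX]
          simp only [Nat.castEmbedding_apply, Int.cast_natCast, Real.rpow_natCast]
          exact hj2.le
        · intro k hk
          rw [Finset.mem_map] at hk
          obtain ⟨j, hj, rfl⟩ := hk
          simp only [Nat.castEmbedding_apply, Int.toNat_natCast, Int.cast_natCast]
          have := H1 M ((2 : ℝ) ^ j) f f' hM (by positivity) h1 h2 h3 h4
          refine this.trans (le_of_eq ?_)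
          rw [← hA, ← Real.rpow_natCast, ← Real.rpow_mul (by norm_num), mul_comm (j : ℝ)]
          ring
    _ = gC (2 * κ - 1) * C1 * X ^ (2 * κ - 1) * A := by
        rw [mul_comm (2 * κ - 1) (Real.logb 2 X), Real.rpow_mul (by norm_num),
          Real.rpow_logb (by norm_num) (by norm_num) hX]
        ring



end Crest.Agent.R4C.Dyadx281
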