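import Mathlib
import Crest.Agent.R4C.ThmR_19
import Crest.Agent.R4C.Base_935

-- ▼ part R4C/ThmRb_19
section

/-!
# Row 4: THEOREM (R) (note 2326), leaf form (helper19)

`natural rarity in every assignment model => energy gain`.
-/

set_option autoImplicit false
set_option linter.unusedVariables false

namespace Crest.Agent.R4C.ThmRx19

open Finset Real Crest.Agent.R4C.OnePx19
open scoped Classical

/-- factor of a path: gain `g p` at the active primes with equal exponents, `p^(-δ|i-j|)` at the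
others. -/
noncomputable def FF (δ : ℝ) (g : ℕ → ℝ) (Ma h h' : ℕ) : ℝ :=
  ∏ p ∈ Ma.primeFactors, (if h.factorization p = h'.factorization p then g p
    else (p:ℝ) ^ (-(δ * dst (h.factorization p) (h'.factorization p))))

lemma FF_mul {δ : ℝ} {g : ℕ → ℝ} {Ma h h' p A i j : ℕ} (hp : p.Prime) (hA : A ≠ 0)
    (hMa0 : Ma ≠ 0) (hMa : ¬ p ∣ Ma) (hh : h ∣ Ma) (hh' : h' ∣ Ma) :
    FF δ g (p ^ A * Ma) (p ^ i * h) (p ^ j * h') =
      (if i = j then g p else (p : ℝ) ^ (-(δ * dst i j))) * FF δ g Ma h h' := by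
  have hph : ¬ p ∣ h := fun h1 => hMa (h1.trans hh)
  have hph' : ¬ p ∣ h' := fun h1 => hMa (h1.trans hh')
  have hpn : p ∉ Ma.primeFactors := fun h1 => hMa (Nat.dvd_of_mem_primeFactors h1)
  unfold FF
  have e : (p ^ A * Ma).primeFactors = insert p Ma.primeFactors := by
    rw [Nat.primeFactors_mul (pow_ne_zero _ hp.ne_zero) hMa0, Nat.primeFactors_prime_pow hA hp]
    rfl
  rw [e, Finset.prod_insert hpn, fact_pp_self hp hph, fact_pp_self hp hph']
  congr 1
  refine Finset.prod_congr rfl fun r hr => ?_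
  have hrp : r ≠ p := by rintro rfl; exact hpn hr
  rw [fact_pp hp hph hrp, fact_pp hp hph' hrp]

lemma FF_one (δ : ℝ) (g : ℕ → ℝ) (h h' : ℕ) : FF δ g 1 h h' = 1 := by
  simp [FF]

/-- leaf hypothesis ⟹ `Good` -/
theorem Good_of_leaf {κ δ V0 : ℝ} {g : ℕ → ℝ} {T : ℕ} {K : ℕ → ℕ → ℝ}
    (hleaf : ∀ Ma Mz G h h' : ℕ, Ma * Mz = T → Nat.Coprime Ma Mz → h ∣ Ma → h' ∣ Ma → G ∣ Mz →
      ∃ ρ : ℝ, 0 ≤ ρ ∧ Rho Mz G (fun u v => K (h * u) (h' * v)) ρ ∧
        FF δ g Ma h h' * ρ ^ (1 - κ) ≤ V0) :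
    ∀ (ps : List (ℕ × ℕ)) (Mz G Ma h h' : ℕ), Ok ps Mz → G ∣ Mz → Ma ≠ 0 →
      Ma * tot ps Mz = T → Nat.Coprime Ma (tot ps Mz) → h ∣ Ma → h' ∣ Ma →
      Good κ δ V0 g ps Mz G (fun u v => K (h * u) (h' * v)) (FF δ g Ma h h') := by
  intro ps
  induction ps with
  | nil =>
    intro Mz G Ma h h' hok hG hMa hT hc hh hh'
    rw [tot_nil] at hT hc
    exact hleaf Ma Mz G h h' hT hc hh hh' hG
  | cons x ps ih =>
    obtain ⟨p, A⟩ := x
    intro Mz G Ma h h' hok hG hMa hT hc hh hh'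
    obtain ⟨hp, hA, hpM⟩ := hok.2.2 (p, A) List.mem_cons_self
    simp only at hp hA hpM
    have hT1 : ¬ p ∣ tot ps Mz :=
      not_dvd_tot hp ps Mz (fun y hy => (hok.tail.2.2 y hy).1) hok.head_notMem hpM
    rw [tot_cons] at hT hc
    simp only at hT hc
    have hpMa : ¬ p ∣ Ma := by
      intro h1
      have h2 : p ∣ p ^ A * tot ps Mz := (dvd_pow_self p hA).mul_right _
      have := Nat.dvd_gcd h1 h2
      rw [hc] at this
      exact hp.one_lt.ne' (Nat.dvd_one.1 this)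
    have hstep : ∀ i ≤ A, ∀ j ≤ A, Good κ δ V0 g ps Mz G
        (fun u v => K (h * (p ^ i * u)) (h' * (p ^ j * v)))
        ((if i = j then g p else (p : ℝ) ^ (-(δ * dst i j))) * FF δ g Ma h h') := by
      intro i hi j hj
      have hcop : Nat.Coprime (p ^ A * Ma) (tot ps Mz) := by
        apply Nat.Coprime.mul_left
        · exact Nat.Coprime.pow_left _ ((Nat.Prime.coprime_iff_not_dvd hp).2 hT1)
        · exact Nat.Coprime.coprime_mul_left_right hc
      have := ih Mz G (p ^ A * Ma) (p ^ i * h) (p ^ j * h') hok.tail hG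
        (mul_ne_zero (pow_ne_zero _ hp.ne_zero) hMa) (by rw [← hT]; ring) hcop
        (Nat.mul_dvd_mul (pow_dvd_pow p hi) hh) (Nat.mul_dvd_mul (pow_dvd_pow p hj) hh')
      rw [FF_mul hp hA hMa hpMa hh hh'] at this
      have e : (fun u v => K (h * (p ^ i * u)) (h' * (p ^ j * v))) =
          (fun u v => K (p ^ i * h * u) (p ^ j * h' * v)) := by
        funext u v
        congr 1 <;> ring
      rw [e]
      exact this
    refine ⟨?_, ?_, ?_⟩
    · intro i0 hi0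
      exact ih (p ^ A * Mz) (p ^ i0 * G) Ma h h' hok.mul
        (Nat.mul_dvd_mul (pow_dvd_pow p hi0) hG) hMa (by rw [tot_mul]; exact hT)
        (by rw [tot_mul]; exact hc) hh hh'
    · intro i hi
      have := hstep i hi i hi
      rw [if_pos rfl, mul_comm] at this
      exact this
    · intro i hi j hj hij
      have := hstep i hi j hj
      rw [if_neg hij, mul_comm] at this
      exact this

/-- the list of prime powers of `T` -/
noncomputable def pl (T : ℕ) : List (ℕ × ℕ) := T.primeFactors.toList.map fun p => (p, T.factorization p)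

lemma pl_fst (T : ℕ) : (pl T).map Prod.fst = T.primeFactors.toList := by
  unfold pl
  rw [List.map_map]
  exact List.map_id'' (fun _ => rfl) _

lemma tot_pl {T : ℕ} (hT : T ≠ 0) : tot (pl T) 1 = T := by
  unfold tot pl
  rw [List.map_map, mul_one]
  have : (List.map ((fun x : ℕ × ℕ => x.1 ^ x.2) ∘ fun p => (p, T.factorization p))
      T.primeFactors.toList).prod = ∏ p ∈ T.primeFactors, p ^ T.factorization p := by
    rw [Finset.prod_eq_multiset_prod, ← Finset.coe_toList T.primeFactors]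
    rfl
  rw [this]
  exact Nat.prod_factorization_pow_eq_self hT

lemma Ok_pl {T : ℕ} (hT : T ≠ 0) : Ok (pl T) 1 := by
  refine ⟨one_ne_zero, ?_, ?_⟩
  · rw [pl_fst]; exact Finset.nodup_toList _
  · intro x hx
    unfold pl at hx
    obtain ⟨p, hp, rfl⟩ := List.mem_map.1 hx
    rw [Finset.mem_toList] at hp
    have hpp := Nat.prime_of_mem_primeFactors hp
    refine ⟨hpp, ?_, ?_⟩
    · exact (hpp.factorization_pos_of_dvd hT (Nat.dvd_of_mem_primeFactors hp)).ne'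
    · intro h
      exact hpp.one_lt.ne' (Nat.dvd_one.1 h)

lemma lvl_one (q q' : ℕ) : lvl 1 1 q q' := by
  intro p hp; simp at hp

/-- the energy without passive primes is the plain energy -/
lemma SS_one (T : ℕ) (N : ℝ) (f f' : ℕ → ℝ) (K : ℕ → ℕ → ℝ) :
    SS T 1 1 N f f' K = ∑ q ∈ T.divisors, ∑ q' ∈ T.divisors,
      if N ≤ (Nat.lcm q q' : ℝ) ∧ (Nat.lcm q q' : ℝ) < 2 * N then
        ((Nat.totient q : ℝ) * Nat.totient q' / (Nat.lcm q q' : ℝ)) * (f q * f' q' * K q q')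
      else 0 := by
  unfold SS tm
  refine Finset.sum_congr rfl fun q _ => Finset.sum_congr rfl fun q' _ => ?_
  simp [lvl_one]

/-- gain of a split common prime -/
noncomputable def gg (κ δ c : ℝ) (p0 : ℕ) (p : ℕ) : ℝ := if p0 ≤ p then 1 - c * X1 κ δ p else 1

/-- **THEOREM (R), leaf form.**  Let `1/2 < κ < 1`, `δ < (1-κ)(2κ-1)/(2κ)`.  There are absolute
constants `c > 0`, `p0`, `C`: for every modulus `T`, every weight `K` of pairs with values in
`[0,1]` and all `f, f'` with values in `[0,1]`: if for every coprime factorisation `T = Ma Mz`,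
every `h, h' ∣ Ma` and every centre `G ∣ Mz` the weight `K(h u, h' v)` has natural density `≤ ρ` in
every dyadic box of the model `(Mz, G)` with `FF * ρ^(1-κ) ≤ V0`, then the energy of `K` at scale
`N` is `≤ C N^{-(2κ-1)} V0 (μ(f) μ(f'))^κ`. -/
theorem thmR {κ δ : ℝ} (hκ : 1 / 2 < κ) (hκ1 : κ < 1) (hδ0 : 0 < δ)
    (hδ : δ * (2 * κ) < (1 - κ) * (2 * κ - 1)) :
    ∃ (c C : ℝ) (p0 : ℕ), 0 < c ∧ 0 < C ∧ (∀ p : ℕ, p0 ≤ p → c * X1 κ δ p ≤ 1 / 2) ∧
      ∀ (T : ℕ) (N V0 : ℝ) (f f' : ℕ → ℝ) (K : ℕ → ℕ → ℝ), T ≠ 0 → 0 < N → 0 ≤ V0 →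
      (∀ x, 0 ≤ f x) → (∀ x, f x ≤ 1) → (∀ x, 0 ≤ f' x) → (∀ x, f' x ≤ 1) →
      (∀ x y, 0 ≤ K x y) → (∀ x y, K x y ≤ 1) →
      (∀ Ma Mz G h h' : ℕ, Ma * Mz = T → Nat.Coprime Ma Mz → h ∣ Ma → h' ∣ Ma → G ∣ Mz →
        ∃ ρ : ℝ, 0 ≤ ρ ∧ Rho Mz G (fun u v => K (h * u) (h' * v)) ρ ∧
          FF δ (gg κ δ c p0) Ma h h' * ρ ^ (1 - κ) ≤ V0) →
      ∑ q ∈ T.divisors, ∑ q' ∈ T.divisors,
        (if N ≤ (Nat.lcm q q' : ℝ) ∧ (Nat.lcm q q' : ℝ) < 2 * N then
          ((Nat.totient q : ℝ) * Nat.totient q' / (Nat.lcm q q' : ℝ)) * (f q * f' q' * K q q')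
        else 0) ≤ C * N ^ (-(2 * κ - 1)) * V0 * (mu T f ^ κ * mu T f' ^ κ) := by
  have h1k : 0 < 1 - κ := by linarith
  have hδ' : δ < 1 - κ := by nlinarith
  obtain ⟨c, C1, C2, p0, hc, hC1, hC2, hX, hO⟩ := exists_oneP hκ hκ1 hδ0 hδ'
  obtain ⟨C, hC, hprod⟩ := prod_cst_le hκ hκ1 hδ0 hδ C1 C2 hC1 hC2 p0
  refine ⟨c, 6 * C, p0, hc, by linarith, hX, ?_⟩
  intro T N V0 f f' K hT hN hV0 hf hf1 hf' hf1' hK hK1 hleaf
  set Cp : ℕ → ℝ := fun p => if p0 ≤ p then 1 + C1 * (X1 κ δ p) ^ (2 * κ) else C2 with hCp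
  have hgood := Good_of_leaf hleaf (pl T) 1 1 1 1 1 (Ok_pl hT) (dvd_refl _) one_ne_zero
    (by rw [tot_pl hT, one_mul]) (Nat.coprime_one_left _) (dvd_refl _) (dvd_refl _)
  rw [FF_one] at hgood
  simp only [one_mul] at hgood
  have hm := main hκ hκ1 hV0 (gg κ δ c p0) Cp
    (fun p hp => by
      unfold gg
      split_ifs with h
      · have := hX p h; linarith
      · norm_num)
    (fun p hp => by
      simp only [hCp]
      split_ifs
      · have : 0 ≤ X1 κ δ p := by unfold X1; positivity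
        have : 0 ≤ C1 * (X1 κ δ p) ^ (2 * κ) := by positivity
        linarith
      · exact hC2)
    (fun p hp => hO p hp.two_le) (pl T) 1 1 N 1 f f' K (Ok_pl hT) (dvd_refl _) hN zero_le_one
    hf hf1 hf' hf1' hK hK1 hgood
  rw [one_mul, tot_pl hT, SS_one] at hm
  refine hm.trans ?_
  have hpr : ((pl T).map fun x => Cp x.1).prod ≤ C := by
    have e : ((pl T).map fun x => Cp x.1).prod = ∏ p ∈ T.primeFactors, Cp p := by
      unfold pl
      rw [List.map_map, Finset.prod_eq_multiset_prod, ← Finset.coe_toList T.primeFactors]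
      rfl
    rw [e]
    exact hprod T.primeFactors
  have h0 : 0 ≤ N ^ (-(2 * κ - 1)) := Real.rpow_nonneg hN.le _
  have hm1 : 0 ≤ mu T f ^ κ * mu T f' ^ κ :=
    mul_nonneg (Real.rpow_nonneg (mu_nonneg hf) _) (Real.rpow_nonneg (mu_nonneg hf') _)
  calc _ ≤ C * (6 * N ^ (-(2 * κ - 1)) * V0) * (mu T f ^ κ * mu T f' ^ κ) := by gcongr
    _ = _ := by ring

end Crest.Agent.R4C.ThmRx19
end

-- ▼ part R4C/HVWt_19

/-!
# Row 4: exact-gcd HVW (`K = 1`) and THEOREM (R) in the divisor language (helper19)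

`b = M/q`, weights `nu M b`, arbitrary `M`.
-/

set_option autoImplicit false
set_option linter.unusedVariables false

namespace Crest.Agent.R4C.ThmRx19

open Finset Real Crest.Agent.R4C.OnePx19 Crest.Agent.R4C.Basex935
open scoped Classical

lemma nw_nonneg (G q : ℕ) : 0 ≤ nw G q := by unfold nw; positivity

/-- natural mass of one dyadic class is at most its length -/
lemma sum_nw_le {Mz G : ℕ} (hMz : Mz ≠ 0) (hG : G ≠ 0) (a : ℕ) :
    ∑ q ∈ Mz.divisors.filter (fun q => la G q = a), nw G q ≤ 2 ^ a := by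
  have hmap : ∀ q ∈ Mz.divisors.filter (fun q => la G q = a),
      up G q ∈ Finset.Ico (2 ^ a) (2 ^ (a + 1)) := by
    intro q hq
    obtain ⟨h1, h2⟩ := Finset.mem_filter.1 hq
    have hq0 : q ≠ 0 := ne_zero_of_dvd_ne_zero hMz (Nat.dvd_of_mem_divisors h1)
    rw [Finset.mem_Ico, ← h2]
    exact ⟨Nat.pow_log_le_self 2 (up_pos hq0).ne', Nat.lt_pow_succ_log_self (by norm_num) _⟩
  rw [← Finset.sum_fiberwise_of_maps_to hmap]
  calc _ ≤ ∑ u ∈ Finset.Ico (2 ^ a) (2 ^ (a + 1)), (1:ℝ) := by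
        refine Finset.sum_le_sum fun u hu => ?_
        have hu0 : 0 < u := lt_of_lt_of_le (pow_pos (by norm_num) a) (Finset.mem_Ico.1 hu).1
        have hGu : 0 < G * u := Nat.mul_pos (Nat.pos_of_ne_zero hG) hu0
        have hGu' : (0:ℝ) < (G * u : ℕ) := by exact_mod_cast hGu
        calc _ ≤ ∑ q ∈ (G * u).divisors, (Nat.totient q : ℝ) / ((G * u : ℕ) : ℝ) := by
              refine (Finset.sum_le_sum (g := fun q => (Nat.totient q : ℝ) / ((G * u : ℕ) : ℝ)) ?_).trans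
                (Finset.sum_le_sum_of_subset_of_nonneg ?_ ?_)
              · intro q hq
                obtain ⟨h1, h2⟩ := Finset.mem_filter.1 hq
                obtain ⟨h3, h4⟩ := Finset.mem_filter.1 h1
                have hq0 : q ≠ 0 := ne_zero_of_dvd_ne_zero hMz (Nat.dvd_of_mem_divisors h3)
                unfold nw
                rw [lcm_eq_up hq0, h2]
              · intro q hq
                obtain ⟨h1, h2⟩ := Finset.mem_filter.1 hq
                obtain ⟨h3, h4⟩ := Finset.mem_filter.1 h1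
                have hq0 : q ≠ 0 := ne_zero_of_dvd_ne_zero hMz (Nat.dvd_of_mem_divisors h3)
                rw [Nat.mem_divisors]
                refine ⟨?_, hGu.ne'⟩
                rw [← h2, ← lcm_eq_up hq0]
                exact Nat.dvd_lcm_left _ _
              · intro q _ _
                positivity
          _ = 1 := by
              rw [← Finset.sum_div]
              have h := Nat.sum_totient (G * u)
              have h2 : ((∑ d ∈ (G * u).divisors, Nat.totient d : ℕ) : ℝ) = (G * u : ℕ) := by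
                exact_mod_cast h
              push_cast at h2 ⊢
              rw [h2, div_self]
              have := hGu'
              push_cast at this
              exact this.ne'
    _ = 2 ^ a := by
        rw [Finset.sum_const, Nat.card_Ico, nsmul_eq_mul, mul_one, pow_succ]
        have : 2 ^ a * 2 - 2 ^ a = 2 ^ a := by omega
        rw [this]; push_cast; rfl

/-- every weight with values in `[0,1]` has natural density at most one -/
lemma Rho_one {Mz G : ℕ} (hMz : Mz ≠ 0) (hG : G ≠ 0) (K : ℕ → ℕ → ℝ)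
    (hK : ∀ x y, 0 ≤ K x y) (hK1 : ∀ x y, K x y ≤ 1) : Rho Mz G K 1 := by
  intro a b
  have h1 := sum_nw_le hMz hG a
  have h2 := sum_nw_le hMz hG b
  calc _ ≤ ∑ q ∈ Mz.divisors.filter (fun q => la G q = a),
        ∑ q' ∈ Mz.divisors.filter (fun q => la G q = b), nw G q * nw G q' := by
        refine Finset.sum_le_sum fun q _ => Finset.sum_le_sum fun q' _ => ?_
        have hn := nw_nonneg G q
        have hn' := nw_nonneg G q'
        split_ifs
        · calc nw G q * nw G q' * K q q' ≤ nw G q * nw G q' * 1 :=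
              mul_le_mul_of_nonneg_left (hK1 q q') (mul_nonneg hn hn')
            _ = _ := mul_one _
        · exact mul_nonneg hn hn'
    _ = (∑ q ∈ Mz.divisors.filter (fun q => la G q = a), nw G q) *
        ∑ q' ∈ Mz.divisors.filter (fun q => la G q = b), nw G q' := by
        rw [Finset.sum_mul_sum]
    _ ≤ 2 ^ a * 2 ^ b := by
        apply mul_le_mul h1 h2 (Finset.sum_nonneg fun q _ => nw_nonneg G q) (by positivity)
    _ = _ := by ring

lemma FF_nonneg {κ δ c : ℝ} {p0 : ℕ} (hX : ∀ p : ℕ, p0 ≤ p → c * X1 κ δ p ≤ 1 / 2)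
    (Ma h h' : ℕ) : 0 ≤ FF δ (gg κ δ c p0) Ma h h' := by
  unfold FF
  refine Finset.prod_nonneg fun p hp => ?_
  split_ifs
  · unfold gg
    split_ifs with h1
    · have := hX p h1; linarith
    · norm_num
  · positivity

lemma FF_le_one {κ δ c : ℝ} (hδ0 : 0 < δ) {p0 : ℕ} (hc : 0 < c)
    (hX : ∀ p : ℕ, p0 ≤ p → c * X1 κ δ p ≤ 1 / 2)
    (Ma h h' : ℕ) : FF δ (gg κ δ c p0) Ma h h' ≤ 1 := by
  unfold FF
  refine Finset.prod_le_one (fun p hp => ?_) (fun p hp => ?_)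
  · split_ifs
    · unfold gg
      split_ifs with h1
      · have := hX p h1; linarith
      · norm_num
    · positivity
  · split_ifs
    · unfold gg
      split_ifs with h1
      · have : 0 ≤ X1 κ δ p := by unfold X1; positivity
        have : 0 ≤ c * X1 κ δ p := by positivity
        linarith
      · exact le_rfl
    · apply Real.rpow_le_one_of_one_le_of_nonpos
      · exact_mod_cast (Nat.prime_of_mem_primeFactors hp).one_lt.le
      · have : 0 ≤ δ * (dst (h.factorization p) (h'.factorization p) : ℝ) := by positivity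
        linarith

lemma exists_delta {κ : ℝ} (hκ : 1 / 2 < κ) (hκ1 : κ < 1) :
    ∃ δ : ℝ, 0 < δ ∧ δ * (2 * κ) < (1 - κ) * (2 * κ - 1) := by
  refine ⟨(1 - κ) * (2 * κ - 1) / 4, ?_, ?_⟩
  · have h1 : 0 < 1 - κ := by linarith
    have h2 : 0 < 2 * κ - 1 := by linarith
    positivity
  · have h1 : 0 < (1 - κ) * (2 * κ - 1) := mul_pos (by linarith) (by linarith)
    nlinarith


/-! ## divisor language -/

/-- natural density of `K` in the model `(Mz, H)`: `b = H/l * λ`, `l = H / gcd(b,H)` counted in a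
dyadic range, `λ` natural. -/
def RhoB (Mz H : ℕ) (K : ℕ → ℕ → ℝ) (ρ : ℝ) : Prop :=
  ∀ i j : ℕ, ∑ b ∈ Mz.divisors.filter (fun b => Nat.log 2 (H / Nat.gcd H b) = i),
    ∑ c ∈ Mz.divisors.filter (fun c => Nat.log 2 (H / Nat.gcd H c) = j),
      (if lvl Mz H b c then ((Nat.gcd H b : ℝ) * nu Mz b) * ((Nat.gcd H c : ℝ) * nu Mz c) * K b c
        else 0) ≤ ρ * 2 ^ i * 2 ^ j

/-- reindexing `q ↔ M/q` -/
lemma sum_flip {M : ℕ} (F : ℕ → ℝ) : ∑ q ∈ M.divisors, F q = ∑ b ∈ M.divisors, F (M / b) :=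
  (Nat.sum_div_divisors M F).symm


lemma fact_div {M q : ℕ} (hM : M ≠ 0) (hq : q ∣ M) (r : ℕ) :
    (M / q).factorization r = M.factorization r - q.factorization r := by
  rw [Nat.factorization_div hq]; rfl

lemma fact_le {M q : ℕ} (hM : M ≠ 0) (hq : q ∣ M) (r : ℕ) :
    q.factorization r ≤ M.factorization r :=
  (Nat.factorization_le_iff_dvd (ne_zero_of_dvd_ne_zero hM hq) hM).2 hq r

lemma lvl_flip {M G q q' : ℕ} (hM : M ≠ 0) (hG : G ∣ M) (hq : q ∣ M) (hq' : q' ∣ M) :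
    lvl M (M / G) (M / q) (M / q') ↔ lvl M G q q' := by
  unfold lvl
  refine forall_congr' fun r => forall_congr' fun hr => ?_
  rw [fact_div hM hG, fact_div hM hq, fact_div hM hq']
  have h1 := fact_le hM hG r
  have h2 := fact_le hM hq r
  have h3 := fact_le hM hq' r
  omega

lemma FF_flip {δ : ℝ} {g : ℕ → ℝ} {Ma h h' : ℕ} (hMa : Ma ≠ 0) (hh : h ∣ Ma) (hh' : h' ∣ Ma) :
    FF δ g Ma (Ma / h) (Ma / h') = FF δ g Ma h h' := by
  unfold FF
  refine Finset.prod_congr rfl fun r _ => ?_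
  rw [fact_div hMa hh, fact_div hMa hh']
  have h1 := fact_le hMa hh r
  have h2 := fact_le hMa hh' r
  have e : dst (Ma.factorization r - h.factorization r) (Ma.factorization r - h'.factorization r) =
      dst (h.factorization r) (h'.factorization r) := by
    unfold dst; omega
  rw [e]
  have e2 : (Ma.factorization r - h.factorization r = Ma.factorization r - h'.factorization r) ↔
      (h.factorization r = h'.factorization r) := by omega
  simp only [e2]

lemma Rho_of_RhoB {Mz G : ℕ} (hMz : Mz ≠ 0) (hG : G ∣ Mz) {K : ℕ → ℕ → ℝ} {ρ : ℝ}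
    (h : RhoB Mz (Mz / G) K ρ) : Rho Mz G (fun u v => K (Mz / u) (Mz / v)) ρ := by
  intro a b
  refine le_trans (le_of_eq ?_) (h a b)
  have hG0 : 0 < Mz := Nat.pos_of_ne_zero hMz
  have key : ∀ q, q ∣ Mz → (Mz / G) / Nat.gcd (Mz / G) (Mz / q) = up G q := by
    intro q hq
    rw [cof_div hG0 hG hq, Nat.gcd_comm]; rfl
  have key2 : ∀ q, q ∣ Mz → nw G q = (Nat.gcd (Mz / G) (Mz / q) : ℝ) * nu Mz (Mz / q) := by
    intro q hq
    unfold nw
    have hl : Nat.lcm q G ∣ Mz := Nat.lcm_dvd hq hG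
    have hq0 : q ≠ 0 := ne_zero_of_dvd_ne_zero hMz hq
    have hg0 : G ≠ 0 := ne_zero_of_dvd_ne_zero hMz hG
    have hl0 : (Nat.lcm q G : ℝ) ≠ 0 := by exact_mod_cast Nat.lcm_ne_zero hq0 hg0
    have hM0 : (Mz : ℝ) ≠ 0 := by exact_mod_cast hMz
    rw [mass_div hG0 hq, gcd_div_div hG0 hG hq, Nat.lcm_comm G q, Nat.cast_div hl hl0]
    field_simp
  symm
  rw [Finset.sum_filter, sum_flip, Finset.sum_filter]
  refine Finset.sum_congr rfl fun q hq => ?_
  have hqd := Nat.dvd_of_mem_divisors hq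
  have e1 : (Nat.log 2 (Mz / G / Nat.gcd (Mz / G) (Mz / q)) = a) ↔ la G q = a := by
    rw [key q hqd]; rfl
  simp only [e1]
  by_cases h1 : la G q = a
  · rw [if_pos h1, if_pos h1]
    rw [Finset.sum_filter, sum_flip, Finset.sum_filter]
    refine Finset.sum_congr rfl fun q' hq' => ?_
    have hqd' := Nat.dvd_of_mem_divisors hq'
    have e2 : (Nat.log 2 (Mz / G / Nat.gcd (Mz / G) (Mz / q')) = b) ↔ la G q' = b := by
      rw [key q' hqd']; rfl
    simp only [e2, lvl_flip hMz hG hqd hqd']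
    by_cases h2 : la G q' = b
    · rw [if_pos h2, if_pos h2, key2 q hqd, key2 q' hqd']
    · rw [if_neg h2, if_neg h2]
  · rw [if_neg h1, if_neg h1]

/-- **THEOREM (R), divisor language, arbitrary `M`** -/
theorem thmR_b {κ δ : ℝ} (hκ : 1 / 2 < κ) (hκ1 : κ < 1) (hδ0 : 0 < δ)
    (hδ : δ * (2 * κ) < (1 - κ) * (2 * κ - 1)) :
    ∃ (c C : ℝ) (p0 : ℕ), 0 < c ∧ 0 < C ∧ (∀ p : ℕ, p0 ≤ p → c * X1 κ δ p ≤ 1 / 2) ∧
      ∀ (M : ℕ) (X V0 : ℝ) (f f' : ℕ → ℝ) (K : ℕ → ℕ → ℝ), M ≠ 0 → 0 < X → 0 ≤ V0 →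
      (∀ x, 0 ≤ f x) → (∀ x, f x ≤ 1) → (∀ x, 0 ≤ f' x) → (∀ x, f' x ≤ 1) →
      (∀ x y, 0 ≤ K x y) → (∀ x y, K x y ≤ 1) →
      (∀ Ma Mz H h h' : ℕ, Ma * Mz = M → Nat.Coprime Ma Mz → h ∣ Ma → h' ∣ Ma → H ∣ Mz →
        ∃ ρ : ℝ, 0 ≤ ρ ∧ RhoB Mz H (fun u v => K (h * u) (h' * v)) ρ ∧
          FF δ (gg κ δ c p0) Ma h h' * ρ ^ (1 - κ) ≤ V0) →
      ∑ b ∈ M.divisors, ∑ c' ∈ M.divisors,
        (if X < (Nat.gcd b c' : ℝ) ∧ (Nat.gcd b c' : ℝ) ≤ 2 * X then
          (Nat.gcd b c' : ℝ) * nu M b * nu M c' * (f b * f' c' * K b c')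
        else 0) ≤ C * X ^ (2 * κ - 1) * V0 *
          ((∑ b ∈ M.divisors, nu M b * f b) ^ κ * (∑ b ∈ M.divisors, nu M b * f' b) ^ κ) := by
  obtain ⟨c, C, p0, hc, hC, hX, hR⟩ := thmR hκ hκ1 hδ0 hδ
  refine ⟨c, C * 2 ^ (2 * κ - 1), p0, hc, by positivity, hX, ?_⟩
  intro M X V0 f f' K hM hX0 hV0 hf hf1 hf' hf1' hK hK1 hleaf
  have hMp : 0 < M := Nat.pos_of_ne_zero hM
  have hMr : (0:ℝ) < M := by exact_mod_cast hMp
  have hN : 0 < (M:ℝ) / (2 * X) := by positivity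
  have h := hR M ((M:ℝ) / (2 * X)) V0 (fun q => f (M / q)) (fun q => f' (M / q))
    (fun q q' => K (M / q) (M / q')) hM hN hV0 (fun _ => hf _) (fun _ => hf1 _) (fun _ => hf' _)
    (fun _ => hf1' _) (fun _ _ => hK _ _) (fun _ _ => hK1 _ _) (by
      intro Ma Mz G h h' hMM hcop hh hh' hG
      have hMz : Mz ≠ 0 := by rintro rfl; simp at hMM; exact hM hMM.symm
      have hMa : Ma ≠ 0 := by rintro rfl; simp at hMM; exact hM hMM.symm
      obtain ⟨ρ, h1, h2, h3⟩ := hleaf Ma Mz (Mz / G) (Ma / h) (Ma / h') hMM hcop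
        (Nat.div_dvd_of_dvd hh) (Nat.div_dvd_of_dvd hh') (Nat.div_dvd_of_dvd hG)
      refine ⟨ρ, h1, ?_, ?_⟩
      · have h4 := Rho_of_RhoB hMz hG h2
        intro a b
        refine le_trans (le_of_eq ?_) (h4 a b)
        refine Finset.sum_congr rfl fun q hq => Finset.sum_congr rfl fun q' hq' => ?_
        have hqd := Nat.dvd_of_mem_divisors (Finset.mem_filter.1 hq).1
        have hqd' := Nat.dvd_of_mem_divisors (Finset.mem_filter.1 hq').1
        have e1 : M / (h * q) = Ma / h * (Mz / q) := by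
          rw [← hMM, Nat.mul_div_mul_comm hh hqd]
        have e2 : M / (h' * q') = Ma / h' * (Mz / q') := by
          rw [← hMM, Nat.mul_div_mul_comm hh' hqd']
        simp only [e1, e2]
      · rwa [FF_flip hMa hh hh'] at h3)
  -- the two sides
  have hmu : ∀ F : ℕ → ℝ, mu M (fun q => F (M / q)) = M * ∑ b ∈ M.divisors, nu M b * F b := by
    intro F
    unfold mu
    rw [sum_flip, Finset.mul_sum]
    refine Finset.sum_congr rfl fun b hb => ?_
    have hbd := Nat.dvd_of_mem_divisors hb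
    simp only
    rw [Nat.div_div_self hbd hM]
    unfold nu
    field_simp
  rw [hmu f, hmu f'] at h
  have hlhs : ∑ q ∈ M.divisors, ∑ q' ∈ M.divisors,
        (if (M:ℝ) / (2 * X) ≤ (Nat.lcm q q' : ℝ) ∧ (Nat.lcm q q' : ℝ) < 2 * ((M:ℝ) / (2 * X)) then
          ((Nat.totient q : ℝ) * Nat.totient q' / (Nat.lcm q q' : ℝ)) *
            (f (M / q) * f' (M / q') * K (M / q) (M / q'))
        else 0) = M * ∑ b ∈ M.divisors, ∑ c' ∈ M.divisors,
        (if X < (Nat.gcd b c' : ℝ) ∧ (Nat.gcd b c' : ℝ) ≤ 2 * X then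
          (Nat.gcd b c' : ℝ) * nu M b * nu M c' * (f b * f' c' * K b c')
        else 0) := by
    symm
    rw [sum_flip, Finset.mul_sum]
    refine Finset.sum_congr rfl fun q hq => ?_
    rw [sum_flip, Finset.mul_sum]
    refine Finset.sum_congr rfl fun q' hq' => ?_
    have hqd := Nat.dvd_of_mem_divisors hq
    have hqd' := Nat.dvd_of_mem_divisors hq'
    have hl : Nat.lcm q q' ∣ M := Nat.lcm_dvd hqd hqd'
    have hl0 : (0:ℝ) < (Nat.lcm q q' : ℝ) := by
      exact_mod_cast Nat.pos_of_dvd_of_pos hl hMp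
    have hg : (Nat.gcd (M / q) (M / q') : ℝ) = M / (Nat.lcm q q' : ℝ) := by
      rw [gcd_div_div hMp hqd hqd', Nat.cast_div hl hl0.ne']
    have hiff : (X < (Nat.gcd (M / q) (M / q') : ℝ) ∧ (Nat.gcd (M / q) (M / q') : ℝ) ≤ 2 * X) ↔
        ((M:ℝ) / (2 * X) ≤ (Nat.lcm q q' : ℝ) ∧ (Nat.lcm q q' : ℝ) < 2 * ((M:ℝ) / (2 * X))) := by
      rw [hg, lt_div_iff₀ hl0, div_le_iff₀ hl0, div_le_iff₀ (by positivity : (0:ℝ) < 2 * X),
        mul_div_assoc', lt_div_iff₀ (by positivity : (0:ℝ) < 2 * X)]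
      constructor
      · rintro ⟨h1, h2⟩; constructor <;> nlinarith
      · rintro ⟨h1, h2⟩; constructor <;> nlinarith
    have hw := weight_div hMp hqd hqd'
    by_cases hc : X < (Nat.gcd (M / q) (M / q') : ℝ) ∧ (Nat.gcd (M / q) (M / q') : ℝ) ≤ 2 * X
    · rw [if_pos hc, if_pos (hiff.1 hc), hw]
      ring
    · rw [if_neg hc, if_neg (fun h => hc (hiff.2 h)), mul_zero]
  rw [hlhs] at h
  set S := ∑ b ∈ M.divisors, ∑ c' ∈ M.divisors,
        (if X < (Nat.gcd b c' : ℝ) ∧ (Nat.gcd b c' : ℝ) ≤ 2 * X then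
          (Nat.gcd b c' : ℝ) * nu M b * nu M c' * (f b * f' c' * K b c')
        else 0) with hS
  set A := ∑ b ∈ M.divisors, nu M b * f b with hA
  set B := ∑ b ∈ M.divisors, nu M b * f' b with hB
  have hA0 : 0 ≤ A := Finset.sum_nonneg fun b _ => mul_nonneg (nu_nonneg _ _) (hf b)
  have hB0 : 0 ≤ B := Finset.sum_nonneg fun b _ => mul_nonneg (nu_nonneg _ _) (hf' b)
  rw [Real.mul_rpow hMr.le hA0, Real.mul_rpow hMr.le hB0] at h
  have e : C * ((M:ℝ) / (2 * X)) ^ (-(2 * κ - 1)) * V0 * ((M:ℝ) ^ κ * A ^ κ * ((M:ℝ) ^ κ * B ^ κ)) =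
      M * (C * 2 ^ (2 * κ - 1) * X ^ (2 * κ - 1) * V0 * (A ^ κ * B ^ κ)) := by
    have e1 : ((M:ℝ) / (2 * X)) ^ (-(2 * κ - 1)) = (M:ℝ) ^ (-(2 * κ - 1)) *
        (2 ^ (2 * κ - 1) * X ^ (2 * κ - 1)) := by
      rw [Real.div_rpow hMr.le (by positivity), Real.rpow_neg (by positivity : (0:ℝ) ≤ 2 * X),
        div_inv_eq_mul, Real.mul_rpow (by norm_num) hX0.le]
    have e2 : (M:ℝ) ^ (-(2 * κ - 1)) * ((M:ℝ) ^ κ * (M:ℝ) ^ κ) = M := by
      rw [← Real.rpow_add hMr, ← Real.rpow_add hMr]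
      rw [show -(2 * κ - 1) + (κ + κ) = 1 by ring, Real.rpow_one]
    rw [e1]
    calc _ = ((M:ℝ) ^ (-(2 * κ - 1)) * ((M:ℝ) ^ κ * (M:ℝ) ^ κ)) *
          (C * 2 ^ (2 * κ - 1) * X ^ (2 * κ - 1) * V0 * (A ^ κ * B ^ κ)) := by ring
      _ = _ := by rw [e2]
  rw [e] at h
  exact le_of_mul_le_mul_left h hMr

lemma RhoB_one {Mz H : ℕ} (hMz : Mz ≠ 0) (hH : H ∣ Mz) (K : ℕ → ℕ → ℝ)
    (hK : ∀ x y, 0 ≤ K x y) (hK1 : ∀ x y, K x y ≤ 1) : RhoB Mz H K 1 := by
  -- transport back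
  have hMp : 0 < Mz := Nat.pos_of_ne_zero hMz
  have hG : Mz / H ∣ Mz := Nat.div_dvd_of_dvd hH
  have h1 := Rho_one (G := Mz / H) hMz (ne_zero_of_dvd_ne_zero hMz hG)
    (fun u v => K (Mz / u) (Mz / v)) (fun _ _ => hK _ _) (fun _ _ => hK1 _ _)
  intro a b
  refine le_trans (le_of_eq ?_) (h1 a b)
  have hHH : Mz / (Mz / H) = H := Nat.div_div_self hH hMz
  have key : ∀ q, q ∣ Mz → H / Nat.gcd H (Mz / q) = up (Mz / H) q := by
    intro q hq
    have := cof_div hMp hG hq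
    rw [hHH] at this
    rw [this, Nat.gcd_comm]; rfl
  have key2 : ∀ q, q ∣ Mz → nw (Mz / H) q = (Nat.gcd H (Mz / q) : ℝ) * nu Mz (Mz / q) := by
    intro q hq
    unfold nw
    have hl : Nat.lcm q (Mz / H) ∣ Mz := Nat.lcm_dvd hq hG
    have hq0 : q ≠ 0 := ne_zero_of_dvd_ne_zero hMz hq
    have hg0 : Mz / H ≠ 0 := ne_zero_of_dvd_ne_zero hMz hG
    have hl0 : (Nat.lcm q (Mz / H) : ℝ) ≠ 0 := by exact_mod_cast Nat.lcm_ne_zero hq0 hg0
    have hM0 : (Mz : ℝ) ≠ 0 := by exact_mod_cast hMz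
    have e := gcd_div_div hMp hG hq
    rw [hHH] at e
    rw [mass_div hMp hq, e, Nat.lcm_comm (Mz / H) q, Nat.cast_div hl hl0]
    field_simp
  rw [Finset.sum_filter, sum_flip, Finset.sum_filter]
  refine Finset.sum_congr rfl fun q hq => ?_
  have hqd := Nat.dvd_of_mem_divisors hq
  have e1 : (Nat.log 2 (H / Nat.gcd H (Mz / q)) = a) ↔ la (Mz / H) q = a := by
    rw [key q hqd]; rfl
  simp only [e1]
  by_cases h1 : la (Mz / H) q = a
  · rw [if_pos h1, if_pos h1]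
    rw [Finset.sum_filter, sum_flip, Finset.sum_filter]
    refine Finset.sum_congr rfl fun q' hq' => ?_
    have hqd' := Nat.dvd_of_mem_divisors hq'
    have e2 : (Nat.log 2 (H / Nat.gcd H (Mz / q')) = b) ↔ la (Mz / H) q' = b := by
      rw [key q' hqd']; rfl
    have e3 : lvl Mz H (Mz / q) (Mz / q') ↔ lvl Mz (Mz / H) q q' := by
      have := lvl_flip hMz hG hqd hqd'
      rwa [hHH] at this
    simp only [e2, e3]
    by_cases h2 : la (Mz / H) q' = b
    · rw [if_pos h2, if_pos h2, key2 q hqd, key2 q' hqd']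
    · rw [if_neg h2, if_neg h2]
  · rw [if_neg h1, if_neg h1]

/-- **exact-gcd HVW at a fixed scale, divisor language, arbitrary `M`** -/
theorem hvw_b {κ : ℝ} (hκ : 1 / 2 < κ) (hκ1 : κ < 1) :
    ∃ C : ℝ, 0 < C ∧ ∀ (M : ℕ) (X : ℝ) (f f' : ℕ → ℝ), M ≠ 0 → 0 < X →
      (∀ x, 0 ≤ f x) → (∀ x, f x ≤ 1) → (∀ x, 0 ≤ f' x) → (∀ x, f' x ≤ 1) →
      ∑ b ∈ M.divisors, ∑ c ∈ M.divisors,
        (if X ≤ (Nat.gcd b c : ℝ) ∧ (Nat.gcd b c : ℝ) < 2 * X then
          (Nat.gcd b c : ℝ) * nu M b * nu M c * (f b * f' c)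
        else 0) ≤ C * X ^ (2 * κ - 1) *
          ((∑ b ∈ M.divisors, nu M b * f b) ^ κ * (∑ b ∈ M.divisors, nu M b * f' b) ^ κ) := by
  obtain ⟨δ, hδ0, hδ⟩ := exists_delta hκ hκ1
  obtain ⟨c, C, p0, hc, hC, hX, h⟩ := thmR_b hκ hκ1 hδ0 hδ
  refine ⟨2 * C, by linarith, ?_⟩
  intro M X f f' hM hX0 hf hf1 hf' hf1'
  have hgen : ∀ X : ℝ, 0 < X → ∑ b ∈ M.divisors, ∑ c' ∈ M.divisors,
        (if X < (Nat.gcd b c' : ℝ) ∧ (Nat.gcd b c' : ℝ) ≤ 2 * X then
          (Nat.gcd b c' : ℝ) * nu M b * nu M c' * (f b * f' c' * 1)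
        else 0) ≤ C * X ^ (2 * κ - 1) * 1 *
          ((∑ b ∈ M.divisors, nu M b * f b) ^ κ * (∑ b ∈ M.divisors, nu M b * f' b) ^ κ) := by
    intro X hX0
    refine h M X 1 f f' (fun _ _ => 1) hM hX0 zero_le_one hf hf1 hf' hf1'
      (fun _ _ => zero_le_one) (fun _ _ => le_rfl) ?_
    intro Ma Mz H h h' hMM hcop hh hh' hH
    have hMz : Mz ≠ 0 := by rintro rfl; simp at hMM; exact hM hMM.symm
    refine ⟨1, zero_le_one, RhoB_one hMz hH _ (fun _ _ => zero_le_one) (fun _ _ => le_rfl), ?_⟩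
    rw [Real.one_rpow, mul_one]
    exact FF_le_one hδ0 hc hX Ma h h'
  have h1 := hgen X hX0
  have h2 := hgen (X / 2) (by linarith)
  have hX2 : (X / 2) ^ (2 * κ - 1) ≤ X ^ (2 * κ - 1) :=
    Real.rpow_le_rpow (by linarith) (by linarith) (by linarith)
  set A := ∑ b ∈ M.divisors, nu M b * f b with hA
  set B := ∑ b ∈ M.divisors, nu M b * f' b with hB
  have hA0 : 0 ≤ A := Finset.sum_nonneg fun b _ => mul_nonneg (nu_nonneg _ _) (hf b)
  have hB0 : 0 ≤ B := Finset.sum_nonneg fun b _ => mul_nonneg (nu_nonneg _ _) (hf' b)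
  have hAB : 0 ≤ A ^ κ * B ^ κ := mul_nonneg (Real.rpow_nonneg hA0 _) (Real.rpow_nonneg hB0 _)
  calc _ ≤ ∑ b ∈ M.divisors, ∑ c' ∈ M.divisors,
        (if X < (Nat.gcd b c' : ℝ) ∧ (Nat.gcd b c' : ℝ) ≤ 2 * X then
          (Nat.gcd b c' : ℝ) * nu M b * nu M c' * (f b * f' c' * 1) else 0) +
      ∑ b ∈ M.divisors, ∑ c' ∈ M.divisors,
        (if X / 2 < (Nat.gcd b c' : ℝ) ∧ (Nat.gcd b c' : ℝ) ≤ 2 * (X / 2) then
          (Nat.gcd b c' : ℝ) * nu M b * nu M c' * (f b * f' c' * 1) else 0) := by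
        rw [← Finset.sum_add_distrib]
        refine Finset.sum_le_sum fun b _ => ?_
        rw [← Finset.sum_add_distrib]
        refine Finset.sum_le_sum fun c' _ => ?_
        have h0 : 0 ≤ (Nat.gcd b c' : ℝ) * nu M b * nu M c' * (f b * f' c' * 1) := by
          have := nu_nonneg M b; have := nu_nonneg M c'; have := hf b; have := hf' c'
          positivity
        by_cases hx : X ≤ (Nat.gcd b c' : ℝ) ∧ (Nat.gcd b c' : ℝ) < 2 * X
        · have e0 : (Nat.gcd b c' : ℝ) * nu M b * nu M c' * (f b * f' c') =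
              (Nat.gcd b c' : ℝ) * nu M b * nu M c' * (f b * f' c' * 1) := by ring
          rw [if_pos hx, e0]
          rcases hx.1.lt_or_eq with h5 | h5
          · rw [if_pos ⟨h5, hx.2.le⟩]
            have : 0 ≤ (if X / 2 < (Nat.gcd b c' : ℝ) ∧ (Nat.gcd b c' : ℝ) ≤ 2 * (X / 2) then
              (Nat.gcd b c' : ℝ) * nu M b * nu M c' * (f b * f' c' * 1) else 0) := by
              split_ifs
              · exact h0
              · exact le_rfl
            linarith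
          · have h6 : X / 2 < (Nat.gcd b c' : ℝ) ∧ (Nat.gcd b c' : ℝ) ≤ 2 * (X / 2) := by
              constructor <;> linarith
            rw [if_pos h6]
            have : 0 ≤ (if X < (Nat.gcd b c' : ℝ) ∧ (Nat.gcd b c' : ℝ) ≤ 2 * X then
              (Nat.gcd b c' : ℝ) * nu M b * nu M c' * (f b * f' c' * 1) else 0) := by
              split_ifs
              · exact h0
              · exact le_rfl
            linarith
        · rw [if_neg hx]
          have h7 : ∀ P : Prop, [Decidable P] → 0 ≤ (if P then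
              (Nat.gcd b c' : ℝ) * nu M b * nu M c' * (f b * f' c' * 1) else 0) := by
            intro P _
            split_ifs
            · exact h0
            · exact le_rfl
          exact add_nonneg (h7 _) (h7 _)
    _ ≤ C * X ^ (2 * κ - 1) * 1 * (A ^ κ * B ^ κ) + C * (X / 2) ^ (2 * κ - 1) * 1 * (A ^ κ * B ^ κ) :=
        add_le_add h1 h2
    _ ≤ C * X ^ (2 * κ - 1) * 1 * (A ^ κ * B ^ κ) + C * X ^ (2 * κ - 1) * 1 * (A ^ κ * B ^ κ) := by
        gcongr
    _ = _ := by ring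

end Crest.Agent.R4C.ThmRx19
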