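import Mathlib
import Crest.Agent.R4C.HVWt_19
import Crest.Agent.Lib.Mertens

/-!
# Row 4: boosted THEOREM (R) (leaf 454, helper398)

Pair weight multiplied by `bst S M b c = ∏_{p ∈ S, v_p b = v_p c < v_p M} (1 - 1/p)⁻¹`.

The loss `∏ (1-1/p)⁻¹` is the true one for arbitrary `f` (take `f = f' = 1`, `K = 1`, `gcd = 1`,
`M` squarefree: the boosted energy is `∏ (1 + w - 2 w²)`), so the version with
`∏ (1-1/p)^(-(2κ-1))` holds only at primes where both members are forced.
-/

set_option autoImplicit false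
set_option linter.unusedVariables false

namespace Crest.Agent.R4C.BoostRx398

open Finset Real Crest.Agent.R4C.OnePx19 Crest.Agent.R4C.Basex935 Crest.Agent.R4C.ThmRx19
open scoped Classical

/-- one factor -/
noncomputable def tf (p : ℕ) : ℝ := (1 - 1 / (p : ℝ))⁻¹

/-- the boost of a pair at the primes of `S` -/
noncomputable def bst (S : Finset ℕ) (M b c : ℕ) : ℝ :=
  ∏ p ∈ S, if b.factorization p = c.factorization p ∧ b.factorization p < M.factorization p
    then tf p else 1

/-- the full boost -/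
noncomputable def Bst (S : Finset ℕ) : ℝ := ∏ p ∈ S, tf p

lemma one_le_tf {p : ℕ} (hp : p.Prime) : 1 ≤ tf p := by
  have h2 : (2 : ℝ) ≤ p := by exact_mod_cast hp.two_le
  have h3 : 1 / (p : ℝ) ≤ 1 / 2 := one_div_le_one_div_of_le (by norm_num) h2
  have h4 : 0 ≤ 1 / (p : ℝ) := by positivity
  unfold tf
  exact one_le_inv_iff₀.2 ⟨by linarith, by linarith⟩

lemma one_le_bst {S : Finset ℕ} (hS : ∀ p ∈ S, p.Prime) (M b c : ℕ) : 1 ≤ bst S M b c := by
  unfold bst
  refine Finset.prod_induction _ (fun x : ℝ => 1 ≤ x) (fun a b ha hb => one_le_mul_of_one_le_of_one_le ha hb) le_rfl ?_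
  intro p hp
  split_ifs
  · exact one_le_tf (hS p hp)
  · exact le_rfl

lemma bst_le {S : Finset ℕ} (hS : ∀ p ∈ S, p.Prime) (M b c : ℕ) : bst S M b c ≤ Bst S := by
  unfold bst Bst
  refine Finset.prod_le_prod (fun p hp => ?_) (fun p hp => ?_)
  · have := one_le_tf (hS p hp)
    split_ifs <;> linarith
  · have := one_le_tf (hS p hp)
    split_ifs
    · exact le_rfl
    · exact this






end Crest.Agent.R4C.BoostRx398
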