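import Crest.Agent.R4C.Base_935
import Crest.Agent.Lib.Mertens

/-!
# Row 4: pivots (helper80)

Bonferroni / Cauchy count of almost disjoint heavy events, and its two uses in row 4, in the
language of `Base_935` (divisors of an arbitrary `M`, law `nu M b = φ(M/b)/M`).

* `bonf`       : abstract count.  Events of mass `≥ a`, overlaps (of events with different keys)
                 `≤ o`, multiplicity `≤ R` for one key, total mass `≤ m`, `2 m o ≤ a²`;
                 then the sum of all masses is `≤ 2 m R` (so the number is `≤ 2 m R / a`).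
* `bonf_union` : plain Bonferroni, `Σ mass ≤ m + Σ_{i≠j} overlap / 2 ...` (no smallness needed).
* `mass_mult`, `mass_rough` : exact natural masses of `{b : h ∣ b}` and of
                 `{b : h ∣ b, b/h has only primes > Y}`.
* `pivots`     : 2645 (1), number of active pivots.
* `dense_row`  : 2520 (1), row bound for the dense nodes.
-/

set_option autoImplicit false

open Finset

namespace Crest.Agent.R4C.Pivotsx80

open Crest.Agent.R4C.Basex935

/-! ### abstract count -/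

section abstract
variable {Ω ι κ : Type*} [DecidableEq Ω] [DecidableEq κ]

/-- second moment form: `S² ≤ m (R S + (#I)² o)` -/
theorem bonf_sq (Om : Finset Ω) (I : Finset ι) (key : ι → κ) (A : ι → Finset Ω) (μ : Ω → ℝ)
    {o m R : ℝ} (hμ : ∀ x ∈ Om, 0 ≤ μ x) (hA : ∀ i ∈ I, A i ⊆ Om) (ho : 0 ≤ o)
    (hov : ∀ i ∈ I, ∀ j ∈ I, key i ≠ key j → ∑ x ∈ A i ∩ A j, μ x ≤ o)
    (hR : ∀ x ∈ Om, ∀ i ∈ I, x ∈ A i → ((I.filter fun j => key j = key i ∧ x ∈ A j).card : ℝ) ≤ R)
    (hm : ∑ x ∈ Om, μ x ≤ m) :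
    (∑ i ∈ I, ∑ x ∈ A i, μ x) ^ 2 ≤
      m * (R * (∑ i ∈ I, ∑ x ∈ A i, μ x) + (I.card : ℝ) ^ 2 * o) := by
  classical
  set S := ∑ i ∈ I, ∑ x ∈ A i, μ x with hS
  set cnt : Ω → ℝ := fun x => ∑ i ∈ I, if x ∈ A i then (1 : ℝ) else 0 with hcnt
  have hsum : ∀ i ∈ I, ∑ x ∈ A i, μ x = ∑ x ∈ Om, μ x * (if x ∈ A i then (1 : ℝ) else 0) := by
    intro i hi
    rw [← Finset.sum_filter_add_sum_filter_not Om (fun x => x ∈ A i)]
    have h1 : Om.filter (fun x => x ∈ A i) = A i := by
      ext x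
      simp only [Finset.mem_filter]
      exact ⟨fun h => h.2, fun h => ⟨hA i hi h, h⟩⟩
    have h2 : ∑ x ∈ Om.filter (fun x => ¬ x ∈ A i), μ x * (if x ∈ A i then (1 : ℝ) else 0) = 0 := by
      refine Finset.sum_eq_zero fun x hx => ?_
      rw [if_neg (Finset.mem_filter.1 hx).2, mul_zero]
    rw [h2, add_zero, h1]
    exact Finset.sum_congr rfl fun x hx => by rw [if_pos hx, mul_one]
  have hS1 : S = ∑ x ∈ Om, μ x * cnt x := by
    rw [hS, Finset.sum_congr rfl hsum, Finset.sum_comm]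
    exact Finset.sum_congr rfl fun x _ => by rw [hcnt, Finset.mul_sum]
  -- Cauchy
  have hC : S ^ 2 ≤ (∑ x ∈ Om, μ x) * ∑ x ∈ Om, μ x * cnt x ^ 2 := by
    rw [hS1]
    have h := Finset.sum_mul_sq_le_sq_mul_sq Om (fun x => Real.sqrt (μ x))
      (fun x => Real.sqrt (μ x) * cnt x)
    have e1 : ∑ x ∈ Om, Real.sqrt (μ x) * (Real.sqrt (μ x) * cnt x) = ∑ x ∈ Om, μ x * cnt x :=
      Finset.sum_congr rfl fun x hx => by rw [← mul_assoc, Real.mul_self_sqrt (hμ x hx)]
    have e2 : ∑ x ∈ Om, Real.sqrt (μ x) ^ 2 = ∑ x ∈ Om, μ x :=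
      Finset.sum_congr rfl fun x hx => Real.sq_sqrt (hμ x hx)
    have e3 : ∑ x ∈ Om, (Real.sqrt (μ x) * cnt x) ^ 2 = ∑ x ∈ Om, μ x * cnt x ^ 2 :=
      Finset.sum_congr rfl fun x hx => by rw [mul_pow, Real.sq_sqrt (hμ x hx)]
    rw [e1, e2, e3] at h
    exact h
  -- the second moment
  have hsq : ∑ x ∈ Om, μ x * cnt x ^ 2 ≤ R * S + (I.card : ℝ) ^ 2 * o := by
    have hx : ∀ x ∈ Om, μ x * cnt x ^ 2 ≤
        R * (μ x * cnt x) + ∑ i ∈ I, ∑ j ∈ I, (if key i ≠ key j then
          μ x * (if x ∈ A i ∩ A j then (1 : ℝ) else 0) else 0) := by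
      intro x hxO
      have hsplit : cnt x ^ 2 = ∑ i ∈ I, ∑ j ∈ I,
          (if x ∈ A i then (1 : ℝ) else 0) * (if x ∈ A j then (1 : ℝ) else 0) := by
        rw [sq, hcnt, Finset.sum_mul_sum]
      have hi : ∀ i ∈ I, ∑ j ∈ I, (if x ∈ A i then (1 : ℝ) else 0) *
          (if x ∈ A j then (1 : ℝ) else 0) ≤ R * (if x ∈ A i then (1 : ℝ) else 0) +
            ∑ j ∈ I, (if key i ≠ key j then (if x ∈ A i ∩ A j then (1 : ℝ) else 0) else 0) := by
        intro i hi
        by_cases hxi : x ∈ A i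
        · rw [if_pos hxi, mul_one]
          have h1 : ∑ j ∈ I, (1 : ℝ) * (if x ∈ A j then (1 : ℝ) else 0) =
              ∑ j ∈ I, ((if key j = key i ∧ x ∈ A j then (1 : ℝ) else 0) +
                (if key i ≠ key j then (if x ∈ A i ∩ A j then (1 : ℝ) else 0) else 0)) := by
            refine Finset.sum_congr rfl fun j _ => ?_
            by_cases hk : key j = key i
            · have hk' : ¬ (key i ≠ key j) := by rw [not_not]; exact hk.symm
              by_cases hxj : x ∈ A j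
              · rw [if_pos hxj, if_pos ⟨hk, hxj⟩, if_neg hk']
                norm_num
              · rw [if_neg hxj, if_neg (fun h => hxj h.2), if_neg hk']
                norm_num
            · have hk' : key i ≠ key j := Ne.symm hk
              by_cases hxj : x ∈ A j
              · rw [if_pos hxj, if_neg (fun h => hk h.1), if_pos hk',
                  if_pos (Finset.mem_inter.2 ⟨hxi, hxj⟩)]
                norm_num
              · rw [if_neg hxj, if_neg (fun h => hk h.1), if_pos hk',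
                  if_neg (fun h => hxj (Finset.mem_inter.1 h).2)]
                norm_num
          rw [h1, Finset.sum_add_distrib]
          refine add_le_add ?_ le_rfl
          have h2 := hR x hxO i hi hxi
          rw [Finset.card_filter] at h2
          push_cast at h2
          exact h2
        · rw [if_neg hxi]
          have h0 : ∀ j ∈ I, (0 : ℝ) * (if x ∈ A j then (1 : ℝ) else 0) = 0 := fun j _ => zero_mul _
          rw [Finset.sum_congr rfl h0, Finset.sum_const_zero, mul_zero, zero_add]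
          refine Finset.sum_nonneg fun j _ => ?_
          split_ifs <;> norm_num
      have hcn : cnt x ^ 2 ≤ R * cnt x + ∑ i ∈ I, ∑ j ∈ I,
          (if key i ≠ key j then (if x ∈ A i ∩ A j then (1 : ℝ) else 0) else 0) := by
        rw [hsplit]
        refine (Finset.sum_le_sum hi).trans ?_
        rw [Finset.sum_add_distrib, ← Finset.mul_sum]
      have h3 := mul_le_mul_of_nonneg_left hcn (hμ x hxO)
      refine h3.trans (le_of_eq ?_)
      have e5 : μ x * ∑ i ∈ I, ∑ j ∈ I,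
            (if key i ≠ key j then (if x ∈ A i ∩ A j then (1 : ℝ) else 0) else 0) =
          ∑ i ∈ I, ∑ j ∈ I, (if key i ≠ key j then
            μ x * (if x ∈ A i ∩ A j then (1 : ℝ) else 0) else 0) := by
        rw [Finset.mul_sum]
        refine Finset.sum_congr rfl fun i _ => ?_
        rw [Finset.mul_sum]
        refine Finset.sum_congr rfl fun j _ => ?_
        split_ifs <;> simp
      rw [mul_add, e5]
      ring
    refine (Finset.sum_le_sum hx).trans ?_
    rw [Finset.sum_add_distrib, ← Finset.mul_sum, ← hS1]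
    refine add_le_add le_rfl ?_
    rw [Finset.sum_comm]
    have h4 : ∀ i ∈ I, ∑ x ∈ Om, ∑ j ∈ I, (if key i ≠ key j then
          μ x * (if x ∈ A i ∩ A j then (1 : ℝ) else 0) else 0) ≤ (I.card : ℝ) * o := by
      intro i hi
      rw [Finset.sum_comm]
      have h5 : ∀ j ∈ I, ∑ x ∈ Om, (if key i ≠ key j then
          μ x * (if x ∈ A i ∩ A j then (1 : ℝ) else 0) else 0) ≤ o := by
        intro j hj
        by_cases hk : key i ≠ key j
        · simp only [if_pos hk]
          refine le_trans (le_of_eq ?_) (hov i hi j hj hk)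
          rw [← Finset.sum_filter_add_sum_filter_not Om (fun x => x ∈ A i ∩ A j)]
          have h1 : Om.filter (fun x => x ∈ A i ∩ A j) = A i ∩ A j := by
            ext x
            simp only [Finset.mem_filter]
            exact ⟨fun h => h.2, fun h => ⟨hA i hi (Finset.mem_inter.1 h).1, h⟩⟩
          have h2 : ∑ x ∈ Om.filter (fun x => ¬ x ∈ A i ∩ A j),
              μ x * (if x ∈ A i ∩ A j then (1 : ℝ) else 0) = 0 := by
            refine Finset.sum_eq_zero fun x hx => ?_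
            rw [if_neg (Finset.mem_filter.1 hx).2, mul_zero]
          rw [h2, add_zero, h1]
          exact Finset.sum_congr rfl fun x hx => by rw [if_pos hx, mul_one]
        · simp only [if_neg hk, Finset.sum_const_zero]
          exact ho
      refine (Finset.sum_le_sum h5).trans (le_of_eq ?_)
      rw [Finset.sum_const, nsmul_eq_mul]
    refine (Finset.sum_le_sum h4).trans (le_of_eq ?_)
    rw [Finset.sum_const, nsmul_eq_mul]
    ring
  have hm0 : 0 ≤ ∑ x ∈ Om, μ x := Finset.sum_nonneg hμ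
  have hq0 : 0 ≤ ∑ x ∈ Om, μ x * cnt x ^ 2 :=
    Finset.sum_nonneg fun x hx => mul_nonneg (hμ x hx) (sq_nonneg _)
  calc S ^ 2 ≤ (∑ x ∈ Om, μ x) * ∑ x ∈ Om, μ x * cnt x ^ 2 := hC
    _ ≤ m * ∑ x ∈ Om, μ x * cnt x ^ 2 := mul_le_mul_of_nonneg_right hm hq0
    _ ≤ m * (R * S + (I.card : ℝ) ^ 2 * o) :=
        mul_le_mul_of_nonneg_left hsq (hm0.trans hm)

/-- **abstract count**: all masses together are `≤ 2 m R`, if `2 m o ≤ a²` -/
theorem bonf (Om : Finset Ω) (I : Finset ι) (key : ι → κ) (A : ι → Finset Ω) (μ : Ω → ℝ)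
    {a o m R : ℝ} (hμ : ∀ x ∈ Om, 0 ≤ μ x) (hA : ∀ i ∈ I, A i ⊆ Om) (ho : 0 ≤ o) (ha : 0 < a)
    (hR0 : 0 ≤ R) (hmass : ∀ i ∈ I, a ≤ ∑ x ∈ A i, μ x)
    (hov : ∀ i ∈ I, ∀ j ∈ I, key i ≠ key j → ∑ x ∈ A i ∩ A j, μ x ≤ o)
    (hR : ∀ x ∈ Om, ∀ i ∈ I, x ∈ A i → ((I.filter fun j => key j = key i ∧ x ∈ A j).card : ℝ) ≤ R)
    (hm : ∑ x ∈ Om, μ x ≤ m) (hs : 2 * m * o ≤ a ^ 2) :
    ∑ i ∈ I, ∑ x ∈ A i, μ x ≤ 2 * m * R ∧ (I.card : ℝ) * a ≤ 2 * m * R := by
  have h1 := bonf_sq Om I key A μ hμ hA ho hov hR hm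
  set S := ∑ i ∈ I, ∑ x ∈ A i, μ x with hS
  have hm0 : 0 ≤ m := (Finset.sum_nonneg hμ).trans hm
  have hN : (I.card : ℝ) * a ≤ S := by
    have := Finset.sum_le_sum hmass
    rw [Finset.sum_const, nsmul_eq_mul] at this
    exact this
  have hN0 : 0 ≤ (I.card : ℝ) * a := by positivity
  have hS0 : 0 ≤ S := hN0.trans hN
  have h2 : (I.card : ℝ) ^ 2 * a ^ 2 ≤ S ^ 2 := by
    rw [← mul_pow]
    exact pow_le_pow_left₀ hN0 hN 2
  have h3 : 2 * (m * ((I.card : ℝ) ^ 2 * o)) ≤ S ^ 2 := by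
    calc 2 * (m * ((I.card : ℝ) ^ 2 * o)) = (I.card : ℝ) ^ 2 * (2 * m * o) := by ring
      _ ≤ (I.card : ℝ) ^ 2 * a ^ 2 := mul_le_mul_of_nonneg_left hs (sq_nonneg _)
      _ ≤ S ^ 2 := h2
  have h4 : S * S ≤ (2 * m * R) * S := by nlinarith
  have h5 : S ≤ 2 * m * R := by
    rcases hS0.eq_or_lt with h | h
    · rw [← h]; positivity
    · exact le_of_mul_le_mul_right h4 h
  exact ⟨h5, hN.trans h5⟩



end abstract

/-! ### natural masses -/

section masses

open Classical

/-- all primes of `n` are `> Y` -/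
def Rough (Y : ℝ) (n : ℕ) : Prop := ∀ p : ℕ, p.Prime → p ∣ n → Y < p

lemma rough_one (Y : ℝ) : Rough Y 1 := fun _ hp h => absurd (Nat.dvd_one.1 h) hp.ne_one

lemma Rough.dvd {Y : ℝ} {a b : ℕ} (h : Rough Y b) (hab : a ∣ b) : Rough Y a :=
  fun p hp hpa => h p hp (hpa.trans hab)

lemma rough_mul {Y : ℝ} {a b : ℕ} : Rough Y (a * b) ↔ Rough Y a ∧ Rough Y b := by
  constructor
  · exact fun h => ⟨h.dvd (Nat.dvd_mul_right a b), h.dvd (Nat.dvd_mul_left b a)⟩
  · rintro ⟨h1, h2⟩ p hp hd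
    rcases hp.dvd_mul.1 hd with h | h
    · exact h1 p hp h
    · exact h2 p hp h

lemma Rough.lt_of_ne_one {Y : ℝ} {n : ℕ} (h : Rough Y n) (h0 : 0 < n) (h1 : n ≠ 1) : Y < n := by
  have hp := Nat.minFac_prime h1
  have h2 := h _ hp (Nat.minFac_dvd n)
  have h3 : (n.minFac : ℝ) ≤ n := by exact_mod_cast Nat.minFac_le h0
  linarith

/-- `Σ_{σ ∣ N, σ Y-rough} ν_N(σ) = ∏_{p ∣ N, p ≤ Y} (1 - 1/p)` -/
theorem rough_sum (Y : ℝ) : ∀ N : ℕ, 0 < N →
    ∑ σ ∈ N.divisors, (if Rough Y σ then nu N σ else 0) =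
      ∏ p ∈ N.primeFactors.filter (fun p : ℕ => (p : ℝ) ≤ Y), (1 - 1 / (p : ℝ)) := by
  refine ind_min ?_ ?_
  · simp [rough_one, nu]
  · intro p a M1 hp ha hM1 hnd _ ih
    have hcop : Nat.Coprime (p ^ a) M1 :=
      Nat.Coprime.pow_left a ((Nat.Prime.coprime_iff_not_dvd hp).2 hnd)
    rw [sum_split hp a hM1 hnd]
    have hstep : ∀ v ∈ range (a + 1), ∑ b1 ∈ M1.divisors,
        (if Rough Y (p ^ v * b1) then nu (p ^ a * M1) (p ^ v * b1) else 0) =
        (if (v = 0 ∨ Y < p) then nup p a v else 0) *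
          ∑ b1 ∈ M1.divisors, (if Rough Y b1 then nu M1 b1 else 0) := by
      intro v hv
      rw [Finset.mem_range] at hv
      rw [Finset.mul_sum]
      refine Finset.sum_congr rfl fun b1 hb1 => ?_
      rw [Nat.mem_divisors] at hb1
      have hnu : nu (p ^ a * M1) (p ^ v * b1) = nup p a v * nu M1 b1 := by
        rw [nu_mul hcop (pow_dvd_pow p (by omega)) hb1.1, nu_prime_pow hp (by omega)]
      have hr : Rough Y (p ^ v) ↔ (v = 0 ∨ Y < p) := by
        constructor
        · intro h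
          by_cases hv0 : v = 0
          · exact Or.inl hv0
          · exact Or.inr (h p hp (dvd_pow_self p hv0))
        · rintro (h | h)
          · rw [h, pow_zero]; exact rough_one Y
          · intro r hr hd
            have := (Nat.prime_dvd_prime_iff_eq hr hp).1 (hr.dvd_of_dvd_pow hd)
            rw [this]; exact h
      rw [hnu]
      by_cases h1 : (v = 0 ∨ Y < p)
      · by_cases h2 : Rough Y b1
        · rw [if_pos (rough_mul.2 ⟨hr.2 h1, h2⟩), if_pos h1, if_pos h2]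
        · rw [if_neg (fun h => h2 (rough_mul.1 h).2), if_neg h2, mul_zero]
      · rw [if_neg (fun h => h1 (hr.1 (rough_mul.1 h).1)), if_neg h1, zero_mul]
    rw [Finset.sum_congr rfl hstep, ← Finset.sum_mul, ih]
    have hpf : (p ^ a * M1).primeFactors = insert p M1.primeFactors := by
      rw [Nat.Coprime.primeFactors_mul hcop, Nat.primeFactors_prime_pow ha.ne' hp]
      rfl
    have hpn : p ∉ M1.primeFactors := fun h => hnd (Nat.dvd_of_mem_primeFactors h)
    have hsum1 : ∑ v ∈ range (a + 1), nup p a v = 1 := by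
      have h := sum_nu (pow_pos hp.pos a)
      rw [Nat.sum_divisors_prime_pow hp] at h
      rw [← h]
      refine Finset.sum_congr rfl fun v hv => ?_
      rw [Finset.mem_range] at hv
      rw [nu_prime_pow hp (by omega)]
    rw [hpf, Finset.filter_insert]
    by_cases hY : (p : ℝ) ≤ Y
    · rw [if_pos hY, Finset.prod_insert (by
        intro h
        exact hpn (Finset.mem_filter.1 h).1)]
      congr 1
      rw [Finset.sum_range_succ']
      have h0 : ∑ k ∈ range a, (if (k + 1 = 0 ∨ Y < p) then nup p a (k + 1) else 0) = 0 := by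
        refine Finset.sum_eq_zero fun k _ => ?_
        rw [if_neg]
        rintro (h | h)
        · omega
        · linarith
      rw [h0, zero_add, if_pos (Or.inl rfl)]
      unfold nup
      rw [if_pos ha]
      simp
    · rw [if_neg hY]
      have h1 : ∀ v ∈ range (a + 1), (if (v = 0 ∨ Y < p) then nup p a v else 0) = nup p a v :=
        fun v _ => if_pos (Or.inr (lt_of_not_ge hY))
      rw [Finset.sum_congr rfl h1, hsum1, one_mul]

/-- thinning factor of the star of `h` at level `Y` -/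
noncomputable def V (M : ℕ) (Y : ℝ) (h : ℕ) : ℝ :=
  ∏ p ∈ (M / h).primeFactors.filter (fun p : ℕ => (p : ℝ) ≤ Y), (1 - 1 / (p : ℝ))

/-- star of `h`: `h ∣ b` and `b / h` has only primes `> Y` -/
noncomputable def St (M : ℕ) (Y : ℝ) (h : ℕ) : Finset ℕ :=
  M.divisors.filter (fun b => h ∣ b ∧ Rough Y (b / h))

lemma mem_St {M : ℕ} {Y : ℝ} {h b : ℕ} :
    b ∈ St M Y h ↔ (b ∣ M ∧ M ≠ 0) ∧ h ∣ b ∧ Rough Y (b / h) := by
  unfold St
  rw [Finset.mem_filter, Nat.mem_divisors]

lemma factor_bounds {p : ℕ} (hp : p.Prime) : 0 < 1 - 1 / (p : ℝ) ∧ 1 - 1 / (p : ℝ) ≤ 1 := by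
  have h2 : (2 : ℝ) ≤ p := by exact_mod_cast hp.two_le
  have h3 : 1 / (p : ℝ) ≤ 1 / 2 := one_div_le_one_div_of_le (by norm_num) h2
  have h4 : (0 : ℝ) ≤ 1 / p := by positivity
  constructor <;> linarith

lemma V_pos (M : ℕ) (Y : ℝ) (h : ℕ) : 0 < V M Y h :=
  Finset.prod_pos fun _ hp =>
    (factor_bounds (Nat.prime_of_mem_primeFactors (Finset.mem_filter.1 hp).1)).1

lemma V_le_one (M : ℕ) (Y : ℝ) (h : ℕ) : V M Y h ≤ 1 :=
  Finset.prod_le_one
    (fun _ hp => (factor_bounds (Nat.prime_of_mem_primeFactors (Finset.mem_filter.1 hp).1)).1.le)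
    (fun _ hp => (factor_bounds (Nat.prime_of_mem_primeFactors (Finset.mem_filter.1 hp).1)).2)

lemma nu_mul_left {M h σ : ℕ} (hM : 0 < M) (hh : h ∣ M) :
    nu M (h * σ) = nu (M / h) σ / h := by
  have hh0 : 0 < h := Nat.pos_of_dvd_of_pos hh hM
  have hhr : (h : ℝ) ≠ 0 := by exact_mod_cast hh0.ne'
  have hMr : (M : ℝ) ≠ 0 := by exact_mod_cast hM.ne'
  unfold nu
  rw [← Nat.div_div_eq_div_mul, Nat.cast_div hh hhr]
  field_simp

/-- **mass of a star** -/
theorem mass_rough {M : ℕ} (hM : 0 < M) (Y : ℝ) {h : ℕ} (hh : h ∣ M) :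
    ∑ b ∈ St M Y h, nu M b = V M Y h / h := by
  have hh0 : 0 < h := Nat.pos_of_dvd_of_pos hh hM
  have hMh : 0 < M / h := Nat.div_pos (Nat.le_of_dvd hM hh) hh0
  have hfac : M = h * (M / h) := (Nat.mul_div_cancel' hh).symm
  have h1 : ∑ b ∈ St M Y h, nu M b =
      ∑ σ ∈ (M / h).divisors.filter (fun σ => Rough Y σ), nu M (h * σ) := by
    symm
    refine Finset.sum_bij (fun σ _ => h * σ) ?_ ?_ ?_ ?_
    · intro σ hσ
      rw [Finset.mem_filter, Nat.mem_divisors] at hσ
      rw [mem_St]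
      refine ⟨⟨?_, hM.ne'⟩, Nat.dvd_mul_right h σ, ?_⟩
      · rw [hfac]; exact Nat.mul_dvd_mul_left h hσ.1.1
      · rw [Nat.mul_div_cancel_left σ hh0]; exact hσ.2
    · intro σ _ σ' _ he
      exact Nat.eq_of_mul_eq_mul_left hh0 he
    · intro b hb
      rw [mem_St] at hb
      obtain ⟨⟨hbM, _⟩, hhb, hr⟩ := hb
      refine ⟨b / h, ?_, Nat.mul_div_cancel' hhb⟩
      rw [Finset.mem_filter, Nat.mem_divisors]
      exact ⟨⟨Nat.div_dvd_div hhb hbM, hMh.ne'⟩, hr⟩
    · intro σ _; rfl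
  rw [h1]
  have h2 : ∀ σ ∈ (M / h).divisors.filter (fun σ => Rough Y σ), nu M (h * σ) =
      nu (M / h) σ / h := fun σ _ => nu_mul_left hM hh
  rw [Finset.sum_congr rfl h2, ← Finset.sum_div, Finset.sum_filter, rough_sum Y _ hMh]
  rfl


lemma St_inter {M : ℕ} {Y : ℝ} {h h' : ℕ} (hh : 0 < h) (hh' : 0 < h') :
    St M Y h ∩ St M Y h' ⊆ St M Y (Nat.lcm h h') := by
  intro b hb
  rw [Finset.mem_inter, mem_St, mem_St] at hb
  obtain ⟨⟨h1, h2, h3⟩, _, h4, _⟩ := hb
  rw [mem_St]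
  refine ⟨h1, Nat.lcm_dvd h2 h4, ?_⟩
  refine h3.dvd ?_
  obtain ⟨c, hc⟩ := Nat.dvd_lcm_left h h'
  obtain ⟨d, hd⟩ := Nat.lcm_dvd h2 h4
  have hl : 0 < Nat.lcm h h' := Nat.lcm_pos hh hh'
  have e1 : b / Nat.lcm h h' = d := by
    conv_lhs => rw [hd]
    exact Nat.mul_div_cancel_left d hl
  have e2 : b / h = c * d := by
    conv_lhs => rw [hd, hc, mul_assoc]
    exact Nat.mul_div_cancel_left _ hh
  rw [e1, e2]
  exact Nat.dvd_mul_left d c

lemma lcm_rough {M : ℕ} {Y : ℝ} {h h' b : ℕ} (hb : b ∈ St M Y h)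
    (hb' : b ∈ St M Y h') : Rough Y (Nat.lcm h h' / h) := by
  rw [mem_St] at hb hb'
  obtain ⟨h1, h2, h3⟩ := hb
  refine h3.dvd ?_
  exact Nat.div_dvd_div (Nat.dvd_lcm_left h h') (Nat.lcm_dvd h2 hb'.2.1)

/-- two different pivots of the same dyadic size: `lcm > h Y` as soon as their stars meet -/
lemma lcm_gt {M : ℕ} {Y X : ℝ} {h h' b : ℕ} (hb : b ∈ St M Y h)
    (hb' : b ∈ St M Y h') (hX : 0 < X) (h1 : X ≤ h) (h2 : (h : ℝ) < 2 * X) (h1' : X ≤ h')
    (_h2' : (h' : ℝ) < 2 * X) (hne : h ≠ h') : Y * h < Nat.lcm h h' := by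
  have hh : 0 < h := by
    have : (0 : ℝ) < h := lt_of_lt_of_le hX h1
    exact_mod_cast this
  have hh' : 0 < h' := by
    have : (0 : ℝ) < h' := lt_of_lt_of_le hX h1'
    exact_mod_cast this
  have hr := lcm_rough hb hb'
  have hl : 0 < Nat.lcm h h' := Nat.lcm_pos hh hh'
  have hq : 0 < Nat.lcm h h' / h := Nat.div_pos (Nat.le_of_dvd hl (Nat.dvd_lcm_left h h')) hh
  have hq1 : Nat.lcm h h' / h ≠ 1 := by
    intro h3
    have h4 : Nat.lcm h h' = h := by
      have := Nat.div_mul_cancel (Nat.dvd_lcm_left h h')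
      rw [h3, one_mul] at this
      exact this.symm
    have h5 : h' ∣ h := by rw [← h4]; exact Nat.dvd_lcm_right h h'
    obtain ⟨k, hk⟩ := h5
    have hk2 : 2 ≤ k := by
      rcases Nat.lt_or_ge k 2 with h6 | h6
      · interval_cases k
        · rw [mul_zero] at hk; omega
        · rw [mul_one] at hk; exact absurd hk hne
      · exact h6
    have h7 : (h : ℝ) = h' * k := by exact_mod_cast hk
    have h8 : (2 : ℝ) ≤ k := by exact_mod_cast hk2
    nlinarith
  have h3 := hr.lt_of_ne_one hq hq1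
  have h4 : ((Nat.lcm h h' / h : ℕ) : ℝ) * h = (Nat.lcm h h' : ℕ) := by
    exact_mod_cast Nat.div_mul_cancel (Nat.dvd_lcm_left h h')
  rw [← h4]
  have h5 : (0 : ℝ) < h := by exact_mod_cast hh
  exact mul_lt_mul_of_pos_right h3 h5

end masses

/-! ### active pivots, 2645 (1) -/

section pivots

open Classical

/-- **2645 (1), number of active pivots** (nodes `i` = (pivot `hn i`, further label), `Q i b` = further
condition of the node, at most `R` nodes over one pivot contain one `b`). -/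
theorem pivots {ι : Type*} {M : ℕ} (hM : 0 < M) {L T Y v δ m R : ℝ} (hL : 0 < L) (hT : 0 < T)
    (hY : 0 < Y) (hv : 0 < v) (hδ : 0 < δ) (hR0 : 0 ≤ R)
    (B : Finset ℕ) (hmass : L * ∑ b ∈ B, nu M b ≤ m)
    (I : Finset ι) (hn : ι → ℕ) (Q : ι → ℕ → Prop)
    (h1 : ∀ i ∈ I, hn i ∣ M ∧ T * L ≤ hn i ∧ (hn i : ℝ) < 2 * (T * L))
    (hV : ∀ i ∈ I, v ≤ V M Y (hn i))
    (hact : ∀ i ∈ I, δ * (V M Y (hn i) / hn i) ≤
      ∑ b ∈ B.filter (fun b => b ∈ St M Y (hn i) ∧ Q i b), nu M b)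
    (hR : ∀ b ∈ B, ∀ i ∈ I, ((I.filter fun j => hn j = hn i ∧ Q j b).card : ℝ) ≤ R)
    (hs : 2 * m / (T * Y) ≤ (δ * v / (2 * T)) ^ 2) :
    (I.card : ℝ) * (δ * v / (2 * T)) ≤ 2 * m * R := by
  have hTL : 0 < T * L := by positivity
  have hpos : ∀ i ∈ I, (0 : ℝ) < hn i := fun i hi => lt_of_lt_of_le hTL (h1 i hi).2.1
  refine (bonf B I hn (fun i => B.filter (fun b => b ∈ St M Y (hn i) ∧ Q i b))
    (fun b => L * nu M b) (a := δ * v / (2 * T)) (o := 1 / (T * Y)) (m := m) (R := R)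
    (fun b _ => mul_nonneg hL.le (nu_nonneg M b)) (fun i _ => Finset.filter_subset _ _)
    (by positivity) (by positivity) hR0 ?_ ?_ ?_ ?_ ?_).2
  · intro i hi
    rw [← Finset.mul_sum]
    have h2 := mul_le_mul_of_nonneg_left (hact i hi) hL.le
    refine le_trans ?_ h2
    have h3 : v / (2 * (T * L)) ≤ V M Y (hn i) / hn i :=
      div_le_div₀ (V_pos M Y (hn i)).le (hV i hi) (hpos i hi) (h1 i hi).2.2.le
    have h4 : δ * v / (2 * T) = L * (δ * (v / (2 * (T * L)))) := by field_simp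
    rw [h4]
    exact mul_le_mul_of_nonneg_left (mul_le_mul_of_nonneg_left h3 hδ.le) hL.le
  · intro i hi j hj hij
    rcases Finset.eq_empty_or_nonempty
      ((B.filter (fun b => b ∈ St M Y (hn i) ∧ Q i b)) ∩
        (B.filter (fun b => b ∈ St M Y (hn j) ∧ Q j b))) with h0 | ⟨b0, hb0⟩
    · rw [h0, Finset.sum_empty]; positivity
    · rw [Finset.mem_inter, Finset.mem_filter, Finset.mem_filter] at hb0
      obtain ⟨⟨_, hbi, _⟩, _, hbj, _⟩ := hb0
      have hlt := lcm_gt hbi hbj hTL (h1 i hi).2.1 (h1 i hi).2.2 (h1 j hj).2.1 (h1 j hj).2.2 hij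
      have hni : 0 < hn i := by exact_mod_cast hpos i hi
      have hnj : 0 < hn j := by exact_mod_cast hpos j hj
      have hsub : (B.filter (fun b => b ∈ St M Y (hn i) ∧ Q i b)) ∩
          (B.filter (fun b => b ∈ St M Y (hn j) ∧ Q j b)) ⊆ St M Y (Nat.lcm (hn i) (hn j)) := by
        intro b hb
        rw [Finset.mem_inter, Finset.mem_filter, Finset.mem_filter] at hb
        exact St_inter hni hnj (Finset.mem_inter.2 ⟨hb.1.2.1, hb.2.2.1⟩)
      have hlM : Nat.lcm (hn i) (hn j) ∣ M := Nat.lcm_dvd (h1 i hi).1 (h1 j hj).1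
      have hl0 : (0 : ℝ) < (Nat.lcm (hn i) (hn j) : ℕ) := by
        exact_mod_cast Nat.lcm_pos hni hnj
      calc ∑ b ∈ (B.filter (fun b => b ∈ St M Y (hn i) ∧ Q i b)) ∩
            (B.filter (fun b => b ∈ St M Y (hn j) ∧ Q j b)), L * nu M b
          ≤ ∑ b ∈ St M Y (Nat.lcm (hn i) (hn j)), L * nu M b :=
            Finset.sum_le_sum_of_subset_of_nonneg hsub
              (fun b _ _ => mul_nonneg hL.le (nu_nonneg M b))
        _ = L * (V M Y (Nat.lcm (hn i) (hn j)) / (Nat.lcm (hn i) (hn j) : ℕ)) := by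
            rw [← Finset.mul_sum, mass_rough hM Y hlM]
        _ ≤ L * (1 / (Y * (T * L))) := by
            refine mul_le_mul_of_nonneg_left ?_ hL.le
            refine div_le_div₀ zero_le_one (V_le_one M Y _) (by positivity) ?_
            refine le_trans ?_ hlt.le
            exact mul_le_mul_of_nonneg_left (h1 i hi).2.1 hY.le
        _ = 1 / (T * Y) := by field_simp
  · intro b hb i hi hbi
    refine le_trans ?_ (hR b hb i hi)
    have hsub : (I.filter fun j => hn j = hn i ∧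
        b ∈ B.filter (fun b => b ∈ St M Y (hn j) ∧ Q j b)) ⊆
        I.filter fun j => hn j = hn i ∧ Q j b := by
      intro j hj
      rw [Finset.mem_filter] at hj ⊢
      exact ⟨hj.1, hj.2.1, (Finset.mem_filter.1 hj.2.2).2.2⟩
    exact_mod_cast Finset.card_le_card hsub
  · rw [← Finset.mul_sum]; exact hmass
  · refine le_trans (le_of_eq ?_) hs
    ring

end pivots

/-! ### dense nodes, 2520 (1) -/

section dense

open Classical

variable {M : ℕ} {x L T ε M0 : ℝ}





end dense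

/-! ### lower bound for the thinning factor -/

section thinning

open Crest.Agent.Lib.Mertens in
/-- `V M Y h ≥ e^{-13} / log Y` for `Y ≥ 2` -/
theorem V_ge (M h : ℕ) {Y : ℝ} (hY : 2 ≤ Y) : Real.exp (-13) / Real.log Y ≤ V M Y h := by
  classical
  have hlog2 : (0.69 : ℝ) < Real.log 2 := by linarith [Real.log_two_gt_d9]
  have hlog2' : Real.log 2 < 0.7 := by linarith [Real.log_two_lt_d9]
  set n := ⌊Y⌋₊ with hn
  have hn2 : 2 ≤ n := by
    rw [hn]
    exact Nat.le_floor (by exact_mod_cast hY)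
  have hnY : (n : ℝ) ≤ Y := Nat.floor_le (by linarith)
  have hn0 : (0 : ℝ) < n := by
    have : 0 < n := by omega
    exact_mod_cast this
  have hlY : 0 < Real.log Y := Real.log_pos (by linarith)
  have hln : 0 < Real.log n := Real.log_pos (by exact_mod_cast hn2)
  have hlnY : Real.log n ≤ Real.log Y := Real.log_le_log hn0 hnY
  -- the product over all primes `≤ n`
  have hsub : (M / h).primeFactors.filter (fun p : ℕ => (p : ℝ) ≤ Y) ⊆
      insert 2 (primesIoc 2 n) := by
    intro p hp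
    rw [Finset.mem_filter] at hp
    have hpp := Nat.prime_of_mem_primeFactors hp.1
    have hpn : p ≤ n := Nat.le_floor hp.2
    rw [Finset.mem_insert, mem_primesIoc]
    rcases hpp.two_le.eq_or_lt with h2 | h2
    · exact Or.inl h2.symm
    · exact Or.inr ⟨⟨h2, hpn⟩, hpp⟩
  have hprimes : ∀ p ∈ insert 2 (primesIoc 2 n), p.Prime := by
    intro p hp
    rw [Finset.mem_insert, mem_primesIoc] at hp
    rcases hp with h2 | h2
    · rw [h2]; exact Nat.prime_two
    · exact h2.2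
  have h1 : ∏ p ∈ insert 2 (primesIoc 2 n), (1 - 1 / (p : ℝ)) ≤ V M Y h := by
    rw [← Finset.prod_sdiff hsub]
    have h2 : ∏ p ∈ insert 2 (primesIoc 2 n) \
        (M / h).primeFactors.filter (fun p : ℕ => (p : ℝ) ≤ Y), (1 - 1 / (p : ℝ)) ≤ 1 :=
      Finset.prod_le_one
        (fun p hp => (factor_bounds (hprimes p (Finset.mem_sdiff.1 hp).1)).1.le)
        (fun p hp => (factor_bounds (hprimes p (Finset.mem_sdiff.1 hp).1)).2)
    exact mul_le_of_le_one_left (V_pos M Y h).le h2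
  refine le_trans ?_ h1
  rw [Finset.prod_insert (by rw [mem_primesIoc]; omega), prod_eq_exp]
  have h2 := L_le 2 n (by norm_num) hn2
  have h3 := mertens_two_nat 2 n le_rfl hn2
  rw [abs_le] at h3
  have h4 : Crest.Agent.Lib.Mertens.L 2 n ≤
      Real.log (Real.log Y) - Real.log (Real.log 2) + 11 := by
    have h5 : 7 / Real.log ((2 : ℕ) : ℝ) ≤ 10.2 := by
      push_cast
      rw [div_le_iff₀ (by linarith)]
      nlinarith
    have h6 : Real.log (Real.log n) ≤ Real.log (Real.log Y) := Real.log_le_log hln hlnY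
    have h7 := h3.2
    push_cast at h2 h7 h5
    linarith
  have h5 : Real.exp (-(Real.log (Real.log Y) - Real.log (Real.log 2) + 11)) ≤
      Real.exp (-Crest.Agent.Lib.Mertens.L 2 n) := Real.exp_le_exp.2 (by linarith)
  have h6 : Real.exp (-(Real.log (Real.log Y) - Real.log (Real.log 2) + 11)) =
      Real.exp (-11) * Real.log 2 / Real.log Y := by
    have e : -(Real.log (Real.log Y) - Real.log (Real.log 2) + 11) =
        -11 + Real.log (Real.log 2) - Real.log (Real.log Y) := by ring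
    rw [e, Real.exp_sub, Real.exp_add, Real.exp_log hlY, Real.exp_log (by linarith)]
  have h7 : Real.exp (-13) ≤ Real.exp (-11) * (1 / 2 * Real.log 2) := by
    have e1 : Real.exp (-13) = Real.exp (-11) * Real.exp (-2) := by
      rw [← Real.exp_add]; norm_num
    rw [e1]
    refine mul_le_mul_of_nonneg_left ?_ (Real.exp_pos _).le
    have e2 : Real.exp (-2) ≤ 1 / 4 := by
      rw [Real.exp_neg]
      rw [inv_eq_one_div]
      refine one_div_le_one_div_of_le (by norm_num) ?_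
      have e3 : Real.exp 2 = Real.exp 1 * Real.exp 1 := by rw [← Real.exp_add]; norm_num
      have e4 := Real.add_one_le_exp (1 : ℝ)
      rw [e3]
      nlinarith
    linarith
  calc Real.exp (-13) / Real.log Y
      ≤ Real.exp (-11) * (1 / 2 * Real.log 2) / Real.log Y :=
        div_le_div_of_nonneg_right h7 hlY.le
    _ = (1 - 1 / ((2 : ℕ) : ℝ)) * (Real.exp (-11) * Real.log 2 / Real.log Y) := by
        push_cast
        ring
    _ ≤ (1 - 1 / ((2 : ℕ) : ℝ)) * Real.exp (-Crest.Agent.Lib.Mertens.L 2 n) := by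
        refine mul_le_mul_of_nonneg_left ?_ (factor_bounds Nat.prime_two).1.le
        rw [← h6]
        exact h5


end thinning

end Crest.Agent.R4C.Pivotsx80
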