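import Mathlib
import Crest.Agent.Lib.Mertens
import Crest.Agent.R4C.Base_935

/-!
# Row 4: counting leaves (helper952)

* `Rough x n` : every prime factor of `n` is `> x`.
* `card_rough_le` : `#{1 ≤ n ≤ N rough} ≤ C N / log x` for `2 ≤ x ≤ N`;
  `card_rough_all` : `≤ 1 + C N / log x` for all `N`; `card_rough_Ico` : the window `[Y, 2Y)`.
* `recip_rough_le` : `∑_{n ≤ N, rough} 1/n ≤ C log N / log x`.
* `sum_inv_primes_window` : `∑_{X ≤ p ≤ XT} 1/p ≤ (log T + 19) / log X`.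
* Rankin: `rankin_smooth`, `rankin_nu`.
-/

set_option autoImplicit false

open Finset

namespace Crest.Agent.R4C.Countsx952

/-- all prime factors are larger than `x` -/
def Rough (x : ℝ) (n : ℕ) : Prop := ∀ p : ℕ, p.Prime → p ∣ n → x < p

lemma Rough.of_dvd {x : ℝ} {m n : ℕ} (h : Rough x n) (hd : m ∣ n) : Rough x m :=
  fun p hp hpd => h p hp (hpd.trans hd)

lemma Rough.one (x : ℝ) : Rough x 1 := fun p hp hd => by
  have := Nat.dvd_one.1 hd
  exact absurd this hp.ne_one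

lemma Rough.ne_zero {x : ℝ} (hx : 2 ≤ x) {n : ℕ} (h : Rough x n) : n ≠ 0 := by
  rintro rfl
  have := h 2 Nat.prime_two (dvd_zero _)
  norm_num at this
  linarith

lemma Rough.eq_one {x : ℝ} (hx : 2 ≤ x) {n : ℕ} (h : Rough x n) (hn : (n : ℝ) ≤ x) : n = 1 := by
  by_contra h1
  obtain ⟨p, hp, hd⟩ := Nat.exists_prime_and_dvd h1
  have h2 := h p hp hd
  have h3 : p ≤ n := Nat.le_of_dvd (Nat.pos_of_ne_zero (h.ne_zero hx)) hd
  have h4 : (p : ℝ) ≤ n := by exact_mod_cast h3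
  linarith

open Classical in
/-- the rough numbers in `[1, M]` -/
noncomputable def RF (x : ℝ) (M : ℕ) : Finset ℕ := (Icc 1 M).filter (Rough x)

lemma mem_RF {x : ℝ} {M n : ℕ} : n ∈ RF x M ↔ (1 ≤ n ∧ n ≤ M) ∧ Rough x n := by
  classical
  unfold RF
  rw [mem_filter, mem_Icc]

/-- reciprocal sum of rough numbers against the Euler product -/
lemma recip_le_prod {x N : ℝ} (hx : 2 ≤ x) (hN : x ≤ N) :
    ∑ m ∈ RF x ⌊N⌋₊, (1 : ℝ) / m ≤ ∏ p ∈ Lib.Mertens.pr x N, (1 - 1 / (p : ℝ))⁻¹ := by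
  classical
  set s := Lib.Mertens.pr x N with hs
  let f : ℕ →* ℝ :=
    { toFun := fun n => (1 : ℝ) / n
      map_one' := by simp
      map_mul' := fun a b => by push_cast; rw [one_div_mul_one_div] }
  have hf : ∀ n, f n = (1 : ℝ) / n := fun n => rfl
  have h0 := (EulerProduct.summable_and_hasSum_factoredNumbers_prod_filter_prime_geometric (f := f)
    (fun {p} hp => by
      rw [hf, Real.norm_eq_abs, abs_of_nonneg (by positivity), div_lt_one (by exact_mod_cast hp.pos)]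
      exact_mod_cast hp.one_lt) s).2
  have h1 : (s.filter Nat.Prime) = s := by
    rw [Finset.filter_eq_self]
    intro p hp
    rw [hs, Lib.Mertens.mem_pr (by linarith) (by linarith)] at hp
    exact hp.2
  rw [h1] at h0
  have h2 : HasSum (Set.indicator (Nat.factoredNumbers s) (fun n => f n))
      (∏ p ∈ s, (1 - f p)⁻¹) := by
    have := (hasSum_subtype_iff_indicator (f := fun n => f n) (s := Nat.factoredNumbers s)).1 h0
    exact this
  have h3 : ∀ m ∈ RF x ⌊N⌋₊, Set.indicator (Nat.factoredNumbers s) (fun n => f n) m = (1 : ℝ) / m := by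
    intro m hm
    rw [mem_RF] at hm
    rw [Set.indicator_of_mem, hf]
    rw [Nat.mem_factoredNumbers']
    intro p hp hd
    rw [hs, Lib.Mertens.mem_pr (by linarith) (by linarith)]
    refine ⟨⟨hm.2 p hp hd, ?_⟩, hp⟩
    have h4 : p ≤ ⌊N⌋₊ := (Nat.le_of_dvd (by omega) hd).trans hm.1.2
    exact (Nat.le_floor_iff (by linarith)).1 h4
  calc ∑ m ∈ RF x ⌊N⌋₊, (1 : ℝ) / m
      = ∑ m ∈ RF x ⌊N⌋₊, Set.indicator (Nat.factoredNumbers s) (fun n => f n) m :=
        (sum_congr rfl h3).symm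
    _ ≤ ∏ p ∈ s, (1 - f p)⁻¹ := by
        refine sum_le_hasSum _ (fun n _ => ?_) h2
        refine Set.indicator_nonneg (fun n _ => ?_) n
        rw [hf]; positivity
    _ = _ := rfl

/-- the constant of `recip_rough_le` -/
noncomputable def C1 : ℝ := Real.exp (22 / Real.log 2)

lemma C1_pos : 0 < C1 := Real.exp_pos _

theorem recip_rough_le {x N : ℝ} (hx : 2 ≤ x) (hN : x ≤ N) :
    ∑ m ∈ RF x ⌊N⌋₊, (1 : ℝ) / m ≤ C1 * (Real.log N / Real.log x) := by
  have h1 := (Lib.Mertens.mertens_three x N hx hN).1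
  have hlx : 0 < Real.log x := Real.log_pos (by linarith)
  have hlN : 0 < Real.log N := Real.log_pos (by linarith)
  have h2 : (∏ p ∈ Lib.Mertens.pr x N, (1 - 1 / (p : ℝ))⁻¹) ≤
      (Real.exp (-(22 / Real.log x)) * (Real.log x / Real.log N))⁻¹ := by
    rw [prod_inv_distrib]
    exact inv_anti₀ (by positivity) h1
  have h3 : (Real.exp (-(22 / Real.log x)) * (Real.log x / Real.log N))⁻¹ =
      Real.exp (22 / Real.log x) * (Real.log N / Real.log x) := by
    rw [mul_inv, ← Real.exp_neg, neg_neg, inv_div]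
  have h4 : Real.exp (22 / Real.log x) ≤ C1 := by
    unfold C1
    rw [Real.exp_le_exp]
    have : Real.log 2 ≤ Real.log x := Real.log_le_log (by norm_num) hx
    exact div_le_div_of_nonneg_left (by norm_num) (Real.log_pos (by norm_num)) this
  calc _ ≤ _ := recip_le_prod hx hN
    _ ≤ _ := h2
    _ = _ := h3
    _ ≤ _ := mul_le_mul_of_nonneg_right h4 (by positivity)

/-- the constant of Chebyshev's bound -/
noncomputable def C0 : ℝ := Real.log 4 + 4

lemma C0_pos : 0 < C0 := by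
  unfold C0
  have : 0 < Real.log 4 := Real.log_pos (by norm_num)
  linarith

/-- double counting -/
lemma sum_log_le {x N : ℝ} (hx : 2 ≤ x) (hN : x ≤ N) :
    ∑ n ∈ RF x ⌊N⌋₊, Real.log n ≤ C0 * N * ∑ m ∈ RF x ⌊N⌋₊, (1 : ℝ) / m := by
  classical
  set M := ⌊N⌋₊ with hM
  have hN0 : 0 < N := by linarith
  have h1 : ∀ n ∈ RF x M, Real.log n = ∑ m ∈ n.divisors, ArithmeticFunction.vonMangoldt (n / m) := by
    intro n hn
    rw [← ArithmeticFunction.vonMangoldt_sum, Nat.sum_div_divisors n (fun d =>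
      ArithmeticFunction.vonMangoldt d)]
  rw [sum_congr rfl h1]
  have h2 : ∑ n ∈ RF x M, ∑ m ∈ n.divisors, ArithmeticFunction.vonMangoldt (n / m) =
      ∑ m ∈ RF x M, ∑ n ∈ (RF x M).filter (m ∣ ·), ArithmeticFunction.vonMangoldt (n / m) := by
    refine sum_comm' fun n m => ?_
    rw [mem_filter, Nat.mem_divisors]
    constructor
    · rintro ⟨hn, hd, _⟩
      refine ⟨⟨hn, hd⟩, ?_⟩
      rw [mem_RF] at hn ⊢
      have hn0 : 0 < n := by omega
      exact ⟨⟨Nat.pos_of_dvd_of_pos hd hn0, (Nat.le_of_dvd hn0 hd).trans hn.1.2⟩, hn.2.of_dvd hd⟩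
    · rintro ⟨⟨hn, hd⟩, _⟩
      refine ⟨hn, hd, ?_⟩
      rw [mem_RF] at hn
      omega
  rw [h2, mul_sum]
  refine sum_le_sum fun m hm => ?_
  rw [mem_RF] at hm
  have hm0 : 0 < m := by omega
  have hm0' : (0 : ℝ) < m := by exact_mod_cast hm0
  have h3 : ∑ n ∈ (RF x M).filter (m ∣ ·), ArithmeticFunction.vonMangoldt (n / m) ≤
      ∑ d ∈ Ioc 0 (M / m), ArithmeticFunction.vonMangoldt d := by
    have hinj : Set.InjOn (fun n => n / m) ((RF x M).filter (m ∣ ·) : Set ℕ) := by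
      intro a ha b hb hab
      simp only [coe_filter, Set.mem_ofPred_eq] at ha hb
      obtain ⟨u, rfl⟩ := ha.2
      obtain ⟨v, rfl⟩ := hb.2
      simp only [Nat.mul_div_cancel_left _ hm0] at hab
      rw [hab]
    rw [← sum_image (f := fun d => ArithmeticFunction.vonMangoldt d) hinj]
    refine sum_le_sum_of_subset_of_nonneg ?_ fun d _ _ => ArithmeticFunction.vonMangoldt_nonneg
    intro d hd
    rw [mem_image] at hd
    obtain ⟨n, hn, rfl⟩ := hd
    rw [mem_filter, mem_RF] at hn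
    rw [mem_Ioc]
    exact ⟨Nat.div_pos (Nat.le_of_dvd (by omega) hn.2) hm0, Nat.div_le_div_right hn.1.1.2⟩
  refine h3.trans ?_
  have h4 : ∑ d ∈ Ioc 0 (M / m), ArithmeticFunction.vonMangoldt d = Chebyshev.psi ((M / m : ℕ) : ℝ) := by
    unfold Chebyshev.psi
    rw [Nat.floor_natCast]
  rw [h4]
  have h5 := Chebyshev.psi_le_const_mul_self (x := ((M / m : ℕ) : ℝ)) (by positivity)
  refine h5.trans ?_
  have h6 : ((M / m : ℕ) : ℝ) ≤ N / m := by
    refine (Nat.cast_div_le).trans ?_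
    have : (M : ℝ) ≤ N := Nat.floor_le hN0.le
    gcongr
  have h7 : (Real.log 4 + 4) * ((M / m : ℕ) : ℝ) ≤ C0 * (N / m) :=
    mul_le_mul_of_nonneg_left h6 C0_pos.le
  refine h7.trans (le_of_eq ?_)
  ring

/-- constant of the rough count -/
noncomputable def C2 : ℝ := 2 + 2 * C0 * C1

lemma C2_pos : 0 < C2 := by
  have := C0_pos
  have := C1_pos
  unfold C2
  positivity

/-- **rough numbers up to `N`** -/
theorem card_rough_le {x N : ℝ} (hx : 2 ≤ x) (hN : x ≤ N) :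
    ((RF x ⌊N⌋₊).card : ℝ) ≤ C2 * (N / Real.log x) := by
  classical
  have hlx : 0 < Real.log x := Real.log_pos (by linarith)
  have hlN : 0 < Real.log N := Real.log_pos (by linarith)
  have hN0 : 0 < N := by linarith
  have hC0 := C0_pos
  have hC1 := C1_pos
  have hsq : Real.sqrt N * Real.sqrt N = N := Real.mul_self_sqrt hN0.le
  have hsq0 : 0 < Real.sqrt N := Real.sqrt_pos.2 hN0
  set F := RF x ⌊N⌋₊ with hF
  -- small elements
  have h1 : ((F.filter (fun n : ℕ => (n : ℝ) ≤ Real.sqrt N)).card : ℝ) ≤ Real.sqrt N := by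
    have h2 : F.filter (fun n : ℕ => (n : ℝ) ≤ Real.sqrt N) ⊆ Icc 1 ⌊Real.sqrt N⌋₊ := by
      intro n hn
      rw [mem_filter, hF, mem_RF] at hn
      rw [mem_Icc]
      exact ⟨hn.1.1.1, Nat.le_floor hn.2⟩
    have h3 := card_le_card h2
    rw [Nat.card_Icc, Nat.add_sub_cancel] at h3
    calc ((F.filter (fun n : ℕ => (n : ℝ) ≤ Real.sqrt N)).card : ℝ) ≤ (⌊Real.sqrt N⌋₊ : ℝ) := by
          exact_mod_cast h3
      _ ≤ _ := Nat.floor_le hsq0.le
  -- large elements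
  have h2 : ((F.filter (fun n : ℕ => ¬ (n : ℝ) ≤ Real.sqrt N)).card : ℝ) * (Real.log N / 2) ≤
      C0 * N * (C1 * (Real.log N / Real.log x)) := by
    have hlog0 : ∀ n ∈ F, 0 ≤ Real.log (n : ℝ) := by
      intro n hn
      rw [hF, mem_RF] at hn
      exact Real.log_nonneg (by exact_mod_cast hn.1.1)
    calc ((F.filter (fun n : ℕ => ¬ (n : ℝ) ≤ Real.sqrt N)).card : ℝ) * (Real.log N / 2)
        = ∑ _n ∈ F.filter (fun n : ℕ => ¬ (n : ℝ) ≤ Real.sqrt N), Real.log N / 2 := by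
          rw [sum_const, nsmul_eq_mul]
      _ ≤ ∑ n ∈ F.filter (fun n : ℕ => ¬ (n : ℝ) ≤ Real.sqrt N), Real.log n := by
          refine sum_le_sum fun n hn => ?_
          rw [mem_filter] at hn
          have h3 : Real.sqrt N ≤ n := (not_le.1 hn.2).le
          have h4 := Real.log_le_log hsq0 h3
          rwa [Real.log_sqrt hN0.le] at h4
      _ ≤ ∑ n ∈ F, Real.log n :=
          sum_le_sum_of_subset_of_nonneg (filter_subset _ _) fun n hn _ => hlog0 n hn
      _ ≤ C0 * N * ∑ m ∈ F, (1 : ℝ) / m := sum_log_le hx hN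
      _ ≤ _ := mul_le_mul_of_nonneg_left (recip_rough_le hx hN) (by positivity)
  have h3 : ((F.filter (fun n : ℕ => ¬ (n : ℝ) ≤ Real.sqrt N)).card : ℝ) ≤
      2 * C0 * C1 * (N / Real.log x) := by
    have h4 : 2 * C0 * C1 * (N / Real.log x) * (Real.log N / 2) =
        C0 * N * (C1 * (Real.log N / Real.log x)) := by ring
    rw [← h4] at h2
    exact le_of_mul_le_mul_right h2 (by positivity)
  have h4 : Real.sqrt N ≤ 2 * (N / Real.log x) := by
    rw [← mul_div_assoc, le_div_iff₀ hlx]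
    have h5 : Real.log x ≤ Real.log N := Real.log_le_log (by linarith) hN
    have h6 : Real.log N ≤ 2 * Real.sqrt N := by
      have h7 : Real.log N = 2 * Real.log (Real.sqrt N) := by
        rw [Real.log_sqrt hN0.le]; ring
      rw [h7]
      have := Real.log_le_sub_one_of_pos hsq0
      linarith
    calc Real.sqrt N * Real.log x ≤ Real.sqrt N * (2 * Real.sqrt N) :=
          mul_le_mul_of_nonneg_left (h5.trans h6) hsq0.le
      _ = 2 * (Real.sqrt N * Real.sqrt N) := by ring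
      _ = 2 * N := by rw [hsq]
  have h5 : (F.card : ℝ) = ((F.filter (fun n : ℕ => (n : ℝ) ≤ Real.sqrt N)).card : ℝ) +
      ((F.filter (fun n : ℕ => ¬ (n : ℝ) ≤ Real.sqrt N)).card : ℝ) := by
    rw [← Finset.card_filter_add_card_filter_not (s := F) (fun n : ℕ => (n : ℝ) ≤ Real.sqrt N)]
    push_cast
    rfl
  rw [h5]
  unfold C2
  have e : (2 + 2 * C0 * C1) * (N / Real.log x) = 2 * (N / Real.log x) + 2 * C0 * C1 * (N / Real.log x) := by
    ring
  rw [e]
  linarith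



/-! ### primes in a window -/


/-! ### reciprocal sums over windows of rough numbers -/



/-! ### Rankin -/

/-- `p^κ - 1 ≤ κ log p p^κ` -/
lemma rpow_sub_one_le {p κ : ℝ} (hp : 0 < p) : p ^ κ - 1 ≤ κ * Real.log p * p ^ κ := by
  have h1 : p ^ κ = Real.exp (Real.log p * κ) := Real.rpow_def_of_pos hp κ
  rw [h1]
  have h2 := Real.add_one_le_exp (-(Real.log p * κ))
  have h3 : 0 < Real.exp (Real.log p * κ) := Real.exp_pos _
  have h4 : Real.exp (-(Real.log p * κ)) * Real.exp (Real.log p * κ) = 1 := by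
    rw [← Real.exp_add, neg_add_cancel, Real.exp_zero]
  nlinarith

lemma rpow_le_34 {p : ℕ} (hp : 2 ≤ p) {κ : ℝ} (hκ : κ ≤ 1 / 2) :
    (p : ℝ) ^ κ / p ≤ 3 / 4 := by
  have hp2 : (2 : ℝ) ≤ p := by exact_mod_cast hp
  have hp0 : (0 : ℝ) < p := by linarith
  have h1 : (p : ℝ) ^ κ ≤ (p : ℝ) ^ (1 / 2 : ℝ) := Real.rpow_le_rpow_of_exponent_le (by linarith) hκ
  rw [← Real.sqrt_eq_rpow] at h1
  rw [div_le_iff₀ hp0]
  refine h1.trans ?_
  rw [Real.sqrt_le_left (by positivity)]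
  nlinarith

/-- one prime: `(1 - 1/p) / (1 - p^(κ-1)) ≤ exp (4 κ log p p^κ / p)` -/
lemma ratio_le {p : ℕ} (hp : 2 ≤ p) {κ : ℝ} (hκ0 : 0 ≤ κ) (hκ : κ ≤ 1 / 2) :
    (1 - 1 / (p : ℝ)) / (1 - (p : ℝ) ^ κ / p) ≤
      Real.exp (4 * κ * (p : ℝ) ^ κ * (Real.log p / p)) := by
  have hp2 : (2 : ℝ) ≤ p := by exact_mod_cast hp
  have hp0 : (0 : ℝ) < p := by linarith
  have h34 := rpow_le_34 hp hκ
  have hd : 0 < 1 - (p : ℝ) ^ κ / p := by linarith
  have h1 := rpow_sub_one_le (κ := κ) hp0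
  have h2 : (1 - 1 / (p : ℝ)) / (1 - (p : ℝ) ^ κ / p) =
      1 + ((p : ℝ) ^ κ - 1) / p / (1 - (p : ℝ) ^ κ / p) := by
    have hu : ((p : ℝ) ^ κ - 1) / p = (p : ℝ) ^ κ / p - 1 / p := sub_div _ _ _
    rw [hu]
    set u : ℝ := (p : ℝ) ^ κ / p
    set w : ℝ := 1 / (p : ℝ)
    field_simp
    ring
  have hpk : 1 ≤ (p : ℝ) ^ κ := Real.one_le_rpow (by linarith) hκ0
  have h3 : ((p : ℝ) ^ κ - 1) / p / (1 - (p : ℝ) ^ κ / p) ≤ ((p : ℝ) ^ κ - 1) / p * 4 := by
    rw [div_eq_mul_inv (((p : ℝ) ^ κ - 1) / p)]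
    refine mul_le_mul_of_nonneg_left ?_ (div_nonneg (by linarith) hp0.le)
    rw [inv_le_comm₀ hd (by norm_num)]
    linarith
  have h4 : ((p : ℝ) ^ κ - 1) / p * 4 ≤ 4 * κ * (p : ℝ) ^ κ * (Real.log p / p) := by
    have : ((p : ℝ) ^ κ - 1) / p ≤ κ * Real.log p * (p : ℝ) ^ κ / p :=
      div_le_div_of_nonneg_right h1 hp0.le
    calc ((p : ℝ) ^ κ - 1) / p * 4 ≤ κ * Real.log p * (p : ℝ) ^ κ / p * 4 := by linarith
      _ = _ := by ring
  rw [h2]
  have h5 := Real.add_one_le_exp (4 * κ * (p : ℝ) ^ κ * (Real.log p / p))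
  linarith








end Crest.Agent.R4C.Countsx952
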