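import Crest.Agent.R4C.PureL2c_232

/-!
# Row 4: twisted pairs (helper662), notes 3027 (helper863) and 3121 (helper662)

A pair `(z, z')` of divisors of `M` is a *twist* of `(z0, z0')` if `z = κ z0`, `z' = κ' z0'`,
`κ ∈ KK z0`, `κ' ∈ KK' z0'` and `gcd z z' ≤ gcd z0 z0'`
(e.g. `κ, κ'` coprime and `z0, z0'` with the same letters at the primes of `κ κ'`: `gcd_twist`).

* `twist_sum`, `twist_frm` : the energy of the twisted pairs with functions `f, g` is at most the
  energy of the untwisted pairs with the functions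
  `G f z0 = ∑_{κ ∈ KK z0, κ z0 ∣ M} f (κ z0) / φ κ`.
* `twist_norm` : `∑ ν G² ≤ N ω ∑ ν f²` if `#KK z0 ≤ N` and `∑_{κ ∣ z, κ ∈ KK (z/κ)} κ/φ(κ)² ≤ ω`.
* `twist_norm'` : `N` twists per word, all in `[K0, K1]`: `∑ ν G² ≤ N² (1 + log₂ K1)² / K0 ∑ ν f²`.

Everything for general `M` (prime powers).
-/

set_option autoImplicit false

open Finset
open Crest.Agent.R4C.Basex935

namespace Crest.Agent.R4C.Twistx662

/-! ### The exact law under multiplication by a twist -/

lemma totient_mul_le (κ m : ℕ) : (κ * m).totient ≤ κ * m.totient := by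
  induction κ using induction_on_primes with
  | zero => simp
  | one => simp
  | prime_mul p a hp ih =>
    rw [mul_assoc, mul_assoc]
    by_cases hd : p ∣ a * m
    · rw [Nat.totient_mul_of_prime_of_dvd hp hd]
      exact Nat.mul_le_mul_left _ ih
    · rw [Nat.totient_mul_of_prime_of_not_dvd hp hd]
      exact Nat.mul_le_mul (Nat.sub_le _ _) ih

lemma nu_mul_le {M κ z : ℕ} (hM : 0 < M) (h : κ * z ∣ M) :
    nu M (κ * z) ≤ nu M z / (κ.totient : ℝ) := by
  have hκz : 0 < κ * z := Nat.pos_of_dvd_of_pos h hM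
  have hκ : 0 < κ := Nat.pos_of_mul_pos_right hκz
  have hz : 0 < z := Nat.pos_of_mul_pos_left hκz
  obtain ⟨m, hm⟩ := h
  have e1 : M / (κ * z) = m := by rw [hm]; exact Nat.mul_div_cancel_left m hκz
  have e2 : M / z = κ * m := by
    rw [hm, show κ * z * m = z * (κ * m) by ring]
    exact Nat.mul_div_cancel_left _ hz
  have hφ : 0 < κ.totient := Nat.totient_pos.2 hκ
  have hφR : (0 : ℝ) < (κ.totient : ℝ) := by exact_mod_cast hφ
  have hMR : (0 : ℝ) < (M : ℝ) := by exact_mod_cast hM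
  unfold nu
  rw [e1, e2, div_div, div_le_div_iff₀ hMR (by positivity)]
  have h1 : κ.totient * m.totient ≤ (κ * m).totient := Nat.totient_super_multiplicative κ m
  have h1R : (κ.totient : ℝ) * (m.totient : ℝ) ≤ ((κ * m).totient : ℝ) := by exact_mod_cast h1
  calc (m.totient : ℝ) * (M * (κ.totient : ℝ)) = ((κ.totient : ℝ) * m.totient) * M := by ring
    _ ≤ ((κ * m).totient : ℝ) * M := mul_le_mul_of_nonneg_right h1R hMR.le

lemma nu_le_mul {M κ z : ℕ} (hM : 0 < M) (h : κ * z ∣ M) :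
    nu M z ≤ (κ : ℝ) * nu M (κ * z) := by
  have hκz : 0 < κ * z := Nat.pos_of_dvd_of_pos h hM
  have hz : 0 < z := Nat.pos_of_mul_pos_left hκz
  obtain ⟨m, hm⟩ := h
  have e1 : M / (κ * z) = m := by rw [hm]; exact Nat.mul_div_cancel_left m hκz
  have e2 : M / z = κ * m := by
    rw [hm, show κ * z * m = z * (κ * m) by ring]
    exact Nat.mul_div_cancel_left _ hz
  have hMR : (0 : ℝ) < (M : ℝ) := by exact_mod_cast hM
  unfold nu
  rw [e1, e2, mul_div_assoc']
  have h1 : (κ * m).totient ≤ κ * m.totient := totient_mul_le κ m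
  have h1R : ((κ * m).totient : ℝ) ≤ (κ : ℝ) * (m.totient : ℝ) := by exact_mod_cast h1
  exact div_le_div_of_nonneg_right h1R hMR.le


/-! ### The gcd of a twisted pair -/


/-! ### The function with the twists summed inside -/

/-- `G f z0 = ∑_{κ ∈ KK z0, κ z0 ∣ M} f (κ z0) / φ κ` -/
noncomputable def G (M : ℕ) (KK : ℕ → Finset ℕ) (f : ℕ → ℝ) (z : ℕ) : ℝ :=
  ∑ κ ∈ KK z, if κ * z ∣ M then f (κ * z) / (κ.totient : ℝ) else 0

lemma G_nonneg {M : ℕ} {KK : ℕ → Finset ℕ} {f : ℕ → ℝ} (hf : ∀ b, 0 ≤ f b) (z : ℕ) :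
    0 ≤ G M KK f z := by
  unfold G
  refine Finset.sum_nonneg fun κ _ => ?_
  split_ifs
  · exact div_nonneg (hf _) (by positivity)
  · exact le_rfl

/-- the twist relation over an untwisted relation `R` -/
def Tw (KK KK' : ℕ → Finset ℕ) (R : ℕ → ℕ → Prop) (z z' : ℕ) : Prop :=
  ∃ κ κ' z0 z0' : ℕ, z = κ * z0 ∧ z' = κ' * z0' ∧ κ ∈ KK z0 ∧ κ' ∈ KK' z0' ∧
    Nat.gcd z z' ≤ Nat.gcd z0 z0' ∧ R z0 z0'

open Classical in
/-- **The energy of the twisted pairs is an untwisted energy of the functions `G`.** -/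
theorem twist_sum {M : ℕ} (hM : 0 < M) (KK KK' : ℕ → Finset ℕ) (R : ℕ → ℕ → Prop)
    (f g : ℕ → ℝ) (hf : ∀ b, 0 ≤ f b) (hg : ∀ b, 0 ≤ g b) :
    ∑ z ∈ M.divisors, ∑ z' ∈ M.divisors,
      (if Tw KK KK' R z z' then (Nat.gcd z z' : ℝ) * nu M z * nu M z' * (f z * g z') else 0) ≤
    ∑ z ∈ M.divisors, ∑ z' ∈ M.divisors,
      (if R z z' then (Nat.gcd z z' : ℝ) * nu M z * nu M z' * (G M KK f z * G M KK' g z')
        else 0) := by
  -- the term of one quadruple
  let W : ℕ → ℕ → ℕ → ℕ → ℕ → ℕ → ℝ := fun z z' z0 z0' κ κ' =>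
    if z = κ * z0 ∧ z' = κ' * z0' ∧ R z0 z0' then
      (Nat.gcd z0 z0' : ℝ) * nu M z * nu M z' * (f z * g z') else 0
  have hW0 : ∀ z z' z0 z0' κ κ', 0 ≤ W z z' z0 z0' κ κ' := by
    intro z z' z0 z0' κ κ'
    simp only [W]
    split_ifs
    · have h1 := nu_nonneg M z
      have h2 := nu_nonneg M z'
      have h3 := hf z
      have h4 := hg z'
      positivity
    · exact le_rfl
  have step1 : ∀ z ∈ M.divisors, ∀ z' ∈ M.divisors,
      (if Tw KK KK' R z z' then (Nat.gcd z z' : ℝ) * nu M z * nu M z' * (f z * g z') else 0) ≤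
      ∑ z0 ∈ M.divisors, ∑ z0' ∈ M.divisors, ∑ κ ∈ KK z0, ∑ κ' ∈ KK' z0', W z z' z0 z0' κ κ' := by
    intro z hz z' hz'
    have hzM := Nat.dvd_of_mem_divisors hz
    have hzM' := Nat.dvd_of_mem_divisors hz'
    split_ifs with h
    · obtain ⟨κ, κ', z0, z0', e1, e2, h1, h2, h3, h4⟩ := h
      have hd : z0 ∣ M := (Dvd.intro_left κ e1.symm).trans hzM
      have hd' : z0' ∣ M := (Dvd.intro_left κ' e2.symm).trans hzM'
      have hm : z0 ∈ M.divisors := Nat.mem_divisors.2 ⟨hd, hM.ne'⟩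
      have hm' : z0' ∈ M.divisors := Nat.mem_divisors.2 ⟨hd', hM.ne'⟩
      have hle : (Nat.gcd z z' : ℝ) ≤ (Nat.gcd z0 z0' : ℝ) := by exact_mod_cast h3
      calc (Nat.gcd z z' : ℝ) * nu M z * nu M z' * (f z * g z')
          ≤ (Nat.gcd z0 z0' : ℝ) * nu M z * nu M z' * (f z * g z') := by
            have a1 := nu_nonneg M z
            have a2 := nu_nonneg M z'
            have a3 := hf z
            have a4 := hg z'
            have a5 : 0 ≤ nu M z * nu M z' * (f z * g z') := by positivity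
            nlinarith
        _ = W z z' z0 z0' κ κ' := by
            simp only [W]
            rw [if_pos ⟨e1, e2, h4⟩]
        _ ≤ ∑ κ' ∈ KK' z0', W z z' z0 z0' κ κ' :=
            Finset.single_le_sum (f := fun κ' => W z z' z0 z0' κ κ') (fun _ _ => hW0 _ _ _ _ _ _) h2
        _ ≤ ∑ κ ∈ KK z0, ∑ κ' ∈ KK' z0', W z z' z0 z0' κ κ' :=
            Finset.single_le_sum (f := fun κ => ∑ κ' ∈ KK' z0', W z z' z0 z0' κ κ')
              (fun _ _ => Finset.sum_nonneg fun _ _ => hW0 _ _ _ _ _ _) h1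
        _ ≤ ∑ z0' ∈ M.divisors, ∑ κ ∈ KK z0, ∑ κ' ∈ KK' z0', W z z' z0 z0' κ κ' :=
            Finset.single_le_sum
              (f := fun z0' => ∑ κ ∈ KK z0, ∑ κ' ∈ KK' z0', W z z' z0 z0' κ κ')
              (fun _ _ => Finset.sum_nonneg fun _ _ => Finset.sum_nonneg fun _ _ =>
                hW0 _ _ _ _ _ _) hm'
        _ ≤ _ :=
            Finset.single_le_sum
              (f := fun z0 => ∑ z0' ∈ M.divisors, ∑ κ ∈ KK z0, ∑ κ' ∈ KK' z0',
                W z z' z0 z0' κ κ')
              (fun _ _ => Finset.sum_nonneg fun _ _ => Finset.sum_nonneg fun _ _ =>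
                Finset.sum_nonneg fun _ _ => hW0 _ _ _ _ _ _) hm
    · exact Finset.sum_nonneg fun _ _ => Finset.sum_nonneg fun _ _ =>
        Finset.sum_nonneg fun _ _ => Finset.sum_nonneg fun _ _ => hW0 _ _ _ _ _ _
  refine (Finset.sum_le_sum fun z hz => Finset.sum_le_sum fun z' hz' => step1 z hz z' hz').trans ?_
  -- exchange the sums
  have step2 : ∑ z ∈ M.divisors, ∑ z' ∈ M.divisors, ∑ z0 ∈ M.divisors, ∑ z0' ∈ M.divisors,
        ∑ κ ∈ KK z0, ∑ κ' ∈ KK' z0', W z z' z0 z0' κ κ' =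
      ∑ z0 ∈ M.divisors, ∑ z0' ∈ M.divisors, ∑ κ ∈ KK z0, ∑ κ' ∈ KK' z0',
        ∑ z ∈ M.divisors, ∑ z' ∈ M.divisors, W z z' z0 z0' κ κ' := by
    calc ∑ z ∈ M.divisors, ∑ z' ∈ M.divisors, ∑ z0 ∈ M.divisors, ∑ z0' ∈ M.divisors,
          ∑ κ ∈ KK z0, ∑ κ' ∈ KK' z0', W z z' z0 z0' κ κ'
        = ∑ z ∈ M.divisors, ∑ z0 ∈ M.divisors, ∑ z0' ∈ M.divisors, ∑ κ ∈ KK z0,
            ∑ κ' ∈ KK' z0', ∑ z' ∈ M.divisors, W z z' z0 z0' κ κ' := by
          refine Finset.sum_congr rfl fun z _ => ?_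
          rw [Finset.sum_comm]
          refine Finset.sum_congr rfl fun z0 _ => ?_
          rw [Finset.sum_comm]
          refine Finset.sum_congr rfl fun z0' _ => ?_
          rw [Finset.sum_comm]
          refine Finset.sum_congr rfl fun κ _ => ?_
          rw [Finset.sum_comm]
      _ = _ := by
          rw [Finset.sum_comm]
          refine Finset.sum_congr rfl fun z0 _ => ?_
          rw [Finset.sum_comm]
          refine Finset.sum_congr rfl fun z0' _ => ?_
          rw [Finset.sum_comm]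
          refine Finset.sum_congr rfl fun κ _ => ?_
          rw [Finset.sum_comm]
  rw [step2]
  refine Finset.sum_le_sum fun z0 hz0 => Finset.sum_le_sum fun z0' hz0' => ?_
  have n0 := nu_nonneg M z0
  have n0' := nu_nonneg M z0'
  -- one quadruple, summed over z, z'
  have step3 : ∀ κ κ', ∑ z ∈ M.divisors, ∑ z' ∈ M.divisors, W z z' z0 z0' κ κ' ≤
      if R z0 z0' then (Nat.gcd z0 z0' : ℝ) * nu M z0 * nu M z0' *
        ((if κ * z0 ∣ M then f (κ * z0) / (κ.totient : ℝ) else 0) *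
          (if κ' * z0' ∣ M then g (κ' * z0') / (κ'.totient : ℝ) else 0)) else 0 := by
    intro κ κ'
    by_cases hR : R z0 z0'
    · rw [if_pos hR]
      by_cases hd : κ * z0 ∣ M
      · by_cases hd' : κ' * z0' ∣ M
        · rw [if_pos hd, if_pos hd']
          have e : ∑ z ∈ M.divisors, ∑ z' ∈ M.divisors, W z z' z0 z0' κ κ' =
              W (κ * z0) (κ' * z0') z0 z0' κ κ' := by
            rw [Finset.sum_eq_single (κ * z0)]
            · rw [Finset.sum_eq_single (κ' * z0')]
              · intro z' _ hne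
                simp only [W]
                rw [if_neg (fun h => hne h.2.1)]
              · intro hc
                exact absurd (Nat.mem_divisors.2 ⟨hd', hM.ne'⟩) hc
            · intro z _ hne
              refine Finset.sum_eq_zero fun z' _ => ?_
              simp only [W]
              rw [if_neg (fun h => hne h.1)]
            · intro hc
              exact absurd (Nat.mem_divisors.2 ⟨hd, hM.ne'⟩) hc
          rw [e]
          simp only [W]
          rw [if_pos ⟨trivial, trivial, hR⟩]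
          have a1 := nu_mul_le hM hd
          have a2 := nu_mul_le hM hd'
          have b1 := nu_nonneg M (κ * z0)
          have b2 := nu_nonneg M (κ' * z0')
          have c1 := hf (κ * z0)
          have c2 := hg (κ' * z0')
          have d1 : 0 ≤ nu M z0 / (κ.totient : ℝ) := by positivity
          calc (Nat.gcd z0 z0' : ℝ) * nu M (κ * z0) * nu M (κ' * z0') *
                (f (κ * z0) * g (κ' * z0'))
              ≤ (Nat.gcd z0 z0' : ℝ) * (nu M z0 / (κ.totient : ℝ)) *
                (nu M z0' / (κ'.totient : ℝ)) * (f (κ * z0) * g (κ' * z0')) := by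
                gcongr
            _ = _ := by
                simp only [div_eq_mul_inv]
                ring
        · -- the second word does not divide M
          rw [if_neg hd', mul_zero, mul_zero]
          refine (Finset.sum_nonpos fun z _ => Finset.sum_nonpos fun z' hz' => ?_)
          simp only [W]
          rw [if_neg]
          rintro ⟨_, h2, _⟩
          exact hd' (h2 ▸ Nat.dvd_of_mem_divisors hz')
      · rw [if_neg hd, zero_mul, mul_zero]
        refine (Finset.sum_nonpos fun z hz => Finset.sum_nonpos fun z' _ => ?_)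
        simp only [W]
        rw [if_neg]
        rintro ⟨h1, _, _⟩
        exact hd (h1 ▸ Nat.dvd_of_mem_divisors hz)
    · rw [if_neg hR]
      refine (Finset.sum_nonpos fun z _ => Finset.sum_nonpos fun z' _ => ?_)
      simp only [W]
      rw [if_neg (fun h => hR h.2.2)]
  refine (Finset.sum_le_sum fun κ _ => Finset.sum_le_sum fun κ' _ => step3 κ κ').trans ?_
  by_cases hR : R z0 z0'
  · simp only [if_pos hR]
    unfold G
    rw [Finset.sum_mul_sum, Finset.mul_sum]
    refine le_of_eq (Finset.sum_congr rfl fun κ _ => ?_)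
    rw [Finset.mul_sum]
  · simp [hR]


/-! ### The norm of `G` -/

lemma sum_swap_dvd {M : ℕ} (hM : 0 < M) (KK : ℕ → Finset ℕ) (H : ℕ → ℕ → ℝ) :
    ∑ z ∈ M.divisors, ∑ κ ∈ KK z, (if κ * z ∣ M then H κ (κ * z) else 0) =
    ∑ z ∈ M.divisors, ∑ κ ∈ z.divisors.filter (fun κ => κ ∈ KK (z / κ)), H κ z := by
  classical
  calc ∑ z ∈ M.divisors, ∑ κ ∈ KK z, (if κ * z ∣ M then H κ (κ * z) else 0)
      = ∑ x ∈ (M.divisors.sigma fun z => (KK z).filter (fun κ => κ * z ∣ M)),
          H x.2 (x.2 * x.1) := by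
        rw [Finset.sum_sigma]
        refine Finset.sum_congr rfl fun z _ => ?_
        rw [Finset.sum_filter]
    _ = ∑ x ∈ (M.divisors.sigma fun z => z.divisors.filter (fun κ => κ ∈ KK (z / κ))),
          H x.2 x.1 := by
        refine Finset.sum_bij' (fun x _ => ⟨x.2 * x.1, x.2⟩) (fun x _ => ⟨x.1 / x.2, x.2⟩)
          ?_ ?_ ?_ ?_ ?_
        · rintro ⟨z, κ⟩ hx
          simp only [Finset.mem_sigma, Finset.mem_filter, Nat.mem_divisors] at hx ⊢
          obtain ⟨⟨_, _⟩, h3, h4⟩ := hx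
          have hne : κ * z ≠ 0 := (Nat.pos_of_dvd_of_pos h4 hM).ne'
          have hκ : 0 < κ := Nat.pos_of_ne_zero (left_ne_zero_of_mul hne)
          refine ⟨⟨h4, hM.ne'⟩, ⟨Dvd.intro _ rfl, hne⟩, ?_⟩
          rw [Nat.mul_div_cancel_left z hκ]
          exact h3
        · rintro ⟨z, κ⟩ hx
          simp only [Finset.mem_sigma, Finset.mem_filter, Nat.mem_divisors] at hx ⊢
          obtain ⟨⟨h1, _⟩, ⟨h2, h3⟩, h4⟩ := hx
          refine ⟨⟨(Nat.div_dvd_of_dvd h2).trans h1, hM.ne'⟩, h4, ?_⟩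
          rw [Nat.mul_div_cancel' h2]
          exact h1
        · rintro ⟨z, κ⟩ hx
          simp only [Finset.mem_sigma, Finset.mem_filter, Nat.mem_divisors] at hx ⊢
          obtain ⟨⟨_, _⟩, h3, h4⟩ := hx
          have hne : κ * z ≠ 0 := (Nat.pos_of_dvd_of_pos h4 hM).ne'
          have hκ : 0 < κ := Nat.pos_of_ne_zero (left_ne_zero_of_mul hne)
          rw [Nat.mul_div_cancel_left z hκ]
        · rintro ⟨z, κ⟩ hx
          simp only [Finset.mem_sigma, Finset.mem_filter, Nat.mem_divisors] at hx ⊢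
          obtain ⟨⟨h1, _⟩, ⟨h2, h3⟩, h4⟩ := hx
          rw [Nat.mul_div_cancel' h2]
        · rintro ⟨z, κ⟩ _
          rfl
    _ = _ := by rw [Finset.sum_sigma]


/-! ### Explicit constants -/

lemma prod_le_card {S : Finset ℕ} (hS : ∀ p ∈ S, 2 ≤ p) :
    ∏ p ∈ S, p ≤ (S.card + 1) * ∏ p ∈ S, (p - 1) := by
  classical
  induction S using Finset.induction_on_max with
  | empty => simp
  | insert m S' hm ih =>
    have hnot : m ∉ S' := fun h => lt_irrefl _ (hm m h)
    have hm2 : 2 ≤ m := hS m (Finset.mem_insert_self _ _)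
    have hcard : S'.card + 2 ≤ m := by
      have h1 : S' ⊆ Finset.Ico 2 m := fun x hx =>
        Finset.mem_Ico.2 ⟨hS x (Finset.mem_insert_of_mem hx), hm x hx⟩
      have h2 := Finset.card_le_card h1
      rw [Nat.card_Ico] at h2
      omega
    have ih' := ih fun p hp => hS p (Finset.mem_insert_of_mem hp)
    rw [Finset.prod_insert hnot, Finset.prod_insert hnot, Finset.card_insert_of_notMem hnot]
    obtain ⟨j, rfl⟩ := Nat.exists_eq_add_of_le hcard
    have e : S'.card + 2 + j - 1 = S'.card + 1 + j := by omega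
    rw [e]
    calc (S'.card + 2 + j) * ∏ p ∈ S', p
        ≤ (S'.card + 2 + j) * ((S'.card + 1) * ∏ p ∈ S', (p - 1)) := Nat.mul_le_mul_left _ ih'
      _ = ((S'.card + 2 + j) * (S'.card + 1)) * ∏ p ∈ S', (p - 1) := by ring
      _ ≤ ((S'.card + 1 + 1) * (S'.card + 1 + j)) * ∏ p ∈ S', (p - 1) := by
          refine Nat.mul_le_mul_right _ ?_
          nlinarith
      _ = _ := by ring

/-- `κ ≤ φ(κ) (1 + log₂ κ)` -/
lemma le_totient_mul (κ : ℕ) : κ ≤ κ.totient * (Nat.log 2 κ + 1) := by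
  rcases Nat.eq_zero_or_pos κ with h0 | h0
  · simp [h0]
  have h1 := Nat.totient_mul_prod_primeFactors κ
  have h2 : ∏ p ∈ κ.primeFactors, p ≤
      (κ.primeFactors.card + 1) * ∏ p ∈ κ.primeFactors, (p - 1) :=
    prod_le_card fun p hp => (Nat.prime_of_mem_primeFactors hp).two_le
  have h3 : 0 < ∏ p ∈ κ.primeFactors, (p - 1) :=
    Finset.prod_pos fun p hp => Nat.sub_pos_of_lt (Nat.prime_of_mem_primeFactors hp).one_lt
  have h4 : κ.primeFactors.card ≤ Nat.log 2 κ := by
    refine Nat.le_log_of_pow_le (by norm_num) ?_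
    calc 2 ^ κ.primeFactors.card = ∏ _p ∈ κ.primeFactors, 2 := by rw [Finset.prod_const]
      _ ≤ ∏ p ∈ κ.primeFactors, p :=
          Finset.prod_le_prod' fun p hp => (Nat.prime_of_mem_primeFactors hp).two_le
      _ ≤ κ := Nat.le_of_dvd h0 (Nat.prod_primeFactors_dvd κ)
  have h5 : κ * ∏ p ∈ κ.primeFactors, (p - 1) ≤
      (κ.totient * (Nat.log 2 κ + 1)) * ∏ p ∈ κ.primeFactors, (p - 1) := by
    rw [← h1]
    calc κ.totient * ∏ p ∈ κ.primeFactors, p
        ≤ κ.totient * ((κ.primeFactors.card + 1) * ∏ p ∈ κ.primeFactors, (p - 1)) :=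
          Nat.mul_le_mul_left _ h2
      _ ≤ κ.totient * ((Nat.log 2 κ + 1) * ∏ p ∈ κ.primeFactors, (p - 1)) := by gcongr
      _ = _ := by ring
  exact Nat.le_of_mul_le_mul_right h5 h3



/-! ### From the quadratic to the bilinear form -/



end Crest.Agent.R4C.Twistx662
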