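import Crest.Agent.R4C.Cut_50
import Crest.Agent.R4C.PrefixM_882

/-!
# Natural law toolkit, general `M` (helper69; row 4, leaf of helper935, notes 2740 (A), 2694)

`nu M b = φ(M/b)/M` = law of `gcd (n, M)`, `n` uniform.  `Ex M f = ∑_{b ∣ M} nu M b * f b`.

* `sum_dvd`, `sum_dvd'`, `prob_dvd`, `Ex_dvd` : `P(e ∣ b) = 1/e`, and given `e ∣ b` the cofactor
  `b/e` is natural for `M/e`.
* `Ex_cutS`, `Ex_indep`, `Ex_part`, `Ex_prod` : independence of the exponents.
* `prob_part_eq`, `prob_low_eq` : `P(b_{≤ y} = e) = nu (M_{≤ y}) e = V_e / e`, with the exact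
  conditional law of the rest.
* `Vm` : product over the missing primes; `Vm_mul`, `Vm_cut`, `Vm_part`, `Vm_cofactor`.
* `prob_union`, `Ex_union` : union bound over a list of divisors.
* `Ex_prod_dvd`, `Ex_exp_sum`, `Ex_sum_dvd` : exact moments; `sum_inv_sq_le`;
  `tail_recip` : `P(∑_{p ∣ b, p > y} 1/p > 1) ≤ exp (1 - y)`.
-/

set_option autoImplicit false

open Finset

namespace Crest.Agent.R4C.Lawx69

open Crest.Agent.R4C.Basex935 Crest.Agent.R4C.Cutx50 Crest.Agent.R4C.PrefixMx882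

/-! ### Divisibility by a fixed divisor -/

lemma nu_cofactor {M e b : ℕ} (hM : 0 < M) (he : e ∣ M) :
    nu M (e * b) = 1 / (e : ℝ) * nu (M / e) b := by
  have he0 : 0 < e := Nat.pos_of_dvd_of_pos he hM
  have he0' : (e : ℝ) ≠ 0 := by exact_mod_cast he0.ne'
  have hM0 : (M : ℝ) ≠ 0 := by exact_mod_cast hM.ne'
  unfold nu
  rw [Nat.div_div_eq_div_mul, Nat.cast_div he he0']
  field_simp

/-- image of the divisors of `M / e` -/
lemma filter_dvd_eq {M e : ℕ} (hM : 0 < M) (he : e ∣ M) :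
    M.divisors.filter (fun b => e ∣ b) = (M / e).divisors.image (fun b => e * b) := by
  have he0 : 0 < e := Nat.pos_of_dvd_of_pos he hM
  have hMe : 0 < M / e := Nat.div_pos (Nat.le_of_dvd hM he) he0
  ext b
  simp only [Finset.mem_filter, Nat.mem_divisors, Finset.mem_image]
  constructor
  · rintro ⟨⟨h1, _⟩, c, rfl⟩
    exact ⟨c, ⟨(Nat.dvd_div_iff_mul_dvd he).2 h1, hMe.ne'⟩, rfl⟩
  · rintro ⟨c, ⟨h1, _⟩, rfl⟩
    exact ⟨⟨(Nat.dvd_div_iff_mul_dvd he).1 h1, hM.ne'⟩, Dvd.intro _ rfl⟩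

/-- **natural law given `e ∣ b`** -/
theorem sum_dvd {M e : ℕ} (hM : 0 < M) (he : e ∣ M) (F : ℕ → ℝ) :
    ∑ b ∈ M.divisors with e ∣ b, nu M b * F b =
      1 / (e : ℝ) * ∑ b ∈ (M / e).divisors, nu (M / e) b * F (e * b) := by
  have he0 : 0 < e := Nat.pos_of_dvd_of_pos he hM
  rw [filter_dvd_eq hM he, Finset.sum_image (fun x _ y _ h => Nat.eq_of_mul_eq_mul_left he0 h),
    Finset.mul_sum]
  refine Finset.sum_congr rfl fun b _ => ?_
  rw [nu_cofactor hM he]
  ring




/-- `P(e ∣ b) = 1/e` -/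
theorem prob_dvd {M e : ℕ} (hM : 0 < M) (he : e ∣ M) :
    ∑ b ∈ M.divisors with e ∣ b, nu M b = 1 / (e : ℝ) := by
  have he0 : 0 < e := Nat.pos_of_dvd_of_pos he hM
  have hMe : 0 < M / e := Nat.div_pos (Nat.le_of_dvd hM he) he0
  have h := sum_dvd hM he (fun _ => 1)
  simp only [mul_one] at h
  rw [h, sum_nu hMe, mul_one]

/-- `P(e ∣ b) ≤ 1/e` for every `e` -/
theorem prob_dvd_le {M : ℕ} (hM : 0 < M) (e : ℕ) :
    ∑ b ∈ M.divisors with e ∣ b, nu M b ≤ 1 / (e : ℝ) := by
  by_cases he : e ∣ M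
  · exact (prob_dvd hM he).le
  · have h0 : M.divisors.filter (fun b => e ∣ b) = ∅ := by
      refine Finset.filter_eq_empty_iff.2 fun b hb hd => he (hd.trans (Nat.dvd_of_mem_divisors hb))
    rw [h0, Finset.sum_empty]
    positivity

theorem nu_le_inv {M b : ℕ} (hM : 0 < M) (hb : b ∣ M) : nu M b ≤ 1 / (b : ℝ) := by
  rw [← prob_dvd hM hb]
  exact Finset.single_le_sum (f := fun b => nu M b) (fun c _ => nu_nonneg M c)
    (Finset.mem_filter.2 ⟨Nat.mem_divisors.2 ⟨hb, hM.ne'⟩, dvd_refl b⟩)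

/-! ### Independence -/

section part

variable (S : ℕ → Prop) [DecidablePred S]

theorem Ex_cutS {M : ℕ} (hM : 0 < M) (f : ℕ → ℝ) :
    Ex M f = Ex (part (fun p => ¬ S p) M) (fun T => Ex (part S M) (fun n => f (n * T))) := by
  unfold Ex
  rw [sum_cut S hM]
  refine Finset.sum_congr rfl fun T hT => ?_
  rw [Nat.mem_divisors] at hT
  rw [Finset.mul_sum]
  refine Finset.sum_congr rfl fun n hn => ?_
  rw [Nat.mem_divisors] at hn
  rw [nu_cut S hM hn.1 hT.1]
  ring

/-- **independence of the exponents over complementary sets of primes** -/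
theorem Ex_indep {M : ℕ} (hM : 0 < M) (f g : ℕ → ℝ) :
    Ex M (fun b => f (part S b) * g (part (fun p => ¬ S p) b)) =
      Ex (part S M) f * Ex (part (fun p => ¬ S p) M) g := by
  rw [Ex_cutS S hM]
  unfold Ex
  dsimp only
  rw [mul_comm (∑ b ∈ (part S M).divisors, _), Finset.sum_mul]
  refine Finset.sum_congr rfl fun T hT => ?_
  rw [Nat.mem_divisors] at hT
  rw [mul_assoc]
  congr 1
  rw [Finset.mul_sum]
  refine Finset.sum_congr rfl fun n hn => ?_
  rw [Nat.mem_divisors] at hn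
  rw [part_of_mul S hn.1 hT.1, part_of_mul' S hn.1 hT.1]
  ring


/-- exact conditional law given the part on `S` -/
theorem sum_part_eq {M e : ℕ} (hM : 0 < M) (he : e ∣ part S M) (F : ℕ → ℝ) :
    ∑ b ∈ M.divisors with part S b = e, nu M b * F b =
      nu (part S M) e * Ex (part (fun p => ¬ S p) M) (fun T => F (e * T)) := by
  have h0 : ∑ b ∈ M.divisors with part S b = e, nu M b * F b =
      Ex M (fun b => if part S b = e then F b else 0) := by
    unfold Ex
    dsimp only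
    rw [Finset.sum_filter]
    refine Finset.sum_congr rfl fun b _ => ?_
    split_ifs <;> simp
  rw [h0, Ex_cutS S hM]
  unfold Ex
  dsimp only
  rw [Finset.mul_sum]
  refine Finset.sum_congr rfl fun T hT => ?_
  rw [Nat.mem_divisors] at hT
  rw [Finset.sum_eq_single e]
  · rw [part_of_mul S he hT.1, if_pos rfl]
    ring
  · intro n hn hne
    rw [Nat.mem_divisors] at hn
    rw [part_of_mul S hn.1 hT.1, if_neg hne, mul_zero]
  · intro h
    exact absurd (Nat.mem_divisors.2 ⟨he, part_ne S M⟩) h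

theorem prob_part_eq {M e : ℕ} (hM : 0 < M) (he : e ∣ part S M) :
    ∑ b ∈ M.divisors with part S b = e, nu M b = nu (part S M) e := by
  have h := sum_part_eq S hM he (fun _ => 1)
  rw [Ex_const (part_pos _ _)] at h
  simpa using h

end part

/-- full product formula: the exponents `v_p(b)` are independent with laws `nup p (v_p M)` -/
theorem Ex_prod {M : ℕ} (hM : 0 < M) (F : ℕ → ℕ → ℝ) :
    Ex M (fun b => ∏ p ∈ M.primeFactors, F p (b.factorization p)) =
      ∏ p ∈ M.primeFactors, ∑ v ∈ range (M.factorization p + 1),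
        nup p (M.factorization p) v * F p v := by
  unfold Ex
  rw [← sum_prod (fun p v => nup p (M.factorization p) v * F p v) M hM]
  refine Finset.sum_congr rfl fun b hb => ?_
  rw [Nat.mem_divisors] at hb
  rw [nu_eq_prod M hM b hb.1, ← Finset.prod_mul_distrib]

/-! ### The product over the missing primes -/

/-- `V_b = ∏_{p ∣ M, v_p(b) < v_p(M)} (1 - 1/p)` -/
noncomputable def Vm (M b : ℕ) : ℝ := ∏ p ∈ free M b, (1 - 1 / (p : ℝ))

lemma Vm_eq {M b : ℕ} (hM : 0 < M) (hb : b ∣ M) : Vm M b = (b : ℝ) * nu M b := (diag hM hb).symm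

lemma nu_eq_Vm {M b : ℕ} (hM : 0 < M) (hb : b ∣ M) : nu M b = Vm M b / b := by
  have hb0 : (b : ℝ) ≠ 0 := by exact_mod_cast (Nat.pos_of_dvd_of_pos hb hM).ne'
  rw [Vm_eq hM hb]
  field_simp

lemma Vm_pos {M : ℕ} (b : ℕ) : 0 < Vm M b := by
  refine Finset.prod_pos fun p hp => ?_
  have hp' := Nat.prime_of_mem_primeFactors (mem_free.1 hp).1
  have : (1 : ℝ) / p < 1 := by
    rw [div_lt_one (by exact_mod_cast hp'.pos)]
    exact_mod_cast hp'.one_lt
  linarith

lemma Vm_le_one (M b : ℕ) : Vm M b ≤ 1 :=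
  Finset.prod_le_one (fun p _ => one_sub_nonneg p) fun p _ => one_sub_le_one p



/-- missing primes = primes of `M / b` -/
lemma free_eq {M b : ℕ} (hM : 0 < M) (hb : b ∣ M) : free M b = (M / b).primeFactors := by
  have hb0 : b ≠ 0 := (Nat.pos_of_dvd_of_pos hb hM).ne'
  have hMb : M / b ≠ 0 := (Nat.div_pos (Nat.le_of_dvd hM hb) (Nat.pos_of_ne_zero hb0)).ne'
  ext p
  rw [mem_free]
  constructor
  · rintro ⟨h1, h2⟩
    have hp := Nat.prime_of_mem_primeFactors h1
    rw [Nat.mem_primeFactors]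
    refine ⟨hp, ?_, hMb⟩
    rw [hp.dvd_iff_one_le_factorization hMb, Nat.factorization_div hb]
    simp only [Finsupp.tsub_apply]
    omega
  · intro h
    rw [Nat.mem_primeFactors] at h
    refine ⟨Nat.mem_primeFactors.2 ⟨h.1, h.2.1.trans (Nat.div_dvd_of_dvd hb), hM.ne'⟩, ?_⟩
    have h3 := (h.1.dvd_iff_one_le_factorization hMb).1 h.2.1
    rw [Nat.factorization_div hb] at h3
    simp only [Finsupp.tsub_apply] at h3
    omega




section part

variable (S : ℕ → Prop) [DecidablePred S]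

lemma free_part {M b : ℕ} (hM : 0 < M) : free (part S M) (part S b) = (free M b).filter S := by
  ext p
  rw [Finset.mem_filter, mem_free, mem_free, fact_part, fact_part]
  constructor
  · rintro ⟨h1, h2⟩
    have hp := Nat.prime_of_mem_primeFactors h1
    have hS : S p := prime_dvd_part S hp (Nat.dvd_of_mem_primeFactors h1)
    rw [if_pos hS, if_pos hS] at h2
    exact ⟨⟨Nat.mem_primeFactors.2 ⟨hp, (Nat.dvd_of_mem_primeFactors h1).trans (part_dvd_self S M),
      hM.ne'⟩, h2⟩, hS⟩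
  · rintro ⟨⟨h1, h2⟩, hS⟩
    rw [if_pos hS, if_pos hS]
    have hp := Nat.prime_of_mem_primeFactors h1
    refine ⟨Nat.mem_primeFactors.2 ⟨hp, ?_, part_ne S M⟩, h2⟩
    rw [hp.dvd_iff_one_le_factorization (part_ne S M), fact_part, if_pos hS]
    omega

lemma Vm_part {M b : ℕ} (hM : 0 < M) :
    Vm (part S M) (part S b) = ∏ p ∈ (free M b).filter S, (1 - 1 / (p : ℝ)) := by
  unfold Vm
  rw [free_part S hM]

lemma Vm_cut {M b : ℕ} (hM : 0 < M) :
    Vm M b = Vm (part S M) (part S b) * Vm (part (fun p => ¬ S p) M) (part (fun p => ¬ S p) b) := by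
  rw [Vm_part S hM, Vm_part (fun p => ¬ S p) hM]
  unfold Vm
  rw [Finset.prod_filter_mul_prod_filter_not]


end part



/-! ### Union bounds -/



/-! ### Moments -/

















end Crest.Agent.R4C.Lawx69
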