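import Crest.Agent.R4C.PureL2_232

/-!
# Row 4: the pure part of Theorem C in `L²` form, general centres (helper232)

Extension of `PureL2_232`: a passive prime may have any centre `v0` (0 = free, a = forced):
`min (v, v') = v0`.
-/

set_option autoImplicit false

open Finset
open Crest.Agent.R4C.Basex935

namespace Crest.Agent.R4C.PureL2x232

/-- the law of the exponent given `v ≥ v0` is natural again -/
lemma nup_shift {p : ℕ} (a v0 j : ℕ) (hv0 : v0 ≤ a) :
    nup p a (v0 + j) = (1 / (p:ℝ)) ^ v0 * nup p (a - v0) j := by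
  unfold nup
  by_cases h : v0 + j < a
  · rw [if_pos h, if_pos (by omega), pow_add]; ring
  · rw [if_neg h, if_neg (by omega), ← pow_add]
    congr 1; omega


/-- `R` is (contained in) the pure relation of some adaptive tree on the divisors of `M`;
passive primes have an arbitrary centre `v0` (`cent`). -/
inductive PureRelC : ℕ → (ℕ → ℕ → Prop) → Prop
  /-- nothing is read any more, no pair -/
  | base {M : ℕ} {R : ℕ → ℕ → Prop} (h : ∀ b c, b ∣ M → c ∣ M → ¬ R b c) : PureRelC M R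
  /-- a passive prime with centre `v0` -/
  | cent {p a M1 : ℕ} {R R1 : ℕ → ℕ → Prop} (v0 : ℕ) (hp : p.Prime) (hM : 0 < M1)
      (hnd : ¬ p ∣ M1) (hv0 : v0 ≤ a) (h1 : PureRelC M1 R1)
      (h : ∀ v v' b c, v ≤ a → v' ≤ a → b ∣ M1 → c ∣ M1 → R (p ^ v * b) (p ^ v' * c) →
        min v v' = v0 ∧ (R1 b c ∨ (b = c ∧ v ≠ v'))) : PureRelC (p ^ a * M1) R
  /-- a branched prime -/
  | branch {p a M1 : ℕ} {R : ℕ → ℕ → Prop} {R1 : ℕ → ℕ → ℕ → Prop} (hp : p.Prime)
      (hM : 0 < M1) (hnd : ¬ p ∣ M1) (h1 : ∀ v, v ≤ a → PureRelC M1 (R1 v))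
      (h : ∀ v v' b c, v ≤ a → v' ≤ a → b ∣ M1 → c ∣ M1 → R (p ^ v * b) (p ^ v' * c) →
        v = v' ∧ R1 v b c) : PureRelC (p ^ a * M1) R

lemma sum_shift {a v0 : ℕ} (h : v0 ≤ a) (G : ℕ → ℝ) (hG : ∀ v, v < v0 → G v = 0) :
    ∑ v ∈ range (a + 1), G v = ∑ j ∈ range (a - v0 + 1), G (v0 + j) := by
  have e : a + 1 = v0 + (a - v0 + 1) := by omega
  rw [e, Finset.sum_range_add]
  rw [Finset.sum_eq_zero (fun v hv => hG v (Finset.mem_range.1 hv)), zero_add]

lemma sum_shift_le {a v0 : ℕ} (h : v0 ≤ a) (G : ℕ → ℝ) (hG : ∀ v, 0 ≤ G v) :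
    ∑ j ∈ range (a - v0 + 1), G (v0 + j) ≤ ∑ v ∈ range (a + 1), G v := by
  have e : a + 1 = v0 + (a - v0 + 1) := by omega
  have h2 : ∑ v ∈ range (a + 1), G v =
      ∑ v ∈ range v0, G v + ∑ j ∈ range (a - v0 + 1), G (v0 + j) := by
    conv_lhs => rw [e]
    exact Finset.sum_range_add G v0 (a - v0 + 1)
  have := Finset.sum_nonneg (s := range v0) (fun v _ => hG v)
  rw [h2]
  linarith



end Crest.Agent.R4C.PureL2x232
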