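import Crest.Agent.R4C.FLDef_935
import Crest.Agent.R4C.PureL2c_232
import Crest.Agent.R4C.Law_69
import Crest.Agent.R4C.PrefixM_882
import Crest.Agent.R4C.LTw_662
import Crest.Agent.R4C.Kept_559
import Crest.Agent.Lib.Mertens

-- ▼ part R4C/RowL2a_423
section

/-!
# Row 4: the `L²` ROW LEMMA, one-prime step (helper423; helper5's note 3094 (1))

`F : FL M` = 935's abstract F-Λ structure (`FLDef_935`), general `M`, general centres.

* `pd F x b c` : `b, c` have the same letters below `x`; `x` is passive, `b` has the centre letter at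
  `x` and `c` a larger one; above `x` the pair is pure (same letters at the branched primes,
  `min = centre` at the passive primes).
* data: `f ≥ 0` and `0 ≤ A x b ≤ f b`, ARBITRARY functions of the whole word `b`
  (`A x b = a_x(b) f(b)`, the `a_x(b) ∈ [0,1]` may contain labels and coins of `b`);
  `RR F A b = ∑_x A x b / x` over the passive primes `x` at which `b` has the centre letter.
* `row_main` : `∑_x ∑_{b,c : pd F x b c} gcd ν ν A x b f c ≤ ∑ ν (f²/2 + (3/4) (f + RR)²)`.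
* `row_energy` : if `∑ a_x(b)/x ≤ 1`, then the energy is `≤ (7/2) ∑ ν f²`.

The proof is one step of a potential at the top prime; no martingale, no Doob.
-/

set_option autoImplicit false

namespace Crest.Agent.R4C.RowL2x423

open Finset Crest.Agent.R4C.Basex935 Crest.Agent.R4C.FLDefx935 Crest.Agent.R4C.PureL2x232

/-- the potential -/
noncomputable def Phi (F R : ℝ) : ℝ := 1 / 2 * F ^ 2 + 3 / 4 * (F + R) ^ 2

lemma Phi_nonneg (F R : ℝ) : 0 ≤ Phi F R := by unfold Phi; positivity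

lemma Phi_mono {F R R' : ℝ} (hF : 0 ≤ F) (hR : 0 ≤ R) (h : R ≤ R') : Phi F R ≤ Phi F R' := by
  unfold Phi
  have h1 : (F + R) ^ 2 ≤ (F + R') ^ 2 := pow_le_pow_left₀ (by linarith) (by linarith) 2
  linarith

lemma step_scalar {μ w F0 G0 A h T X Y : ℝ} (hμ0 : 0 ≤ μ) (hμw : μ ≤ w) (hw : w ≤ 1 / 2)
    (hF0 : 0 ≤ F0) (hA0 : 0 ≤ A) (hAF : A ≤ F0) (hG : F0 + w * A ≤ G0) (h0 : 0 ≤ h) (hT : h ≤ T)
    (hX0 : 0 ≤ X) (hY0 : 0 ≤ Y) (hX : h ^ 2 ≤ μ * X) (hY : T ^ 2 ≤ μ * Y) :
    1 / 2 * ((1 - μ) * F0 + h) ^ 2 + 3 / 4 * ((1 - μ) * G0 + T - (1 - μ) * (w * A)) ^ 2 +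
        (1 - μ) * A * h ≤
      1 / 2 * ((1 - μ) * F0 ^ 2 + X) + 3 / 4 * ((1 - μ) * G0 ^ 2 + Y) := by
  have hw0 : 0 ≤ w := hμ0.trans hμw
  rcases hμ0.eq_or_lt with h1 | hμ
  · subst h1
    have hh : h = 0 := by
      have : h ^ 2 ≤ 0 := by linarith
      exact pow_eq_zero_iff (two_ne_zero) |>.1 (le_antisymm this (sq_nonneg _))
    have hT' : T = 0 := by
      have : T ^ 2 ≤ 0 := by linarith
      exact pow_eq_zero_iff (two_ne_zero) |>.1 (le_antisymm this (sq_nonneg _))
    subst hh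
    subst hT'
    have e1 : 0 ≤ w * A := mul_nonneg hw0 hA0
    have e2 : 0 ≤ G0 - w * A := by linarith
    have e3 : (G0 - w * A) ^ 2 ≤ G0 ^ 2 := pow_le_pow_left₀ e2 (by linarith) 2
    have e4 : (1 - (0 : ℝ)) * G0 + 0 - (1 - 0) * (w * A) = G0 - w * A := by ring
    rw [e4]
    linarith
  · set Fs := h / μ with hFs
    set Gs := T / μ with hGs
    have eh : h = μ * Fs := by rw [hFs]; field_simp
    have eT : T = μ * Gs := by rw [hGs]; field_simp
    have hFs0 : 0 ≤ Fs := div_nonneg h0 hμ.le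
    have hGF : Fs ≤ Gs := by rw [hFs, hGs]; gcongr
    have hX' : μ * Fs ^ 2 ≤ X := by
      rw [eh] at hX
      have : μ * (μ * Fs ^ 2) ≤ μ * X := by linarith
      exact le_of_mul_le_mul_left this hμ
    have hY' : μ * Gs ^ 2 ≤ Y := by
      rw [eT] at hY
      have : μ * (μ * Gs ^ 2) ≤ μ * Y := by linarith
      exact le_of_mul_le_mul_left this hμ
    have h1μ : 0 ≤ 1 - μ := by linarith
    set ε := (1 - μ) * (w * A) with hε
    have hε0 : 0 ≤ ε := mul_nonneg h1μ (mul_nonneg hw0 hA0)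
    set Gb := (1 - μ) * G0 + μ * Gs with hGb
    set Fb := (1 - μ) * F0 + μ * Fs with hFb
    have hFb0 : 0 ≤ Fb := by positivity
    have hGb' : Fb + ε ≤ Gb := by
      rw [hFb, hε, hGb]
      linarith [mul_le_mul_of_nonneg_left hG h1μ, mul_le_mul_of_nonneg_left hGF hμ.le]
    have k1 : 2 * ε * Fb ≤ 2 * ε * Gb - ε ^ 2 := by
      have := mul_le_mul_of_nonneg_left hGb' hε0
      have h2 : 0 ≤ ε ^ 2 := sq_nonneg _
      linarith
    have k2 : (1 - μ) * μ * A * Fb ≤ ε * Fb := by
      rw [hε]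
      have : μ * (A * Fb) ≤ w * (A * Fb) := mul_le_mul_of_nonneg_right hμw (mul_nonneg hA0 hFb0)
      linarith [mul_le_mul_of_nonneg_left this h1μ]
    set δ := Fs - F0 with hδ
    have k3 : 0 ≤ 1 / 2 * δ ^ 2 + 1 / 2 * A * F0 + (3 / 2 * μ - 1) * A * δ := by
      rcases le_total δ 0 with h2 | h2
      · have h3 : 0 ≤ (1 - 3 / 2 * μ) * A * (-δ) :=
          mul_nonneg (mul_nonneg (by linarith) hA0) (by linarith)
        have h4 : 0 ≤ A * F0 := mul_nonneg hA0 hF0
        linarith [sq_nonneg δ]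
      · have h3 : 0 ≤ μ * (A * δ) := mul_nonneg hμ.le (mul_nonneg hA0 h2)
        have h4 : A * A ≤ A * F0 := mul_le_mul_of_nonneg_left hAF hA0
        linarith [sq_nonneg (δ - A)]
    have k4 : 0 ≤ μ * (1 - μ) * (1 / 2 * δ ^ 2 + 1 / 2 * A * F0 + (3 / 2 * μ - 1) * A * δ) :=
      mul_nonneg (mul_nonneg hμ.le h1μ) k3
    have k5 : 0 ≤ μ * (1 - μ) * (G0 - Gs) ^ 2 :=
      mul_nonneg (mul_nonneg hμ.le h1μ) (sq_nonneg _)
    have e1 : (1 - μ) * F0 ^ 2 + μ * Fs ^ 2 - Fb ^ 2 = μ * (1 - μ) * δ ^ 2 := by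
      rw [hFb, hδ]; ring
    have e2 : (1 - μ) * G0 ^ 2 + μ * Gs ^ 2 - (Gb - ε) ^ 2 =
        μ * (1 - μ) * (G0 - Gs) ^ 2 + (2 * ε * Gb - ε ^ 2) := by
      rw [hGb]; ring
    have e3 : μ * (1 - μ) * (1 / 2 * δ ^ 2 + 1 / 2 * A * F0 + (3 / 2 * μ - 1) * A * δ) =
        1 / 2 * (μ * (1 - μ) * δ ^ 2) + 3 / 2 * ((1 - μ) * μ * A * Fb) - (1 - μ) * A * (μ * Fs) := by
      rw [hFb, hδ]; ring
    rw [eh, eT]
    have e4 : (1 - μ) * F0 + μ * Fs = Fb := rfl
    have e5 : (1 - μ) * G0 + μ * Gs = Gb := rfl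
    rw [e4, e5]
    linarith

/-- one step at a passive prime, all letters at once -/
lemma step_sum (s : Finset ℕ) (m F R : ℕ → ℝ) {v0 : ℕ} (hv0 : v0 ∈ s) (hm : ∀ v ∈ s, 0 ≤ m v)
    (hm1 : ∑ v ∈ s, m v = 1) {w A : ℝ} (hw : w ≤ 1 / 2) (hmw : 1 - w ≤ m v0)
    (hF : ∀ v, 0 ≤ F v) (hR : ∀ v, 0 ≤ R v) (hA0 : 0 ≤ A) (hAF : A ≤ F v0)
    (hAR : w * A ≤ R v0) :
    Phi (∑ v ∈ s, m v * F v) (∑ v ∈ s, m v * R v - m v0 * (w * A)) +
        m v0 * A * ∑ v ∈ s.erase v0, m v * F v ≤
      ∑ v ∈ s, m v * Phi (F v) (R v) := by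
  classical
  have e0 : ∀ G : ℕ → ℝ, ∑ v ∈ s, G v = G v0 + ∑ v ∈ s.erase v0, G v := fun G =>
    (Finset.add_sum_erase s G hv0).symm
  set μ := ∑ v ∈ s.erase v0, m v with hμ
  have hm0 : m v0 = 1 - μ := by
    have := e0 m
    rw [hm1] at this
    linarith
  have hme : ∀ v ∈ s.erase v0, 0 ≤ m v := fun v hv => hm v (Finset.mem_of_mem_erase hv)
  have hμ0 : 0 ≤ μ := Finset.sum_nonneg hme
  set h := ∑ v ∈ s.erase v0, m v * F v with hh
  set T := ∑ v ∈ s.erase v0, m v * (F v + R v) with hT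
  set X := ∑ v ∈ s.erase v0, m v * F v ^ 2 with hX
  set Y := ∑ v ∈ s.erase v0, m v * (F v + R v) ^ 2 with hY
  have hhX : h ^ 2 ≤ μ * X := by
    refine Finset.sum_sq_le_sum_mul_sum_of_sq_le_mul _ hme
      (fun v hv => mul_nonneg (hme v hv) (sq_nonneg _)) (fun v _ => le_of_eq (by ring))
  have hTY : T ^ 2 ≤ μ * Y := by
    refine Finset.sum_sq_le_sum_mul_sum_of_sq_le_mul _ hme
      (fun v hv => mul_nonneg (hme v hv) (sq_nonneg _)) (fun v _ => le_of_eq (by ring))
  have h0 : 0 ≤ h := Finset.sum_nonneg fun v hv => mul_nonneg (hme v hv) (hF v)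
  have hhT : h ≤ T := Finset.sum_le_sum fun v hv =>
    mul_le_mul_of_nonneg_left (by linarith [hR v]) (hme v hv)
  have hX0 : 0 ≤ X := Finset.sum_nonneg fun v hv => mul_nonneg (hme v hv) (sq_nonneg _)
  have hY0 : 0 ≤ Y := Finset.sum_nonneg fun v hv => mul_nonneg (hme v hv) (sq_nonneg _)
  have key := step_scalar (μ := μ) (w := w) (F0 := F v0) (G0 := F v0 + R v0) (A := A) hμ0
    (by linarith) hw (hF v0) hA0 hAF (by linarith) h0 hhT hX0 hY0 hhX hTY
  have eF : ∑ v ∈ s, m v * F v = (1 - μ) * F v0 + h := by rw [e0, hm0]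
  have eR : ∑ v ∈ s, m v * F v + (∑ v ∈ s, m v * R v - m v0 * (w * A)) =
      (1 - μ) * (F v0 + R v0) + T - (1 - μ) * (w * A) := by
    have : ∑ v ∈ s, m v * F v + ∑ v ∈ s, m v * R v = ∑ v ∈ s, m v * (F v + R v) := by
      rw [← Finset.sum_add_distrib]
      exact Finset.sum_congr rfl fun v _ => by ring
    rw [← add_sub_assoc, this, e0 (fun v => m v * (F v + R v)), hm0]
  have eP : ∑ v ∈ s, m v * Phi (F v) (R v) =
      1 / 2 * ((1 - μ) * F v0 ^ 2 + X) + 3 / 4 * ((1 - μ) * (F v0 + R v0) ^ 2 + Y) := by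
    rw [e0, hm0]
    have : ∑ v ∈ s.erase v0, m v * Phi (F v) (R v) = 1 / 2 * X + 3 / 4 * Y := by
      rw [hX, hY, Finset.mul_sum, Finset.mul_sum, ← Finset.sum_add_distrib]
      refine Finset.sum_congr rfl fun v _ => ?_
      unfold Phi; ring
    rw [this]
    unfold Phi
    ring
  rw [eP]
  refine le_trans (le_of_eq ?_) key
  unfold Phi
  rw [eR, eF, hm0]

end Crest.Agent.R4C.RowL2x423
end

-- ▼ part R4C/RowL2_423
section

/-!
# Row 4: the `L²` ROW LEMMA with arbitrary weights (helper423; helper5's note 3094 (1))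

`F : FL M` = 935's abstract F-Λ structure (`FLDef_935`): general `M`, general centres.

* `pd F x b c` : same letters below `x`; `x` is passive, `b` has the centre letter at `x` and `c` a
  larger one; above `x` the pair is pure (same letters at the branched primes, `min = centre` at the
  passive primes).  `pureP` = both orders; `pd_or` = criterion; `pd_unique`.
* `RR F A b = ∑ A x b / x` over the passive primes `x` at which `b` has the centre letter and the
  centre is not the top letter.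
* `row_main` : `f ≥ 0`, `0 ≤ A x b ≤ f b` (ARBITRARY functions of the whole word `b`):
  `SS F A f = ∑_x ∑_{pd F x b c} gcd ν ν A x b f c ≤ ∑ ν (f²/2 + (3/4) (f + RR F A)²)`.
* `row_energy` : `α x b ∈ [0,1]`, row sums `RR F α b ≤ 1` : energy `≤ (7/2) ∑ ν f²`;
  `row_energy_rho`, `row_bilin` (two functions), `row_pure` (both orders, any kernel `K` dominated
  by the weights: `≤ 7 ∑ ν f²`).
* `tele_le`, `RR_le_one`, `RR_Vx` : row sums of thinned weights are `≤ 1`.
-/

set_option autoImplicit false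

namespace Crest.Agent.R4C.RowL2x423

open Finset Crest.Agent.R4C.Basex935 Crest.Agent.R4C.FLDefx935 Crest.Agent.R4C.PureL2x232

section fac

variable {p : ℕ}

lemma fac_self {v b : ℕ} (hp : p.Prime) (hb : b ≠ 0) (hnd : ¬ p ∣ b) :
    (p ^ v * b).factorization p = v := by
  rw [Nat.factorization_mul (pow_ne_zero _ hp.ne_zero) hb, Finsupp.add_apply,
    hp.factorization_pow, Finsupp.single_eq_same, Nat.factorization_eq_zero_of_not_dvd hnd, add_zero]

lemma fac_ne {v b r : ℕ} (hp : p.Prime) (hb : b ≠ 0) (hr : r ≠ p) :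
    (p ^ v * b).factorization r = b.factorization r := by
  rw [Nat.factorization_mul (pow_ne_zero _ hp.ne_zero) hb, Finsupp.add_apply,
    hp.factorization_pow, Finsupp.single_eq_of_ne hr, zero_add]

end fac

variable {p a M1 : ℕ}

lemma mem_ne_zero (hM : 0 < M1) {b : ℕ} (hb : b ∣ M1) : b ≠ 0 :=
  (Nat.pos_of_dvd_of_pos hb hM).ne'

/-- the structure below the top prime `p`, letter `v` at `p` -/
def restr (hp : p.Prime) (hM : 0 < M1) (hnd : ¬ p ∣ M1) (F : FL (p ^ a * M1)) (v : ℕ)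
    (hv : v ≤ a) : FL M1 where
  ctr b q := if q = p then some 0 else F.ctr (p ^ v * b) q
  coh := by
    intro b c q hb hc hq h
    by_cases hqp : q = p
    · simp [hqp]
    · simp only [hqp, if_false]
      refine F.coh (Nat.mul_dvd_mul (pow_dvd_pow p hv) hb)
        (Nat.mul_dvd_mul (pow_dvd_pow p hv) hc) hq ?_
      intro r hr hqr hn
      by_cases hrp : r = p
      · subst hrp
        rw [fac_self hp (mem_ne_zero hM hb) (fun hh => hnd (hh.trans hb)),
          fac_self hp (mem_ne_zero hM hc) (fun hh => hnd (hh.trans hc))]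
      · rw [fac_ne hp (mem_ne_zero hM hb) hrp, fac_ne hp (mem_ne_zero hM hc) hrp]
        exact h r hr hqr (by simp only [hrp, if_false]; exact hn)
  le := by
    intro b q v' hb hq h
    by_cases hqp : q = p
    · simp only [hqp, if_true] at h
      cases h
      exact Nat.zero_le _
    · simp only [hqp, if_false] at h
      have := F.le (Nat.mul_dvd_mul (pow_dvd_pow p hv) hb) hq h
      rwa [fac_ne hp hM.ne' hqp] at this

/-- **the pure pairs with smallest differing prime `x`**, `b` has the centre letter at `x` -/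
def pd {M : ℕ} (F : FL M) (x b c : ℕ) : Prop :=
  (∀ q, q.Prime → q < x → b.factorization q = c.factorization q) ∧
  F.ctr b x = some (b.factorization x) ∧ b.factorization x < c.factorization x ∧
  F.same x b c ∧
  (∀ q, q.Prime → x < q → ∀ v, F.ctr b q = some v →
    min (b.factorization q) (c.factorization q) = v)

open Classical in
/-- the energy -/
noncomputable def SS {M : ℕ} (F : FL M) (A : ℕ → ℕ → ℝ) (f : ℕ → ℝ) : ℝ :=
  ∑ x ∈ M.primeFactors, frm M (fun b c => if pd F x b c then A x b * f c else 0)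

/-- the row sums -/
noncomputable def RR {M : ℕ} (F : FL M) (A : ℕ → ℕ → ℝ) (b : ℕ) : ℝ :=
  ∑ x ∈ M.primeFactors, if F.ctr b x = some (b.factorization x) ∧
    b.factorization x < M.factorization x then 1 / (x : ℝ) * A x b else 0

lemma RR_nonneg {M : ℕ} (F : FL M) {A : ℕ → ℕ → ℝ} (hA : ∀ x b, 0 ≤ A x b) (b : ℕ) :
    0 ≤ RR F A b := by
  refine Finset.sum_nonneg fun x _ => ?_
  split_ifs
  · exact mul_nonneg (by positivity) (hA _ _)
  · exact le_rfl

lemma pf_insert (hp : p.Prime) (hM : 0 < M1) (ha : 0 < a) :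
    (p ^ a * M1).primeFactors = insert p M1.primeFactors := by
  rw [Nat.primeFactors_mul (pow_ne_zero _ hp.ne_zero) hM.ne', Nat.primeFactors_prime_pow ha.ne' hp]
  rfl

lemma p_notMem (hnd : ¬ p ∣ M1) : p ∉ M1.primeFactors := fun h =>
  hnd (Nat.dvd_of_mem_primeFactors h)

/-- the status of the top prime is constant -/
lemma ctr_top {M : ℕ} (hM : 0 < M) (hp : p.Prime) (F : FL M)
    (hmax : ∀ q, q.Prime → q ∣ M → q ≤ p) {b c : ℕ} (hb : b ∣ M) (hc : c ∣ M) :
    F.ctr b p = F.ctr c p := by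
  refine F.coh hb hc hp fun q hq hpq _ => ?_
  have h : ∀ {b}, b ∣ M → b.factorization q = 0 := fun {b} hb =>
    Nat.factorization_eq_zero_of_not_dvd fun hh =>
      absurd (hmax q hq (hh.trans hb)) (not_le.2 hpq)
  rw [h hb, h hc]

lemma top_le_p (hp : p.Prime) (hmax : ∀ r, r.Prime → r ∣ M1 → r < p) :
    ∀ q, q.Prime → q ∣ p ^ a * M1 → q ≤ p := by
  intro q hq hd
  rcases (Nat.Prime.dvd_mul hq).1 hd with h | h
  · exact le_of_eq ((Nat.prime_dvd_prime_iff_eq hq hp).1 (hq.dvd_of_dvd_pow h))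
  · exact (hmax q hq h).le

/-- pairs below a branched top prime -/
lemma pd_branch (hp : p.Prime) (hM : 0 < M1) (hnd : ¬ p ∣ M1) (F : FL (p ^ a * M1))
    {x : ℕ} (hx : x < p) {v v' b c : ℕ} (hv : v ≤ a) (hb : b ∣ M1) (hc : c ∣ M1)
    (hn : F.ctr (p ^ v * b) p = none) (h : pd F x (p ^ v * b) (p ^ v' * c)) :
    v = v' ∧ pd (restr hp hM hnd F v hv) x b c := by
  obtain ⟨h1, h2, h3, h4, h5⟩ := h
  have hb0 := mem_ne_zero hM hb
  have hc0 := mem_ne_zero hM hc
  have hbp : ¬ p ∣ b := fun hh => hnd (hh.trans hb)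
  have hcp : ¬ p ∣ c := fun hh => hnd (hh.trans hc)
  have hvv : v = v' := by
    have := h4 p hp hx hn
    rwa [fac_self hp hb0 hbp, fac_self hp hc0 hcp] at this
  refine ⟨hvv, ?_, ?_, ?_, ?_, ?_⟩
  · intro q hq hqx
    have := h1 q hq hqx
    rwa [fac_ne hp hb0 (by omega), fac_ne hp hc0 (by omega)] at this
  · change (if x = p then some 0 else F.ctr (p ^ v * b) x) = _
    rw [if_neg hx.ne, h2, fac_ne hp hb0 hx.ne]
  · rwa [fac_ne hp hb0 hx.ne, fac_ne hp hc0 hx.ne] at h3
  · intro q hq hxq hn'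
    change (if q = p then some 0 else F.ctr (p ^ v * b) q) = none at hn'
    by_cases hqp : q = p
    · simp [hqp] at hn'
    · rw [if_neg hqp] at hn'
      have := h4 q hq hxq hn'
      rwa [fac_ne hp hb0 hqp, fac_ne hp hc0 hqp] at this
  · intro q hq hxq w hw
    change (if q = p then some 0 else F.ctr (p ^ v * b) q) = some w at hw
    by_cases hqp : q = p
    · rw [if_pos hqp] at hw
      cases hw
      rw [hqp, Nat.factorization_eq_zero_of_not_dvd hbp, Nat.factorization_eq_zero_of_not_dvd hcp]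
      rfl
    · rw [if_neg hqp] at hw
      have := h5 q hq hxq w hw
      rwa [fac_ne hp hb0 hqp, fac_ne hp hc0 hqp] at this

/-- the status below a passive top prime does not depend on its letter -/
lemma ctr_passive (hp : p.Prime) (hM : 0 < M1) (F : FL (p ^ a * M1))
    {v0 v v' b q : ℕ} (hv : v ≤ a) (hv' : v' ≤ a) (hb : b ∣ M1) (hq : q.Prime)
    (hs : F.ctr (p ^ v * b) p = some v0) :
    F.ctr (p ^ v * b) q = F.ctr (p ^ v' * b) q := by
  have hb0 := mem_ne_zero hM hb
  refine F.coh (Nat.mul_dvd_mul (pow_dvd_pow p hv) hb) (Nat.mul_dvd_mul (pow_dvd_pow p hv') hb) hq ?_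
  intro r hr hqr hn
  have hrp : r ≠ p := by
    rintro rfl
    rw [hs] at hn
    cases hn
  rw [fac_ne hp hb0 hrp, fac_ne hp hb0 hrp]

/-- pairs below a passive top prime -/
lemma pd_passive (hp : p.Prime) (hM : 0 < M1) (hnd : ¬ p ∣ M1) (F : FL (p ^ a * M1))
    {x v0 : ℕ} (hx : x < p) (hxp : x.Prime) {v v' b c : ℕ} (hv : v ≤ a) (hv0 : v0 ≤ a)
    (hb : b ∣ M1) (hc : c ∣ M1)
    (hs : F.ctr (p ^ v * b) p = some v0) (h : pd F x (p ^ v * b) (p ^ v' * c)) :
    min v v' = v0 ∧ pd (restr hp hM hnd F v0 hv0) x b c := by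
  obtain ⟨h1, h2, h3, h4, h5⟩ := h
  have hb0 := mem_ne_zero hM hb
  have hc0 := mem_ne_zero hM hc
  have hbp : ¬ p ∣ b := fun hh => hnd (hh.trans hb)
  have hcp : ¬ p ∣ c := fun hh => hnd (hh.trans hc)
  have hc1 : ∀ q, q.Prime → F.ctr (p ^ v0 * b) q = F.ctr (p ^ v * b) q := fun q hq =>
    (ctr_passive hp hM F hv hv0 hb hq hs).symm
  refine ⟨?_, ?_, ?_, ?_, ?_, ?_⟩
  · have := h5 p hp hx v0 hs
    rwa [fac_self hp hb0 hbp, fac_self hp hc0 hcp] at this
  · intro q hq hqx
    have := h1 q hq hqx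
    rwa [fac_ne hp hb0 (by omega), fac_ne hp hc0 (by omega)] at this
  · change (if x = p then some 0 else F.ctr (p ^ v0 * b) x) = _
    rw [if_neg hx.ne, hc1 x hxp, h2, fac_ne hp hb0 hx.ne]
  · rwa [fac_ne hp hb0 hx.ne, fac_ne hp hc0 hx.ne] at h3
  · intro q hq hxq hn'
    change (if q = p then some 0 else F.ctr (p ^ v0 * b) q) = none at hn'
    by_cases hqp : q = p
    · simp [hqp] at hn'
    · rw [if_neg hqp, hc1 q hq] at hn'
      have := h4 q hq hxq hn'
      rwa [fac_ne hp hb0 hqp, fac_ne hp hc0 hqp] at this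
  · intro q hq hxq w hw
    change (if q = p then some 0 else F.ctr (p ^ v0 * b) q) = some w at hw
    by_cases hqp : q = p
    · rw [if_pos hqp] at hw
      cases hw
      rw [hqp, Nat.factorization_eq_zero_of_not_dvd hbp, Nat.factorization_eq_zero_of_not_dvd hcp]
      rfl
    · rw [if_neg hqp, hc1 q hq] at hw
      have := h5 q hq hxq w hw
      rwa [fac_ne hp hb0 hqp, fac_ne hp hc0 hqp] at this

/-- pairs which differ first at the top prime -/
lemma pd_top (hp : p.Prime) (hM : 0 < M1) (hnd : ¬ p ∣ M1)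
    (hmax : ∀ r, r.Prime → r ∣ M1 → r < p) (F : FL (p ^ a * M1))
    {v v' b c : ℕ} (hb : b ∣ M1) (hc : c ∣ M1) (h : pd F p (p ^ v * b) (p ^ v' * c)) :
    b = c ∧ F.ctr (p ^ v * b) p = some v ∧ v < v' := by
  obtain ⟨h1, h2, h3, _, _⟩ := h
  have hb0 := mem_ne_zero hM hb
  have hc0 := mem_ne_zero hM hc
  have hbp : ¬ p ∣ b := fun hh => hnd (hh.trans hb)
  have hcp : ¬ p ∣ c := fun hh => hnd (hh.trans hc)
  rw [fac_self hp hb0 hbp] at h2 h3
  rw [fac_self hp hc0 hcp] at h3
  refine ⟨?_, h2, h3⟩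
  refine Nat.eq_of_factorization_eq hb0 hc0 fun q => ?_
  by_cases hq : q.Prime
  · rcases lt_trichotomy q p with hlt | heq | hgt
    · have := h1 q hq hlt
      rwa [fac_ne hp hb0 hlt.ne, fac_ne hp hc0 hlt.ne] at this
    · rw [heq, Nat.factorization_eq_zero_of_not_dvd hbp, Nat.factorization_eq_zero_of_not_dvd hcp]
    · rw [Nat.factorization_eq_zero_of_not_dvd fun hh =>
          absurd (hmax q hq (hh.trans hb)) (by omega),
        Nat.factorization_eq_zero_of_not_dvd fun hh =>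
          absurd (hmax q hq (hh.trans hc)) (by omega)]
  · rw [Nat.factorization_eq_zero_of_not_prime _ hq, Nat.factorization_eq_zero_of_not_prime _ hq]

open Classical in
/-- averaging in both members, two functions -/
lemma frm_avg2 {M1 : ℕ} (s : Finset ℕ) (w : ℕ → ℝ) (g h : ℕ → ℕ → ℝ) (R1 : ℕ → ℕ → Prop) :
    ∑ v ∈ s, ∑ v' ∈ s, w v * w v' *
      frm M1 (fun b c => if R1 b c then g v b * h v' c else 0) =
    frm M1 (fun b c => if R1 b c then (∑ v ∈ s, w v * g v b) * (∑ v' ∈ s, w v' * h v' c)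
      else 0) := by
  have e : (fun b c => if R1 b c then (∑ v ∈ s, w v * g v b) * (∑ v' ∈ s, w v' * h v' c) else 0)
      = fun b c => ∑ v ∈ s, (fun b c => ∑ v' ∈ s, (fun b c => (w v * w v') *
        (if R1 b c then g v b * h v' c else 0)) b c) b c := by
    funext b c
    dsimp only
    split_ifs with h
    · rw [Finset.sum_mul_sum]
      refine Finset.sum_congr rfl fun v _ => Finset.sum_congr rfl fun v' _ => by ring
    · simp
  rw [e]
  rw [frm_sum s (fun v b c => ∑ v' ∈ s, (w v * w v') * (if R1 b c then g v b * h v' c else 0))]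
  refine Finset.sum_congr rfl fun v _ => ?_
  rw [frm_sum s (fun v' b c => (w v * w v') * (if R1 b c then g v b * h v' c else 0))]
  refine Finset.sum_congr rfl fun v' _ => ?_
  rw [frm_smul]

/-- law of the letter of a passive prime with centre `v0`, given that it is `≥ v0` -/
noncomputable def ml (p a v0 v : ℕ) : ℝ := if v0 ≤ v then (p : ℝ) ^ v0 * nup p a v else 0

lemma ml_nonneg (hp : p.Prime) (a v0 v : ℕ) : 0 ≤ ml p a v0 v := by
  unfold ml
  split_ifs
  · exact mul_nonneg (by positivity) (nup_nonneg hp.pos _ _)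
  · exact le_rfl

lemma pi_mul (hp : p.Prime) (v0 : ℕ) : (1 / (p : ℝ)) ^ v0 * (p : ℝ) ^ v0 = 1 := by
  rw [← mul_pow, one_div_mul_cancel (by exact_mod_cast hp.ne_zero), one_pow]

lemma pi_ml_le (hp : p.Prime) (a v0 v : ℕ) : (1 / (p : ℝ)) ^ v0 * ml p a v0 v ≤ nup p a v := by
  unfold ml
  split_ifs
  · rw [← mul_assoc, pi_mul hp, one_mul]
  · rw [mul_zero]
    exact nup_nonneg hp.pos _ _

lemma sum_ml (hp : p.Prime) {a v0 : ℕ} (hv0 : v0 ≤ a) :
    ∑ v ∈ range (a + 1), ml p a v0 v = 1 := by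
  rw [sum_shift hv0 _ (fun v hv => by unfold ml; rw [if_neg (by omega)]), ← sum_nup hp (a - v0)]
  refine Finset.sum_congr rfl fun j hj => ?_
  unfold ml
  rw [if_pos (by omega), nup_shift a v0 j hv0, ← mul_assoc, mul_comm ((p : ℝ) ^ v0), pi_mul hp,
    one_mul]

lemma ml_self_ge (hp : p.Prime) {a v0 : ℕ} (hv0 : v0 ≤ a) : 1 - 1 / (p : ℝ) ≤ ml p a v0 v0 := by
  unfold ml
  rw [if_pos le_rfl]
  have h := nup_ge hp.pos a v0 hv0
  have hp0 : (0 : ℝ) ≤ (p : ℝ) ^ v0 := by positivity
  calc 1 - 1 / (p : ℝ) = (p : ℝ) ^ v0 * ((1 - 1 / (p : ℝ)) * (1 / (p : ℝ)) ^ v0) := by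
        rw [mul_comm (1 - 1 / (p : ℝ)), ← mul_assoc, mul_comm ((p : ℝ) ^ v0), pi_mul hp, one_mul]
    _ ≤ _ := mul_le_mul_of_nonneg_left h hp0

/-- splitting of the row sums at the top prime -/
lemma RR_split (hp : p.Prime) (hM : 0 < M1) (hnd : ¬ p ∣ M1) (ha : 0 < a)
    (F : FL (p ^ a * M1)) (A : ℕ → ℕ → ℝ) {v b : ℕ} (hb : b ∣ M1) :
    RR F A (p ^ v * b) = (if F.ctr (p ^ v * b) p = some v ∧ v < a then
      1 / (p : ℝ) * A p (p ^ v * b) else 0)
      + ∑ x ∈ M1.primeFactors, (if F.ctr (p ^ v * b) x = some (b.factorization x) ∧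
        b.factorization x < M1.factorization x then 1 / (x : ℝ) * A x (p ^ v * b) else 0) := by
  have hb0 := mem_ne_zero hM hb
  have hbp : ¬ p ∣ b := fun hh => hnd (hh.trans hb)
  unfold RR
  rw [pf_insert hp hM ha, Finset.sum_insert (p_notMem hnd), fac_self hp hb0 hbp,
    fac_self hp hM.ne' hnd]
  congr 1
  refine Finset.sum_congr rfl fun x hx => ?_
  have hxp : x ≠ p := fun h => p_notMem hnd (h ▸ hx)
  rw [fac_ne hp hb0 hxp, fac_ne hp hM.ne' hxp]

lemma RR_restr (hp : p.Prime) (hM : 0 < M1) (hnd : ¬ p ∣ M1)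
    (F : FL (p ^ a * M1)) (A : ℕ → ℕ → ℝ) {v b : ℕ} (hv : v ≤ a) :
    RR (restr hp hM hnd F v hv) A b =
      ∑ x ∈ M1.primeFactors, (if F.ctr (p ^ v * b) x = some (b.factorization x) ∧
        b.factorization x < M1.factorization x then 1 / (x : ℝ) * A x b else 0) := by
  unfold RR
  refine Finset.sum_congr rfl fun x hx => ?_
  have hxp : x ≠ p := fun h => p_notMem hnd (h ▸ hx)
  change (if (if x = p then some 0 else F.ctr (p ^ v * b) x) = some (b.factorization x) ∧
    b.factorization x < M1.factorization x then 1 / (x : ℝ) * A x b else 0) = _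
  rw [if_neg hxp]

lemma frm_le_zero {M : ℕ} {G : ℕ → ℕ → ℝ} (h : ∀ b c, b ∣ M → c ∣ M → G b c ≤ 0) :
    frm M G ≤ 0 := by
  have h0 : frm M (fun _ _ => (0 : ℝ)) = 0 := by unfold frm; simp
  rw [← h0]
  exact frm_mono h


/-! ### User forms -/

lemma RR_mul {M : ℕ} (F : FL M) (α : ℕ → ℕ → ℝ) (f : ℕ → ℝ) (b : ℕ) :
    RR F (fun x b => α x b * f b) b = RR F α b * f b := by
  unfold RR
  rw [Finset.sum_mul]
  refine Finset.sum_congr rfl fun x _ => ?_
  split_ifs
  · ring
  · rw [zero_mul]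









/-- criterion: agreement below `x`, same node and `min = centre` from `x` on, different at `x` -/
lemma pd_or {M : ℕ} {F : FL M} {x b c : ℕ} (hb : b ∣ M) (hc : c ∣ M) (hx : x.Prime)
    (hlow : ∀ q, q.Prime → q < x → b.factorization q = c.factorization q)
    (hne : b.factorization x ≠ c.factorization x)
    (hsame : ∀ q, q.Prime → x ≤ q → F.ctr b q = none → b.factorization q = c.factorization q)
    (hmin : ∀ q, q.Prime → x ≤ q → ∀ v, F.ctr b q = some v →
      min (b.factorization q) (c.factorization q) = v) :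
    pd F x b c ∨ pd F x c b := by
  have hs : F.same x b c := fun q hq hxq hn => hsame q hq hxq.le hn
  have hs' : F.same x c b := FL.same_symm hb hc hs
  cases h : F.ctr b x with
  | none => exact absurd (hsame x hx le_rfl h) hne
  | some v =>
    have h1 := hmin x hx le_rfl v h
    rcases lt_or_gt_of_ne hne with h2 | h2
    · left
      refine ⟨hlow, ?_, h2, hs, fun q hq hxq w hw => hmin q hq hxq.le w hw⟩
      rw [h]
      congr 1
      omega
    · right
      refine ⟨fun q hq hqx => (hlow q hq hqx).symm, ?_, h2, hs', fun q hq hxq w hw => ?_⟩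
      · rw [← FL.ctr_eq hb hc hs hx le_rfl, h]
        congr 1
        omega
      · rw [min_comm]
        refine hmin q hq hxq.le w ?_
        rw [FL.ctr_eq hb hc hs hq hxq.le]
        exact hw



/-! ### Row sums of thinned weights -/

/-- telescoping: `∑_{x ∈ D} (1/x) ∏_{q ∈ D, q < x} (1 - 1/q) ≤ 1` -/
lemma tele_le (D : Finset ℕ) (hD : ∀ x ∈ D, 1 ≤ x) :
    ∑ x ∈ D, 1 / (x : ℝ) * ∏ q ∈ D.filter (· < x), (1 - 1 / (q : ℝ)) ≤ 1 := by
  classical
  have key : ∀ D : Finset ℕ, ∑ x ∈ D, 1 / (x : ℝ) * ∏ q ∈ D.filter (· < x), (1 - 1 / (q : ℝ)) =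
      1 - ∏ q ∈ D, (1 - 1 / (q : ℝ)) := by
    intro D
    induction D using Finset.induction_on_max with
    | empty => simp
    | insert y D hy ih =>
      have hyD : y ∉ D := fun h => lt_irrefl _ (hy y h)
      rw [Finset.sum_insert hyD, Finset.prod_insert hyD]
      have e1 : (insert y D).filter (· < y) = D := by
        ext z
        simp only [Finset.mem_filter, Finset.mem_insert]
        constructor
        · rintro ⟨h1 | h1, h2⟩
          · omega
          · exact h1
        · intro h1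
          exact ⟨Or.inr h1, hy z h1⟩
      have e2 : ∀ x ∈ D, (insert y D).filter (· < x) = D.filter (· < x) := by
        intro x hx
        have := hy x hx
        ext z
        simp only [Finset.mem_filter, Finset.mem_insert]
        constructor
        · rintro ⟨h1 | h1, h2⟩
          · omega
          · exact ⟨h1, h2⟩
        · rintro ⟨h1, h2⟩
          exact ⟨Or.inr h1, h2⟩
      rw [e1, Finset.sum_congr rfl (fun x hx => by rw [e2 x hx]), ih]
      ring
  rw [key]
  have : 0 ≤ ∏ q ∈ D, (1 - 1 / (q : ℝ)) := by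
    refine Finset.prod_nonneg fun q hq => ?_
    have h1 : (1 : ℝ) ≤ q := by exact_mod_cast hD q hq
    have h2 : 1 / (q : ℝ) ≤ 1 := by
      rw [div_le_one (by linarith)]; exact h1
    linarith
  linarith


/-- the natural weight: `V_{<x}(b) = ∏_{q < x, v_q b < v_q M} (1 - 1/q)` has row sums
`≤ 1` -/
noncomputable def Vx (M x b : ℕ) : ℝ :=
  ∏ q ∈ M.primeFactors.filter (fun q => q < x ∧ b.factorization q < M.factorization q),
    (1 - 1 / (q : ℝ))

lemma one_sub_nonneg {q : ℕ} (hq : q.Prime) : 0 ≤ 1 - 1 / (q : ℝ) := by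
  have h1 : (1 : ℝ) ≤ q := by exact_mod_cast hq.one_lt.le
  have h2 : 1 / (q : ℝ) ≤ 1 := by
    rw [div_le_one (by linarith)]; exact h1
  linarith

lemma Vx_nonneg (M x b : ℕ) : 0 ≤ Vx M x b :=
  Finset.prod_nonneg fun _ hq =>
    one_sub_nonneg (Nat.prime_of_mem_primeFactors (Finset.mem_filter.1 hq).1)



end Crest.Agent.R4C.RowL2x423
end

-- ▼ part R4C/RowP_823
section

/-!
# Row 4: two-sided `L²` row lemma, the side of the member WITH arbitrary weights (helper823)

Abstract part: nested partial equivalence relations `E x` (`x : ℕ`, finer when `x` grows) on a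
finite weighted set, class averages `cx`, dual Doob inequality

`Σ ν (Σ_x cx x (h x))² ≤ 4 Σ ν (Σ_x h x)²`.

F-Λ part (notes 3094 (1), 3229 (3)): for an F-Λ structure `F : FL M` let `PureFrom F x b c` :
letters `< x` equal; at every prime `q ≥ x`: branched letters equal, passive letters have
minimum = centre.  Then for all `f, h x ≥ 0`

`Σ_{x ∈ s} frm M (1[PureFrom F x b c] f b * h x c) ≤ 2 ‖f‖ ‖Σ_x h x‖`   (`L²(ν)` norms).
-/

set_option autoImplicit false

open Finset
open Crest.Agent.R4C.Basex935 Crest.Agent.R4C.Cutx50 Crest.Agent.R4C.FLDefx935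

namespace Crest.Agent.R4C.RowPx823

/-! ### Abstract class averages -/

section abstract

open Classical

variable {ι : Type*} (D : Finset ι) (ν : ι → ℝ) (E : ℕ → ι → ι → Prop)

/-- mass of the class of `b` -/
noncomputable def mu (x : ℕ) (b : ι) : ℝ := ∑ c ∈ D with E x b c, ν c

/-- class average -/
noncomputable def cx (x : ℕ) (g : ι → ℝ) (b : ι) : ℝ :=
  (∑ c ∈ D with E x b c, ν c * g c) / mu D ν E x b

variable {D ν E}

lemma mu_nonneg (hν : ∀ b ∈ D, 0 ≤ ν b) (x : ℕ) (b : ι) : 0 ≤ mu D ν E x b :=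
  Finset.sum_nonneg fun c hc => hν c (Finset.mem_filter.1 hc).1

lemma cx_nonneg (hν : ∀ b ∈ D, 0 ≤ ν b) (x : ℕ) {g : ι → ℝ} (hg : ∀ b ∈ D, 0 ≤ g b) (b : ι) :
    0 ≤ cx D ν E x g b := by
  refine div_nonneg (Finset.sum_nonneg fun c hc => ?_) (mu_nonneg hν x b)
  have := (Finset.mem_filter.1 hc).1
  exact mul_nonneg (hν c this) (hg c this)

lemma mu_congr (hs : ∀ x b c, E x b c → E x c b) (ht : ∀ x a b c, E x a b → E x b c → E x a c)
    {x : ℕ} {b c : ι} (h : E x b c) : mu D ν E x b = mu D ν E x c := by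
  unfold mu
  congr 1
  ext d
  simp only [Finset.mem_filter, and_congr_right_iff]
  intro _
  exact ⟨fun h1 => ht _ _ _ _ (hs _ _ _ h) h1, fun h1 => ht _ _ _ _ h h1⟩

lemma cx_congr (hs : ∀ x b c, E x b c → E x c b) (ht : ∀ x a b c, E x a b → E x b c → E x a c)
    {x : ℕ} {b c : ι} (h : E x b c) (g : ι → ℝ) : cx D ν E x g b = cx D ν E x g c := by
  unfold cx
  rw [mu_congr hs ht h]
  congr 2
  ext d
  simp only [Finset.mem_filter, and_congr_right_iff]
  intro _
  exact ⟨fun h1 => ht _ _ _ _ (hs _ _ _ h) h1, fun h1 => ht _ _ _ _ h h1⟩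

/-- outside the domain the average vanishes -/
lemma cx_of_not_dom (hs : ∀ x b c, E x b c → E x c b)
    (ht : ∀ x a b c, E x a b → E x b c → E x a c) {x : ℕ} {b : ι} (h : ¬ E x b b) (g : ι → ℝ) :
    cx D ν E x g b = 0 := by
  unfold cx
  have : D.filter (fun c => E x b c) = ∅ := by
    refine Finset.filter_eq_empty_iff.2 fun c _ hc => h (ht _ _ _ _ hc (hs _ _ _ hc))
  rw [this, Finset.sum_empty, zero_div]

/-- sums against a function constant on the classes -/
lemma sum_mul_cx (hν : ∀ b ∈ D, 0 ≤ ν b) (hs : ∀ x b c, E x b c → E x c b)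
    (ht : ∀ x a b c, E x a b → E x b c → E x a c) (x : ℕ) (u g : ι → ℝ)
    (hu : ∀ b c, E x b c → u b = u c) (hu0 : ∀ b, u b ≠ 0 → E x b b) :
    ∑ b ∈ D, ν b * u b * cx D ν E x g b = ∑ b ∈ D, ν b * u b * g b := by
  have e1 : ∑ b ∈ D, ν b * u b * cx D ν E x g b
      = ∑ b ∈ D, ∑ c ∈ D, if E x b c then ν b * u b * (ν c * g c) / mu D ν E x b else 0 := by
    refine Finset.sum_congr rfl fun b _ => ?_
    rw [← Finset.sum_filter]
    unfold cx
    rw [← mul_div_assoc, Finset.mul_sum, Finset.sum_div]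
  have e2 : ∑ b ∈ D, ∑ c ∈ D, (if E x b c then ν b * u b * (ν c * g c) / mu D ν E x b else 0)
      = ∑ c ∈ D, ∑ b ∈ D, if E x c b then ν b * (u c * (ν c * g c) / mu D ν E x c) else 0 := by
    rw [Finset.sum_comm]
    refine Finset.sum_congr rfl fun c _ => Finset.sum_congr rfl fun b _ => ?_
    by_cases h : E x b c
    · rw [if_pos h, if_pos (hs _ _ _ h), mu_congr hs ht h, hu _ _ h]
      ring
    · rw [if_neg h, if_neg (fun hc => h (hs _ _ _ hc))]
  rw [e1, e2]
  refine Finset.sum_congr rfl fun c hc => ?_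
  rw [← Finset.sum_filter, ← Finset.sum_mul]
  change mu D ν E x c * _ = _
  by_cases h0 : mu D ν E x c = 0
  · -- the class of `c` has mass zero
    by_cases huc : u c = 0
    · rw [huc]; ring
    · have hcc := hu0 c huc
      have hνc : ν c = 0 := by
        have h1 : ν c ≤ mu D ν E x c :=
          Finset.single_le_sum (f := ν) (fun d hd => hν d (Finset.mem_filter.1 hd).1)
            (Finset.mem_filter.2 ⟨hc, hcc⟩)
        linarith [hν c hc]
      rw [hνc]; ring
  · field_simp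


/-- **dual Doob inequality** -/
theorem dual_doob (hν : ∀ b ∈ D, 0 ≤ ν b) (hs : ∀ x b c, E x b c → E x c b)
    (ht : ∀ x a b c, E x a b → E x b c → E x a c)
    (hn : ∀ x y b c, x ≤ y → E x b b → E y b c → E x b c)
    (hd : ∀ x y b, x ≤ y → E x b b → E y b b)
    (s : Finset ℕ) (h : ℕ → ι → ℝ) (hh : ∀ x ∈ s, ∀ b ∈ D, 0 ≤ h x b) :
    ∑ b ∈ D, ν b * (∑ x ∈ s, cx D ν E x (h x) b) ^ 2 ≤
      4 * ∑ b ∈ D, ν b * (∑ x ∈ s, h x b) ^ 2 := by
  set Z : ι → ℝ := fun b => ∑ x ∈ s, cx D ν E x (h x) b with hZ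
  set R : ι → ℝ := fun b => ∑ x ∈ s, h x b with hR
  have hc0 : ∀ x ∈ s, ∀ b, 0 ≤ cx D ν E x (h x) b := fun x hx b => cx_nonneg hν x (hh x hx) b
  have hZ0 : ∀ b, 0 ≤ Z b := fun b => Finset.sum_nonneg fun x hx => hc0 x hx b
  have hR0 : ∀ b ∈ D, 0 ≤ R b := fun b hb => Finset.sum_nonneg fun x hx => hh x hx b hb
  -- cross terms
  have hcross : ∀ x ∈ s, ∀ y ∈ s, x ≤ y →
      ∑ b ∈ D, ν b * cx D ν E x (h x) b * cx D ν E y (h y) b
        = ∑ b ∈ D, ν b * cx D ν E x (h x) b * h y b := by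
    intro x _ y _ hxy
    refine sum_mul_cx hν hs ht y _ _ ?_ ?_
    · intro b c hbc
      by_cases hb : E x b b
      · exact cx_congr hs ht (hn x y b c hxy hb hbc) _
      · have hc : ¬ E x c c := fun hc => hb (by
          have := hn x y c b hxy hc (hs _ _ _ hbc)
          exact ht _ _ _ _ (hs _ _ _ this) this)
        rw [cx_of_not_dom hs ht hb, cx_of_not_dom hs ht hc]
    · intro b hb
      refine hd x y b hxy ?_
      by_contra hcon
      exact hb (cx_of_not_dom hs ht hcon _)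
  -- Z² ≤ 2 Σ_{x ≤ y}
  have h1 : ∑ b ∈ D, ν b * Z b ^ 2 ≤ 2 * ∑ b ∈ D, ν b * Z b * R b := by
    have hpt : ∀ b ∈ D, ν b * Z b ^ 2 ≤
        2 * ∑ x ∈ s, ∑ y ∈ s with x ≤ y, ν b * cx D ν E x (h x) b * cx D ν E y (h y) b := by
      intro b hb
      have e : ν b * Z b ^ 2 =
          ∑ x ∈ s, ∑ y ∈ s, ν b * cx D ν E x (h x) b * cx D ν E y (h y) b := by
        simp only [hZ]
        rw [pow_two, Finset.sum_mul_sum, Finset.mul_sum]
        refine Finset.sum_congr rfl fun x _ => ?_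
        rw [Finset.mul_sum]
        exact Finset.sum_congr rfl fun y _ => by ring
      rw [e]
      have h2 : ∑ x ∈ s, ∑ y ∈ s, ν b * cx D ν E x (h x) b * cx D ν E y (h y) b ≤
          ∑ x ∈ s, (∑ y ∈ s with x ≤ y, ν b * cx D ν E x (h x) b * cx D ν E y (h y) b)
          + ∑ x ∈ s, (∑ y ∈ s with y ≤ x, ν b * cx D ν E x (h x) b * cx D ν E y (h y) b) := by
        rw [← Finset.sum_add_distrib]
        refine Finset.sum_le_sum fun x hx => ?_
        rw [Finset.sum_filter, Finset.sum_filter, ← Finset.sum_add_distrib]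
        refine Finset.sum_le_sum fun y hy => ?_
        have h3 : 0 ≤ ν b * cx D ν E x (h x) b * cx D ν E y (h y) b :=
          mul_nonneg (mul_nonneg (hν b hb) (hc0 x hx b)) (hc0 y hy b)
        rcases le_total x y with h4 | h4
        · rw [if_pos h4]
          split_ifs <;> linarith
        · rw [if_pos h4]
          split_ifs <;> linarith
      have h5 : ∑ x ∈ s, (∑ y ∈ s with y ≤ x, ν b * cx D ν E x (h x) b * cx D ν E y (h y) b)
          = ∑ x ∈ s, (∑ y ∈ s with x ≤ y, ν b * cx D ν E x (h x) b * cx D ν E y (h y) b) := by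
        simp only [Finset.sum_filter]
        rw [Finset.sum_comm]
        refine Finset.sum_congr rfl fun x _ => Finset.sum_congr rfl fun y _ => ?_
        split_ifs <;> ring
      rw [h5] at h2
      linarith
    calc ∑ b ∈ D, ν b * Z b ^ 2
        ≤ ∑ b ∈ D, 2 * ∑ x ∈ s, ∑ y ∈ s with x ≤ y,
            ν b * cx D ν E x (h x) b * cx D ν E y (h y) b := Finset.sum_le_sum hpt
      _ = 2 * ∑ x ∈ s, ∑ y ∈ s with x ≤ y,
            ∑ b ∈ D, ν b * cx D ν E x (h x) b * cx D ν E y (h y) b := by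
          rw [← Finset.mul_sum, Finset.sum_comm]
          refine congrArg (fun t : ℝ => 2 * t) ?_
          refine Finset.sum_congr rfl fun x _ => ?_
          rw [Finset.sum_comm]
      _ = 2 * ∑ x ∈ s, ∑ y ∈ s with x ≤ y, ∑ b ∈ D, ν b * cx D ν E x (h x) b * h y b := by
          refine congrArg (fun t : ℝ => 2 * t) ?_
          refine Finset.sum_congr rfl fun x hx => Finset.sum_congr rfl fun y hy => ?_
          rw [Finset.mem_filter] at hy
          exact hcross x hx y hy.1 hy.2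
      _ ≤ 2 * ∑ x ∈ s, ∑ y ∈ s, ∑ b ∈ D, ν b * cx D ν E x (h x) b * h y b := by
          refine mul_le_mul_of_nonneg_left (Finset.sum_le_sum fun x hx => ?_) (by norm_num)
          refine Finset.sum_le_sum_of_subset_of_nonneg (Finset.filter_subset _ _) ?_
          intro y hy _
          exact Finset.sum_nonneg fun b hb =>
            mul_nonneg (mul_nonneg (hν b hb) (hc0 x hx b)) (hh y hy b hb)
      _ = 2 * ∑ b ∈ D, ν b * Z b * R b := by
          have hp : ∀ b : ι, ν b * Z b * R b =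
              ∑ x ∈ s, ∑ y ∈ s, ν b * cx D ν E x (h x) b * h y b := by
            intro b
            have e1 : Z b * R b = ∑ x ∈ s, ∑ y ∈ s, cx D ν E x (h x) b * h y b :=
              Finset.sum_mul_sum s s (fun x => cx D ν E x (h x) b) (fun y => h y b)
            rw [mul_assoc, e1, Finset.mul_sum]
            refine Finset.sum_congr rfl fun x _ => ?_
            rw [Finset.mul_sum]
            exact Finset.sum_congr rfl fun y _ => by ring
          have hq : ∑ b ∈ D, ν b * Z b * R b =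
              ∑ x ∈ s, ∑ y ∈ s, ∑ b ∈ D, ν b * cx D ν E x (h x) b * h y b := by
            rw [Finset.sum_congr rfl fun b _ => hp b, Finset.sum_comm]
            refine Finset.sum_congr rfl fun x _ => ?_
            rw [Finset.sum_comm]
          rw [hq]
  -- 2 Z R ≤ Z²/2 + 2 R²
  have h6 : 2 * ∑ b ∈ D, ν b * Z b * R b ≤
      (1/2) * ∑ b ∈ D, ν b * Z b ^ 2 + 2 * ∑ b ∈ D, ν b * R b ^ 2 := by
    rw [Finset.mul_sum, Finset.mul_sum, Finset.mul_sum, ← Finset.sum_add_distrib]
    refine Finset.sum_le_sum fun b hb => ?_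
    have h7 := hν b hb
    have h8 : 0 ≤ ν b * (Z b - 2 * R b) ^ 2 := mul_nonneg h7 (sq_nonneg _)
    nlinarith
  linarith

/-- **row lemma, abstract form** -/
theorem row_abs (hν : ∀ b ∈ D, 0 ≤ ν b) (hs : ∀ x b c, E x b c → E x c b)
    (ht : ∀ x a b c, E x a b → E x b c → E x a c)
    (hn : ∀ x y b c, x ≤ y → E x b b → E y b c → E x b c)
    (hd : ∀ x y b, x ≤ y → E x b b → E y b b)
    (s : Finset ℕ) (h : ℕ → ι → ℝ) (hh : ∀ x ∈ s, ∀ b ∈ D, 0 ≤ h x b) (f : ι → ℝ) :
    ∑ x ∈ s, ∑ b ∈ D, ν b * f b * cx D ν E x (h x) b ≤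
      2 * (Real.sqrt (∑ b ∈ D, ν b * f b ^ 2) *
        Real.sqrt (∑ b ∈ D, ν b * (∑ x ∈ s, h x b) ^ 2)) := by
  set Z : ι → ℝ := fun b => ∑ x ∈ s, cx D ν E x (h x) b with hZ
  have e : ∑ x ∈ s, ∑ b ∈ D, ν b * f b * cx D ν E x (h x) b = ∑ b ∈ D, ν b * f b * Z b := by
    rw [Finset.sum_comm]
    refine Finset.sum_congr rfl fun b _ => ?_
    simp only [hZ]
    rw [Finset.mul_sum]
  rw [e]
  have hcs : ∑ b ∈ D, ν b * f b * Z b ≤
      Real.sqrt (∑ b ∈ D, ν b * f b ^ 2) * Real.sqrt (∑ b ∈ D, ν b * Z b ^ 2) := by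
    have h1 := Real.sum_mul_le_sqrt_mul_sqrt D (fun b => Real.sqrt (ν b) * f b)
      (fun b => Real.sqrt (ν b) * Z b)
    have e1 : ∀ b ∈ D, Real.sqrt (ν b) * f b * (Real.sqrt (ν b) * Z b) = ν b * f b * Z b := by
      intro b hb
      have := Real.mul_self_sqrt (hν b hb)
      calc _ = (Real.sqrt (ν b) * Real.sqrt (ν b)) * f b * Z b := by ring
        _ = _ := by rw [this]
    have e2 : ∀ g : ι → ℝ, ∀ b ∈ D, (Real.sqrt (ν b) * g b) ^ 2 = ν b * g b ^ 2 := by
      intro g b hb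
      rw [mul_pow, Real.sq_sqrt (hν b hb)]
    rw [Finset.sum_congr rfl e1, Finset.sum_congr rfl (e2 f), Finset.sum_congr rfl (e2 Z)] at h1
    exact h1
  refine hcs.trans ?_
  have h2 := dual_doob hν hs ht hn hd s h hh
  have h3 : Real.sqrt (∑ b ∈ D, ν b * Z b ^ 2) ≤
      2 * Real.sqrt (∑ b ∈ D, ν b * (∑ x ∈ s, h x b) ^ 2) := by
    have : Real.sqrt (4 * ∑ b ∈ D, ν b * (∑ x ∈ s, h x b) ^ 2)
        = 2 * Real.sqrt (∑ b ∈ D, ν b * (∑ x ∈ s, h x b) ^ 2) := by
      rw [Real.sqrt_mul (by norm_num)]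
      congr 1
      rw [show (4:ℝ) = 2 ^ 2 by norm_num]
      exact Real.sqrt_sq (by norm_num)
    rw [← this]
    exact Real.sqrt_le_sqrt h2
  calc Real.sqrt (∑ b ∈ D, ν b * f b ^ 2) * Real.sqrt (∑ b ∈ D, ν b * Z b ^ 2)
      ≤ Real.sqrt (∑ b ∈ D, ν b * f b ^ 2) *
        (2 * Real.sqrt (∑ b ∈ D, ν b * (∑ x ∈ s, h x b) ^ 2)) :=
        mul_le_mul_of_nonneg_left h3 (Real.sqrt_nonneg _)
    _ = _ := by ring

end abstract

/-! ### The classes of an F-Λ structure -/

section FLpart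

variable {M : ℕ} (F : FL M)

/-- pure from `x` on: letters `< x` equal, branched letters `≥ x` equal, passive letters `≥ x`
have minimum = centre -/
def PureFrom (x b c : ℕ) : Prop :=
  ∀ q, q.Prime → (q < x → b.factorization q = c.factorization q) ∧
    (x ≤ q → (F.ctr b q = none → b.factorization q = c.factorization q) ∧
      (∀ v, F.ctr b q = some v → min (b.factorization q) (c.factorization q) = v))

/-- the class relation: letters `< x` equal, same node, no deficits at primes `≥ x` -/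
def Cls (x b c : ℕ) : Prop :=
  b ∣ M ∧ c ∣ M ∧ ∀ q, q.Prime → (q < x → b.factorization q = c.factorization q) ∧
    (x ≤ q → F.ctr b q = F.ctr c q ∧
      (F.ctr b q = none → b.factorization q = c.factorization q) ∧
      (∀ v, F.ctr b q = some v → v ≤ b.factorization q ∧ v ≤ c.factorization q))

variable {F}

lemma cls_symm (x b c : ℕ) (h : Cls F x b c) : Cls F x c b := by
  refine ⟨h.2.1, h.1, fun q hq => ?_⟩
  obtain ⟨h1, h2⟩ := h.2.2 q hq
  refine ⟨fun hx => (h1 hx).symm, fun hx => ?_⟩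
  obtain ⟨e, h3, h4⟩ := h2 hx
  refine ⟨e.symm, fun hn => (h3 (e.trans hn)).symm, fun v hv => ?_⟩
  exact (h4 v (e.trans hv)).symm

lemma cls_trans (x a b c : ℕ) (h : Cls F x a b) (h' : Cls F x b c) : Cls F x a c := by
  refine ⟨h.1, h'.2.1, fun q hq => ?_⟩
  obtain ⟨h1, h2⟩ := h.2.2 q hq
  obtain ⟨h1', h2'⟩ := h'.2.2 q hq
  refine ⟨fun hx => (h1 hx).trans (h1' hx), fun hx => ?_⟩
  obtain ⟨e, h3, h4⟩ := h2 hx
  obtain ⟨e', h3', h4'⟩ := h2' hx
  refine ⟨e.trans e', fun hn => (h3 hn).trans (h3' (e ▸ hn)), fun v hv => ?_⟩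
  exact ⟨(h4 v hv).1, (h4' v (e ▸ hv)).2⟩

lemma cls_nest (x y b c : ℕ) (hxy : x ≤ y) (hb : Cls F x b b) (h : Cls F y b c) :
    Cls F x b c := by
  -- letters in [x, y) are equal, so statuses agree everywhere ≥ x
  have hsame : ∀ q, q.Prime → F.ctr b q = none → b.factorization q = c.factorization q := by
    intro q hq hn
    rcases lt_or_ge q y with hqy | hqy
    · exact (h.2.2 q hq).1 hqy
    · exact ((h.2.2 q hq).2 hqy).2.1 hn
  have hctr : ∀ q, q.Prime → F.ctr b q = F.ctr c q := fun q hq =>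
    F.coh h.1 h.2.1 hq fun r hr _ hn => hsame r hr hn
  refine ⟨h.1, h.2.1, fun q hq => ⟨fun hx => (h.2.2 q hq).1 (lt_of_lt_of_le hx hxy),
    fun hx => ⟨hctr q hq, hsame q hq, fun v hv => ?_⟩⟩⟩
  rcases lt_or_ge q y with hqy | hqy
  · have e := (h.2.2 q hq).1 hqy
    have h1 := ((hb.2.2 q hq).2 hx).2.2 v hv
    rw [← e]
    exact ⟨h1.1, h1.1⟩
  · exact ((h.2.2 q hq).2 hqy).2.2 v hv

lemma cls_dom (x y b : ℕ) (hxy : x ≤ y) (hb : Cls F x b b) : Cls F y b b := by
  refine ⟨hb.1, hb.1, fun q hq => ⟨fun _ => rfl, fun hx => ⟨rfl, fun _ => rfl, fun v hv => ?_⟩⟩⟩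
  exact ((hb.2.2 q hq).2 (hxy.trans hx)).2.2 v hv

/-- a `PureFrom` pair lies in one class -/
lemma cls_of_pure {x b c : ℕ} (hb : b ∣ M) (hc : c ∣ M) (h : PureFrom F x b c) :
    Cls F x b c := by
  have hsame : ∀ q, q.Prime → F.ctr b q = none → b.factorization q = c.factorization q := by
    intro q hq hn
    rcases lt_or_ge q x with hqx | hqx
    · exact (h q hq).1 hqx
    · exact ((h q hq).2 hqx).1 hn
  have hctr : ∀ q, q.Prime → F.ctr b q = F.ctr c q := fun q hq =>
    F.coh hb hc hq fun r hr _ hn => hsame r hr hn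
  refine ⟨hb, hc, fun q hq => ⟨(h q hq).1, fun hx => ⟨hctr q hq, hsame q hq, fun v hv => ?_⟩⟩⟩
  have h1 := ((h q hq).2 hx).2 v hv
  omega

/-- the gcd of a `PureFrom` pair divides the whole class -/
lemma gcd_dvd_cls {x b c d : ℕ} (hM : 0 < M) (hb : b ∣ M) (hc : c ∣ M)
    (h : PureFrom F x b c) (hd : Cls F x b d) : Nat.gcd b c ∣ d := by
  have hb0 : b ≠ 0 := (Nat.pos_of_dvd_of_pos hb hM).ne'
  have hc0 : c ≠ 0 := (Nat.pos_of_dvd_of_pos hc hM).ne'
  have hd0 : d ≠ 0 := (Nat.pos_of_dvd_of_pos hd.2.1 hM).ne'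
  have hg0 : Nat.gcd b c ≠ 0 := Nat.gcd_ne_zero_left hb0
  rw [← Nat.factorization_le_iff_dvd hg0 hd0]
  intro q
  by_cases hq : q.Prime
  · rw [Nat.factorization_gcd hb0 hc0, Finsupp.inf_apply]
    rcases lt_or_ge q x with hqx | hqx
    · rw [← (hd.2.2 q hq).1 hqx]
      exact inf_le_left
    · obtain ⟨_, h3, h4⟩ := (hd.2.2 q hq).2 hqx
      cases hs : F.ctr b q with
      | none => rw [← h3 hs]; exact inf_le_left
      | some v =>
        have h5 := ((h q hq).2 hqx).2 v hs
        have h6 := (h4 v hs).2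
        have : b.factorization q ⊓ c.factorization q = min (b.factorization q) (c.factorization q) :=
          rfl
        rw [this, h5]
        exact h6
  · rw [Nat.factorization_eq_zero_of_not_prime _ hq]
    exact Nat.zero_le _


end FLpart

end Crest.Agent.R4C.RowPx823
end

-- ▼ part R4C/RowB_899
section

/-!
# Row 4: BOOSTED `L²` row lemmas (helper899)

`frm M` carries the factor `gcd ν ν`; for pairs with equal letters below `x` this contains
`Vx M x b = ∏_{q < x, v_q b < v_q M} (1 - 1/q)`.  The boost cancels (part of) this factor.  Here the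
row lemmas of `RowL2_423` and `RowP_823` are proved with the full factor `1 / Vx M x b`
(helper5's note 3094 (1), helper823's note 3229 (3)).

* `row_mainB`    : `∑_x frm M (1[pd F x b c] A x b f c / Vx M x b) ≤ ∑ ν Phi(f, RR F A)`.
* `row_bilinB`   : two functions, row sums `≤ ρ` (`1 ≤ ρ`): `≤ 14 ρ ‖f‖ ‖g‖`.
* `row_presentB` : `∑_x frm M (1[PureFrom F x b c] f b h x c / Vx M x b) ≤ 2 ‖f‖ ‖∑_x h x‖`.
* `wbd_alpha`, `wbd_beta` : the kernels as `WBd` (weighted set bounds).
-/

set_option autoImplicit false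

namespace Crest.Agent.R4C.RowBx899

open Finset Crest.Agent.R4C.Basex935 Crest.Agent.R4C.FLDefx935 Crest.Agent.R4C.PureL2x232
  Crest.Agent.R4C.RowL2x423

variable {p a M1 : ℕ}

lemma one_sub_pos {q : ℕ} (hq : q.Prime) : 0 < 1 - 1 / (q : ℝ) := by
  have h2 : (2 : ℝ) ≤ q := by exact_mod_cast hq.two_le
  have : 1 / (q : ℝ) ≤ 1 / 2 := one_div_le_one_div_of_le (by norm_num) h2
  linarith

lemma Vx_pos (M x b : ℕ) : 0 < Vx M x b :=
  Finset.prod_pos fun _ hq =>
    one_sub_pos (Nat.prime_of_mem_primeFactors (Finset.mem_filter.1 hq).1)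

/-- `Vx` at a prime `x ≤ p`, `p` the top prime -/
lemma Vx_top (hp : p.Prime) (hM : 0 < M1) (_hnd : ¬ p ∣ M1) (ha : 0 < a) {x v b : ℕ}
    (hx : x ≤ p) (hb : b ∣ M1) : Vx (p ^ a * M1) x (p ^ v * b) = Vx M1 x b := by
  unfold Vx
  congr 1
  ext q
  simp only [Finset.mem_filter]
  rw [pf_insert hp hM ha, Finset.mem_insert]
  have hb0 := mem_ne_zero hM hb
  constructor
  · rintro ⟨h1, h2, h3⟩
    have hqp : q ≠ p := by omega
    rw [fac_ne hp hb0 hqp, fac_ne hp hM.ne' hqp] at h3
    exact ⟨h1.resolve_left hqp, h2, h3⟩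
  · rintro ⟨h1, h2, h3⟩
    have hqp : q ≠ p := by omega
    rw [fac_ne hp hb0 hqp, fac_ne hp hM.ne' hqp]
    exact ⟨Or.inr h1, h2, h3⟩

/-- `b ν(b) = Vx M x b` when all primes of `M` are `< x` -/
lemma diag_Vx {M x b : ℕ} (hM : 0 < M) (hmax : ∀ r, r.Prime → r ∣ M → r < x) (hb : b ∣ M) :
    (b : ℝ) * nu M b = Vx M x b := by
  rw [PrefixMx882.diag hM hb]
  unfold Vx PrefixMx882.free
  congr 1
  ext q
  simp only [Finset.mem_filter]
  constructor
  · rintro ⟨h1, h2⟩
    exact ⟨h1, hmax q (Nat.prime_of_mem_primeFactors h1) (Nat.dvd_of_mem_primeFactors h1), h2⟩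
  · rintro ⟨h1, _, h2⟩
    exact ⟨h1, h2⟩

open Classical in
/-- **the boosted row theorem** -/
theorem row_mainB : ∀ M : ℕ, 0 < M → (∀ (F : FL M) (A : ℕ → ℕ → ℝ) (f : ℕ → ℝ),
    (∀ b, 0 ≤ f b) → (∀ x b, 0 ≤ A x b) → (∀ x b, A x b ≤ f b) →
    SS F (fun x b => A x b / Vx M x b) f ≤ ∑ b ∈ M.divisors, nu M b * Phi (f b) (RR F A b)) := by
  refine ind_max ?_ ?_
  · intro F A f hf hA hAf
    unfold SS
    rw [Nat.primeFactors_one, Finset.sum_empty]
    exact Finset.sum_nonneg fun b _ => mul_nonneg (nu_nonneg _ _) (Phi_nonneg _ _)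
  · intro p a M1 hp ha hM hnd hmax ih F A f hf hA hAf
    have hcop : Nat.Coprime (p ^ a) M1 :=
      Nat.Coprime.pow_left a ((Nat.Prime.coprime_iff_not_dvd hp).2 hnd)
    have hMM : 0 < p ^ a * M1 := Nat.mul_pos (pow_pos hp.pos a) hM
    have hnn : ∀ v, 0 ≤ nup p a v := fun v => nup_nonneg hp.pos a v
    have hstat : ∀ v b, v ≤ a → b ∣ M1 → F.ctr (p ^ v * b) p = F.ctr 1 p := fun v b hv hb =>
      ctr_top hMM hp F (top_le_p hp hmax) (Nat.mul_dvd_mul (pow_dvd_pow p hv) hb) (one_dvd _)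
    -- the weight with the boost
    set A' : ℕ → ℕ → ℝ := fun x b => A x b / Vx (p ^ a * M1) x b with hA'
    have hA'0 : ∀ x b, 0 ≤ A' x b := fun x b => div_nonneg (hA x b) (Vx_nonneg _ _ _)
    have hA'e : ∀ x v b, x ≤ p → b ∣ M1 → A' x (p ^ v * b) = A x (p ^ v * b) / Vx M1 x b := by
      intro x v b hx hb
      simp only [hA']
      rw [Vx_top hp hM hnd ha hx hb]
    have hrhs : ∑ b ∈ (p ^ a * M1).divisors, nu (p ^ a * M1) b * Phi (f b) (RR F A b) =
        ∑ v ∈ range (a + 1), ∑ b ∈ M1.divisors,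
          nup p a v * (nu M1 b * Phi (f (p ^ v * b)) (RR F A (p ^ v * b))) := by
      rw [sum_split hp a hM hnd]
      refine Finset.sum_congr rfl fun v hv => Finset.sum_congr rfl fun b hb => ?_
      rw [Finset.mem_range] at hv
      rw [Nat.mem_divisors] at hb
      rw [nu_mul hcop (pow_dvd_pow p (by omega)) hb.1, nu_prime_pow hp (by omega), mul_assoc]
    have hlhs : SS F A' f = ∑ x ∈ insert p M1.primeFactors,
        ∑ v ∈ range (a + 1), ∑ v' ∈ range (a + 1),
        (p : ℝ) ^ (min v v') * nup p a v * nup p a v' *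
        frm M1 (fun b c => if pd F x (p ^ v * b) (p ^ v' * c) then
          A' x (p ^ v * b) * f (p ^ v' * c) else 0) := by
      unfold SS
      rw [pf_insert hp hM ha]
      exact Finset.sum_congr rfl fun x _ => frm_split hp a hM hnd _
    rw [hrhs, hlhs]
    cases hs : F.ctr 1 p with
    | none =>
      -- branched
      have hzero : ∀ v b c x, v ≤ a → b ∣ M1 → x = p → ¬ pd F x (p ^ v * b) c := by
        intro v b c x hv hb hx h
        subst hx
        have := h.2.1
        rw [hstat v b hv hb, hs] at this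
        cases this
      rw [Finset.sum_comm]
      refine Finset.sum_le_sum fun v hv => ?_
      rw [Finset.mem_range] at hv
      have hva : v ≤ a := by omega
      rw [Finset.sum_insert (p_notMem hnd)]
      have h1 : ∑ v' ∈ range (a + 1), (p : ℝ) ^ (min v v') * nup p a v * nup p a v' *
          frm M1 (fun b c => if pd F p (p ^ v * b) (p ^ v' * c) then
          A' p (p ^ v * b) * f (p ^ v' * c) else 0) ≤ 0 := by
        refine Finset.sum_nonpos fun v' _ => ?_
        refine mul_nonpos_of_nonneg_of_nonpos (mul_nonneg (mul_nonneg (by positivity) (hnn _))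
          (hnn _)) (frm_le_zero fun b c hb hc => ?_)
        rw [if_neg (hzero v b _ p hva hb rfl)]
      have h2 : ∑ x ∈ M1.primeFactors, ∑ v' ∈ range (a + 1),
          (p : ℝ) ^ (min v v') * nup p a v * nup p a v' *
          frm M1 (fun b c => if pd F x (p ^ v * b) (p ^ v' * c) then
          A' x (p ^ v * b) * f (p ^ v' * c) else 0) ≤
          (p : ℝ) ^ v * nup p a v * nup p a v *
            SS (restr hp hM hnd F v hva) (fun x b => A x (p ^ v * b) / Vx M1 x b)
              (fun b => f (p ^ v * b)) := by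
        unfold SS
        rw [Finset.mul_sum]
        refine Finset.sum_le_sum fun x hx => ?_
        have hxp : x.Prime := Nat.prime_of_mem_primeFactors hx
        have hxlt : x < p := hmax x hxp (Nat.dvd_of_mem_primeFactors hx)
        rw [Finset.sum_eq_single_of_mem v (Finset.mem_range.2 hv)]
        · rw [min_self]
          refine mul_le_mul_of_nonneg_left (frm_mono fun b c hb hc => ?_)
            (mul_nonneg (mul_nonneg (by positivity) (hnn _)) (hnn _))
          rw [hA'e x v b hxlt.le hb]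
          by_cases h : pd F x (p ^ v * b) (p ^ v * c)
          · have h3 := pd_branch hp hM hnd F hxlt hva hb hc (by rw [hstat v b hva hb, hs]) h
            rw [if_pos h, if_pos h3.2]
          · rw [if_neg h]
            split_ifs
            · exact mul_nonneg (div_nonneg (hA _ _) (Vx_nonneg _ _ _)) (hf _)
            · exact le_rfl
        · intro v' hv' hne
          have e : frm M1 (fun b c => if pd F x (p ^ v * b) (p ^ v' * c) then
              A' x (p ^ v * b) * f (p ^ v' * c) else 0) = 0 := by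
            unfold frm
            refine Finset.sum_eq_zero fun b hb => Finset.sum_eq_zero fun c hc => ?_
            rw [Nat.mem_divisors] at hb hc
            dsimp only
            rw [if_neg, mul_zero]
            intro h
            exact hne (pd_branch hp hM hnd F hxlt hva hb.1 hc.1
              (by rw [hstat v b hva hb.1, hs]) h).1.symm
          rw [e, mul_zero]
      have h3 := ih (restr hp hM hnd F v hva) (fun x b => A x (p ^ v * b))
        (fun b => f (p ^ v * b)) (fun b => hf _) (fun x b => hA _ _) (fun x b => hAf _ _)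
      have hθ := theta_le hp a v hva
      have hθ0 : 0 ≤ (p : ℝ) ^ v * nup p a v := mul_nonneg (by positivity) (hnn v)
      calc _ ≤ 0 + (p : ℝ) ^ v * nup p a v * nup p a v *
            SS (restr hp hM hnd F v hva) (fun x b => A x (p ^ v * b) / Vx M1 x b)
              (fun b => f (p ^ v * b)) :=
            add_le_add h1 h2
        _ ≤ 0 + (p : ℝ) ^ v * nup p a v * nup p a v * ∑ b ∈ M1.divisors, nu M1 b *
            Phi (f (p ^ v * b)) (RR (restr hp hM hnd F v hva) (fun x b => A x (p ^ v * b)) b) :=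
            add_le_add_right (mul_le_mul_of_nonneg_left h3 (mul_nonneg hθ0 (hnn v))) _
        _ ≤ _ := by
          rw [zero_add, Finset.mul_sum]
          refine Finset.sum_le_sum fun b hb => ?_
          rw [Nat.mem_divisors] at hb
          have hνb := nu_nonneg M1 b
          have h4 : Phi (f (p ^ v * b))
              (RR (restr hp hM hnd F v hva) (fun x b => A x (p ^ v * b)) b) ≤
              Phi (f (p ^ v * b)) (RR F A (p ^ v * b)) := by
            refine Phi_mono (hf _) (RR_nonneg _ (fun x b => hA _ _) _) ?_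
            rw [RR_restr hp hM hnd F _ hva, RR_split hp hM hnd ha F A hb.1]
            refine le_add_of_nonneg_left ?_
            split_ifs
            · exact mul_nonneg (by positivity) (hA _ _)
            · exact le_rfl
          have h5 := Phi_nonneg (f (p ^ v * b)) (RR F A (p ^ v * b))
          calc (p : ℝ) ^ v * nup p a v * nup p a v * (nu M1 b * Phi (f (p ^ v * b))
              (RR (restr hp hM hnd F v hva) (fun x b => A x (p ^ v * b)) b))
              ≤ (p : ℝ) ^ v * nup p a v * nup p a v *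
                (nu M1 b * Phi (f (p ^ v * b)) (RR F A (p ^ v * b))) :=
                mul_le_mul_of_nonneg_left (mul_le_mul_of_nonneg_left h4 hνb)
                  (mul_nonneg hθ0 (hnn v))
            _ ≤ 1 * nup p a v * (nu M1 b * Phi (f (p ^ v * b)) (RR F A (p ^ v * b))) :=
                mul_le_mul_of_nonneg_right (mul_le_mul_of_nonneg_right hθ (hnn v))
                  (mul_nonneg hνb h5)
            _ = _ := by rw [one_mul]
    | some v0 =>
      -- passive, centre `v0`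
      have hv0 : v0 ≤ a := by
        have h1 := F.le (one_dvd _) hp hs
        rwa [fac_self hp hM.ne' hnd] at h1
      have hv0m : v0 ∈ range (a + 1) := Finset.mem_range.2 (by omega)
      set F1 := restr hp hM hnd F v0 hv0 with hF1
      set π : ℝ := (1 / (p : ℝ)) ^ v0 with hπ
      have hπ0 : 0 ≤ π := by positivity
      have hmn : ∀ v, 0 ≤ ml p a v0 v := ml_nonneg hp a v0
      have hst : ∀ v b, v ≤ a → b ∣ M1 → F.ctr (p ^ v * b) p = some v0 := fun v b hv hb =>
        (hstat v b hv hb).trans hs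
      have hcoef : ∀ v v', min v v' = v0 → (p : ℝ) ^ (min v v') * nup p a v * nup p a v' =
          π * (ml p a v0 v * ml p a v0 v') := by
        intro v v' hmin
        unfold ml
        rw [if_pos (by omega), if_pos (by omega), hmin]
        calc (p : ℝ) ^ v0 * nup p a v * nup p a v'
            = 1 * ((p : ℝ) ^ v0 * nup p a v * nup p a v') := (one_mul _).symm
          _ = (π * (p : ℝ) ^ v0) * ((p : ℝ) ^ v0 * nup p a v * nup p a v') := by
              rw [hπ, pi_mul hp]
          _ = _ := by ring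
      set Ap : ℕ → ℝ := fun b => if v0 < a then A p (p ^ v0 * b) else 0 with hAp
      have hAp0 : ∀ b, 0 ≤ Ap b := by
        intro b
        simp only [hAp]
        split_ifs
        · exact hA _ _
        · exact le_rfl
      have hApf : ∀ b, Ap b ≤ f (p ^ v0 * b) := by
        intro b
        simp only [hAp]
        split_ifs
        · exact hAf _ _
        · exact hf _
      rw [Finset.sum_insert (p_notMem hnd)]
      -- the primes below `p`
      have hlow : ∑ x ∈ M1.primeFactors, ∑ v ∈ range (a + 1), ∑ v' ∈ range (a + 1),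
          (p : ℝ) ^ (min v v') * nup p a v * nup p a v' *
          frm M1 (fun b c => if pd F x (p ^ v * b) (p ^ v' * c) then
            A' x (p ^ v * b) * f (p ^ v' * c) else 0) ≤
          π * SS F1 (fun x b => (∑ v ∈ range (a + 1), ml p a v0 v * A x (p ^ v * b)) / Vx M1 x b)
            (fun b => ∑ v ∈ range (a + 1), ml p a v0 v * f (p ^ v * b)) := by
        unfold SS
        rw [Finset.mul_sum]
        refine Finset.sum_le_sum fun x hx => ?_
        have hxp : x.Prime := Nat.prime_of_mem_primeFactors hx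
        have hxlt : x < p := hmax x hxp (Nat.dvd_of_mem_primeFactors hx)
        have hdiv : ∀ b, (∑ v ∈ range (a + 1), ml p a v0 v * A x (p ^ v * b)) / Vx M1 x b =
            ∑ v ∈ range (a + 1), ml p a v0 v * (A x (p ^ v * b) / Vx M1 x b) := by
          intro b
          rw [Finset.sum_div]
          exact Finset.sum_congr rfl fun v _ => by ring
        simp only [hdiv]
        rw [← frm_avg2 (range (a + 1)) (ml p a v0) (fun v b => A x (p ^ v * b) / Vx M1 x b)
          (fun v b => f (p ^ v * b)) (pd F1 x)]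
        rw [Finset.mul_sum]
        refine Finset.sum_le_sum fun v hv => ?_
        rw [Finset.mul_sum]
        refine Finset.sum_le_sum fun v' hv' => ?_
        rw [Finset.mem_range] at hv hv'
        have hva : v ≤ a := by omega
        by_cases hmin : min v v' = v0
        · rw [hcoef v v' hmin, mul_assoc]
          refine mul_le_mul_of_nonneg_left (mul_le_mul_of_nonneg_left (frm_mono fun b c hb hc => ?_)
            (mul_nonneg (hmn v) (hmn v'))) hπ0
          rw [hA'e x v b hxlt.le hb]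
          by_cases h : pd F x (p ^ v * b) (p ^ v' * c)
          · rw [if_pos h, if_pos (pd_passive hp hM hnd F hxlt hxp hva hv0 hb hc (hst v b hva hb) h).2]
          · rw [if_neg h]
            split_ifs
            · exact mul_nonneg (div_nonneg (hA _ _) (Vx_nonneg _ _ _)) (hf _)
            · exact le_rfl
        · have e : frm M1 (fun b c => if pd F x (p ^ v * b) (p ^ v' * c) then
              A' x (p ^ v * b) * f (p ^ v' * c) else 0) = 0 := by
            unfold frm
            refine Finset.sum_eq_zero fun b hb => Finset.sum_eq_zero fun c hc => ?_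
            rw [Nat.mem_divisors] at hb hc
            dsimp only
            rw [if_neg, mul_zero]
            intro h
            exact hmin (pd_passive hp hM hnd F hxlt hxp hva hv0 hb.1 hc.1 (hst v b hva hb.1) h).1
          rw [e, mul_zero]
          refine mul_nonneg hπ0 (mul_nonneg (mul_nonneg (hmn v) (hmn v')) (frm_nonneg fun b c _ _ => ?_))
          split_ifs
          · exact mul_nonneg (div_nonneg (hA _ _) (Vx_nonneg _ _ _)) (hf _)
          · exact le_rfl
      -- the prime `p`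
      have hfz : ∀ v v', v ≤ a → ¬ (v = v0 ∧ v < v') →
          frm M1 (fun b c => if pd F p (p ^ v * b) (p ^ v' * c) then
              A' p (p ^ v * b) * f (p ^ v' * c) else 0) = 0 := by
        intro v v' hva hne
        unfold frm
        refine Finset.sum_eq_zero fun b hb => Finset.sum_eq_zero fun c hc => ?_
        rw [Nat.mem_divisors] at hb hc
        dsimp only
        rw [if_neg, mul_zero]
        intro h
        obtain ⟨_, h2, h3⟩ := pd_top hp hM hnd hmax F hb.1 hc.1 h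
        rw [hst v b hva hb.1] at h2
        cases h2
        exact hne ⟨rfl, h3⟩
      have htop : ∑ v ∈ range (a + 1), ∑ v' ∈ range (a + 1),
          (p : ℝ) ^ (min v v') * nup p a v * nup p a v' *
          frm M1 (fun b c => if pd F p (p ^ v * b) (p ^ v' * c) then
            A' p (p ^ v * b) * f (p ^ v' * c) else 0) ≤
          π * ∑ b ∈ M1.divisors, nu M1 b * (ml p a v0 v0 * Ap b *
            ∑ v' ∈ (range (a + 1)).erase v0, ml p a v0 v' * f (p ^ v' * b)) := by
        rw [Finset.sum_eq_single_of_mem v0 hv0m]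
        · have e1 : π * ∑ b ∈ M1.divisors, nu M1 b * (ml p a v0 v0 * Ap b *
              ∑ v' ∈ (range (a + 1)).erase v0, ml p a v0 v' * f (p ^ v' * b)) =
              ∑ v' ∈ (range (a + 1)).erase v0, π * (ml p a v0 v0 * ml p a v0 v') *
                ∑ b ∈ M1.divisors, nu M1 b * (Ap b * f (p ^ v' * b)) := by
            simp only [Finset.mul_sum]
            rw [Finset.sum_comm]
            refine Finset.sum_congr rfl fun v' _ => Finset.sum_congr rfl fun b _ => by ring
          rw [e1, ← Finset.add_sum_erase _ _ hv0m, hfz v0 v0 hv0 (by omega), mul_zero, zero_add]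
          refine Finset.sum_le_sum fun v' hv' => ?_
          have hv'a : v' ≤ a := by
            have := Finset.mem_range.1 (Finset.mem_of_mem_erase hv')
            omega
          have hrn : 0 ≤ ∑ b ∈ M1.divisors, nu M1 b * (Ap b * f (p ^ v' * b)) :=
            Finset.sum_nonneg fun b _ => mul_nonneg (nu_nonneg _ _) (mul_nonneg (hAp0 _) (hf _))
          by_cases hlt : v0 < v'
          · rw [hcoef v0 v' (min_eq_left hlt.le)]
            refine mul_le_mul_of_nonneg_left ?_ (mul_nonneg hπ0 (mul_nonneg (hmn _) (hmn _)))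
            have hAe : ∀ b, b ∣ M1 → A' p (p ^ v0 * b) = Ap b / Vx M1 p b := fun b hb => by
              rw [hA'e p v0 b le_rfl hb]
              simp only [hAp]
              rw [if_pos (by omega)]
            have h1 : frm M1 (fun b c => if pd F p (p ^ v0 * b) (p ^ v' * c) then
                A' p (p ^ v0 * b) * f (p ^ v' * c) else 0) ≤
                frm M1 (fun b c => if b = c then Ap b / Vx M1 p b * f (p ^ v' * c) else 0) := by
              refine frm_mono fun b c hb hc => ?_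
              by_cases h : pd F p (p ^ v0 * b) (p ^ v' * c)
              · rw [if_pos h, if_pos (pd_top hp hM hnd hmax F hb hc h).1, hAe b hb]
              · rw [if_neg h]
                split_ifs
                · exact mul_nonneg (div_nonneg (hAp0 _) (Vx_nonneg _ _ _)) (hf _)
                · exact le_rfl
            refine h1.trans ?_
            rw [frm_diag (fun b c => Ap b / Vx M1 p b * f (p ^ v' * c))]
            refine Finset.sum_le_sum fun b hb => ?_
            rw [Nat.mem_divisors] at hb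
            rw [diag_Vx hM hmax hb.1]
            refine le_of_eq ?_
            have h2 := (Vx_pos M1 p b).ne'
            field_simp
          · rw [hfz v0 v' hv0 (by omega), mul_zero]
            exact mul_nonneg (mul_nonneg hπ0 (mul_nonneg (hmn _) (hmn _))) hrn
        · intro v hv hne
          refine Finset.sum_eq_zero fun v' _ => ?_
          rw [hfz v v' (by have := Finset.mem_range.1 hv; omega) (fun h => hne h.1), mul_zero]
      have hih := ih F1 (fun x b => ∑ v ∈ range (a + 1), ml p a v0 v * A x (p ^ v * b))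
        (fun b => ∑ v ∈ range (a + 1), ml p a v0 v * f (p ^ v * b))
        (fun b => Finset.sum_nonneg fun v _ => mul_nonneg (hmn v) (hf _))
        (fun x b => Finset.sum_nonneg fun v _ => mul_nonneg (hmn v) (hA _ _))
        (fun x b => Finset.sum_le_sum fun v _ => mul_le_mul_of_nonneg_left (hAf _ _) (hmn v))
      have hp2 : (1 : ℝ) / p ≤ 1 / 2 := one_div_le_one_div_of_le (by norm_num)
        (by exact_mod_cast hp.two_le)
      refine (add_le_add htop (hlow.trans (mul_le_mul_of_nonneg_left hih hπ0))).trans ?_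
      rw [← mul_add, ← Finset.sum_add_distrib, Finset.sum_comm, Finset.mul_sum]
      refine Finset.sum_le_sum fun b hb => ?_
      rw [Nat.mem_divisors] at hb
      have hνb := nu_nonneg M1 b
      -- the row sums
      have hRR : RR F1 (fun x b => ∑ v ∈ range (a + 1), ml p a v0 v * A x (p ^ v * b)) b =
          ∑ v ∈ range (a + 1), ml p a v0 v * RR F A (p ^ v * b) -
            ml p a v0 v0 * (1 / (p : ℝ) * Ap b) := by
        rw [hF1, RR_restr hp hM hnd F _ hv0]
        have e1 : ∑ v ∈ range (a + 1), ml p a v0 v * RR F A (p ^ v * b) =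
            ∑ v ∈ range (a + 1), ml p a v0 v *
              (if F.ctr (p ^ v * b) p = some v ∧ v < a then 1 / (p : ℝ) * A p (p ^ v * b) else 0) +
            ∑ v ∈ range (a + 1), ml p a v0 v * ∑ x ∈ M1.primeFactors,
              (if F.ctr (p ^ v0 * b) x = some (b.factorization x) ∧
              b.factorization x < M1.factorization x
              then 1 / (x : ℝ) * A x (p ^ v * b) else 0) := by
          rw [← Finset.sum_add_distrib]
          refine Finset.sum_congr rfl fun v hv => ?_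
          have hva : v ≤ a := by have := Finset.mem_range.1 hv; omega
          rw [RR_split hp hM hnd ha F A hb.1, mul_add]
          congr 2
          refine Finset.sum_congr rfl fun x hx => ?_
          rw [ctr_passive hp hM F hva hv0 hb.1 (Nat.prime_of_mem_primeFactors hx)
            (hst v b hva hb.1)]
        have e2 : ∑ v ∈ range (a + 1), ml p a v0 v *
              (if F.ctr (p ^ v * b) p = some v ∧ v < a then 1 / (p : ℝ) * A p (p ^ v * b) else 0) =
            ml p a v0 v0 * (1 / (p : ℝ) * Ap b) := by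
          rw [Finset.sum_eq_single_of_mem v0 hv0m]
          · simp only [hAp]
            by_cases hva : v0 < a
            · rw [if_pos ⟨hst v0 b hv0 hb.1, hva⟩, if_pos hva]
            · rw [if_neg (fun h => hva h.2), if_neg hva, mul_zero, mul_zero, mul_zero]
          · intro v hv hne
            have hva : v ≤ a := by have := Finset.mem_range.1 hv; omega
            rw [if_neg, mul_zero]
            rw [hst v b hva hb.1]
            intro h
            exact hne (Option.some.inj h.1).symm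
        rw [e1, e2, add_sub_cancel_left]
        simp only [Finset.mul_sum]
        rw [Finset.sum_comm]
        refine Finset.sum_congr rfl fun x _ => ?_
        split_ifs with h
        · exact Finset.sum_congr rfl fun v _ => by ring
        · simp
      have hstep := step_sum (range (a + 1)) (ml p a v0) (fun v => f (p ^ v * b))
        (fun v => RR F A (p ^ v * b)) hv0m (fun v _ => hmn v) (sum_ml hp hv0) hp2
        (ml_self_ge hp hv0) (fun v => hf _) (fun v => RR_nonneg F hA _) (hAp0 b)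
        (hApf b) (by
          rw [RR_split hp hM hnd ha F A hb.1]
          have h1 : 1 / (p : ℝ) * Ap b ≤ (if F.ctr (p ^ v0 * b) p = some v0 ∧ v0 < a then
              1 / (p : ℝ) * A p (p ^ v0 * b) else 0) := by
            simp only [hAp]
            by_cases hva : v0 < a
            · rw [if_pos hva, if_pos ⟨hst v0 b hv0 hb.1, hva⟩]
            · rw [if_neg hva, if_neg (fun h => hva h.2), mul_zero]
          refine h1.trans (le_add_of_nonneg_right (Finset.sum_nonneg fun x _ => ?_))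
          split_ifs
          · exact mul_nonneg (by positivity) (hA _ _)
          · exact le_rfl)
      rw [hRR]
      calc π * (nu M1 b * (ml p a v0 v0 * Ap b *
            ∑ v' ∈ (range (a + 1)).erase v0, ml p a v0 v' * f (p ^ v' * b)) +
            nu M1 b * Phi (∑ v ∈ range (a + 1), ml p a v0 v * f (p ^ v * b))
              (∑ v ∈ range (a + 1), ml p a v0 v * RR F A (p ^ v * b) -
                ml p a v0 v0 * (1 / (p : ℝ) * Ap b)))
          = (π * nu M1 b) * (Phi (∑ v ∈ range (a + 1), ml p a v0 v * f (p ^ v * b))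
              (∑ v ∈ range (a + 1), ml p a v0 v * RR F A (p ^ v * b) -
                ml p a v0 v0 * (1 / (p : ℝ) * Ap b)) +
              ml p a v0 v0 * Ap b *
            ∑ v' ∈ (range (a + 1)).erase v0, ml p a v0 v' * f (p ^ v' * b)) := by ring
        _ ≤ (π * nu M1 b) * ∑ v ∈ range (a + 1),
              ml p a v0 v * Phi (f (p ^ v * b)) (RR F A (p ^ v * b)) :=
            mul_le_mul_of_nonneg_left hstep (mul_nonneg hπ0 hνb)
        _ ≤ _ := by
            rw [Finset.mul_sum]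
            refine Finset.sum_le_sum fun v _ => ?_
            have h1 := pi_ml_le hp a v0 v
            have h2 := Phi_nonneg (f (p ^ v * b)) (RR F A (p ^ v * b))
            calc π * nu M1 b * (ml p a v0 v * Phi (f (p ^ v * b)) (RR F A (p ^ v * b)))
                = (π * ml p a v0 v) * (nu M1 b * Phi (f (p ^ v * b)) (RR F A (p ^ v * b))) := by
                  ring
              _ ≤ _ := mul_le_mul_of_nonneg_right h1 (mul_nonneg hνb h2)
              _ = _ := by ring

/-! ### User forms -/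

/-- weights in `[0,1]`, row sums `≤ 1` -/
theorem row_energyB {M : ℕ} (hM : 0 < M) (F : FL M) (α : ℕ → ℕ → ℝ) (f : ℕ → ℝ)
    (hf : ∀ b, 0 ≤ f b) (h0 : ∀ x b, 0 ≤ α x b) (h1 : ∀ x b, α x b ≤ 1)
    (hr : ∀ b, b ∣ M → RR F α b ≤ 1) :
    SS F (fun x b => α x b * f b / Vx M x b) f ≤ 7 / 2 * ∑ b ∈ M.divisors, nu M b * f b ^ 2 := by
  refine (row_mainB M hM F (fun x b => α x b * f b) f hf (fun x b => mul_nonneg (h0 x b) (hf b))
    (fun x b => mul_le_of_le_one_left (hf b) (h1 x b))).trans ?_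
  rw [Finset.mul_sum]
  refine Finset.sum_le_sum fun b hb => ?_
  rw [Nat.mem_divisors] at hb
  rw [RR_mul]
  have h2 := hr b hb.1
  have h3 := RR_nonneg F h0 b
  have h4 : (1 + RR F α b) ^ 2 ≤ 2 ^ 2 := pow_le_pow_left₀ (by linarith) (by linarith) 2
  have e : Phi (f b) (RR F α b * f b) = (1 / 2 + 3 / 4 * (1 + RR F α b) ^ 2) * f b ^ 2 := by
    unfold Phi; ring
  rw [e]
  calc nu M b * ((1 / 2 + 3 / 4 * (1 + RR F α b) ^ 2) * f b ^ 2)
      ≤ nu M b * ((7 / 2) * f b ^ 2) :=
        mul_le_mul_of_nonneg_left (mul_le_mul_of_nonneg_right (by linarith) (sq_nonneg _))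
          (nu_nonneg _ _)
    _ = _ := by ring

open Classical in
/-- two functions, with a parameter -/
theorem row_bilinB' {M : ℕ} (hM : 0 < M) (F : FL M) (α : ℕ → ℕ → ℝ) (f g : ℕ → ℝ)
    (hf : ∀ b, 0 ≤ f b) (hg : ∀ b, 0 ≤ g b) (h0 : ∀ x b, 0 ≤ α x b) (h1 : ∀ x b, α x b ≤ 1)
    (hr : ∀ b, b ∣ M → RR F α b ≤ 1) {y : ℝ} (hy : 0 < y) :
    SS F (fun x b => α x b * f b / Vx M x b) g ≤
      7 * (y * ∑ b ∈ M.divisors, nu M b * f b ^ 2 + y⁻¹ * ∑ b ∈ M.divisors, nu M b * g b ^ 2) := by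
  have hsy : 0 < Real.sqrt y := Real.sqrt_pos.2 hy
  set s := Real.sqrt y with hs
  have hss : s * s = y := Real.mul_self_sqrt hy.le
  set h : ℕ → ℝ := fun b => s * f b + s⁻¹ * g b with hh
  have hsi : 0 ≤ s⁻¹ := inv_nonneg.2 hsy.le
  have hh0 : ∀ b, 0 ≤ h b := fun b => add_nonneg (mul_nonneg hsy.le (hf b)) (mul_nonneg hsi (hg b))
  have e1 : SS F (fun x b => α x b * f b / Vx M x b) g ≤
      SS F (fun x b => α x b * h b / Vx M x b) h := by
    unfold SS
    refine Finset.sum_le_sum fun x _ => PureL2x232.frm_mono fun b c _ _ => ?_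
    split_ifs
    · have e2 : f b * g c ≤ h b * h c := by
        simp only [hh]
        have e3 : (s * f b + s⁻¹ * g b) * (s * f c + s⁻¹ * g c) =
            (s * s⁻¹) * (f b * g c) + (s * s * (f b * f c) + (s⁻¹ * s) * (g b * f c) +
              s⁻¹ * s⁻¹ * (g b * g c)) := by ring
        rw [e3, mul_inv_cancel₀ hsy.ne', one_mul]
        have a1 := mul_nonneg (hf b) (hf c)
        have a2 := mul_nonneg (hg b) (hf c)
        have a3 := mul_nonneg (hg b) (hg c)
        have : 0 ≤ s * s * (f b * f c) + (s⁻¹ * s) * (g b * f c) + s⁻¹ * s⁻¹ * (g b * g c) := by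
          positivity
        linarith
      calc α x b * f b / Vx M x b * g c = α x b / Vx M x b * (f b * g c) := by ring
        _ ≤ α x b / Vx M x b * (h b * h c) :=
          mul_le_mul_of_nonneg_left e2 (div_nonneg (h0 x b) (Vx_nonneg _ _ _))
        _ = _ := by ring
    · exact le_rfl
  refine (e1.trans (row_energyB hM F α h hh0 h0 h1 hr)).trans ?_
  rw [Finset.mul_sum, Finset.mul_sum, Finset.mul_sum, ← Finset.sum_add_distrib, Finset.mul_sum]
  refine Finset.sum_le_sum fun b _ => ?_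
  have h2 := nu_nonneg M b
  have h3 : h b ^ 2 ≤ 2 * (y * f b ^ 2 + y⁻¹ * g b ^ 2) := by
    simp only [hh]
    have e : y⁻¹ = s⁻¹ * s⁻¹ := by rw [← hss, mul_inv]
    rw [e, ← hss]
    nlinarith [sq_nonneg (s * f b - s⁻¹ * g b)]
  have h4 := mul_le_mul_of_nonneg_left h3 h2
  calc 7 / 2 * (nu M b * h b ^ 2) ≤ 7 / 2 * (nu M b * (2 * (y * f b ^ 2 + y⁻¹ * g b ^ 2))) := by
        linarith
    _ = 7 * (y * (nu M b * f b ^ 2) + y⁻¹ * (nu M b * g b ^ 2)) := by ring

/-- from `≤ C (y A + y⁻¹ B)` for all `y > 0` to `≤ 2 C √(A B)` -/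
lemma opt {S C A B : ℝ} (hC : 0 ≤ C) (hA : 0 ≤ A) (hB : 0 ≤ B)
    (h : ∀ y : ℝ, 0 < y → S ≤ C * (y * A + y⁻¹ * B)) : S ≤ 2 * C * √(A * B) := by
  refine le_of_forall_pos_le_add fun ε hε => ?_
  -- perturb `A`, `B` by a small positive amount
  have key : ∀ t : ℝ, 0 < t → S ≤ 2 * C * √((A + t) * (B + t)) := by
    intro t ht
    have hA1 : 0 < A + t := by linarith
    have hB1 : 0 < B + t := by linarith
    have h1 := h (√((B + t) / (A + t))) (Real.sqrt_pos.2 (div_pos hB1 hA1))
    have hq : 0 < (B + t) / (A + t) := div_pos hB1 hA1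
    have e1 : √((B + t) / (A + t)) * (A + t) = √((A + t) * (B + t)) := by
      have : √((A + t) * (B + t)) = √((B + t) / (A + t) * (A + t) ^ 2) := by
        congr 1
        field_simp
      rw [this, Real.sqrt_mul hq.le, Real.sqrt_sq hA1.le]
    have e2 : (√((B + t) / (A + t)))⁻¹ * (B + t) = √((A + t) * (B + t)) := by
      have e3 : √((A + t) * (B + t)) = √((A + t) / (B + t) * (B + t) ^ 2) := by
        congr 1
        field_simp
      rw [e3, Real.sqrt_mul (div_pos hA1 hB1).le, Real.sqrt_sq hB1.le, ← Real.sqrt_inv, inv_div]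
    have hy0 : 0 < √((B + t) / (A + t)) := Real.sqrt_pos.2 hq
    calc S ≤ C * (√((B + t) / (A + t)) * A + (√((B + t) / (A + t)))⁻¹ * B) := h1
      _ ≤ C * (√((B + t) / (A + t)) * (A + t) + (√((B + t) / (A + t)))⁻¹ * (B + t)) := by
          refine mul_le_mul_of_nonneg_left (add_le_add ?_ ?_) hC
          · exact mul_le_mul_of_nonneg_left (by linarith) hy0.le
          · exact mul_le_mul_of_nonneg_left (by linarith) (inv_nonneg.2 hy0.le)
      _ = _ := by rw [e1, e2]; ring
  -- continuity at `t = 0`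
  have hcont : Filter.Tendsto (fun t : ℝ => 2 * C * √((A + t) * (B + t))) (nhdsWithin 0 (Set.Ioi 0))
      (nhds (2 * C * √((A + 0) * (B + 0)))) := by
    have : Continuous fun t : ℝ => 2 * C * √((A + t) * (B + t)) := by fun_prop
    exact (this.tendsto 0).mono_left nhdsWithin_le_nhds
  have h2 : S ≤ 2 * C * √((A + 0) * (B + 0)) :=
    ge_of_tendsto hcont (Filter.eventually_of_mem self_mem_nhdsWithin fun t ht => key t ht)
  rw [add_zero, add_zero] at h2
  linarith

open Classical in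
/-- **two functions**, weights `≤ ρ`, row sums `≤ ρ` -/
theorem row_bilinB {M : ℕ} (hM : 0 < M) (F : FL M) (α : ℕ → ℕ → ℝ) (f g : ℕ → ℝ) {ρ : ℝ}
    (hρ : 0 < ρ) (hf : ∀ b, 0 ≤ f b) (hg : ∀ b, 0 ≤ g b) (h0 : ∀ x b, 0 ≤ α x b)
    (h1 : ∀ x b, α x b ≤ ρ) (hr : ∀ b, b ∣ M → RR F α b ≤ ρ) :
    SS F (fun x b => α x b * f b / Vx M x b) g ≤
      14 * ρ * √((∑ b ∈ M.divisors, nu M b * f b ^ 2) * ∑ b ∈ M.divisors, nu M b * g b ^ 2) := by
  set A := ∑ b ∈ M.divisors, nu M b * f b ^ 2 with hA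
  set B := ∑ b ∈ M.divisors, nu M b * g b ^ 2 with hB
  have hA0 : 0 ≤ A := Finset.sum_nonneg fun b _ => mul_nonneg (nu_nonneg _ _) (sq_nonneg _)
  have hB0 : 0 ≤ B := Finset.sum_nonneg fun b _ => mul_nonneg (nu_nonneg _ _) (sq_nonneg _)
  have h2 : ∀ y : ℝ, 0 < y → SS F (fun x b => α x b / ρ * f b / Vx M x b) g ≤
      7 * (y * A + y⁻¹ * B) := by
    intro y hy
    refine row_bilinB' hM F (fun x b => α x b / ρ) f g hf hg (fun x b => div_nonneg (h0 x b) hρ.le)
      (fun x b => (div_le_one hρ).2 (h1 x b)) (fun b hb => ?_) hy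
    have e : RR F (fun x b => α x b / ρ) b = RR F α b / ρ := by
      unfold RR
      rw [Finset.sum_div]
      refine Finset.sum_congr rfl fun x _ => ?_
      split_ifs
      · ring
      · rw [zero_div]
    rw [e, div_le_one hρ]
    exact hr b hb
  have h3 := opt (by norm_num) hA0 hB0 h2
  have e : SS F (fun x b => α x b * f b / Vx M x b) g =
      ρ * SS F (fun x b => α x b / ρ * f b / Vx M x b) g := by
    unfold SS
    rw [Finset.mul_sum]
    refine Finset.sum_congr rfl fun x _ => ?_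
    rw [← frm_smul]
    congr 1
    funext b c
    split_ifs
    · field_simp
    · rw [mul_zero]
  rw [e]
  calc ρ * SS F (fun x b => α x b / ρ * f b / Vx M x b) g ≤ ρ * (2 * 7 * √(A * B)) :=
        mul_le_mul_of_nonneg_left h3 hρ.le
    _ = _ := by ring

/-! ### The member with the larger letter carries the weight -/

section present

open Crest.Agent.R4C.Cutx50 Crest.Agent.R4C.RowPx823

open Classical in
/-- mass of the words with the letters of `b` below `x` which `g` divides, `g ∣ b` full below `x` -/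
lemma mass_prefix {M x b g : ℕ} (hM : 0 < M) (hb : b ∣ M) (hg : g ≠ 0)
    (hgx : ∀ q, q.Prime → q < x → g.factorization q = b.factorization q) :
    ∑ d ∈ M.divisors with (∀ q, q.Prime → q < x → b.factorization q = d.factorization q) ∧ g ∣ d,
      nu M d ≤ Vx M x b / g := by
  classical
  set S : ℕ → Prop := fun q => q < x with hS
  have hb0 : b ≠ 0 := mem_ne_zero hM hb
  set w := part S b with hw
  set g1 := part (fun p => ¬ S p) g with hg1
  have hw0 : 0 < w := part_pos _ _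
  have hg10 : 0 < g1 := part_pos _ _
  have hwM : w ∣ part S M := part_dvd S hM.ne' hb
  have hgw : part S g = w := by
    refine Nat.eq_of_factorization_eq (part_ne _ _) (part_ne _ _) fun q => ?_
    rw [fact_part, hw, fact_part]
    by_cases hq : q.Prime
    · by_cases hqx : S q
      · rw [if_pos hqx, if_pos hqx, hgx q hq hqx]
      · rw [if_neg hqx, if_neg hqx]
    · rw [Nat.factorization_eq_zero_of_not_prime _ hq, Nat.factorization_eq_zero_of_not_prime _ hq]
  have hgf : w * g1 = g := by rw [← hgw]; exact part_mul S hg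
  rw [Finset.sum_filter, sum_cut S hM]
  have h1 : ∀ T ∈ (part (fun p => ¬ S p) M).divisors, ∀ n ∈ (part S M).divisors,
      (if (∀ q, q.Prime → q < x → b.factorization q = (n * T).factorization q) ∧ g ∣ n * T then
        nu M (n * T) else 0) ≤ if n = w then (if g1 ∣ T then
          nu (part S M) w * nu (part (fun p => ¬ S p) M) T else 0) else 0 := by
    intro T hT n hn
    rw [Nat.mem_divisors] at hT hn
    split_ifs with h2 h3 h4 h4
    · rw [nu_cut S hM hn.1 hT.1, h3]
    · exfalso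
      apply h4
      have h5 : g1 ∣ part (fun p => ¬ S p) (n * T) := by
        have h6 : n * T ≠ 0 := by
          refine mul_ne_zero ?_ ?_
          · exact fun hc => part_ne S M (Nat.eq_zero_of_zero_dvd (hc ▸ hn.1))
          · exact fun hc => part_ne _ M (Nat.eq_zero_of_zero_dvd (hc ▸ hT.1))
        exact part_dvd _ h6 h2.2
      rwa [part_of_mul' S hn.1 hT.1] at h5
    · exfalso
      apply h3
      have h5 : part S (n * T) = n := part_of_mul S hn.1 hT.1
      rw [← h5]
      refine Nat.eq_of_factorization_eq (part_ne _ _) (part_ne _ _) fun q => ?_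
      rw [fact_part, hw, fact_part]
      by_cases hq : q.Prime
      · by_cases hqx : S q
        · rw [if_pos hqx, if_pos hqx, h2.1 q hq hqx]
        · rw [if_neg hqx, if_neg hqx]
      · rw [Nat.factorization_eq_zero_of_not_prime _ hq,
          Nat.factorization_eq_zero_of_not_prime _ hq]
    · exact mul_nonneg (nu_nonneg _ _) (nu_nonneg _ _)
    · exact le_rfl
    · exact le_rfl
  refine (Finset.sum_le_sum fun T hT => Finset.sum_le_sum fun n hn => h1 T hT n hn).trans ?_
  have hwm : w ∈ (part S M).divisors := Nat.mem_divisors.2 ⟨hwM, part_ne _ _⟩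
  have h2 : ∑ T ∈ (part (fun p => ¬ S p) M).divisors, ∑ n ∈ (part S M).divisors,
      (if n = w then (if g1 ∣ T then
          nu (part S M) w * nu (part (fun p => ¬ S p) M) T else 0) else 0) =
      nu (part S M) w * ∑ T ∈ (part (fun p => ¬ S p) M).divisors with g1 ∣ T,
        nu (part (fun p => ¬ S p) M) T := by
    rw [Finset.mul_sum, Finset.sum_filter]
    refine Finset.sum_congr rfl fun T _ => ?_
    rw [Finset.sum_ite_eq' _ w, if_pos hwm]
  rw [h2]
  have h3 := Lawx69.prob_dvd_le (M := part (fun p => ¬ S p) M) (part_pos _ _) g1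
  have hmax : ∀ r, r.Prime → r ∣ part S M → r < x := fun r hr hd => prime_dvd_part S hr hd
  have h4 := diag_Vx (M := part S M) (x := x) (part_pos _ _) hmax hwM
  have h5 : Vx (part S M) x w = Vx M x b := by
    unfold Vx
    congr 1
    ext q
    simp only [Finset.mem_filter]
    have hf : ∀ {n : ℕ}, q < x → (part S n).factorization q = n.factorization q := fun {n} hq => by
      rw [fact_part, if_pos hq]
    constructor
    · rintro ⟨h1, h2, h3⟩
      rw [hw, hf h2, hf h2] at h3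
      refine ⟨?_, h2, h3⟩
      exact Nat.mem_primeFactors.2 ⟨Nat.prime_of_mem_primeFactors h1,
        (Nat.dvd_of_mem_primeFactors h1).trans (part_dvd_self S M), hM.ne'⟩
    · rintro ⟨h1, h2, h3⟩
      have h6 : M.factorization q ≠ 0 := by omega
      refine ⟨?_, h2, by rw [hw, hf h2, hf h2]; exact h3⟩
      rw [← Nat.support_factorization, Finsupp.mem_support_iff, hf h2]
      exact h6
  have hwr : (0 : ℝ) < w := by exact_mod_cast hw0
  have hg1r : (0 : ℝ) < g1 := by exact_mod_cast hg10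
  have h6 : nu (part S M) w = Vx M x b / w := by
    rw [eq_div_iff hwr.ne', ← h5, ← h4]; ring
  have hgr : (g : ℝ) = w * g1 := by rw [← hgf]; push_cast; ring
  calc nu (part S M) w * ∑ T ∈ (part (fun p => ¬ S p) M).divisors with g1 ∣ T,
        nu (part (fun p => ¬ S p) M) T ≤ nu (part S M) w * (1 / (g1 : ℝ)) :=
        mul_le_mul_of_nonneg_left h3 (nu_nonneg _ _)
    _ = Vx M x b / g := by
        rw [h6, hgr]
        field_simp

open Classical in
/-- **row lemma, weights on arbitrary words, boosted** (note 3229 (3)) -/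
theorem row_presentB {M : ℕ} (hM : 0 < M) (F : FL M) (s : Finset ℕ) (h : ℕ → ℕ → ℝ)
    (hh : ∀ x ∈ s, ∀ b, b ∣ M → 0 ≤ h x b) (f : ℕ → ℝ) (hf : ∀ b, b ∣ M → 0 ≤ f b) :
    ∑ x ∈ s, frm M (fun b c => if PureFrom F x b c then f b * h x c / Vx M x b else 0) ≤
      2 * (Real.sqrt (∑ b ∈ M.divisors, nu M b * f b ^ 2) *
        Real.sqrt (∑ b ∈ M.divisors, nu M b * (∑ x ∈ s, h x b) ^ 2)) := by
  have hmain := row_abs (D := M.divisors) (ν := nu M) (E := Cls F)
    (fun b _ => nu_nonneg M b) cls_symm cls_trans cls_nest cls_dom s h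
    (fun x hx b hb => hh x hx b (Nat.dvd_of_mem_divisors hb)) f
  refine le_trans (Finset.sum_le_sum fun x hx => ?_) hmain
  unfold frm
  refine Finset.sum_le_sum fun b hb => ?_
  have hbM := Nat.dvd_of_mem_divisors hb
  unfold cx
  rw [← mul_div_assoc, Finset.mul_sum, Finset.sum_div, Finset.sum_filter]
  refine Finset.sum_le_sum fun c hc => ?_
  have hcM := Nat.dvd_of_mem_divisors hc
  have hνb := nu_nonneg M b
  have hνc := nu_nonneg M c
  have hfb := hf b hbM
  have hhc := hh x hx c hcM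
  have hV := Vx_pos M x b
  beta_reduce
  by_cases hp : PureFrom F x b c
  · have hcls := cls_of_pure hbM hcM hp
    rw [if_pos hp, if_pos hcls]
    have hνc' : 0 < nu M c := nu_pos hM hcM
    have hmu : 0 < mu M.divisors (nu M) (Cls F) x b := by
      refine lt_of_lt_of_le hνc' ?_
      exact Finset.single_le_sum (f := nu M) (fun d _ => nu_nonneg M d)
        (Finset.mem_filter.2 ⟨hc, hcls⟩)
    have hg0 : 0 < Nat.gcd b c :=
      Nat.gcd_pos_of_pos_left _ (Nat.pos_of_dvd_of_pos hbM hM)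
    have hb0 : b ≠ 0 := mem_ne_zero hM hbM
    have hc0 : c ≠ 0 := mem_ne_zero hM hcM
    have hmu1 : mu M.divisors (nu M) (Cls F) x b ≤ Vx M x b / (Nat.gcd b c : ℝ) := by
      refine le_trans ?_ (mass_prefix hM hbM hg0.ne' fun q hq hqx => ?_)
      · unfold mu
        refine Finset.sum_le_sum_of_subset_of_nonneg ?_ fun d _ _ => nu_nonneg M d
        intro d hd
        rw [Finset.mem_filter] at hd ⊢
        exact ⟨hd.1, fun q hq hqx => (hd.2.2.2 q hq).1 hqx, gcd_dvd_cls hM hbM hcM hp hd.2⟩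
      · rw [Nat.factorization_gcd hb0 hc0, Finsupp.inf_apply, ← (hp q hq).1 hqx]
        exact inf_idem _
    have hgR : (0:ℝ) < (Nat.gcd b c : ℝ) := by exact_mod_cast hg0
    have h1 : (Nat.gcd b c : ℝ) / Vx M x b ≤ 1 / mu M.divisors (nu M) (Cls F) x b := by
      rw [le_div_iff₀ hmu, div_mul_eq_mul_div, div_le_one hV]
      rw [le_div_iff₀ hgR] at hmu1
      linarith
    calc (Nat.gcd b c : ℝ) * nu M b * nu M c * (f b * h x c / Vx M x b)
        = ((Nat.gcd b c : ℝ) / Vx M x b) * (nu M b * f b * (nu M c * h x c)) := by ring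
      _ ≤ (1 / mu M.divisors (nu M) (Cls F) x b) * (nu M b * f b * (nu M c * h x c)) :=
          mul_le_mul_of_nonneg_right h1 (by positivity)
      _ = _ := by ring
  · rw [if_neg hp, mul_zero]
    split_ifs
    · refine div_nonneg (by positivity) (mu_nonneg (fun d _ => nu_nonneg M d) _ _)
    · exact le_rfl

end present

/-! ### The kernels as weighted set bounds -/

section kernels

open Crest.Agent.R4C.LTwx662 Crest.Agent.R4C.RowPx823

lemma wbd_swap {M : ℕ} {W : ℕ → ℕ → ℝ} {E : ℝ} (h : WBd M W E) :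
    WBd M (fun z z' => W z' z) E := by
  intro S S' hS hS'
  have h1 := h S' S hS' hS
  rw [Finset.sum_comm] at h1
  rw [mul_comm (∑ z ∈ S, nu M z)]
  refine le_trans (le_of_eq ?_) h1
  refine Finset.sum_congr rfl fun z _ => Finset.sum_congr rfl fun z' _ => ?_
  rw [Nat.gcd_comm z' z]
  ring

/-- a kernel form bound for indicators of sets gives `WBd` -/
lemma wbd_of_ind {M : ℕ} {W : ℕ → ℕ → ℝ} {E : ℝ}
    (h : ∀ S S' : Finset ℕ, S ⊆ M.divisors → S' ⊆ M.divisors →
      frm M (fun b c => (if b ∈ S then (1 : ℝ) else 0) * (if c ∈ S' then 1 else 0) * W b c) ≤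
        E * √((∑ z ∈ S, nu M z) * ∑ z ∈ S', nu M z)) : WBd M W E := by
  intro S S' hS hS'
  refine le_trans (le_of_eq ?_) (h S S' hS hS')
  unfold frm
  rw [← Finset.sum_subset hS]
  · refine Finset.sum_congr rfl fun z hz => ?_
    rw [← Finset.sum_subset hS']
    · refine Finset.sum_congr rfl fun z' hz' => ?_
      dsimp only
      rw [if_pos hz, if_pos hz']
      ring
    · intro z' _ hz'
      dsimp only
      rw [if_neg hz']
      ring
  · intro z _ hz
    refine Finset.sum_eq_zero fun z' _ => ?_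
    dsimp only
    rw [if_neg hz]
    ring

lemma sum_ind_sq {M : ℕ} {S : Finset ℕ} (hS : S ⊆ M.divisors) :
    ∑ b ∈ M.divisors, nu M b * (if b ∈ S then (1 : ℝ) else 0) ^ 2 = ∑ z ∈ S, nu M z := by
  rw [← Finset.sum_subset hS]
  · refine Finset.sum_congr rfl fun z hz => ?_
    rw [if_pos hz]; ring
  · intro z _ hz
    rw [if_neg hz]; ring

open Classical in
/-- **(alpha)**: weight of the member with the centre letter at `x`, row sums `≤ ρ` -/
theorem wbd_alpha {M : ℕ} (hM : 0 < M) (F : FL M) (α : ℕ → ℕ → ℝ) {ρ : ℝ} (hρ : 0 < ρ)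
    (h0 : ∀ x b, 0 ≤ α x b) (h1 : ∀ x b, α x b ≤ ρ) (hr : ∀ b, b ∣ M → RR F α b ≤ ρ) :
    WBd M (fun b c => ∑ x ∈ M.primeFactors, if pd F x b c then α x b / Vx M x b else 0)
      (14 * ρ) := by
  refine wbd_of_ind fun S S' hS hS' => ?_
  have h := row_bilinB hM F α (fun b => if b ∈ S then (1 : ℝ) else 0)
    (fun b => if b ∈ S' then (1 : ℝ) else 0) hρ (fun b => by split_ifs <;> norm_num)
    (fun b => by split_ifs <;> norm_num) h0 h1 hr
  rw [sum_ind_sq hS, sum_ind_sq hS'] at h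
  refine le_trans (le_of_eq ?_) h
  unfold SS
  rw [← PureL2x232.frm_sum M.primeFactors (fun x b c => if pd F x b c then
    α x b * (if b ∈ S then (1 : ℝ) else 0) / Vx M x b * (if c ∈ S' then (1 : ℝ) else 0) else 0)]
  congr 1
  funext b c
  rw [Finset.mul_sum]
  refine Finset.sum_congr rfl fun x _ => ?_
  by_cases h : pd F x b c
  · rw [if_pos h, if_pos h]; ring
  · rw [if_neg h, if_neg h, mul_zero]

open Classical in
/-- **(beta)**: weight of the other member, sums `≤ ρ` -/
theorem wbd_beta {M : ℕ} (hM : 0 < M) (F : FL M) (s : Finset ℕ) (h : ℕ → ℕ → ℝ) {ρ : ℝ}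
    (hρ : 0 ≤ ρ) (hh : ∀ x b, 0 ≤ h x b) (hr : ∀ b, b ∣ M → ∑ x ∈ s, h x b ≤ ρ) :
    WBd M (fun b c => ∑ x ∈ s, if PureFrom F x b c then h x c / Vx M x b else 0)
      (2 * ρ) := by
  refine wbd_of_ind fun S S' hS hS' => ?_
  have h1 := row_presentB hM F s (fun x c => h x c * (if c ∈ S' then (1 : ℝ) else 0))
    (fun x _ b _ => mul_nonneg (hh x b) (by split_ifs <;> norm_num))
    (fun b => if b ∈ S then (1 : ℝ) else 0) (fun b _ => by split_ifs <;> norm_num)
  have h2 : ∑ b ∈ M.divisors, nu M b * (∑ x ∈ s, h x b * (if b ∈ S' then (1 : ℝ) else 0)) ^ 2 ≤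
      ρ ^ 2 * ∑ z ∈ S', nu M z := by
    rw [← sum_ind_sq hS', Finset.mul_sum]
    refine Finset.sum_le_sum fun b hb => ?_
    rw [← Finset.sum_mul]
    have h3 := hr b (Nat.dvd_of_mem_divisors hb)
    have h4 : 0 ≤ ∑ x ∈ s, h x b := Finset.sum_nonneg fun x _ => hh x b
    have h5 : (∑ x ∈ s, h x b) ^ 2 ≤ ρ ^ 2 := pow_le_pow_left₀ h4 h3 2
    have h6 := nu_nonneg M b
    calc nu M b * ((∑ x ∈ s, h x b) * (if b ∈ S' then (1 : ℝ) else 0)) ^ 2
        = (∑ x ∈ s, h x b) ^ 2 * (nu M b * (if b ∈ S' then (1 : ℝ) else 0) ^ 2) := by ring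
      _ ≤ _ := mul_le_mul_of_nonneg_right h5 (mul_nonneg h6 (sq_nonneg _))
  rw [sum_ind_sq hS] at h1
  have h3 : √(∑ b ∈ M.divisors, nu M b * (∑ x ∈ s, h x b * (if b ∈ S' then (1 : ℝ) else 0)) ^ 2) ≤
      ρ * √(∑ z ∈ S', nu M z) := by
    refine (Real.sqrt_le_sqrt h2).trans (le_of_eq ?_)
    rw [Real.sqrt_mul (sq_nonneg ρ), Real.sqrt_sq hρ]
  calc _ = ∑ x ∈ s, frm M (fun b c => if PureFrom F x b c then (if b ∈ S then (1 : ℝ) else 0) *
        (h x c * (if c ∈ S' then (1 : ℝ) else 0)) / Vx M x b else 0) := by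
        rw [← PureL2x232.frm_sum s (fun x b c => if PureFrom F x b c then
          (if b ∈ S then (1 : ℝ) else 0) * (h x c * (if c ∈ S' then (1 : ℝ) else 0)) / Vx M x b
          else 0)]
        congr 1
        funext b c
        rw [Finset.mul_sum]
        refine Finset.sum_congr rfl fun x _ => ?_
        by_cases h : PureFrom F x b c
        · rw [if_pos h, if_pos h]; ring
        · rw [if_neg h, if_neg h, mul_zero]
    _ ≤ _ := h1
    _ ≤ 2 * (√(∑ z ∈ S, nu M z) * (ρ * √(∑ z ∈ S', nu M z))) := by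
        refine mul_le_mul_of_nonneg_left (mul_le_mul_of_nonneg_left h3 (Real.sqrt_nonneg _))
          (by norm_num)
    _ = _ := by
        rw [Real.sqrt_mul (AsmLevx946.sum_nu_nonneg _ _)]
        ring

/-- diagonal with the full boost -/
theorem wbd_diag {M : ℕ} (hM : 0 < M) :
    WBd M (fun b c => if b = c then ((b : ℝ) * nu M b)⁻¹ else 0) 1 := by
  refine wbd_of_ind fun S S' hS hS' => ?_
  have e : frm M (fun b c => (if b ∈ S then (1 : ℝ) else 0) * (if c ∈ S' then 1 else 0) *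
      (if b = c then ((b : ℝ) * nu M b)⁻¹ else 0)) =
      frm M (fun b c => if b = c then (if b ∈ S then (1 : ℝ) else 0) *
        (if c ∈ S' then 1 else 0) * ((b : ℝ) * nu M b)⁻¹ else 0) := by
    congr 1
    funext b c
    by_cases h : b = c
    · rw [if_pos h, if_pos h]
    · rw [if_neg h, if_neg h, mul_zero]
  rw [e, frm_diag (fun b c => (if b ∈ S then (1 : ℝ) else 0) *
    (if c ∈ S' then 1 else 0) * ((b : ℝ) * nu M b)⁻¹)]
  have h1 : ∀ b ∈ M.divisors, nu M b * ((b : ℝ) * nu M b) * ((if b ∈ S then (1 : ℝ) else 0) *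
      (if b ∈ S' then 1 else 0) * ((b : ℝ) * nu M b)⁻¹) =
      (√(nu M b) * (if b ∈ S then (1 : ℝ) else 0)) * (√(nu M b) * (if b ∈ S' then 1 else 0)) := by
    intro b hb
    have hbM := Nat.dvd_of_mem_divisors hb
    have h2 : 0 < nu M b := nu_pos hM hbM
    have h3 : (0 : ℝ) < b := by exact_mod_cast Nat.pos_of_dvd_of_pos hbM hM
    have h4 := Real.mul_self_sqrt h2.le
    calc _ = (nu M b * ((b : ℝ) * nu M b * ((b : ℝ) * nu M b)⁻¹)) *
          ((if b ∈ S then (1 : ℝ) else 0) * (if b ∈ S' then 1 else 0)) := by ring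
      _ = nu M b * ((if b ∈ S then (1 : ℝ) else 0) * (if b ∈ S' then 1 else 0)) := by
          rw [mul_inv_cancel₀ (mul_pos h3 h2).ne', mul_one]
      _ = (√(nu M b) * √(nu M b)) * ((if b ∈ S then (1 : ℝ) else 0) *
          (if b ∈ S' then 1 else 0)) := by rw [h4]
      _ = _ := by ring
  rw [Finset.sum_congr rfl h1]
  have h2 := Real.sum_mul_le_sqrt_mul_sqrt M.divisors
    (fun b => √(nu M b) * (if b ∈ S then (1 : ℝ) else 0))
    (fun b => √(nu M b) * (if b ∈ S' then (1 : ℝ) else 0))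
  have h3 : ∀ T : Finset ℕ, T ⊆ M.divisors →
      ∑ b ∈ M.divisors, (√(nu M b) * (if b ∈ T then (1 : ℝ) else 0)) ^ 2 = ∑ z ∈ T, nu M z := by
    intro T hT
    rw [← sum_ind_sq hT]
    refine Finset.sum_congr rfl fun b _ => ?_
    rw [mul_pow, Real.sq_sqrt (nu_nonneg _ _)]
  rw [h3 S hS, h3 S' hS'] at h2
  rw [one_mul, Real.sqrt_mul (AsmLevx946.sum_nu_nonneg _ _)]
  exact h2

end kernels

end Crest.Agent.R4C.RowBx899
end

-- ▼ part R4C/HighW_899

/-!
# Row 4, S6-4: the high kernel of class (L) WITH BOOST as one weighted set bound (helper899)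

Text: note 3463, section (L)(2),(3).  `M` = modulus of the high words (`upp y M`), `F : FL M`.

* `bst Q = ∏_{q ∈ Q} (1 - 1/q)⁻¹` : boost of a set of (aligned, common missing) primes.
* `al M c0 c1 x b` : (alpha) weight `1[c0 < x] ∏_{c1 < q < x, q missing in b} (1 - 1/q)`; row sum
  `≤ 1 + ∑_{c0 < p ≤ c1} 1/p` (`RR_al`).
* `WH F j0 cut TT XH TT' XH' z z'` : diagonal + non-pure blocks `≥ j0` + (alpha) of either member
  (`TT z` = candidate ends of the run, cuts `cut T < x`, aligned primes `≤ cut (T+1)`) + (beta) of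
  either member (`XH z` = candidate first unexplained letters).
* `wbd_WH` : `WBd M (WH ...) (C (1 + N))` if `#TT, #XH, #TT', #XH' ≤ N`.
* `bst_le_WH` : the boost of the pair is `≤ C * WH z z'`.
-/

set_option autoImplicit false

namespace Crest.Agent.R4C.HighWx899

open Finset Crest.Agent.R4C.Basex935 Crest.Agent.R4C.FLDefx935 Crest.Agent.R4C.PureL2x232
  Crest.Agent.R4C.RowL2x423 Crest.Agent.R4C.RowBx899 Crest.Agent.R4C.LTwx662
  Crest.Agent.R4C.Cutx50 Crest.Agent.R4C.RowPx823 Crest.Agent.R4C.NonPureBlkx559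
  Crest.Agent.R4C.Keptx559

/-! ### Boost of a set of primes -/

/-- boost -/
noncomputable def bst (Q : Finset ℕ) : ℝ := ∏ q ∈ Q, (1 - 1 / (q : ℝ))⁻¹

lemma one_le_fac {q : ℕ} (hq : q.Prime) : 1 ≤ (1 - 1 / (q : ℝ))⁻¹ := by
  have h1 := one_sub_pos hq
  have h2 : (0 : ℝ) ≤ 1 / (q : ℝ) := by positivity
  exact (one_le_inv₀ h1).2 (by linarith)

lemma one_le_bst {Q : Finset ℕ} (hQ : ∀ q ∈ Q, q.Prime) : 1 ≤ bst Q := by
  unfold bst
  exact Finset.prod_induction _ (fun x : ℝ => 1 ≤ x)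
    (fun a b ha hb => one_le_mul_of_one_le_of_one_le ha hb) le_rfl fun q hq => one_le_fac (hQ q hq)


lemma bst_mono {S T : Finset ℕ} (hT : ∀ p ∈ T, p.Prime) (h : S ⊆ T) : bst S ≤ bst T := by
  have h1 : bst (T \ S) * bst S = bst T := Finset.prod_sdiff h
  have h2 : 1 ≤ bst (T \ S) := one_le_bst fun p hp => hT p (Finset.mem_sdiff.1 hp).1
  have h3 : 1 ≤ bst S := one_le_bst fun p hp => hT p (h hp)
  nlinarith

lemma bst_split (Q : Finset ℕ) (p : ℕ → Prop) [DecidablePred p] :
    bst Q = bst (Q.filter p) * bst (Q.filter fun q => ¬ p q) := by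
  unfold bst
  exact (Finset.prod_filter_mul_prod_filter_not Q p _).symm

lemma bst_mul (Q : Finset ℕ) (hQ : ∀ q ∈ Q, q.Prime) :
    bst Q * ∏ q ∈ Q, (1 - 1 / (q : ℝ)) = 1 := by
  unfold bst
  rw [← Finset.prod_mul_distrib]
  exact Finset.prod_eq_one fun q hq => inv_mul_cancel₀ (one_sub_pos (hQ q hq)).ne'

/-- if `Q ⊆ D` then `bst Q ∏_D (1 - 1/q) ≤ ∏_{D \ Q} (1 - 1/q)` -/
lemma bst_mul_prod {Q D : Finset ℕ} (hD : ∀ q ∈ D, q.Prime) (h : Q ⊆ D) :
    bst Q * ∏ q ∈ D, (1 - 1 / (q : ℝ)) = ∏ q ∈ D \ Q, (1 - 1 / (q : ℝ)) := by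
  rw [← Finset.prod_sdiff h, mul_comm (∏ q ∈ D \ Q, _), ← mul_assoc,
    bst_mul Q (fun q hq => hD q (h hq)), one_mul]

/-- Mertens on a window -/
lemma bst_window {a b : ℕ} (ha : 2 ≤ a) (hab : a ≤ b) {Q : Finset ℕ} (hQ : ∀ q ∈ Q, q.Prime)
    (h1 : ∀ q ∈ Q, a < q) (h2 : ∀ q ∈ Q, q ≤ b) :
    bst Q ≤ Real.exp (22 / Real.log 2) * (Real.log b / Real.log a) := by
  have ha' : (2 : ℝ) ≤ a := by exact_mod_cast ha
  have hab' : (a : ℝ) ≤ b := by exact_mod_cast hab
  have h3 := (Crest.Agent.Lib.Mertens.mertens_three a b ha' hab').1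
  have hla : 0 < Real.log a := Real.log_pos (by linarith)
  have hlb : 0 < Real.log b := Real.log_pos (by linarith)
  have hl2 : 0 < Real.log 2 := Real.log_pos (by norm_num)
  have hpr : ∀ p ∈ Crest.Agent.Lib.Mertens.pr a b, p.Prime := fun p hp =>
    ((Crest.Agent.Lib.Mertens.mem_pr (by linarith) (by linarith)).1 hp).2
  have hsub : Q ⊆ Crest.Agent.Lib.Mertens.pr a b := by
    intro q hq
    rw [Crest.Agent.Lib.Mertens.mem_pr (by linarith) (by linarith)]
    exact ⟨⟨by exact_mod_cast h1 q hq, by exact_mod_cast h2 q hq⟩, hQ q hq⟩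
  refine (bst_mono hpr hsub).trans ?_
  have e : bst (Crest.Agent.Lib.Mertens.pr a b) =
      (∏ p ∈ Crest.Agent.Lib.Mertens.pr a b, (1 - 1 / (p : ℝ)))⁻¹ := by
    unfold bst
    exact Finset.prod_inv_distrib _
  rw [e]
  have h4 : 0 < Real.exp (-(22 / Real.log a)) * (Real.log a / Real.log b) := by positivity
  refine (inv_anti₀ h4 h3).trans ?_
  have e2 : (Real.exp (-(22 / Real.log a)) * (Real.log a / Real.log b))⁻¹ =
      Real.exp (22 / Real.log a) * (Real.log b / Real.log a) := by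
    rw [Real.exp_neg]
    field_simp
  rw [e2]
  refine mul_le_mul_of_nonneg_right (Real.exp_le_exp.2 ?_) (by positivity)
  exact div_le_div_of_nonneg_left (by norm_num) hl2 (Real.log_le_log (by norm_num) ha')

/-- sums of `1/p` on a window -/
lemma sum_window {a b : ℕ} (ha : 2 ≤ a) (hab : a ≤ b) {Q : Finset ℕ} (hQ : ∀ q ∈ Q, q.Prime)
    (h1 : ∀ q ∈ Q, a < q) (h2 : ∀ q ∈ Q, q ≤ b) :
    ∑ q ∈ Q, 1 / (q : ℝ) ≤ Real.exp (22 / Real.log 2) * (Real.log b / Real.log a) := by
  refine le_trans ?_ (bst_window ha hab hQ h1 h2)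
  -- `1 + ∑ 1/q ≤ ∏ (1 + 1/q) ≤ ∏ (1 - 1/q)⁻¹`
  have h3 : ∀ q ∈ Q, 1 + 1 / (q : ℝ) ≤ (1 - 1 / (q : ℝ))⁻¹ := by
    intro q hq
    have h4 := one_sub_pos (hQ q hq)
    rw [le_inv_comm₀ (by positivity) h4, ← one_div, le_div_iff₀ (by positivity)]
    have : 0 ≤ (1 / (q : ℝ)) ^ 2 := sq_nonneg _
    nlinarith
  have h4 : ∏ q ∈ Q, (1 + 1 / (q : ℝ)) ≤ bst Q :=
    Finset.prod_le_prod (fun q _ => by positivity) h3
  have h5 : ∀ T : Finset ℕ, 1 + ∑ q ∈ T, 1 / (q : ℝ) ≤ ∏ q ∈ T, (1 + 1 / (q : ℝ)) := by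
    classical
    intro T
    induction T using Finset.induction_on with
    | empty => simp
    | insert a T ha ih =>
      rw [Finset.sum_insert ha, Finset.prod_insert ha]
      have h6 : (0 : ℝ) ≤ 1 / (a : ℝ) := by positivity
      have h7 : (0 : ℝ) ≤ ∑ q ∈ T, 1 / (q : ℝ) := Finset.sum_nonneg fun _ _ => by positivity
      nlinarith
  have h6 := h5 Q
  linarith

/-! ### (alpha) weights -/

/-- (alpha) weight -/
noncomputable def al (M c0 c1 x b : ℕ) : ℝ :=
  if c0 < x then ∏ q ∈ M.primeFactors.filter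
    (fun q => c1 < q ∧ q < x ∧ b.factorization q < M.factorization q), (1 - 1 / (q : ℝ)) else 0

lemma prod_nonneg' {M : ℕ} (p : ℕ → Prop) [DecidablePred p] :
    0 ≤ ∏ q ∈ M.primeFactors.filter p, (1 - 1 / (q : ℝ)) :=
  Finset.prod_nonneg fun _ hq =>
    (one_sub_pos (Nat.prime_of_mem_primeFactors (Finset.mem_filter.1 hq).1)).le

lemma prod_le_one' {M : ℕ} (p : ℕ → Prop) [DecidablePred p] :
    ∏ q ∈ M.primeFactors.filter p, (1 - 1 / (q : ℝ)) ≤ 1 :=
  Finset.prod_le_one (fun _ hq =>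
    (one_sub_pos (Nat.prime_of_mem_primeFactors (Finset.mem_filter.1 hq).1)).le) fun q _ => by
      have : (0 : ℝ) ≤ 1 / (q : ℝ) := by positivity
      linarith

lemma al_nonneg (M c0 c1 x b : ℕ) : 0 ≤ al M c0 c1 x b := by
  unfold al
  split_ifs
  · exact prod_nonneg' _
  · exact le_rfl

lemma al_le_one (M c0 c1 x b : ℕ) : al M c0 c1 x b ≤ 1 := by
  unfold al
  split_ifs
  · exact prod_le_one' _
  · exact zero_le_one

/-- row sum of the (alpha) weight -/
lemma RR_al {M : ℕ} (F : FL M) (c0 c1 b : ℕ) {C0 : ℝ}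
    (h : ∑ p ∈ M.primeFactors.filter (fun p => c0 < p ∧ p ≤ c1), 1 / (p : ℝ) ≤ C0) :
    RR F (fun x b => al M c0 c1 x b) b ≤ C0 + 1 := by
  classical
  set D := M.primeFactors.filter (fun q => c1 < q ∧ b.factorization q < M.factorization q) with hD
  have h1 := tele_le D fun x hx => (Nat.prime_of_mem_primeFactors (Finset.mem_filter.1 hx).1).one_le
  refine le_trans ?_ (add_le_add h h1)
  unfold RR
  rw [Finset.sum_filter, hD, Finset.sum_filter, ← hD, ← Finset.sum_add_distrib]
  refine Finset.sum_le_sum fun x hx => ?_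
  have hp : 0 ≤ ∏ q ∈ D.filter (· < x), (1 - 1 / (q : ℝ)) := by
    refine Finset.prod_nonneg fun q hq => ?_
    exact (one_sub_pos (Nat.prime_of_mem_primeFactors
      (Finset.mem_filter.1 (Finset.mem_filter.1 hq).1).1)).le
  have n1 : (0 : ℝ) ≤ if c0 < x ∧ x ≤ c1 then 1 / (x : ℝ) else 0 := by
    split_ifs <;> positivity
  have n2 : (0 : ℝ) ≤ if c1 < x ∧ b.factorization x < M.factorization x then
      1 / (x : ℝ) * ∏ q ∈ D.filter (· < x), (1 - 1 / (q : ℝ)) else 0 := by
    split_ifs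
    · exact mul_nonneg (by positivity) hp
    · exact le_rfl
  by_cases hm : F.ctr b x = some (b.factorization x) ∧ b.factorization x < M.factorization x
  · rw [if_pos hm]
    by_cases h0 : c0 < x
    · by_cases h2 : x ≤ c1
      · rw [if_pos ⟨h0, h2⟩]
        have h3 := al_le_one M c0 c1 x b
        have h4 : 1 / (x : ℝ) * al M c0 c1 x b ≤ 1 / (x : ℝ) := by
          have : (0 : ℝ) ≤ 1 / (x : ℝ) := by positivity
          nlinarith
        linarith
      · rw [if_pos (show c1 < x ∧ _ from ⟨by omega, hm.2⟩)]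
        have e : al M c0 c1 x b = ∏ q ∈ D.filter (· < x), (1 - 1 / (q : ℝ)) := by
          unfold al
          rw [if_pos h0]
          congr 1
          ext q
          simp only [hD, Finset.mem_filter]
          tauto
        dsimp only
        rw [e]
        linarith
    · have e : al M c0 c1 x b = 0 := by
        unfold al
        rw [if_neg h0]
      dsimp only
      rw [e, mul_zero]
      linarith
  · rw [if_neg hm]
    linarith

/-- sum of (alpha) weights over candidate scales -/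
noncomputable def alS (M : ℕ) (cut : ℕ → ℕ) (TT : ℕ → Finset ℕ) (x b : ℕ) : ℝ :=
  ∑ T ∈ TT b, al M (cut T) (cut (T + 1)) x b

lemma alS_nonneg (M : ℕ) (cut : ℕ → ℕ) (TT : ℕ → Finset ℕ) (x b : ℕ) : 0 ≤ alS M cut TT x b :=
  Finset.sum_nonneg fun _ _ => al_nonneg _ _ _ _ _

lemma alS_le {M : ℕ} {cut : ℕ → ℕ} {TT : ℕ → Finset ℕ} {N : ℝ} (hN : ∀ b, ((TT b).card : ℝ) ≤ N)
    (x b : ℕ) : alS M cut TT x b ≤ N := by
  refine le_trans ?_ (hN b)
  unfold alS
  calc _ ≤ ∑ T ∈ TT b, (1 : ℝ) := Finset.sum_le_sum fun _ _ => al_le_one _ _ _ _ _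
    _ = _ := by simp

lemma RR_alS {M : ℕ} (F : FL M) {cut : ℕ → ℕ} {TT : ℕ → Finset ℕ} {N C0 : ℝ} (hC0 : 0 ≤ C0)
    (h : ∀ T, ∑ p ∈ M.primeFactors.filter (fun p => cut T < p ∧ p ≤ cut (T + 1)), 1 / (p : ℝ) ≤ C0)
    (hN : ∀ b, ((TT b).card : ℝ) ≤ N) (b : ℕ) : RR F (alS M cut TT) b ≤ N * (C0 + 1) := by
  have e : RR F (alS M cut TT) b =
      ∑ T ∈ TT b, RR F (fun x b => al M (cut T) (cut (T + 1)) x b) b := by
    unfold RR
    rw [Finset.sum_comm]
    refine Finset.sum_congr rfl fun x _ => ?_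
    split_ifs with h1
    · unfold alS
      rw [Finset.mul_sum]
    · simp
  rw [e]
  calc ∑ T ∈ TT b, RR F (fun x b => al M (cut T) (cut (T + 1)) x b) b
      ≤ ∑ T ∈ TT b, (C0 + 1) := Finset.sum_le_sum fun T _ => RR_al F _ _ b (h T)
    _ = (TT b).card * (C0 + 1) := by rw [Finset.sum_const, nsmul_eq_mul]
    _ ≤ _ := mul_le_mul_of_nonneg_right (hN b) (by linarith)

/-! ### The kernel -/

open Classical in
/-- indicator of `XH` -/
noncomputable def hX (XH : ℕ → Finset ℕ) (x b : ℕ) : ℝ := if x ∈ XH b then 1 else 0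

lemma hX_nonneg (XH : ℕ → Finset ℕ) (x b : ℕ) : 0 ≤ hX XH x b := by
  unfold hX
  split_ifs <;> norm_num

lemma sum_hX {XH : ℕ → Finset ℕ} {N : ℝ} (hN : ∀ b, ((XH b).card : ℝ) ≤ N) (s : Finset ℕ) (b : ℕ) :
    ∑ x ∈ s, hX XH x b ≤ N := by
  classical
  refine le_trans ?_ (hN b)
  unfold hX
  rw [← Finset.sum_filter, Finset.sum_const, nsmul_eq_mul, mul_one]
  exact_mod_cast Finset.card_le_card fun x hx => (Finset.mem_filter.1 hx).2

open Classical in
/-- full boost at the block of the pair -/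
noncomputable def BN {M : ℕ} (F : FL M) (j0 z z' : ℕ) : ℝ :=
  if h : ∃ j, j0 ≤ j ∧ NP F j z z' then
    ((low (Xj h.choose) z : ℝ) * nu (low (Xj h.choose) M) (low (Xj h.choose) z))⁻¹ else 0

lemma NP_unique {M : ℕ} {F : FL M} {i j z z' : ℕ} (hi : NP F i z z') (hj : NP F j z z') :
    i = j := by
  have key : ∀ {i j : ℕ}, Blk i z z' → Blk j z z' → ¬ i < j := by
    intro i j h h' hlt
    obtain ⟨q, hq, hqx, hne⟩ := h.2
    refine hne (h'.1 q hq (hqx.trans ?_))
    unfold Xj
    have : 2 ^ (2 ^ (i + 1)) ≤ 2 ^ (2 ^ j) :=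
      Nat.pow_le_pow_right (by norm_num) (Nat.pow_le_pow_right (by norm_num) hlt)
    omega
  have h1 := key hi.1 hj.1
  have h2 := key hj.1 hi.1
  omega

lemma BN_eq {M : ℕ} {F : FL M} {j0 j z z' : ℕ} (hj : j0 ≤ j) (h : NP F j z z') :
    BN F j0 z z' = ((low (Xj j) z : ℝ) * nu (low (Xj j) M) (low (Xj j) z))⁻¹ := by
  have hex : ∃ j, j0 ≤ j ∧ NP F j z z' := ⟨j, hj, h⟩
  unfold BN
  rw [dif_pos hex]
  have e := NP_unique hex.choose_spec.2 h
  rw [e]

open Classical in
/-- the high kernel with boost -/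
noncomputable def WH {M : ℕ} (F : FL M) (j0 : ℕ) (cut : ℕ → ℕ) (TT XH TT' XH' : ℕ → Finset ℕ)
    (z z' : ℕ) : ℝ :=
  (if z = z' then ((z : ℝ) * nu M z)⁻¹ else 0) +
  (if ∃ j, j0 ≤ j ∧ NP F j z z' then BN F j0 z z' else 0) +
  (∑ x ∈ M.primeFactors, if pd F x z z' then alS M cut TT x z / Vx M x z else 0) +
  (∑ x ∈ M.primeFactors, if pd F x z' z then alS M cut TT' x z' / Vx M x z' else 0) +
  (∑ x ∈ M.primeFactors, if PureFrom F x z z' then hX XH' x z' / Vx M x z else 0) +
  (∑ x ∈ M.primeFactors, if PureFrom F x z' z then hX XH x z / Vx M x z' else 0)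

lemma WH_nonneg {M : ℕ} (F : FL M) (j0 : ℕ) (cut : ℕ → ℕ) (TT XH TT' XH' : ℕ → Finset ℕ)
    (z z' : ℕ) : 0 ≤ WH F j0 cut TT XH TT' XH' z z' := by
  classical
  unfold WH
  have h1 : ∀ M z : ℕ, (0 : ℝ) ≤ ((z : ℝ) * nu M z)⁻¹ := fun M z =>
    inv_nonneg.2 (mul_nonneg (Nat.cast_nonneg _) (nu_nonneg _ _))
  have h2 : 0 ≤ BN F j0 z z' := by
    unfold BN
    split_ifs
    · exact h1 _ _
    · exact le_rfl
  have i1 : (0 : ℝ) ≤ (if z = z' then ((z : ℝ) * nu M z)⁻¹ else 0) := by
    split_ifs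
    · exact h1 _ _
    · exact le_rfl
  have i2 : (0 : ℝ) ≤ (if ∃ j, j0 ≤ j ∧ NP F j z z' then BN F j0 z z' else 0) := by
    split_ifs
    · exact h2
    · exact le_rfl
  have key : ∀ (R : ℕ → Prop) (g : ℕ → ℝ), (∀ x, 0 ≤ g x) →
      0 ≤ ∑ x ∈ M.primeFactors, if R x then g x else 0 := by
    intro R g hg
    refine Finset.sum_nonneg fun x _ => ?_
    split_ifs
    · exact hg x
    · exact le_rfl
  have i3 := key (fun x => pd F x z z') (fun x => alS M cut TT x z / Vx M x z)
    fun x => div_nonneg (alS_nonneg _ _ _ _ _) (Vx_nonneg _ _ _)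
  have i4 := key (fun x => pd F x z' z) (fun x => alS M cut TT' x z' / Vx M x z')
    fun x => div_nonneg (alS_nonneg _ _ _ _ _) (Vx_nonneg _ _ _)
  have i5 := key (fun x => PureFrom F x z z') (fun x => hX XH' x z' / Vx M x z)
    fun x => div_nonneg (hX_nonneg _ _ _) (Vx_nonneg _ _ _)
  have i6 := key (fun x => PureFrom F x z' z) (fun x => hX XH x z / Vx M x z')
    fun x => div_nonneg (hX_nonneg _ _ _) (Vx_nonneg _ _ _)
  linarith

open Classical in
/-- non-pure part with the full boost -/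
theorem wbd_np : ∃ C : ℝ, 0 < C ∧ ∀ (M : ℕ) (F : FL M), 0 < M → ∀ j0 : ℕ, 1 ≤ j0 →
    WBd M (fun z z' => if ∃ j, j0 ≤ j ∧ NP F j z z' then BN F j0 z z' else 0)
      (C * ((√2)⁻¹) ^ j0) := by
  obtain ⟨C, hC, h⟩ := nonpureS_blocks
  refine ⟨C, hC, fun M F hM j0 hj0 => wbd_of_ind fun S S' hS hS' => ?_⟩
  have h1 := h M F hM j0 hj0 (BN F j0) (fun j hj b c hb _ hn => by
      rw [BN_eq hj hn]
      have h2 : (0 : ℝ) < low (Xj j) b := by exact_mod_cast low_pos _ _
      have h3 : 0 < nu (low (Xj j) M) (low (Xj j) b) :=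
        nu_pos (low_pos _ _) (low_dvd (Xj j) hM.ne' hb)
      rw [inv_mul_cancel₀ (mul_pos h2 h3).ne'])
    (fun b => if b ∈ S then 1 else 0) (fun b => if b ∈ S' then 1 else 0)
    (fun b => by split_ifs <;> norm_num) (fun b => by split_ifs <;> norm_num)
    (fun b => by split_ifs <;> norm_num) (fun b => by split_ifs <;> norm_num)
  have e : ∀ T : Finset ℕ, T ⊆ M.divisors →
      ∑ b ∈ M.divisors, nu M b * (if b ∈ T then (1 : ℝ) else 0) = ∑ b ∈ T, nu M b := by
    intro T hT
    simp only [mul_ite, mul_one, mul_zero]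
    rw [← Finset.sum_filter]
    congr 1
    ext b
    simp only [Finset.mem_filter]
    exact ⟨fun h => h.2, fun h => ⟨hT h, h⟩⟩
  rw [e S hS, e S' hS', ← Real.sqrt_mul (AsmLevx946.sum_nu_nonneg _ _)] at h1
  refine le_trans (le_of_eq ?_) h1
  unfold frm
  refine Finset.sum_congr rfl fun b _ => Finset.sum_congr rfl fun c _ => ?_
  dsimp only
  by_cases h2 : ∃ j, j0 ≤ j ∧ NP F j b c
  · rw [if_pos h2, if_pos h2]; ring
  · rw [if_neg h2, if_neg h2, mul_zero, mul_zero]

/-- **THE HIGH KERNEL WITH BOOST HAS THE SET BOUND** -/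
theorem wbd_WH : ∃ C : ℝ, 0 < C ∧ ∀ (M : ℕ) (F : FL M), 0 < M → ∀ j0 : ℕ, 1 ≤ j0 →
    ∀ (cut : ℕ → ℕ) (TT XH TT' XH' : ℕ → Finset ℕ) (N C0 : ℝ), 0 < N → 0 ≤ C0 →
    (∀ T, ∑ p ∈ M.primeFactors.filter (fun p => cut T < p ∧ p ≤ cut (T + 1)), 1 / (p : ℝ) ≤ C0) →
    (∀ b, ((TT b).card : ℝ) ≤ N) → (∀ b, ((XH b).card : ℝ) ≤ N) →
    (∀ b, ((TT' b).card : ℝ) ≤ N) → (∀ b, ((XH' b).card : ℝ) ≤ N) →
    WBd M (WH F j0 cut TT XH TT' XH') (C * (1 + C0) * (1 + N)) := by
  classical
  obtain ⟨C, hC, h⟩ := wbd_np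
  refine ⟨C + 40, by positivity, fun M F hM j0 hj0 cut TT XH TT' XH' N C0 hN hC0 hcut hTT hXH
    hTT' hXH' => ?_⟩
  have hρ : 0 < N * (C0 + 1) := by positivity
  have hle : ∀ {TT : ℕ → Finset ℕ}, (∀ b, ((TT b).card : ℝ) ≤ N) → ∀ x b,
      alS M cut TT x b ≤ N * (C0 + 1) := fun hT x b => (alS_le hT x b).trans (by nlinarith)
  have a1 := wbd_diag hM
  have a2 := h M F hM j0 hj0
  have a3 := wbd_alpha hM F (alS M cut TT) hρ (fun x b => alS_nonneg _ _ _ _ _) (hle hTT)
    fun b _ => RR_alS F hC0 hcut hTT b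
  have a4 := wbd_swap (wbd_alpha hM F (alS M cut TT') hρ (fun x b => alS_nonneg _ _ _ _ _)
    (hle hTT') fun b _ => RR_alS F hC0 hcut hTT' b)
  have a5 := wbd_beta hM F M.primeFactors (hX XH') hN.le (fun x b => hX_nonneg _ _ _)
    fun b _ => sum_hX hXH' _ b
  have a6 := wbd_swap (wbd_beta hM F M.primeFactors (hX XH) hN.le (fun x b => hX_nonneg _ _ _)
    fun b _ => sum_hX hXH _ b)
  refine (((((a1.add a2).add a3).add a4).add a5).add a6).mono (fun z z' _ _ => le_of_eq rfl) ?_
  have hs2 : 1 ≤ √2 := by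
    rw [← Real.sqrt_one]; exact Real.sqrt_le_sqrt (by norm_num)
  have h2 : ((√2)⁻¹) ^ j0 ≤ 1 := pow_le_one₀ (by positivity) (inv_le_one_of_one_le₀ hs2)
  have h3 : C * ((√2)⁻¹) ^ j0 ≤ C := by nlinarith
  have h4 : 0 ≤ C0 * N := mul_nonneg hC0 hN.le
  have h5 : C ≤ C * (1 + C0) * (1 + N) := by
    have : 1 ≤ (1 + C0) * (1 + N) := by nlinarith
    nlinarith
  nlinarith

/-! ### The boost of a pair is below the kernel -/

/-- first differing prime -/
def Fst (x z z' : ℕ) : Prop :=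
  x.Prime ∧ (∀ q, q.Prime → q < x → z.factorization q = z'.factorization q) ∧
    z.factorization x ≠ z'.factorization x

lemma exists_fst {z z' : ℕ} (hz : z ≠ 0) (hz' : z' ≠ 0) (h : z ≠ z') : ∃ x, Fst x z z' := by
  classical
  have hex : ∃ r, r.Prime ∧ z.factorization r ≠ z'.factorization r := by
    by_contra hcon
    push Not at hcon
    refine h (Nat.eq_of_factorization_eq hz hz' fun q => ?_)
    by_cases hq : q.Prime
    · exact hcon q hq
    · rw [Nat.factorization_eq_zero_of_not_prime _ hq, Nat.factorization_eq_zero_of_not_prime _ hq]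
  refine ⟨Nat.find hex, (Nat.find_spec hex).1, fun q hq hlt => ?_, (Nat.find_spec hex).2⟩
  by_contra hcon
  exact Nat.find_min hex hlt ⟨hq, hcon⟩

lemma Fst.symm {x z z' : ℕ} (h : Fst x z z') : Fst x z' z :=
  ⟨h.1, fun q hq hlt => (h.2.1 q hq hlt).symm, h.2.2.symm⟩

/-- data of one pair of high words; `Q` = aligned primes -/
structure PairW {M : ℕ} (F : FL M) (j0 : ℕ) (cut : ℕ → ℕ) (TT XH TT' XH' : ℕ → Finset ℕ)
    (z z' : ℕ) (Q : Finset ℕ) : Prop where
  sub : Q ⊆ M.primeFactors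
  /-- the primes of `Q` are missing in `z` -/
  mis : ∀ q ∈ Q, z.factorization q < M.factorization q
  /-- the primes of `Q` lie below the first difference -/
  below : ∀ x, Fst x z z' → ∀ q ∈ Q, q < x
  kz : KZ F j0 z z'
  left : PureG F z z' → ∀ x, Fst x z z' → z.factorization x < z'.factorization x →
    (∃ T ∈ TT z, cut T < x ∧ ∀ q ∈ Q, q ≤ cut (T + 1)) ∨ x ∈ XH' z'
  right : PureG F z z' → ∀ x, Fst x z z' → z'.factorization x < z.factorization x →
    (∃ T ∈ TT' z', cut T < x ∧ ∀ q ∈ Q, q ≤ cut (T + 1)) ∨ x ∈ XH z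

lemma le_inv_of_mul_le {a b : ℝ} (hb : 0 < b) (h : a * b ≤ 1) : a ≤ b⁻¹ := by
  rw [← one_div, le_div_iff₀ hb]
  exact h

/-- products over larger sets are smaller -/
lemma prod_anti {S T : Finset ℕ} (hT : ∀ q ∈ T, q.Prime) (h : S ⊆ T) :
    ∏ q ∈ T, (1 - 1 / (q : ℝ)) ≤ ∏ q ∈ S, (1 - 1 / (q : ℝ)) := by
  rw [← Finset.prod_sdiff h]
  have h1 : ∏ q ∈ T \ S, (1 - 1 / (q : ℝ)) ≤ 1 :=
    Finset.prod_le_one (fun q hq => (one_sub_pos (hT q (Finset.mem_sdiff.1 hq).1)).le)
      fun q _ => by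
        have : (0 : ℝ) ≤ 1 / (q : ℝ) := by positivity
        linarith
  have h2 : 0 ≤ ∏ q ∈ S, (1 - 1 / (q : ℝ)) :=
    Finset.prod_nonneg fun q hq => (one_sub_pos (hT q (h hq))).le
  exact mul_le_of_le_one_left h2 h1

/-- `bst Q * (z ν z) ≤ 1` -/
lemma bst_diag {M z : ℕ} (hM : 0 < M) (hz : z ∣ M) {Q : Finset ℕ} (h1 : Q ⊆ M.primeFactors)
    (h2 : ∀ q ∈ Q, z.factorization q < M.factorization q) : bst Q * ((z : ℝ) * nu M z) ≤ 1 := by
  have hpr : ∀ q ∈ PrefixMx882.free M z, q.Prime := fun q hq =>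
    Nat.prime_of_mem_primeFactors (Finset.mem_filter.1 hq).1
  have hsub : Q ⊆ PrefixMx882.free M z := fun q hq =>
    Finset.mem_filter.2 ⟨h1 hq, h2 q hq⟩
  rw [PrefixMx882.diag hM hz, bst_mul_prod hpr hsub]
  exact Finset.prod_le_one
    (fun q hq => (one_sub_pos (hpr q (Finset.mem_sdiff.1 hq).1)).le) fun q _ => by
      have : (0 : ℝ) ≤ 1 / (q : ℝ) := by positivity
      linarith

/-- `bst Q * Vx ≤ ∏ over the missing primes not in Q` -/
lemma bst_Vx {M x z : ℕ} {Q : Finset ℕ} (h1 : Q ⊆ M.primeFactors)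
    (h2 : ∀ q ∈ Q, z.factorization q < M.factorization q) (h3 : ∀ q ∈ Q, q < x)
    {c : ℕ} (hc : ∀ q ∈ Q, q ≤ c) :
    bst Q * Vx M x z ≤ ∏ q ∈ M.primeFactors.filter
      (fun q => c < q ∧ q < x ∧ z.factorization q < M.factorization q), (1 - 1 / (q : ℝ)) := by
  classical
  set D := M.primeFactors.filter (fun q => q < x ∧ z.factorization q < M.factorization q) with hD
  have hpr : ∀ q ∈ D, q.Prime := fun q hq =>
    Nat.prime_of_mem_primeFactors (Finset.mem_filter.1 hq).1
  have hsub : Q ⊆ D := fun q hq => Finset.mem_filter.2 ⟨h1 hq, h3 q hq, h2 q hq⟩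
  have e : Vx M x z = ∏ q ∈ D, (1 - 1 / (q : ℝ)) := rfl
  rw [e, bst_mul_prod hpr hsub]
  refine prod_anti (fun q hq => hpr q (Finset.mem_sdiff.1 hq).1) fun q hq => ?_
  obtain ⟨h4, h5, h6, h7⟩ := Finset.mem_filter.1 hq
  refine Finset.mem_sdiff.2 ⟨Finset.mem_filter.2 ⟨h4, h6, h7⟩, fun h8 => ?_⟩
  have := hc q h8
  omega

lemma log_Xj {j : ℕ} (hj : 1 ≤ j) : Real.log (Xj (j + 1)) / Real.log (Xj j) ≤ 4 := by
  have hl2 : 0 < Real.log 2 := Real.log_pos (by norm_num)
  obtain ⟨k, hk⟩ : ∃ k, j = k + 1 := ⟨j - 1, by omega⟩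
  subst hk
  set a : ℕ := 2 ^ (k + 1) with ha
  have ha2 : 2 ≤ a := by
    calc 2 = 2 ^ 1 := by norm_num
      _ ≤ 2 ^ (k + 1) := Nat.pow_le_pow_right (by norm_num) (by omega)
  have h1 : 2 ^ (a - 1) ≤ Xj (k + 1) := Xj_ge
  have h2 : Xj (k + 1 + 1) ≤ 2 ^ (2 * a) := by
    unfold Xj
    have : 2 ^ (k + 1 + 1) = 2 * a := by rw [ha, pow_succ 2 (k + 1)]; ring
    rw [this]
    exact Nat.sub_le _ _
  have h3 : ((a : ℝ) - 1) * Real.log 2 ≤ Real.log (Xj (k + 1)) := by
    have h4 : (((2 : ℕ) ^ (a - 1) : ℕ) : ℝ) ≤ Xj (k + 1) := by exact_mod_cast h1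
    have h5 := Real.log_le_log (by positivity) h4
    rw [Nat.cast_pow, Real.log_pow] at h5
    have h6 : ((a - 1 : ℕ) : ℝ) = (a : ℝ) - 1 := by
      rw [Nat.cast_sub (by omega)]; simp
    rw [h6] at h5
    exact_mod_cast h5
  have hX1 : (0 : ℝ) < Xj (k + 1 + 1) := by
    have := Xj_two (j := k + 1 + 1) (by omega)
    exact_mod_cast (by omega : 0 < Xj (k + 1 + 1))
  have h4 : Real.log (Xj (k + 1 + 1)) ≤ (2 * a : ℝ) * Real.log 2 := by
    have h5 : (Xj (k + 1 + 1) : ℝ) ≤ ((2 : ℕ) ^ (2 * a) : ℕ) := by exact_mod_cast h2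
    have h6 := Real.log_le_log hX1 h5
    rw [Nat.cast_pow, Real.log_pow] at h6
    push_cast at h6
    exact h6
  have ha2' : (2 : ℝ) ≤ a := by exact_mod_cast ha2
  have h5 : 0 < Real.log (Xj (k + 1)) := lt_of_lt_of_le (by
    apply mul_pos _ hl2
    linarith) h3
  rw [div_le_iff₀ h5]
  calc Real.log (Xj (k + 1 + 1)) ≤ (2 * a : ℝ) * Real.log 2 := h4
    _ ≤ 4 * (((a : ℝ) - 1) * Real.log 2) := by nlinarith
    _ ≤ _ := by linarith

/-- equal statuses at the primes above a differing one -/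
lemma pureG_ctr {M : ℕ} {F : FL M} {b c : ℕ} (hb : b ∣ M) (hc : c ∣ M) (h : PureG F b c) {q : ℕ}
    (hq : q.Prime) (hr : ∃ r, r.Prime ∧ r ≤ q ∧ b.factorization r ≠ c.factorization r) :
    F.ctr b q = F.ctr c q := by
  obtain ⟨r, hr, hrq, hrne⟩ := hr
  exact F.coh hb hc hq fun q' hq' hlt hn => (h.2 q' hq' ⟨r, hr, by omega, hrne⟩).1 hn

lemma pureG_symm {M : ℕ} {F : FL M} {b c : ℕ} (hb : b ∣ M) (hc : c ∣ M) (h : PureG F b c) :
    PureG F c b := by
  refine ⟨h.1.symm, fun q hq hr => ?_⟩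
  obtain ⟨r, hr, hrq, hrne⟩ := hr
  have h1 : ∃ r, r.Prime ∧ r ≤ q ∧ b.factorization r ≠ c.factorization r := ⟨r, hr, hrq, hrne.symm⟩
  have h2 := h.2 q hq h1
  rw [← pureG_ctr hb hc h hq h1]
  refine ⟨fun hn => (h2.1 hn).symm, fun v hv => ?_⟩
  rw [min_comm]
  exact h2.2 v hv

open Classical in
/-- pure pair, `z` has the centre letter at the first difference -/
lemma pure_side {M : ℕ} {F : FL M} (hM : 0 < M) {cut : ℕ → ℕ} {TT XH' : ℕ → Finset ℕ} {z z' : ℕ}
    (hz : z ∣ M) (hz' : z' ∣ M) (h1 : PureG F z z') {x : ℕ} (hx : Fst x z z')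
    (hlt : z.factorization x < z'.factorization x) {Q : Finset ℕ} (hQ : Q ⊆ M.primeFactors)
    (hmis : ∀ q ∈ Q, z.factorization q < M.factorization q) (hbel : ∀ q ∈ Q, q < x)
    (h : (∃ T ∈ TT z, cut T < x ∧ ∀ q ∈ Q, q ≤ cut (T + 1)) ∨ x ∈ XH' z') :
    bst Q ≤ (∑ x ∈ M.primeFactors, if pd F x z z' then alS M cut TT x z / Vx M x z else 0) +
      (∑ x ∈ M.primeFactors, if PureFrom F x z z' then hX XH' x z' / Vx M x z else 0) := by
  have hxM : x ∈ M.primeFactors := by
    refine Nat.mem_primeFactors.2 ⟨hx.1, ?_, hM.ne'⟩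
    refine Dvd.dvd.trans ?_ hz'
    by_contra hh
    rw [Nat.factorization_eq_zero_of_not_dvd hh] at hlt
    omega
  have hdiff : ∀ q, q.Prime → x ≤ q → ∃ r, r.Prime ∧ r ≤ q ∧
      z.factorization r ≠ z'.factorization r := fun q _ hxq => ⟨x, hx.1, hxq, hx.2.2⟩
  have hpf : PureFrom F x z z' := fun q hq => ⟨fun hlt => hx.2.1 q hq hlt,
    fun hle => h1.2 q hq (hdiff q hq hle)⟩
  have hpd : pd F x z z' := by
    rcases pd_or hz hz' hx.1 hx.2.1 hx.2.2
      (fun q hq hle hn => (h1.2 q hq (hdiff q hq hle)).1 hn)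
      (fun q hq hle v hv => (h1.2 q hq (hdiff q hq hle)).2 v hv) with h2 | h2
    · exact h2
    · exact absurd h2.2.2.1 (by omega)
  have hV := Vx_pos M x z
  have n3 : ∀ y, 0 ≤ alS M cut TT y z / Vx M y z :=
    fun x => div_nonneg (alS_nonneg _ _ _ _ _) (Vx_nonneg _ _ _)
  have n5 : ∀ y, 0 ≤ hX XH' y z' / Vx M y z :=
    fun x => div_nonneg (hX_nonneg _ _ _) (Vx_nonneg _ _ _)
  have t3 : alS M cut TT x z / Vx M x z ≤
      ∑ x ∈ M.primeFactors, if pd F x z z' then alS M cut TT x z / Vx M x z else 0 := by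
    refine le_trans (le_of_eq (by rw [if_pos hpd])) (Finset.single_le_sum
      (f := fun x => if pd F x z z' then alS M cut TT x z / Vx M x z else 0)
      (fun y _ => ?_) hxM)
    split_ifs
    · exact n3 y
    · exact le_rfl
  have t5 : hX XH' x z' / Vx M x z ≤
      ∑ x ∈ M.primeFactors, if PureFrom F x z z' then hX XH' x z' / Vx M x z else 0 := by
    refine le_trans (le_of_eq (by rw [if_pos hpf])) (Finset.single_le_sum
      (f := fun x => if PureFrom F x z z' then hX XH' x z' / Vx M x z else 0)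
      (fun y _ => ?_) hxM)
    split_ifs
    · exact n5 y
    · exact le_rfl
  rcases h with ⟨T, hT, hcT, hcQ⟩ | h
  · -- (alpha)
    have h2 := bst_Vx hQ hmis hbel hcQ
    have h3 : bst Q * Vx M x z ≤ alS M cut TT x z := by
      refine h2.trans ?_
      have h4 : ∏ q ∈ M.primeFactors.filter
          (fun q => cut (T + 1) < q ∧ q < x ∧ z.factorization q < M.factorization q),
          (1 - 1 / (q : ℝ)) = al M (cut T) (cut (T + 1)) x z := by
        unfold al
        rw [if_pos hcT]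
      rw [h4]
      exact Finset.single_le_sum (f := fun T => al M (cut T) (cut (T + 1)) x z)
        (fun _ _ => al_nonneg _ _ _ _ _) hT
    have h4 : bst Q ≤ alS M cut TT x z / Vx M x z := by
      rw [le_div_iff₀ hV]; exact h3
    have h5 := (n5 x).trans t5
    linarith
  · -- (beta)
    have h2 := bst_Vx (c := x) hQ hmis hbel (fun q hq => (hbel q hq).le)
    have h3 : bst Q * Vx M x z ≤ 1 := h2.trans (prod_le_one' _)
    have h4 : bst Q ≤ hX XH' x z' / Vx M x z := by
      unfold hX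
      rw [if_pos h, le_div_iff₀ hV]
      exact h3
    have h5 := (n3 x).trans t3
    linarith

open Classical in
/-- **the boost is below the kernel** -/
theorem bst_le_WH {M : ℕ} {F : FL M} (hM : 0 < M) {j0 : ℕ} (hj0 : 1 ≤ j0) {cut : ℕ → ℕ}
    {TT XH TT' XH' : ℕ → Finset ℕ} {z z' : ℕ} (hz : z ∣ M) (hz' : z' ∣ M) {Q : Finset ℕ}
    (h : PairW F j0 cut TT XH TT' XH' z z' Q) :
    bst Q ≤ 4 * Real.exp (22 / Real.log 2) * WH F j0 cut TT XH TT' XH' z z' := by
  have hl2 : 0 < Real.log 2 := Real.log_pos (by norm_num)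
  set CB : ℝ := 4 * Real.exp (22 / Real.log 2) with hCB
  have hCB1 : 1 ≤ CB := by
    have : 1 ≤ Real.exp (22 / Real.log 2) := Real.one_le_exp (by positivity)
    rw [hCB]; linarith
  have hz0 : z ≠ 0 := mem_ne_zero hM hz
  have hz0' : z' ≠ 0 := mem_ne_zero hM hz'
  have hpr : ∀ q ∈ Q, q.Prime := fun q hq => Nat.prime_of_mem_primeFactors (h.sub hq)
  -- nonnegativity of the six terms
  have hinv : ∀ M z : ℕ, (0 : ℝ) ≤ ((z : ℝ) * nu M z)⁻¹ := fun M z =>
    inv_nonneg.2 (mul_nonneg (Nat.cast_nonneg _) (nu_nonneg _ _))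
  have i1 : (0 : ℝ) ≤ (if z = z' then ((z : ℝ) * nu M z)⁻¹ else 0) := by
    split_ifs
    · exact hinv _ _
    · exact le_rfl
  have i2 : (0 : ℝ) ≤ (if ∃ j, j0 ≤ j ∧ NP F j z z' then BN F j0 z z' else 0) := by
    split_ifs with h1
    · unfold BN
      rw [dif_pos h1]
      exact hinv _ _
    · exact le_rfl
  have tnn : ∀ (R : ℕ → Prop) (g : ℕ → ℝ), (∀ x, 0 ≤ g x) → ∀ x ∈ M.primeFactors,
      0 ≤ (if R x then g x else 0) := by
    intro R g hg x _
    split_ifs
    · exact hg x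
    · exact le_rfl
  have key : ∀ (R : ℕ → Prop) (g : ℕ → ℝ), (∀ x, 0 ≤ g x) →
      0 ≤ ∑ x ∈ M.primeFactors, if R x then g x else 0 := fun R g hg =>
    Finset.sum_nonneg (tnn R g hg)
  have n3 : ∀ x, 0 ≤ alS M cut TT x z / Vx M x z :=
    fun x => div_nonneg (alS_nonneg _ _ _ _ _) (Vx_nonneg _ _ _)
  have n4 : ∀ x, 0 ≤ alS M cut TT' x z' / Vx M x z' :=
    fun x => div_nonneg (alS_nonneg _ _ _ _ _) (Vx_nonneg _ _ _)
  have n5 : ∀ x, 0 ≤ hX XH' x z' / Vx M x z :=
    fun x => div_nonneg (hX_nonneg _ _ _) (Vx_nonneg _ _ _)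
  have n6 : ∀ x, 0 ≤ hX XH x z / Vx M x z' :=
    fun x => div_nonneg (hX_nonneg _ _ _) (Vx_nonneg _ _ _)
  have i3 := key (fun x => pd F x z z') _ n3
  have i4 := key (fun x => pd F x z' z) _ n4
  have i5 := key (fun x => PureFrom F x z z') _ n5
  have i6 := key (fun x => PureFrom F x z' z) _ n6
  have hWH := WH_nonneg F j0 cut TT XH TT' XH' z z'
  have hone : WH F j0 cut TT XH TT' XH' z z' ≤ CB * WH F j0 cut TT XH TT' XH' z z' := by
    nlinarith
  rcases h.kz with h1 | h1 | ⟨j, hj, h1⟩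
  · -- diagonal
    refine le_trans ?_ hone
    have h2 : bst Q ≤ ((z : ℝ) * nu M z)⁻¹ := le_inv_of_mul_le
      (mul_pos (by exact_mod_cast Nat.pos_of_dvd_of_pos hz hM) (nu_pos hM hz))
      (bst_diag hM hz h.sub h.mis)
    unfold WH
    rw [if_pos h1] at i1 ⊢
    linarith
  · -- pure
    refine le_trans ?_ hone
    obtain ⟨x, hx⟩ := exists_fst hz0 hz0' h1.1
    rcases lt_or_gt_of_ne hx.2.2 with hlt | hlt
    · have h2 := pure_side hM hz hz' h1 hx hlt h.sub h.mis (h.below x hx) (h.left h1 x hx hlt)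
      unfold WH
      linarith
    · have h2 := pure_side hM hz' hz (pureG_symm hz hz' h1) hx.symm hlt h.sub
        (fun q hq => by
          rw [← hx.2.1 q (hpr q hq) (h.below x hx q hq)]
          exact h.mis q hq) (h.below x hx) (h.right h1 x hx hlt)
      unfold WH
      linarith
  · -- non-pure
    have hj1 : 1 ≤ j := hj0.trans hj
    obtain ⟨x0, hx0p, hx0, hx0ne⟩ := h1.1.2
    have hne : z ≠ z' := fun e => hx0ne (by rw [e])
    obtain ⟨x, hx⟩ := exists_fst hz0 hz0' hne
    have hxle : x ≤ Xj (j + 1) := by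
      by_contra hcon
      exact hx0ne (hx.2.1 x0 hx0p (by omega))
    have hlow0 : (0 : ℝ) < low (Xj j) z := by exact_mod_cast low_pos _ _
    have hlowd := low_dvd (Xj j) hM.ne' hz
    have hnu0 : 0 < nu (low (Xj j) M) (low (Xj j) z) := nu_pos (low_pos _ _) hlowd
    have e := bst_split Q (fun q => q ≤ Xj j)
    have b1 : bst (Q.filter fun q => q ≤ Xj j) ≤ BN F j0 z z' := by
      rw [BN_eq hj h1]
      refine le_inv_of_mul_le (mul_pos hlow0 hnu0) (bst_diag (low_pos _ _) hlowd ?_ ?_)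
      · intro q hq
        obtain ⟨hq1, hq2⟩ := Finset.mem_filter.1 hq
        have h3 := h.mis q hq1
        rw [← Nat.support_factorization, Finsupp.mem_support_iff, fact_low, if_pos hq2]
        omega
      · intro q hq
        obtain ⟨hq1, hq2⟩ := Finset.mem_filter.1 hq
        rw [fact_low, fact_low, if_pos hq2, if_pos hq2]
        exact h.mis q hq1
    have b2 : bst (Q.filter fun q => ¬ q ≤ Xj j) ≤ CB := by
      refine (bst_window (Xj_two hj1) (a := Xj j) (b := Xj (j + 1)) ?_ ?_ ?_ ?_).trans ?_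
      · unfold Xj
        have : 2 ^ (2 ^ j) ≤ 2 ^ (2 ^ (j + 1)) :=
          Nat.pow_le_pow_right (by norm_num) (Nat.pow_le_pow_right (by norm_num) (by omega))
        omega
      · exact fun q hq => hpr q (Finset.mem_filter.1 hq).1
      · intro q hq
        have := (Finset.mem_filter.1 hq).2
        omega
      · intro q hq
        have := h.below x hx q (Finset.mem_filter.1 hq).1
        omega
      · rw [hCB, mul_comm (4 : ℝ)]
        exact mul_le_mul_of_nonneg_left (log_Xj hj1) (Real.exp_pos _).le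
    have b3 : 1 ≤ bst (Q.filter fun q => ¬ q ≤ Xj j) :=
      one_le_bst fun q hq => hpr q (Finset.mem_filter.1 hq).1
    have b4 : 0 ≤ BN F j0 z z' := by
      rw [BN_eq hj h1]
      exact hinv _ _
    rw [e]
    have hex : ∃ j, j0 ≤ j ∧ NP F j z z' := ⟨j, hj, h1⟩
    have b5 : BN F j0 z z' ≤ WH F j0 cut TT XH TT' XH' z z' := by
      unfold WH
      rw [if_pos hex]
      linarith
    calc bst (Q.filter fun q => q ≤ Xj j) * bst (Q.filter fun q => ¬ q ≤ Xj j)
        ≤ BN F j0 z z' * CB := mul_le_mul b1 b2 (by linarith) b4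
      _ = CB * BN F j0 z z' := mul_comm _ _
      _ ≤ _ := mul_le_mul_of_nonneg_left b5 (by linarith)

/-! ### The cuts `2^(A m)` -/

/-- constant of the window sums -/
noncomputable def CW (A : ℕ) : ℝ := Real.exp (22 / Real.log 2) * ((A : ℝ) + 2) + 1

lemma CW_nonneg (A : ℕ) : 0 ≤ CW A := by unfold CW; positivity

/-- window sums for the cuts `2^(A m)` of the rule -/
lemma cut_window (M A T : ℕ) :
    ∑ p ∈ M.primeFactors.filter (fun p => 2 ^ (A * T) < p ∧ p ≤ 2 ^ (A * (T + 1))), 1 / (p : ℝ) ≤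
      CW A := by
  classical
  have hl2 : 0 < Real.log 2 := Real.log_pos (by norm_num)
  set E := Real.exp (22 / Real.log 2) with hE
  have hE0 : 0 < E := Real.exp_pos _
  rcases Nat.eq_zero_or_pos A with hA | hA
  · subst hA
    have e : M.primeFactors.filter (fun p => 2 ^ (0 * T) < p ∧ p ≤ 2 ^ (0 * (T + 1))) = ∅ := by
      refine Finset.filter_eq_empty_iff.2 fun p _ => ?_
      simp only [Nat.zero_mul, pow_zero]
      omega
    rw [e, Finset.sum_empty]
    exact CW_nonneg _
  have hA' : (1 : ℝ) ≤ A := by exact_mod_cast hA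
  rcases Nat.eq_zero_or_pos T with hT | hT
  · subst hT
    set S := M.primeFactors.filter (fun p => 2 ^ (A * 0) < p ∧ p ≤ 2 ^ (A * (0 + 1))) with hS
    have hsub : S ⊆ insert 2 (S.filter fun p => 2 < p) := by
      intro p hp
      have hpp := Nat.prime_of_mem_primeFactors (Finset.mem_filter.1 hp).1
      rcases hpp.two_le.lt_or_eq with h | h
      · exact Finset.mem_insert_of_mem (Finset.mem_filter.2 ⟨hp, h⟩)
      · rw [← h]; exact Finset.mem_insert_self _ _
    have hA2 : 2 ≤ 2 ^ A := by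
      calc 2 = 2 ^ 1 := by norm_num
        _ ≤ 2 ^ A := Nat.pow_le_pow_right (by norm_num) hA
    have h1 := sum_window (a := 2) (b := 2 ^ A) le_rfl hA2 (Q := S.filter fun p => 2 < p)
      (fun q hq => Nat.prime_of_mem_primeFactors
        (Finset.mem_filter.1 (Finset.mem_filter.1 hq).1).1)
      (fun q hq => (Finset.mem_filter.1 hq).2)
      (fun q hq => by
        have := (Finset.mem_filter.1 (Finset.mem_filter.1 hq).1).2.2
        rwa [Nat.zero_add, Nat.mul_one] at this)
    have h2 : Real.log ((2 ^ A : ℕ) : ℝ) / Real.log ((2 : ℕ) : ℝ) = A := by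
      rw [Nat.cast_pow, Real.log_pow, mul_div_assoc]
      have : Real.log ((2 : ℕ) : ℝ) ≠ 0 := by exact_mod_cast hl2.ne'
      rw [div_self this, mul_one]
    rw [h2] at h1
    calc ∑ p ∈ S, 1 / (p : ℝ) ≤ ∑ p ∈ insert 2 (S.filter fun p => 2 < p), 1 / (p : ℝ) :=
          Finset.sum_le_sum_of_subset_of_nonneg hsub fun _ _ _ => by positivity
      _ = 1 / ((2 : ℕ) : ℝ) + ∑ p ∈ S.filter (fun p => 2 < p), 1 / (p : ℝ) :=
          Finset.sum_insert (by simp)
      _ ≤ 1 + E * A := by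
          have : 1 / ((2 : ℕ) : ℝ) ≤ 1 := by norm_num
          linarith
      _ ≤ CW A := by
          unfold CW
          nlinarith
  · have hAT : 1 ≤ A * T := Nat.mul_pos hA hT
    have h2 : 2 ≤ 2 ^ (A * T) := by
      calc 2 = 2 ^ 1 := by norm_num
        _ ≤ 2 ^ (A * T) := Nat.pow_le_pow_right (by norm_num) hAT
    have h1 := sum_window (a := 2 ^ (A * T)) (b := 2 ^ (A * (T + 1))) h2
      (Nat.pow_le_pow_right (by norm_num) (Nat.mul_le_mul_left _ (by omega)))
      (Q := M.primeFactors.filter (fun p => 2 ^ (A * T) < p ∧ p ≤ 2 ^ (A * (T + 1))))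
      (fun q hq => Nat.prime_of_mem_primeFactors (Finset.mem_filter.1 hq).1)
      (fun q hq => (Finset.mem_filter.1 hq).2.1) (fun q hq => (Finset.mem_filter.1 hq).2.2)
    refine h1.trans ?_
    have hT' : (1 : ℝ) ≤ T := by exact_mod_cast hT
    have h3 : Real.log ((2 ^ (A * (T + 1)) : ℕ) : ℝ) / Real.log ((2 ^ (A * T) : ℕ) : ℝ) ≤ 2 := by
      rw [Nat.cast_pow, Nat.cast_pow, Real.log_pow, Real.log_pow]
      have hl2' : 0 < Real.log ((2 : ℕ) : ℝ) := by exact_mod_cast hl2
      have hAT' : (0 : ℝ) < ((A * T : ℕ) : ℝ) := by exact_mod_cast hAT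
      rw [div_le_iff₀ (mul_pos hAT' hl2')]
      push_cast
      have : (A : ℝ) * (T + 1) ≤ 2 * (A * T) := by nlinarith
      nlinarith
    calc E * (Real.log ((2 ^ (A * (T + 1)) : ℕ) : ℝ) / Real.log ((2 ^ (A * T) : ℕ) : ℝ))
        ≤ E * 2 := mul_le_mul_of_nonneg_left h3 hE0.le
      _ ≤ CW A := by
          unfold CW
          nlinarith

/-- **final form for the rule** (`cut m = 2^(A m)`), constant depending on `A` only -/
theorem wbd_WH_pow (A : ℕ) : ∃ C : ℝ, 0 < C ∧ ∀ (M : ℕ) (F : FL M), 0 < M → ∀ j0 : ℕ, 1 ≤ j0 →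
    ∀ (TT XH TT' XH' : ℕ → Finset ℕ) (N : ℝ), 1 ≤ N →
    (∀ b, ((TT b).card : ℝ) ≤ N) → (∀ b, ((XH b).card : ℝ) ≤ N) →
    (∀ b, ((TT' b).card : ℝ) ≤ N) → (∀ b, ((XH' b).card : ℝ) ≤ N) →
    WBd M (WH F j0 (fun m => 2 ^ (A * m)) TT XH TT' XH') (C * N) := by
  obtain ⟨C, hC, h⟩ := wbd_WH
  have h1 := CW_nonneg A
  refine ⟨C * (1 + CW A) * 2, by positivity, fun M F hM j0 hj0 TT XH TT' XH' N hN a1 a2 a3 a4 => ?_⟩
  refine (h M F hM j0 hj0 _ TT XH TT' XH' N (CW A) (by linarith) h1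
    (fun T => cut_window M A T) a1 a2 a3 a4).mono (fun _ _ _ _ => le_rfl) ?_
  have h2 : 0 ≤ C * (1 + CW A) := by positivity
  nlinarith

end Crest.Agent.R4C.HighWx899
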