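import Crest.Agent.R4C.Base_935

/-!
# Crossing active pivots are naturally rare (helper171, after note 2645 (2), (3) of helper16)

Natural model: `b = F * lam`, `F` fixed, `lam` a random divisor of `M` with the exact-type law
`nu M` (all prime powers allowed).  A *pivot* `i` has an integer `h i` (a node `(h, kappa)` may be
used as index, several nodes may have the same `h`), scale `h i / L`.

* `sum_nu_dvd`, `prob_pivot` : `P (h ∣ F * lam) ≤ 1 / (h / gcd h F)`.
* `moment_abs` : abstract moment bound `E X^k ≤ C t^(2k-A)` from counts `≤ C0 4^j` at scale `2^j`.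
* `moment_cross` : the same in the natural model (2645 (2)).
* `closure`   : the least `T`-closed divisor of `b` containing `h0` (`sigma = b / h` is `T h`-rough),
  its primes outside `h0` are `≤ T h`.
* `cross_mem` : two closed divisors `h1`, `h2` of `b` with `h1 ∤ h2`, `F ∣ h2`, are crossing:
  `h1 / gcd h1 F > R` as soon as `b / h2` is `R`-rough (2645 (3)).
* `nonnested_le` : `∑ min (W z1) (W z2)` over non-nested pairs `≤ ∑ X (z2) W (z2)`.
-/

namespace Crest.Agent.R4C.Crossx171

open Finset Crest.Agent.R4C.Basex935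

/-! ### 1. Probability of a pivot in the natural model -/

/-- the multiples of `d` have natural mass `1/d` -/
lemma sum_nu_dvd {M d : ℕ} (hM : 0 < M) (hd : d ∣ M) :
    ∑ b ∈ M.divisors with d ∣ b, nu M b = 1 / (d : ℝ) := by
  obtain ⟨K, rfl⟩ := hd
  have hd0 : 0 < d := Nat.pos_of_mul_pos_right hM |> fun h => by
    rcases Nat.eq_zero_or_pos d with h0 | h0
    · subst h0; simp at hM
    · exact h0
  have hK0 : 0 < K := by
    rcases Nat.eq_zero_or_pos K with h0 | h0
    · subst h0; simp at hM
    · exact h0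
  have h1 : ∑ b ∈ (d * K).divisors with d ∣ b, nu (d * K) b =
      ∑ c ∈ K.divisors, nu (d * K) (d * c) := by
    symm
    refine Finset.sum_bij (fun c _ => d * c) ?_ ?_ ?_ ?_
    · intro c hc
      rw [Nat.mem_divisors] at hc
      rw [Finset.mem_filter, Nat.mem_divisors]
      exact ⟨⟨Nat.mul_dvd_mul_left d hc.1, by positivity⟩, Dvd.intro _ rfl⟩
    · intro c _ c' _ he
      exact Nat.eq_of_mul_eq_mul_left hd0 he
    · intro b hb
      rw [Finset.mem_filter, Nat.mem_divisors] at hb
      obtain ⟨c, rfl⟩ := hb.2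
      refine ⟨c, ?_, rfl⟩
      rw [Nat.mem_divisors]
      exact ⟨Nat.dvd_of_mul_dvd_mul_left hd0 hb.1.1, hK0.ne'⟩
    · intro c _
      rfl
  rw [h1]
  have h2 : ∀ c ∈ K.divisors, nu (d * K) (d * c) = nu K c / d := by
    intro c _
    unfold nu
    rw [Nat.mul_div_mul_left _ _ hd0]
    push_cast
    have : (d : ℝ) ≠ 0 := by exact_mod_cast hd0.ne'
    have : (K : ℝ) ≠ 0 := by exact_mod_cast hK0.ne'
    field_simp
  rw [Finset.sum_congr rfl h2, ← Finset.sum_div, sum_nu hK0]

lemma sum_nu_dvd_le {M : ℕ} (hM : 0 < M) (d : ℕ) :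
    ∑ b ∈ M.divisors with d ∣ b, nu M b ≤ 1 / (d : ℝ) := by
  by_cases hd : d ∣ M
  · exact (sum_nu_dvd hM hd).le
  · rw [Finset.sum_eq_zero_iff_of_nonneg (fun b _ => nu_nonneg M b) |>.2]
    · positivity
    · intro b hb
      rw [Finset.mem_filter, Nat.mem_divisors] at hb
      exact absurd (hb.2.trans hb.1.1) hd



/-! ### 2. Abstract moment bound -/







/-! ### 3. Closure and crossing -/









end Crest.Agent.R4C.Crossx171
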