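import Crest.Agent.R4C.Pair_14
import Crest.Agent.R4C.Rule_945

/-!
# Row 4: cover of the linked good pairs of one scale, in the language of `Rule_945` (helper14)

* `TC_of_TC` : a tree label `Pairx14.TC` at the cut `P.cut m` is the tree centre `Rulex945.TC`;
* `Expl` : an explained differing prime (`p ∣ al` missing in `c`, or `p ∣ al'` missing in `b`);
* **`cover_good`** : unkilled linked pair, good at `P.cut m`, scale `2^m`:
  `Rare`, `Dom`, `UD b c`, `UD c b`, or both members have tree centres `f`, `f'` at the scale `2^m`,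
  the same point, and for the LARGEST explained differing prime `p ≤ P.cut m`: every differing
  prime in `(p, P.cut m]` divides `k0 b f` or `k0 c f'`, and at the member missing `p` the centre is
  too deep for the threshold or a centre of a larger scale is used (`Alt`);
* `cover_goodB` : the same for `b, c`, `h ∈ Lnk`, `¬ killedB`.
-/

set_option autoImplicit false

namespace Crest.Agent.R4C.PairRx14

open Crest.Agent.R4C.FLDefx935 Crest.Agent.R4C.BoostCx972 Crest.Agent.R4C.CrCoinx935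
  Crest.Agent.R4C.CrCountx935 Crest.Agent.R4C.Bridgex882
  Crest.Agent.R4C.S7cx14 Crest.Agent.R4C.S7dx14 Crest.Agent.R4C.Chainx81
  Crest.Agent.R4C.Cutx50 Crest.Agent.R4C.S2bx284 Crest.Agent.R4C.S2x232
  Crest.Agent.R4C.Pairx14

variable {M : ℕ} {F : FL M} {P : Rulex945.Par}

/-- a tree label gives the tree centre of `Rule_945` -/
lemma TC_of_TC {E : ℝ} {m b : ℕ} {a : ℤ} {k : ℕ} (hM : 0 < M) (hb : b ∣ M) (hL : 0 ≤ P.L)
    (hE : E ≤ P.E m) (h : Pairx14.TC F P.γ P.L E (P.cut m) b a k)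
    (hs : (2 : ℝ) ^ m * P.L ≤ F.uu (P.cut m) b) :
    Rulex945.TC F P m b (fr F (P.cut m) b a k) := by
  refine ⟨?_, ?_, hs⟩
  · have h1 : Rulex945.k0 F (P.cut m) b (fr F (P.cut m) b a k) ≤ k := Rulex945.k0_le h.isC
    have h2 : (Rulex945.k0 F (P.cut m) b (fr F (P.cut m) b a k) : ℝ) ≤ k := by exact_mod_cast h1
    exact h2.trans (h.le.trans hE)
  · exact (h.disp_le hM hb).trans (mul_le_mul_of_nonneg_right hE hL)

/-- the minimal denominator of `a/(k lam)` is `k` -/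
lemma k0_fr {x b : ℕ} {a : ℤ} {k : ℕ} (hk : 0 < k) (hcop : IsCoprime a (k : ℤ)) :
    Rulex945.k0 F x b (fr F x b a k) = k := by
  refine Nat.dvd_antisymm (Rulex945.k0_dvd ⟨hk, fr_den_dvd a k⟩) ?_
  have h1 := (Rulex945.isC_k0 (F := F) x b (fr F x b a k)).2
  obtain ⟨u, hu⟩ := h1
  set f := fr F x b a k with hf
  set K := Rulex945.k0 F x b f with hK
  have hl := FL.lam_pos (F := F) x b
  have hlQ : (F.lam x b : ℚ) ≠ 0 := by exact_mod_cast hl.ne'
  have hkQ : (k : ℚ) ≠ 0 := by exact_mod_cast hk.ne'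
  have e1 : f * ((k : ℚ) * F.lam x b) = a := by
    rw [hf]; unfold fr; field_simp
  have e2 : f * f.den = f.num := Rat.mul_den_eq_num f
  have e3 : (K : ℚ) * F.lam x b = f.den * u := by exact_mod_cast hu
  -- `K a = k (num u)`
  have e4 : (K : ℚ) * a = k * (f.num * u) := by
    have : (K : ℚ) * a = k * (f * ((K : ℚ) * F.lam x b)) := by rw [← e1]; ring
    rw [this, e3, ← e2]; ring
  have e5 : (K : ℤ) * a = k * (f.num * u) := by exact_mod_cast e4
  have h2 : (k : ℤ) ∣ (K : ℤ) * a := ⟨_, e5⟩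
  exact Int.natCast_dvd_natCast.1 (hcop.symm.dvd_of_dvd_mul_right h2)

/-- what happens at a missing prime `p` of `b` where the tree centre `f` of the scale `2^m` is
not used -/
def Alt (F : FL M) (P : Rulex945.Par) (m b : ℕ) (f : ℚ) (p : ℕ) : Prop :=
  P.thr b (P.blk p) < Rulex945.dep F P m b f ∨ ∃ (m₂ : ℕ) (f₂ : ℚ), m < m₂ ∧ f ≠ f₂ ∧
    Rulex945.TC F P m₂ b f₂ ∧ Rulex945.dep F P m₂ b f₂ ≤ P.thr b (P.blk p) ∧
    Rulex945.Fc F P b p = some f₂ ∧ P.Y (P.blk p) ≤ P.cut m₂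


lemma alt_left (hL : 0 < P.L) (hM : 0 < M) (hN : (M : ℝ) / P.L ≤ P.N)
    (hE : ∀ m, P.m0 ≤ m → 2 * P.E m ^ 3 < 2 ^ m) {g s s' m p : ℕ} {f f' : ℚ} {h : ℤ}
    (hb : g * s ∣ M) (hm : P.m0 ≤ m) (hT : Rulex945.TC F P m (g * s) f)
    (hp : P.Y (P.blk p) ≤ P.cut m) (hpp : p.Prime) (hg : 0 < g) (hs : 0 < s) (hs' : 0 < s')
    (hcop : Nat.Coprime s s') (h0 : BoostCx972.gap f f' s s' h = 0)
    (hk : ¬ killedL (Rulex945.lamR F P) (g * s) (g * s') s s' h)
    (hpa : p ∣ alC (g * s') (g * s) f' f) : Alt F P m (g * s) f p := by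
  rcases Rulex945.case_of hL hM hN hE hb hm hT hp with h1 | h1 | ⟨m₂, f₂, h1, h2, h3, h4, h5, h6⟩
  · exact absurd h1 (unkilled_ne Rulex945.isLab hg hs hs' hcop h0 hk hpp hpa)
  · exact Or.inl h1
  · exact Or.inr ⟨m₂, f₂, h1, h2, h3, h4, h5, h6⟩

lemma alt_right (hL : 0 < P.L) (hM : 0 < M) (hN : (M : ℝ) / P.L ≤ P.N)
    (hE : ∀ m, P.m0 ≤ m → 2 * P.E m ^ 3 < 2 ^ m) {g s s' m p : ℕ} {f f' : ℚ} {h : ℤ}
    (hc : g * s' ∣ M) (hm : P.m0 ≤ m) (hT : Rulex945.TC F P m (g * s') f')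
    (hp : P.Y (P.blk p) ≤ P.cut m) (hpp : p.Prime) (hg : 0 < g) (hs : 0 < s) (hs' : 0 < s')
    (hcop : Nat.Coprime s s') (h0 : BoostCx972.gap f f' s s' h = 0)
    (hk : ¬ killedL (Rulex945.lamR F P) (g * s) (g * s') s s' h)
    (hpa : p ∣ alC (g * s) (g * s') f f') : Alt F P m (g * s') f' p := by
  rcases Rulex945.case_of hL hM hN hE hc hm hT hp with h1 | h1 | ⟨m₂, f₂, h1, h2, h3, h4, h5, h6⟩
  · exact absurd h1 (unkilled_ne' Rulex945.isLab hg hs hs' hcop h0 hk hpp hpa)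
  · exact Or.inl h1
  · exact Or.inr ⟨m₂, f₂, h1, h2, h3, h4, h5, h6⟩

/-- the labelled case of the cover: both tree centres, same point, largest explained prime -/
structure LabPair (F : FL M) (P : Rulex945.Par) (m g s s' : ℕ) (h : ℤ) (f f' : ℚ) (p : ℕ) :
    Prop where
  tcb : Rulex945.TC F P m (g * s) f
  tcc : Rulex945.TC F P m (g * s') f'
  pt : BoostCx972.gap f f' s s' h = 0
  prime : p.Prime
  le : p ≤ P.cut m
  /-- `p` is explained, and the member missing it does not use its centre -/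
  alt : (p ∣ s' ∧ p ∣ alC (g * s') (g * s) f' f ∧ Alt F P m (g * s) f p) ∨
    (p ∣ s ∧ p ∣ alC (g * s) (g * s') f f' ∧ Alt F P m (g * s') f' p)
  /-- the differing primes in `(p, cut]` are unexplained -/
  top : ∀ r : ℕ, r.Prime → p < r → r ≤ P.cut m →
    (r ∣ s → r ∣ Rulex945.k0 F (P.cut m) (g * s) f) ∧
    (r ∣ s' → r ∣ Rulex945.k0 F (P.cut m) (g * s') f')
  /-- strong form: no prime in `(p, cut]` is explained -/
  topE : ∀ r : ℕ, r.Prime → p < r → r ≤ P.cut m →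
    ¬ r ∣ alC (g * s) (g * s') f f' ∧ ¬ r ∣ alC (g * s') (g * s) f' f
  /-- the explicit labels of S2 (`k = k0 b f`, `k' = k0 c f'`), and the word is not short -/
  lab : ∃ (E : ℝ) (a : ℤ) (k : ℕ) (a' : ℤ) (k' : ℕ), 0 < E ∧ 2 * E ≤ P.E m ∧ 8 * E ^ 5 ≤ 2 ^ m ∧
    Pairx14.TC F P.γ P.L (2 * E) (P.cut m) (g * s) a k ∧
    Pairx14.TC F P.γ P.L (2 * E) (P.cut m) (g * s') a' k' ∧
    f = fr F (P.cut m) (g * s) a k ∧ f' = fr F (P.cut m) (g * s') a' k' ∧
    Rulex945.k0 F (P.cut m) (g * s) f = k ∧ Rulex945.k0 F (P.cut m) (g * s') f' = k' ∧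
    Labd (upp (P.cut m) s * P.γ) (upp (P.cut m) s' * P.γ) (2 ^ m) E
      ((F.ell (P.cut m) (g * s') : ℕ) * a) k ((F.ell (P.cut m) (g * s) : ℕ) * a') k'
      (low (P.cut m) s) (low (P.cut m) s') ∧
    ¬ IsShort k k' (2 ^ m)
      (upp (P.cut m) s * P.γ - ((F.ell (P.cut m) (g * s') : ℕ) * a : ℤ) / k)
      (upp (P.cut m) s' * P.γ - ((F.ell (P.cut m) (g * s) : ℕ) * a' : ℤ) / k')
      (low (P.cut m) s) (low (P.cut m) s')

/-- `al ∣ s`-free version: a prime of `al'` divides `s'` -/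
lemma al'_dvd {g s s' : ℕ} {f f' : ℚ} {h : ℤ} (hg : 0 < g) (hs : 0 < s) (hs' : 0 < s')
    (hcop : Nat.Coprime s s') (h0 : BoostCx972.gap f f' s s' h = 0) :
    alC (g * s') (g * s) f' f ∣ s' := al_dvd_s hg hs' hs hcop.symm (gap_symm h0)



/-! ### the depth of the word and the depths of the members -/

/-- depth of the word of the pair at the scale `2^m` -/
noncomputable def depW (F : FL M) (P : Rulex945.Par) (m g s s' : ℕ) (f f' : ℚ) : ℝ :=
  (Nat.lcm (Rulex945.k0 F (P.cut m) (g * s) f) (Rulex945.k0 F (P.cut m) (g * s') f') : ℝ) *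
    max 1 (max (2 ^ m * (s * |P.γ - f|)) (2 ^ m * (s' * |P.γ - f'|)))

/-- `δ = upp s (γ - f)` -/
lemma del_eq {x g s s' k : ℕ} {a : ℤ} {γ : ℝ} (hM : 0 < M) (hb : g * s ∣ M) (hc : g * s' ∣ M)
    (hcop : Nat.Coprime s s') (hx : F.good x (g * s) (g * s')) (hk : 0 < k) :
    (upp x s : ℝ) * γ - ((F.ell x (g * s') : ℕ) * a : ℤ) / k =
      upp x s * (γ - (fr F x (g * s) a k : ℚ)) := by
  have hl : (0 : ℝ) < F.lam x (g * s) := by exact_mod_cast FL.lam_pos (F := F) x (g * s)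
  have hkR : (0 : ℝ) < k := by exact_mod_cast hk
  have hup : (upp x s : ℝ) = F.lam x (g * s) * F.ell x (g * s') := by
    exact_mod_cast upp_cof hM hb hc hcop hx
  have e : ((fr F x (g * s) a k : ℚ) : ℝ) = a / (k * F.lam x (g * s)) := by
    unfold fr; push_cast; rfl
  rw [mul_sub, e, hup]
  push_cast
  field_simp


/-- `dep b ≤ 2 dep w` -/
theorem dep_le_depW {m g s s' : ℕ} {f f' : ℚ} (hL : 0 < P.L)
    (hg2 : (g : ℝ) ≤ 2 * ((2 : ℝ) ^ m * P.L)) :
    Rulex945.dep F P m (g * s) f ≤ 2 * depW F P m g s s' f f' := by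
  unfold Rulex945.dep depW
  set k := Rulex945.k0 F (P.cut m) (g * s) f with hk
  set k' := Rulex945.k0 F (P.cut m) (g * s') f' with hk'
  have hkp : 0 < k := Rulex945.k0_pos _ _ _
  have hkp' : 0 < k' := Rulex945.k0_pos _ _ _
  have h1 : (k : ℝ) ≤ Nat.lcm k k' := by
    exact_mod_cast Nat.le_of_dvd (Nat.lcm_pos hkp hkp') (Nat.dvd_lcm_left _ _)
  set X := (2 : ℝ) ^ m * (s * |P.γ - f|) with hX
  set X' := (2 : ℝ) ^ m * (s' * |P.γ - f'|) with hX'
  have hX0 : 0 ≤ X := by positivity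
  have h2 : ((g * s : ℕ) : ℝ) * |P.γ - f| / P.L ≤ 2 * X := by
    rw [div_le_iff₀ hL, hX]
    push_cast
    have h3 : 0 ≤ (s : ℝ) * |P.γ - f| := by positivity
    calc (g : ℝ) * s * |P.γ - f| = g * (s * |P.γ - f|) := by ring
      _ ≤ (2 * ((2 : ℝ) ^ m * P.L)) * (s * |P.γ - f|) := mul_le_mul_of_nonneg_right hg2 h3
      _ = _ := by ring
  have h4 : max 1 (((g * s : ℕ) : ℝ) * |P.γ - f| / P.L) ≤ 2 * max 1 (max X X') := by
    refine max_le ?_ ?_
    · have := le_max_left (1 : ℝ) (max X X'); linarith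
    · have := (le_max_left X X').trans (le_max_right (1 : ℝ) (max X X')); linarith
  calc (k : ℝ) * max 1 (((g * s : ℕ) : ℝ) * |P.γ - f| / P.L)
      ≤ Nat.lcm k k' * (2 * max 1 (max X X')) :=
        mul_le_mul h1 h4 (by positivity) (by positivity)
    _ = _ := by ring


/-- **the labels of a labelled pair, in the language of `S2b_284`**: the depth of the word is
`depW`, and the word is not short: `depW < 64` or `depW < (s_low s'_low)^3` -/
theorem LabPair.labels {m g s s' p : ℕ} {h : ℤ} {f f' : ℚ} (hM : 0 < M) (hb : g * s ∣ M)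
    (hc : g * s' ∣ M) (hcop : Nat.Coprime s s') (hx : F.good (P.cut m) (g * s) (g * s'))
    (hP : LabPair F P m g s s' h f f' p) :
    ∃ (E : ℝ) (A : ℤ) (k : ℕ) (A' : ℤ) (k' : ℕ), 0 < E ∧ 2 * E ≤ P.E m ∧ 8 * E ^ 5 ≤ 2 ^ m ∧
      Rulex945.k0 F (P.cut m) (g * s) f = k ∧ Rulex945.k0 F (P.cut m) (g * s') f' = k' ∧
      Labd (upp (P.cut m) s * P.γ) (upp (P.cut m) s' * P.γ) (2 ^ m) E A k A' k'
        (low (P.cut m) s) (low (P.cut m) s') ∧
      dep k k' (2 ^ m) (upp (P.cut m) s * P.γ - A / k) (upp (P.cut m) s' * P.γ - A' / k')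
        (low (P.cut m) s) (low (P.cut m) s') = depW F P m g s s' f f' ∧
      ¬ IsShort k k' (2 ^ m) (upp (P.cut m) s * P.γ - A / k) (upp (P.cut m) s' * P.γ - A' / k')
        (low (P.cut m) s) (low (P.cut m) s') ∧
      (depW F P m g s s' f f' < 64 ∨
        depW F P m g s s' f f' < ((low (P.cut m) s : ℝ) * low (P.cut m) s') ^ 3) := by
  obtain ⟨E, a, k, a', k', hE, hE2, hE5, htc, htc', hf, hf', hk, hk', hlab, hsh⟩ := hP.lab
  have hg0 : g * s ≠ 0 := (Nat.pos_of_dvd_of_pos hb hM).ne'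
  have hg0' : g * s' ≠ 0 := (Nat.pos_of_dvd_of_pos hc hM).ne'
  have hs : s ≠ 0 := fun h => hg0 (by rw [h, mul_zero])
  have hs' : s' ≠ 0 := fun h => hg0' (by rw [h, mul_zero])
  have h2m : (0 : ℝ) < 2 ^ m := by positivity
  set x := P.cut m with hxdef
  have e1 : (upp x s : ℝ) * P.γ - ((F.ell x (g * s') : ℕ) * a : ℤ) / k = upp x s * (P.γ - f) := by
    rw [hf]; exact del_eq hM hb hc hcop hx htc.pos
  have e2 : (upp x s' : ℝ) * P.γ - ((F.ell x (g * s) : ℕ) * a' : ℤ) / k' =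
      upp x s' * (P.γ - f') := by
    rw [hf']; exact del_eq hM hc hb hcop.symm (FL.good_symm hb hc hx) htc'.pos
  have e3 : (low x s : ℝ) * upp x s = s := by exact_mod_cast low_mul_upp x hs
  have e4 : (low x s' : ℝ) * upp x s' = s' := by exact_mod_cast low_mul_upp x hs'
  have hdep : dep k k' (2 ^ m) (upp x s * P.γ - ((F.ell x (g * s') : ℕ) * a : ℤ) / k)
      (upp x s' * P.γ - ((F.ell x (g * s) : ℕ) * a' : ℤ) / k') (low x s) (low x s') =
      depW F P m g s s' f f' := by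
    unfold dep depW
    rw [e1, e2, hk, hk', abs_mul, abs_mul, abs_of_nonneg (Nat.cast_nonneg (upp x s) : (0:ℝ) ≤ _),
      abs_of_nonneg (Nat.cast_nonneg (upp x s') : (0:ℝ) ≤ _)]
    congr 2
    congr 1
    · rw [← e3]; ring
    · rw [← e4]; ring
  refine ⟨E, (F.ell x (g * s') : ℕ) * a, k, (F.ell x (g * s) : ℕ) * a', k', hE, hE2, hE5, hk, hk',
    hlab, hdep, hsh, ?_⟩
  by_contra hcon
  push Not at hcon
  exact hsh ⟨by rw [hdep]; exact hcon.1, by rw [hdep]; exact hcon.2⟩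



end Crest.Agent.R4C.PairRx14
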