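import Mathlib
import Crest.Agent.R4C.CrCoin_935
import Crest.Agent.R4C.Base_935
import Crest.Agent.R4C.FLDef_935

-- ▼ part R4C/Cent_949
section

/-!
# Row 4, BLOCK S4 (note 2774, helper994): centres are reduced fractions (helper949)

`f : ℚ` is a centre of `b : ℕ` (`b ∣ M`, any exponents), `bet = gcd(b, den f)`,
`kf = den f / bet`, `gf = b / bet`, `disp = b |γ - f|`; on the hit `(b,n)` the point is
`zpt b f n = b (f + n)`, with `den = kf`, `num = gf * wf`, `gcd(b, num) = gf`.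
-/

set_option autoImplicit false

namespace Crest.Agent.R4C.Centx949

/-- `β_f(b) = gcd(b, den f)` -/
def bet (b : ℕ) (f : ℚ) : ℕ := Nat.gcd b f.den

/-- `k_f(b) = den f / β` -/
def kf (b : ℕ) (f : ℚ) : ℕ := f.den / bet b f

/-- `g_f(b) = b / β` -/
def gf (b : ℕ) (f : ℚ) : ℕ := b / bet b f

/-- displacement `D_f(b) = b |γ - f|` -/
noncomputable def disp (γ : ℝ) (b : ℕ) (f : ℚ) : ℝ := b * |γ - f|

/-- the point `z = b (f + n)` of the centre `f` on the hit `(b,n)` -/
def zpt (b : ℕ) (f : ℚ) (n : ℤ) : ℚ := b * (f + n)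

/-- `W = P + Q n` -/
def wf (f : ℚ) (n : ℤ) : ℤ := f.num + f.den * n

/-! ### (1) -/


lemma bet_mul_gf (b : ℕ) (f : ℚ) : bet b f * gf b f = b :=
  Nat.mul_div_cancel' (Nat.gcd_dvd_left _ _)

lemma bet_mul_kf (b : ℕ) (f : ℚ) : bet b f * kf b f = f.den :=
  Nat.mul_div_cancel' (Nat.gcd_dvd_right _ _)

lemma kf_pos (b : ℕ) (f : ℚ) : 0 < kf b f := by
  have := bet_mul_kf b f
  have h := f.den_pos
  exact Nat.pos_of_ne_zero fun h0 => by rw [h0, mul_zero] at this; omega







lemma zpt_eq (b : ℕ) (f : ℚ) (n : ℤ) :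
    zpt b f n = (((gf b f : ℤ) * wf f n : ℤ) : ℚ) / ((kf b f : ℤ) : ℚ) := by
  have hk : ((kf b f : ℕ) : ℚ) ≠ 0 := by exact_mod_cast (kf_pos b f).ne'
  have hq : ((f.den : ℕ) : ℚ) ≠ 0 := by exact_mod_cast f.den_pos.ne'
  have e1 : (b : ℚ) = bet b f * gf b f := by exact_mod_cast (bet_mul_gf b f).symm
  have e2 : (f.den : ℚ) = bet b f * kf b f := by exact_mod_cast (bet_mul_kf b f).symm
  have e3 : f = f.num / f.den := (Rat.num_div_den f).symm
  unfold zpt wf
  push_cast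
  rw [eq_div_iff hk]
  have e4 : f * f.den = f.num := by
    nth_rewrite 1 [e3]; field_simp
  calc (b : ℚ) * (f + n) * kf b f = gf b f * (f * (bet b f * kf b f) + (bet b f * kf b f) * n) := by
        rw [e1]; ring
    _ = gf b f * (f.num + f.den * n) := by rw [← e2, e4]






/-! ### (2) kill -/





/-! ### (3) transfer -/

/-- the transferred centre of `b'` -/
def tr (b' : ℕ) (z : ℚ) (n' : ℤ) : ℚ := z / b' - n'


lemma disp_eq (γ : ℝ) (b : ℕ) (f : ℚ) (n : ℤ) :
    disp γ b f = |(b : ℝ) * (γ + n) - (zpt b f n : ℚ)| := by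
  have hb : (0 : ℝ) ≤ b := Nat.cast_nonneg _
  unfold disp zpt
  push_cast
  have e : (b : ℝ) * (γ + n) - b * ((f : ℝ) + n) = b * (γ - f) := by ring
  rw [e, abs_mul, abs_of_nonneg hb]





/-! ### (4), (5) gaps -/

/-- different points: `gcd(g,g') ≤ k k' |z - z'|` -/
theorem gap {b b' : ℕ} {f f' : ℚ} {n n' : ℤ} (hne : zpt b f n ≠ zpt b' f' n') :
    (Nat.gcd (gf b f) (gf b' f') : ℝ) ≤
      kf b f * kf b' f' * |((zpt b f n : ℚ) : ℝ) - (zpt b' f' n' : ℚ)| := by
  have hk : (0 : ℝ) < kf b f := by exact_mod_cast kf_pos b f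
  have hk' : (0 : ℝ) < kf b' f' := by exact_mod_cast kf_pos b' f'
  have e1 : ((zpt b f n : ℚ) : ℝ) = ((gf b f : ℤ) * wf f n : ℤ) / (kf b f : ℝ) := by
    rw [zpt_eq]; push_cast; rfl
  have e2 : ((zpt b' f' n' : ℚ) : ℝ) = ((gf b' f' : ℤ) * wf f' n' : ℤ) / (kf b' f' : ℝ) := by
    rw [zpt_eq]; push_cast; rfl
  set X : ℤ := (gf b f : ℤ) * wf f n * kf b' f' - (gf b' f' : ℤ) * wf f' n' * kf b f with hX
  have e3 : (kf b f : ℝ) * kf b' f' * |((zpt b f n : ℚ) : ℝ) - (zpt b' f' n' : ℚ)| = |(X : ℝ)| := by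
    rw [← abs_of_pos (mul_pos hk hk'), ← abs_mul, e1, e2, hX]
    congr 1
    push_cast
    field_simp
  rw [e3]
  have hX0 : X ≠ 0 := by
    intro h0
    apply hne
    have h1 : ((zpt b f n : ℚ) : ℝ) - (zpt b' f' n' : ℚ) = 0 := by
      rw [h0] at e3
      simp only [Int.cast_zero, abs_zero, mul_eq_zero, hk.ne', hk'.ne', false_or, abs_eq_zero] at e3
      exact e3
    exact_mod_cast sub_eq_zero.1 h1
  have hd : ((Nat.gcd (gf b f) (gf b' f') : ℕ) : ℤ) ∣ X := by
    have d1 : ((Nat.gcd (gf b f) (gf b' f') : ℕ) : ℤ) ∣ gf b f := by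
      exact_mod_cast Nat.gcd_dvd_left _ _
    have d2 : ((Nat.gcd (gf b f) (gf b' f') : ℕ) : ℤ) ∣ gf b' f' := by
      exact_mod_cast Nat.gcd_dvd_right _ _
    exact dvd_sub ((d1.mul_right _).mul_right _) ((d2.mul_right _).mul_right _)
  have h2 := Int.le_of_dvd (abs_pos.2 hX0) ((dvd_abs _ _).2 hd)
  exact_mod_cast h2






/-! ### (6) kill lemma -/




/-! ### (7) dichotomy -/





/-! ### (8) sparsity -/




end Crest.Agent.R4C.Centx949
end

-- ▼ part R4C/CentBr_949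
section

/-!
# Row 4: bridge between offsets `h` (CrCoin_935) and hits / centres (Cent_949)  (helper949)

`q, q' ∣ M`, `b = M/q`, `b' = M/q'`, `s = q'/gcd(q,q')`, `s' = q/gcd(q,q')`, `b = g s`, `b' = g s'`,
`g = M/lcm(q,q')`.
-/

set_option autoImplicit false

namespace Crest.Agent.R4C.CentBrx949

open Crest.Agent.R4C.CrCountx935 Crest.Agent.R4C.CrCoinx935 Crest.Agent.R4C.Basex935
  Crest.Agent.R4C.Centx949












open Classical in
/-- the class of `f` mod `p`, as a label -/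
noncomputable def lab (f : ℚ) (p : ℕ) : Option ℤ :=
  if h : ∃ c : ℤ, (p : ℤ) ∣ f.num + f.den * c then some h.choose else none




end Crest.Agent.R4C.CentBrx949
end

-- ▼ part R4C/Chain_81

/-!
# Row 4: the chain `uu x b` of an F-Λ structure and its centres (2743 (b),(c),(d)) (helper81)

`F : FL M`, `b ∣ M`, window `L`.
* `tau F L x b = uu x b / L` is monotone in the cut; `gcd b c ≤ uu x b, uu x c` for good pairs;
* `div_gcd`, `link_target` : the cofactors of a good pair and the local target `lam x b * γ`;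
* `fr F x b a k = a / (k lam x b)` : the centre of `b` given by the label `a / k` of `lam x b * γ`;
* `two_cuts`, `jump`, `no_mild`, `deep_*` : two cuts with different centres;
* `same_pt`, `unkilled_s` : the common centre of a linked pair, and what it kills.
-/

set_option autoImplicit false

namespace Crest.Agent.R4C.Chainx81

open Finset Crest.Agent.R4C.Basex935 Crest.Agent.R4C.Cutx50 Crest.Agent.R4C.FLDefx935
  Crest.Agent.R4C.Centx949

variable {M : ℕ} {F : FL M}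

/-! ### (b) the chain -/

/-- the scale of the chain of `b` at the cut `x` -/
noncomputable def tau (F : FL M) (L : ℝ) (x b : ℕ) : ℝ := (F.uu x b : ℝ) / L






theorem gcd_le_uu {x b c : ℕ} (hM : 0 < M) (hb : b ∣ M) (hc : c ∣ M) (h : F.good x b c) :
    Nat.gcd b c ≤ F.uu x b := Nat.le_of_dvd (FL.uu_pos x b) (FL.good_gcd_dvd_uu hM hb hc h)




/-! ### (c) cofactors of a good pair and the local target -/

/-- the low cofactor -/
def sig (x b c : ℕ) : ℕ := low x b / Nat.gcd (low x b) (low x c)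

theorem eq_gcd_mul {x b c : ℕ} (hM : 0 < M) (hb : b ∣ M) (hc : c ∣ M) (h : F.good x b c) :
    b = Nat.gcd b c * (sig x b c * (F.ell x c * F.lam x b)) := by
  have h1 := FL.good_gcd hM hb hc h
  have h2 := FL.mul_ell (F := F) (x := x) hM hb
  have h3 : Nat.gcd (low x b) (low x c) * sig x b c = low x b :=
    Nat.mul_div_cancel' (Nat.gcd_dvd_left _ _)
  have h4 : 0 < F.ell x b * F.ell x c := Nat.mul_pos (FL.ell_pos x b) (FL.ell_pos x c)
  refine Nat.eq_of_mul_eq_mul_right h4 ?_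
  calc b * (F.ell x b * F.ell x c) = (b * F.ell x b) * F.ell x c := by ring
    _ = low x b * F.cen x b * F.lam x b * F.ell x c := by rw [h2]
    _ = (Nat.gcd (low x b) (low x c) * sig x b c) * F.cen x b * F.lam x b * F.ell x c := by
        rw [h3]
    _ = (Nat.gcd (low x b) (low x c) * F.cen x b) * (sig x b c * (F.ell x c * F.lam x b)) := by
        ring
    _ = (Nat.gcd b c * (F.ell x b * F.ell x c)) * (sig x b c * (F.ell x c * F.lam x b)) := by
        rw [h1]
    _ = _ := by ring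

theorem div_gcd {x b c : ℕ} (hM : 0 < M) (hb : b ∣ M) (hc : c ∣ M) (h : F.good x b c) :
    b / Nat.gcd b c = sig x b c * (F.ell x c * F.lam x b) := by
  have hb0 : 0 < b := Nat.pos_of_dvd_of_pos hb hM
  have hg0 : 0 < Nat.gcd b c := Nat.gcd_pos_of_pos_left _ hb0
  exact Nat.div_eq_of_eq_mul_right hg0 (eq_gcd_mul hM hb hc h)


/-! ### the centre given by a label of `lam x b * γ` -/

/-- the fraction `a / (k lam x b)` -/
def fr (F : FL M) (x b : ℕ) (a : ℤ) (k : ℕ) : ℚ := a / ((k : ℚ) * F.lam x b)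

/-- the point of the centre `fr` -/
theorem zpt_fr {x b : ℕ} (hM : 0 < M) (hb : b ∣ M) (a : ℤ) {k : ℕ} (hk : 0 < k) (n : ℤ) :
    zpt b (fr F x b a k) n =
      ((F.uu x b : ℤ) * (a + (k : ℤ) * F.lam x b * n) : ℤ) / (k : ℚ) := by
  have h1 : ((F.uu x b : ℚ)) * F.lam x b = b := by
    exact_mod_cast FL.uu_mul_lam (F := F) (x := x) hM hb
  have hl : (F.lam x b : ℚ) ≠ 0 := by exact_mod_cast (FL.lam_pos (F := F) x b).ne'
  have hk' : (k : ℚ) ≠ 0 := by exact_mod_cast hk.ne'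
  unfold zpt fr
  rw [← h1]
  push_cast
  field_simp

theorem disp_fr {x b : ℕ} (hM : 0 < M) (hb : b ∣ M) (a : ℤ) {k : ℕ} (hk : 0 < k) (γ : ℝ) :
    disp γ b (fr F x b a k) = F.uu x b * |F.lam x b * γ - a / k| := by
  have h1 : ((F.uu x b : ℝ)) * F.lam x b = b := by
    exact_mod_cast FL.uu_mul_lam (F := F) (x := x) hM hb
  have hl : (0 : ℝ) < F.lam x b := by exact_mod_cast (FL.lam_pos (F := F) x b)
  have hk' : (0 : ℝ) < k := by exact_mod_cast hk
  unfold disp fr
  rw [← h1]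
  push_cast
  rw [mul_assoc]
  congr 1
  nth_rewrite 1 [← abs_of_pos hl]
  rw [← abs_mul]
  congr 1
  field_simp






/-! ### (d) two cuts -/





/-! ### exponent form of (d) -/

section exps

variable {x y b : ℕ} {a₁ a₂ : ℤ} {k₁ k₂ : ℕ} {γ L D t₁ t₂ c : ℝ}







end exps

/-! ### the common centre of a linked pair -/

/-- different points: `gcd(uu, uu') ≤ k k' |z - z'|` -/
theorem gap_uu {x x' b b' : ℕ} (hM : 0 < M) (hb : b ∣ M) (hb' : b' ∣ M) {a a' : ℤ} {k k' : ℕ}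
    (hk : 0 < k) (hk' : 0 < k') {n n' : ℤ}
    (hne : zpt b (fr F x b a k) n ≠ zpt b' (fr F x' b' a' k') n') :
    (Nat.gcd (F.uu x b) (F.uu x' b') : ℝ) ≤ k * k' *
      |((zpt b (fr F x b a k) n : ℚ) : ℝ) - (zpt b' (fr F x' b' a' k') n' : ℚ)| := by
  have hkR : (0 : ℝ) < k := by exact_mod_cast hk
  have hkR' : (0 : ℝ) < k' := by exact_mod_cast hk'
  set P : ℤ := (F.uu x b : ℤ) * (a + (k : ℤ) * F.lam x b * n) with hP
  set P' : ℤ := (F.uu x' b' : ℤ) * (a' + (k' : ℤ) * F.lam x' b' * n') with hP'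
  have e1 : ((zpt b (fr F x b a k) n : ℚ) : ℝ) = (P : ℝ) / k := by
    rw [zpt_fr hM hb a hk n, ← hP]; push_cast; rfl
  have e2 : ((zpt b' (fr F x' b' a' k') n' : ℚ) : ℝ) = (P' : ℝ) / k' := by
    rw [zpt_fr hM hb' a' hk' n', ← hP']; push_cast; rfl
  set X : ℤ := P * k' - P' * k with hX
  have e3 : (k : ℝ) * k' * |((zpt b (fr F x b a k) n : ℚ) : ℝ) -
      (zpt b' (fr F x' b' a' k') n' : ℚ)| = |(X : ℝ)| := by
    rw [← abs_of_pos (mul_pos hkR hkR'), ← abs_mul, e1, e2, hX]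
    congr 1
    push_cast
    field_simp
  rw [e3]
  have hX0 : X ≠ 0 := by
    intro h0
    apply hne
    have h1 : ((zpt b (fr F x b a k) n : ℚ) : ℝ) - (zpt b' (fr F x' b' a' k') n' : ℚ) = 0 := by
      rw [h0] at e3
      simp only [Int.cast_zero, abs_zero, mul_eq_zero, hkR.ne', hkR'.ne', false_or,
        abs_eq_zero] at e3
      exact e3
    exact_mod_cast sub_eq_zero.1 h1
  have hd : ((Nat.gcd (F.uu x b) (F.uu x' b') : ℕ) : ℤ) ∣ X := by
    have d1 : ((Nat.gcd (F.uu x b) (F.uu x' b') : ℕ) : ℤ) ∣ F.uu x b := by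
      exact_mod_cast Nat.gcd_dvd_left _ _
    have d2 : ((Nat.gcd (F.uu x b) (F.uu x' b') : ℕ) : ℤ) ∣ F.uu x' b' := by
      exact_mod_cast Nat.gcd_dvd_right _ _
    exact dvd_sub ((d1.mul_right _).mul_right _) ((d2.mul_right _).mul_right _)
  have h2 := Int.le_of_dvd (abs_pos.2 hX0) ((dvd_abs _ _).2 hd)
  exact_mod_cast h2

/-- **same point** -/
theorem same_pt {x x' b b' : ℕ} (hM : 0 < M) (hb : b ∣ M) (hb' : b' ∣ M) {a a' : ℤ} {k k' : ℕ}
    (hk : 0 < k) (hk' : 0 < k') {n n' : ℤ} {γ : ℝ}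
    (h : (k : ℝ) * k' * (disp γ b (fr F x b a k) + disp γ b' (fr F x' b' a' k') +
      |(b : ℝ) * (γ + n) - b' * (γ + n')|) < Nat.gcd (F.uu x b) (F.uu x' b')) :
    zpt b (fr F x b a k) n = zpt b' (fr F x' b' a' k') n' := by
  by_contra hne
  have h1 := gap_uu hM hb hb' hk hk' hne
  set f := fr F x b a k with hf
  set f' := fr F x' b' a' k' with hf'
  have hkR : (0 : ℝ) < k := by exact_mod_cast hk
  have hkR' : (0 : ℝ) < k' := by exact_mod_cast hk'
  have h2 : |((zpt b f n : ℚ) : ℝ) - (zpt b' f' n' : ℚ)| ≤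
      disp γ b f + disp γ b' f' + |(b : ℝ) * (γ + n) - b' * (γ + n')| := by
    rw [disp_eq γ b f n, disp_eq γ b' f' n']
    have e : ((zpt b f n : ℚ) : ℝ) - (zpt b' f' n' : ℚ) =
        -((b : ℝ) * (γ + n) - (zpt b f n : ℚ)) + ((b' : ℝ) * (γ + n') - (zpt b' f' n' : ℚ)) +
        ((b : ℝ) * (γ + n) - b' * (γ + n')) := by ring
    rw [e]
    refine (abs_add_three _ _ _).trans ?_
    rw [abs_neg]
  have h3 := mul_le_mul_of_nonneg_left h2 (mul_pos hkR hkR').le
  linarith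




/-- letters of `uu` at a low prime or at a deficit prime -/
lemma fact_uu_low {x b p : ℕ} (hM : 0 < M) (hb : b ∣ M) (hx : p ≤ x) :
    (F.uu x b).factorization p = b.factorization p := by
  rw [FL.fact_uu]
  by_cases hp : p ∈ M.primeFactors
  · have hx' : ¬ x < p := by omega
    simp [hp, FL.uuE, hx']
  · simp [hp, FL.fact_zero hM hb hp]




/-! ### what is left: the low gcd is small -/



end Crest.Agent.R4C.Chainx81
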