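import Crest.Agent.R4C.HeavyL_50
import Crest.Agent.R4C.HVWt_19
import Crest.Agent.R4C.Chain_81
import Crest.Agent.R4C.HeavyC_899
import Crest.Agent.R4C.PureFL_232
import Crest.Agent.R4C.Rule_945

-- ▼ part R4C/HeavyU_50
section

/-!
# HEAVY LEMMA, unconditional (2581(2) + 19's `hvw_b`), general `M` (helper50)
-/

namespace Crest.Agent.R4C.HeavyUx50

open Finset Crest.Agent.R4C.Basex935 Crest.Agent.R4C.Cutx50 Crest.Agent.R4C.HeavyLx50

open Classical in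
/-- 19's exact-gcd bound in the `frm`/`Ex` notation -/
theorem hvw {η : ℝ} (hη0 : 0 < η) (hη1 : η < 1) :
    ∃ C : ℝ, 0 < C ∧ ∀ M' : ℕ, 0 < M' → ∀ f f' : ℕ → ℝ, (∀ b, 0 ≤ f b ∧ f b ≤ 1) →
      (∀ b, 0 ≤ f' b ∧ f' b ≤ 1) → ∀ X : ℝ, 0 < X →
      frm M' (fun b c => if X ≤ (Nat.gcd b c : ℝ) ∧ (Nat.gcd b c : ℝ) < 2 * X
        then f b * f' c else 0) ≤ C * X ^ η * (Ex M' f * Ex M' f') ^ ((1 + η) / 2) := by
  obtain ⟨C, hC, h⟩ := Crest.Agent.R4C.ThmRx19.hvw_b (κ := (1 + η) / 2) (by linarith) (by linarith)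
  refine ⟨C, hC, fun M' hM' f f' hf hf' X hX => ?_⟩
  have h1 := h M' X f f' hM'.ne' hX (fun x => (hf x).1) (fun x => (hf x).2)
    (fun x => (hf' x).1) (fun x => (hf' x).2)
  have e1 : 2 * ((1 + η) / 2) - 1 = η := by ring
  rw [e1] at h1
  rw [Real.mul_rpow (Ex_nonneg _ fun b => (hf b).1) (Ex_nonneg _ fun b => (hf' b).1)]
  refine le_trans (le_of_eq ?_) h1
  unfold frm
  refine Finset.sum_congr rfl fun b _ => Finset.sum_congr rfl fun c _ => ?_
  beta_reduce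
  split_ifs
  · rfl
  · rw [mul_zero]



end Crest.Agent.R4C.HeavyUx50
end

-- ▼ part R4C/Hcls_81
section

/-!
# Row 4: CLASS (H) of the classification of labelled unkilled pairs (3226 (3), 3273 (2)) (helper81)

`F : FL M`, pair `(b, c)` good at the cut `x`, scale `t ≤ gcd / L < 2 t`; `b` has a short chain at
`x` (`uu x b ≤ U L`, because a deeper centre is different: `Chain_81.two_cuts`) and is HEAVY at some
cut `z ≤ x`: `H ≤ low z b * mass M f z (upp z b)`.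
* `gcd_mem` : at every cut `z ≤ x`, `gcd (upp z b) c ∈ E z (upp z b)`, a list of `≤ U/t` numbers;
* `class_J` : the energy of these pairs, any partner, all cuts `z` at once;
* `class_K` : sum over the dyadic depth `K` (`uu x b ≤ 2 K² L`, heavy with `H = K^P`, `K ≥ K₀`);
* `class_H`, `class_H'` : label form (conflict with a deeper centre).
-/

set_option autoImplicit false

namespace Crest.Agent.R4C.Hclsx81

open Finset Crest.Agent.R4C.Basex935 Crest.Agent.R4C.Cutx50 Crest.Agent.R4C.FLDefx935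
  Crest.Agent.R4C.HeavyLx50 Crest.Agent.R4C.HeavyCx899 Crest.Agent.R4C.Chainx81

variable {M : ℕ} {F : FL M}

/-! ### the chain above a lower cut -/


/-- the part `> z` of the chain depends only on the word above `z` -/
lemma upp_uu_upp {x z b : ℕ} (_hM : 0 < M) (hb : b ∣ M) (_hz : z ≤ x) :
    upp z (F.uu x (upp z b)) = upp z (F.uu x b) := by
  refine Nat.eq_of_factorization_eq (upp_pos _ _).ne' (upp_pos _ _).ne' fun p => ?_
  rw [fact_upp, fact_upp, FL.fact_uu, FL.fact_uu]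
  by_cases hzp : p ≤ z
  · simp [hzp]
  · rw [if_pos hzp, if_pos hzp]
    by_cases hp : p ∈ M.primeFactors
    · have hpp := Nat.prime_of_mem_primeFactors hp
      have e1 : (upp z b).factorization p = b.factorization p := by
        rw [fact_upp, if_pos hzp]
      have e2 : F.ctr (upp z b) p = F.ctr b p := PureL2x232.ctr_upp F hb hpp (by omega)
      simp only [hp, if_true, FL.uuE, e1, e2]
    · simp [hp]

lemma low_uu {x z b : ℕ} (hM : 0 < M) (hb : b ∣ M) (hz : z ≤ x) :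
    low z (F.uu x b) = low z b := by
  refine Nat.eq_of_factorization_eq (low_pos _ _).ne' (low_pos _ _).ne' fun p => ?_
  rw [fact_low, fact_low]
  by_cases hzp : p ≤ z
  · rw [if_pos hzp, if_pos hzp, fact_uu_low hM hb (by omega)]
  · rw [if_neg hzp, if_neg hzp]

lemma low_mul_ux {x z b : ℕ} (hM : 0 < M) (hb : b ∣ M) (hz : z ≤ x) :
    low z b * upp z (F.uu x (upp z b)) = F.uu x b := by
  rw [upp_uu_upp hM hb hz, ← low_uu (F := F) hM hb hz]
  exact low_mul_upp z (FL.uu_pos x b).ne'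

/-- `e = gcd (upp z b) c` divides the part `> z` of the chain -/
lemma e_dvd {x z b c : ℕ} (hM : 0 < M) (hb : b ∣ M) (hc : c ∣ M) (hz : z ≤ x)
    (hg : F.good x b c) : Nat.gcd (upp z b) c ∣ upp z (F.uu x (upp z b)) := by
  have h1 : Nat.gcd (upp z b) c ∣ F.uu x b :=
    (Nat.gcd_dvd_gcd_of_dvd_left c (upp_dvd_self z b)).trans (FL.good_gcd_dvd_uu hM hb hc hg)
  rw [← low_mul_ux (F := F) hM hb hz] at h1
  refine Nat.Coprime.dvd_of_dvd_mul_left ?_ h1
  refine Nat.Coprime.coprime_dvd_left (Nat.gcd_dvd_left _ _) ?_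
  exact (coprime_part (S := fun p => p ≤ z) b b).symm

/-- the cofactor of `e` in the chain: `ux * gcd b c ≤ uu x b * e` -/
lemma ux_mul_le {x z b c : ℕ} (hM : 0 < M) (hb : b ∣ M) (hc : c ∣ M) (hz : z ≤ x) :
    upp z (F.uu x (upp z b)) * Nat.gcd b c ≤ F.uu x b * Nat.gcd (upp z b) c := by
  have h1 : Nat.gcd b c ≤ low z b * Nat.gcd (upp z b) c := by
    have h2 : Nat.gcd b c ∣ Nat.gcd (low z b) c * Nat.gcd (upp z b) c := by
      have hb0 : b ≠ 0 := (Nat.pos_of_dvd_of_pos hb hM).ne'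
      have h3 := Nat.gcd_mul_right_dvd_mul_gcd c (low z b) (upp z b)
      rw [low_mul_upp z hb0] at h3
      rw [Nat.gcd_comm b c, Nat.gcd_comm (low z b), Nat.gcd_comm (upp z b)]
      exact h3
    have hc0 : 0 < c := Nat.pos_of_dvd_of_pos hc hM
    have h4 := Nat.le_of_dvd (Nat.mul_pos (Nat.gcd_pos_of_pos_right _ hc0)
      (Nat.gcd_pos_of_pos_right _ hc0)) h2
    exact h4.trans (Nat.mul_le_mul_right _ (Nat.gcd_le_left _ (low_pos z b)))
  calc upp z (F.uu x (upp z b)) * Nat.gcd b c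
      ≤ upp z (F.uu x (upp z b)) * (low z b * Nat.gcd (upp z b) c) := Nat.mul_le_mul_left _ h1
    _ = (low z b * upp z (F.uu x (upp z b))) * Nat.gcd (upp z b) c := by ring
    _ = _ := by rw [low_mul_ux hM hb hz]

open Classical in
/-- the list of a node `(z, T)` -/
noncomputable def lst (F : FL M) (x : ℕ) (J : ℝ) (z T : ℕ) : Finset ℕ :=
  (upp z (F.uu x T)).divisors.filter (fun e => ((upp z (F.uu x T) : ℕ) : ℝ) ≤ J * e)

lemma card_list {u : ℕ} {J : ℝ} (hJ : 0 ≤ J) (E : Finset ℕ)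
    (hE : ∀ e ∈ E, e ∣ u ∧ (u : ℝ) ≤ J * e) (hu : 0 < u) : (E.card : ℝ) ≤ J := by
  have h1 : E.card ≤ (Finset.Icc 1 ⌊J⌋₊).card := by
    refine Finset.card_le_card_of_injOn (fun e => u / e) (fun e he => ?_) (fun e he e' he' h => ?_)
    · obtain ⟨hd, hle⟩ := hE e he
      have he0 : 0 < e := Nat.pos_of_dvd_of_pos hd hu
      rw [Finset.coe_Icc, Set.mem_Icc]
      refine ⟨Nat.div_pos (Nat.le_of_dvd hu hd) he0, Nat.le_floor ?_⟩
      have h2 : ((u / e : ℕ) : ℝ) * e = u := by exact_mod_cast Nat.div_mul_cancel hd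
      have he1 : (0 : ℝ) < e := by exact_mod_cast he0
      rw [← h2] at hle
      exact le_of_mul_le_mul_right hle he1
    · obtain ⟨hd, _⟩ := hE e he
      obtain ⟨hd', _⟩ := hE e' he'
      simp only at h
      have e1 : u / (u / e) = e := Nat.div_div_self hd hu.ne'
      have e2 : u / (u / e') = e' := Nat.div_div_self hd' hu.ne'
      rw [← e1, ← e2, h]
  rw [Nat.card_Icc, Nat.add_sub_cancel] at h1
  exact (by exact_mod_cast h1 : (E.card : ℝ) ≤ (⌊J⌋₊ : ℝ)).trans (Nat.floor_le hJ)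

lemma card_lst {x z T : ℕ} {J : ℝ} (hJ : 0 ≤ J) : ((lst F x J z T).card : ℝ) ≤ J := by
  refine card_list hJ _ (fun e he => ?_) (upp_pos z (F.uu x T))
  unfold lst at he
  rw [Finset.mem_filter, Nat.mem_divisors] at he
  exact ⟨he.1.1, he.2⟩

lemma gcd_mem {x z b c : ℕ} {U L t : ℝ} (hM : 0 < M) (hb : b ∣ M) (hc : c ∣ M) (hz : z ≤ x)
    (hg : F.good x b c) (hL : 0 < L) (ht : 0 < t) (hU : (F.uu x b : ℝ) ≤ U * L)
    (ht' : t * L ≤ Nat.gcd b c) : Nat.gcd (upp z b) c ∈ lst F x (U / t) z (upp z b) := by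
  unfold lst
  rw [Finset.mem_filter, Nat.mem_divisors]
  refine ⟨⟨e_dvd hM hb hc hz hg, (upp_pos _ _).ne'⟩, ?_⟩
  have h1 : ((upp z (F.uu x (upp z b)) : ℕ) : ℝ) * (Nat.gcd b c : ℝ) ≤
      F.uu x b * (Nat.gcd (upp z b) c : ℝ) := by
    exact_mod_cast ux_mul_le (F := F) hM hb hc hz
  have hu0 : (0 : ℝ) ≤ ((upp z (F.uu x (upp z b)) : ℕ) : ℝ) := Nat.cast_nonneg _
  have he0 : (0 : ℝ) ≤ (Nat.gcd (upp z b) c : ℝ) := Nat.cast_nonneg _
  have h2 : ((upp z (F.uu x (upp z b)) : ℕ) : ℝ) * (t * L) ≤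
      (U * L) * (Nat.gcd (upp z b) c : ℝ) :=
    (mul_le_mul_of_nonneg_left ht' hu0).trans (h1.trans (mul_le_mul_of_nonneg_right hU he0))
  have h3 : (((upp z (F.uu x (upp z b)) : ℕ) : ℝ) * t) * L ≤
      (U * (Nat.gcd (upp z b) c : ℝ)) * L := by
    calc (((upp z (F.uu x (upp z b)) : ℕ) : ℝ) * t) * L
        = ((upp z (F.uu x (upp z b)) : ℕ) : ℝ) * (t * L) := by ring
      _ ≤ _ := h2
      _ = _ := by ring
  have h4 := le_of_mul_le_mul_right h3 hL
  rw [div_mul_eq_mul_div, le_div_iff₀ ht]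
  exact h4

/-! ### energy of the class, one depth -/

/-- heavy at some cut `z ≤ x` (`Θ_x(b) ≥ H`) -/
def HeavyAt (M : ℕ) (f : ℕ → ℝ) (x : ℕ) (H : ℝ) (b : ℕ) : Prop :=
  ∃ z ≤ x, H ≤ (low z b : ℝ) * mass M f z (upp z b)


/-! ### sum over the depth -/

/-- `K`-form: some depth `K ≥ K₀` with `uu x b ≤ 2 K² L` and `Θ_x(b) ≥ K^P` -/
def HvK (F : FL M) (f : ℕ → ℝ) (L P K₀ : ℝ) (x b : ℕ) : Prop :=
  ∃ K : ℝ, K₀ ≤ K ∧ (F.uu x b : ℝ) ≤ 2 * K ^ 2 * L ∧ HeavyAt M f x (K ^ P) b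

lemma mass_le_one {M : ℕ} (_hM : 0 < M) {f : ℕ → ℝ} (hf : ∀ b, f b ≤ 1) (z T : ℕ) :
    mass M f z T ≤ 1 := by
  have h1 := Ex_mono (low z M) (f := fun n => f (n * T)) (g := fun _ => 1) (fun n _ => hf _)
  rw [Ex_const (low_pos z M)] at h1
  exact h1

lemma HeavyAt_le {M : ℕ} (hM : 0 < M) {f : ℕ → ℝ} (hf : ∀ b, 0 ≤ f b ∧ f b ≤ 1) {x b : ℕ} {H : ℝ}
    (hb : b ∣ M) (h : HeavyAt M f x H b) : H ≤ M := by
  obtain ⟨z, _, h⟩ := h
  have h1 : (low z b : ℝ) ≤ M := by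
    exact_mod_cast Nat.le_of_dvd hM ((low_dvd_self z b).trans hb)
  have h2 := mass_le_one hM (fun b => (hf b).2) z (upp z b)
  have h3 : 0 ≤ mass M f z (upp z b) := mass_nonneg _ (fun b => (hf b).1) _ _
  calc H ≤ (low z b : ℝ) * mass M f z (upp z b) := h
    _ ≤ (M : ℝ) * 1 := mul_le_mul h1 h2 h3 (Nat.cast_nonneg _)
    _ = M := mul_one _

lemma HeavyAt_mono {M : ℕ} {f : ℕ → ℝ} {x b : ℕ} {H H' : ℝ} (hHH : H' ≤ H)
    (h : HeavyAt M f x H b) : HeavyAt M f x H' b := by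
  obtain ⟨z, hz, h⟩ := h
  exact ⟨z, hz, hHH.trans h⟩

/-- the dyadic index of `K ≥ K₀ > 0` -/
lemma exists_dyad {K₀ K : ℝ} (h0 : 0 < K₀) (h : K₀ ≤ K) :
    ∃ j : ℕ, 2 ^ j * K₀ ≤ K ∧ K < 2 ^ (j + 1) * K₀ := by
  have h1 : 1 ≤ K / K₀ := (one_le_div h0).2 h
  obtain ⟨j, hj, hj'⟩ := exists_nat_pow_near h1 (by norm_num : (1 : ℝ) < 2)
  exact ⟨j, (le_div_iff₀ h0).1 hj, (div_lt_iff₀ h0).1 hj'⟩

/-- the exponent of the depth -/
noncomputable def sK (η P : ℝ) : ℝ := (P - 2) * ((1 - η) / 2) - 2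

/-- the cost of one depth -/
lemma cost_eq {η P K t : ℝ} (hK : 0 < K) (ht : 0 < t) :
    t ^ η * ((8 * K ^ 2 / t) * (K ^ P / (8 * K ^ 2)) ^ (-((1 - η) / 2))) =
      8 ^ (1 + (1 - η) / 2) * t ^ (η - 1) * K ^ (-(sK η P)) := by
  have e8 : (0 : ℝ) < 8 := by norm_num
  have h1 : K ^ P / (8 * K ^ 2) = 8 ^ (-1 : ℝ) * K ^ (P - 2) := by
    rw [Real.rpow_neg_one, Real.rpow_sub hK, Real.rpow_two]
    field_simp
  have hK2 : (0 : ℝ) ≤ K ^ (P - 2) := Real.rpow_nonneg hK.le _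
  rw [h1, Real.mul_rpow (Real.rpow_nonneg e8.le _) hK2, ← Real.rpow_mul e8.le,
    ← Real.rpow_mul hK.le]
  have h2 : (8 : ℝ) ^ (1 + (1 - η) / 2) = 8 * 8 ^ ((1 - η) / 2) := by
    rw [Real.rpow_add e8, Real.rpow_one]
  have h3 : t ^ (η - 1) = t ^ η / t := by rw [Real.rpow_sub ht, Real.rpow_one]
  have h4 : K ^ (-(sK η P)) = K ^ 2 * K ^ ((P - 2) * -((1 - η) / 2)) := by
    rw [← Real.rpow_two, ← Real.rpow_add hK]
    congr 1
    unfold sK
    ring
  have h5 : (-1 : ℝ) * -((1 - η) / 2) = (1 - η) / 2 := by ring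
  rw [h2, h3, h4, h5]
  field_simp


/-! ### label form: a deeper centre -/


/-- depth of a label: `k max(1, D/L)` -/
noncomputable def dep (γ L : ℝ) (b : ℕ) (f : ℚ) (k : ℕ) : ℝ :=
  k * max 1 (Centx949.disp γ b f / L)









/-- threshold rule `K ≤ max (Y, Θ^ε)`, `K > Y`, `Θ` attained at a cut `≤ x`: heavy with
`H = K^(1/ε)` -/
theorem heavyAt_of_rule {f : ℕ → ℝ} {x b : ℕ} {K Y Θ ε : ℝ} (hε : 0 < ε) (hK0 : 0 < K)
    (hΘ0 : 0 ≤ Θ) (hK : K ≤ max Y (Θ ^ ε)) (hY : Y < K)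
    (hΘ : ∃ z ≤ x, Θ ≤ (low z b : ℝ) * mass M f z (upp z b)) :
    HeavyAt M f x (K ^ (1 / ε)) b := by
  have h1 : K ≤ Θ ^ ε := by
    rcases le_max_iff.1 hK with h | h
    · linarith
    · exact h
  have h2 : K ^ (1 / ε) ≤ Θ := by
    calc K ^ (1 / ε) ≤ (Θ ^ ε) ^ (1 / ε) := Real.rpow_le_rpow hK0.le h1 (by positivity)
      _ = Θ := by
        rw [← Real.rpow_mul hΘ0, mul_one_div_cancel hε.ne', Real.rpow_one]
  obtain ⟨z, hz, h3⟩ := hΘ
  exact ⟨z, hz, h2.trans h3⟩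

end Crest.Agent.R4C.Hclsx81
end

-- ▼ part R4C/GlueH_81

/-!
# Row 4: class (H) for the label rule of `Rule_945` (helper81)

`Conf F P m B d` : the item `d` has the tree centre `f` at the scale `2^m`, and at some block
active for `m` it uses a centre `f₂ ≠ f` of a larger scale with `dep f₂ ≤ thr` (second alternative
of `classify_left`, `classify_right`).  With the threshold of the text (`thrS`):
* `hvK_of_conf` : `d` is heavy below the cut of `m` (`HvK`);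
* `class_conf` : all pairs good at the cut of `m`, with one member in `Conf`, pair scale `t`, any
  pointwise weight `≤ W` : cost `≤ C W t^(η-1) (2^m / (2 E_m²))^(-s) m`.
-/

set_option autoImplicit false

namespace Crest.Agent.R4C.GlueHx81

open Finset Crest.Agent.R4C.Basex935 Crest.Agent.R4C.Cutx50 Crest.Agent.R4C.FLDefx935
  Crest.Agent.R4C.HeavyLx50 Crest.Agent.R4C.Hclsx81 Crest.Agent.R4C.Rulex945

variable {M : ℕ} {F : FL M}

/-- indicator -/
noncomputable def ind (B : Finset ℕ) (b : ℕ) : ℝ := if b ∈ B then 1 else 0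


lemma Ex_ind {B : Finset ℕ} (hB : B ⊆ M.divisors) : Ex M (ind B) = ∑ b ∈ B, nu M b := by
  unfold Ex ind
  rw [← Finset.sum_subset hB]
  · exact Finset.sum_congr rfl fun b hb => by simp [hb]
  · intro b _ hb
    simp [hb]



/-! ### the rule -/






end Crest.Agent.R4C.GlueHx81
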