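import Crest.Agent.R4C.PairR_14
import Crest.Agent.R4C.Rule_945
import Crest.Agent.R4C.GlueH_81

-- ▼ part R4C/Shared_11
section

/-!
# Row 4, S6-1: per-pair logic of a shared centre (helper11)

`b = g s`, `c = g s'`, `s, s'` coprime, centres `f` of `b`, `f'` of `c`, same point
(`gap f f' s s' h = 0`), any cut `x` (`x = P.cut m`), `k0 F x b f` = minimal denominator of `f` at
the cut `x` (`Rule_945`), `kap0 F x b f = gcd (uu x b) (k0 F x b f)`.

* `kden_mul_kap` : `kden b f * kap0 = k0`;  `kden_eq_of_gap` : same point => `kden` equal;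
* `low_gnum` : `low x (gnum b f) * low x kap0 = low x b`;
* `NoEx` : no explained differing prime `≤ x`; **`word_eq`** :
  `low x s * low x (k0 c) = low x s' * low x (k0 b)`, so the low word is the reduced fraction of the
  two `k0` (`low_s_eq`, `low_s_dvd_k0`);
* **`uu_eq_good`** : `uu x b = g * low x s * ell x c` for a pair good at `x`;
  `uu_le_pure`, `scale_of_pure` : pure, no explained prime : `uu x b ≤ g * k0 x b f`;
* **`upp_k0_dvd`** : `upp x (k0 x b f) ∣ ell x c * k0 x c f'` (good at `x`, same point);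
* `k0_ne`, `lt_k0_of_ne` : if `k0` changes between the cuts `x ≤ y` then `k0 y > x`;
* `elig_le_mst` : monotonicity of the index of the rule; `alt_deep` : no conflict below the block of
  the shared prime;
* `Al` : aligned (shared) prime, `isE_iff`, `ms` = smaller scale used, `Al.le_cut`, `Al.ms_mono`,
  `alSet`, `exists_top`, `al_le_cut` : all aligned primes are at most the cut of the scale of the
  largest one;
* `Norm`, `Norm.index`, `lt_dep_of_not_norm` : normal members / mismatch;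
* `AltN`, `ShPair` : the common form of the `(H)`/`(L)` pairs at a reference scale `2^m`
  (`ShPair.of_labPair` : `LabPair` of `PairR_14` is the case `mb = mc = m`);
* **`split_same`**, **`split_aligned`** : CASE B at the largest aligned prime: bad | mismatch |
  no explained prime | `ShPair`.
-/

set_option autoImplicit false

namespace Crest.Agent.R4C.Sharedx11

open Crest.Agent.R4C.FLDefx935 Crest.Agent.R4C.BoostCx972 Crest.Agent.R4C.CrCoinx935
  Crest.Agent.R4C.S7cx14 Crest.Agent.R4C.S7dx14 Crest.Agent.R4C.Cutx50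
  Crest.Agent.R4C.Rulex945

/-! ### low parts -/

lemma low_mul (x : ℕ) {a b : ℕ} (ha : a ≠ 0) (hb : b ≠ 0) :
    low x (a * b) = low x a * low x b := by
  refine Nat.eq_of_factorization_eq (low_pos x _).ne'
    (mul_ne_zero (low_pos x a).ne' (low_pos x b).ne') fun p => ?_
  rw [Nat.factorization_mul (low_pos x a).ne' (low_pos x b).ne', Finsupp.add_apply, fact_low,
    fact_low, fact_low, Nat.factorization_mul ha hb, Finsupp.add_apply]
  by_cases h : p ≤ x <;> simp [h]

lemma low_eq_one {x a : ℕ} (ha : a ≠ 0) (h : ∀ p, p.Prime → p ∣ a → x < p) : low x a = 1 := by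
  refine Nat.eq_of_factorization_eq (low_pos x _).ne' one_ne_zero fun p => ?_
  rw [fact_low, Nat.factorization_one, Finsupp.coe_zero, Pi.zero_apply]
  by_cases hp : p ≤ x
  · rw [if_pos hp]
    by_contra hc
    have hpp : p.Prime := by
      by_contra hnp
      exact hc (Nat.factorization_eq_zero_of_not_prime a hnp)
    have := h p hpp (Nat.dvd_of_factorization_pos hc)
    omega
  · rw [if_neg hp]

lemma low_coprime {x a b : ℕ} (h : Nat.Coprime a b) : Nat.Coprime (low x a) (low x b) :=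
  Nat.Coprime.coprime_dvd_left (low_dvd_self x a)
    (Nat.Coprime.coprime_dvd_right (low_dvd_self x b) h)

section arith

variable {M : ℕ} {F : FL M}

lemma low_lam {x b : ℕ} (hM : 0 < M) (hb : b ∣ M) : low x (F.lam x b) = 1 :=
  low_eq_one (FL.lam_pos x b).ne' fun _ hp h => (FL.prime_dvd_lam hM hb hp h).1

lemma low_uu {x b : ℕ} (hM : 0 < M) (hb : b ∣ M) : low x (F.uu x b) = low x b := by
  have h := FL.uu_mul_lam (F := F) (x := x) hM hb
  calc low x (F.uu x b) = low x (F.uu x b) * low x (F.lam x b) := by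
        rw [low_lam hM hb, mul_one]
    _ = low x (F.uu x b * F.lam x b) := (low_mul x (FL.uu_pos x b).ne' (FL.lam_pos x b).ne').symm
    _ = low x b := by rw [h]

/-- the unexplained part of `k0` -/
def kap0 (F : FL M) (x b : ℕ) (f : ℚ) : ℕ := Nat.gcd (F.uu x b) (k0 F x b f)

lemma kap0_pos {x b : ℕ} (f : ℚ) : 0 < kap0 F x b f := Nat.gcd_pos_of_pos_left _ (FL.uu_pos x b)

/-- the explained part of the excess word -/
def lam1 (F : FL M) (x b : ℕ) (f : ℚ) : ℕ := F.lam x b / Nat.gcd f.den (F.lam x b)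

lemma lam1_mul (x b : ℕ) (f : ℚ) : lam1 F x b f * Nat.gcd f.den (F.lam x b) = F.lam x b :=
  Nat.div_mul_cancel (Nat.gcd_dvd_right _ _)

lemma lam1_pos (x b : ℕ) (f : ℚ) : 0 < lam1 F x b f := by
  refine Nat.pos_of_ne_zero fun h => ?_
  have h1 := lam1_mul (F := F) x b f
  rw [h, zero_mul] at h1
  exact (FL.lam_pos (F := F) x b).ne h1

lemma k0_lam1_coprime (x b : ℕ) (f : ℚ) : Nat.Coprime (k0 F x b f) (lam1 F x b f) :=
  Nat.coprime_div_gcd_div_gcd (Nat.gcd_pos_of_pos_left _ f.den_pos)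

lemma beta_eq {x b : ℕ} (hM : 0 < M) (hb : b ∣ M) (f : ℚ) :
    Nat.gcd b f.den = Nat.gcd f.den (F.lam x b) * kap0 F x b f := by
  have hu : F.uu x b * F.lam x b = b := FL.uu_mul_lam hM hb
  set G := Nat.gcd f.den (F.lam x b) with hG
  have h1 : lam1 F x b f * G = F.lam x b := lam1_mul x b f
  have h2 : k0 F x b f * G = f.den := k0_mul x b f
  have h3 : Nat.gcd (F.uu x b * lam1 F x b f) (k0 F x b f) = kap0 F x b f :=
    Nat.Coprime.gcd_mul_right_cancel _ (k0_lam1_coprime x b f).symm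
  calc Nat.gcd b f.den = Nat.gcd (F.uu x b * lam1 F x b f * G) (k0 F x b f * G) := by
        rw [h2, mul_assoc, h1, hu]
    _ = Nat.gcd (F.uu x b * lam1 F x b f) (k0 F x b f) * G := Nat.gcd_mul_right _ _ _
    _ = _ := by rw [h3, mul_comm]

/-- **`k0 = kden * kap0`** -/
lemma kden_mul_kap {x b : ℕ} (hM : 0 < M) (hb : b ∣ M) (f : ℚ) :
    kden b f * kap0 F x b f = k0 F x b f := by
  have h1 := kden_mul b f
  have h2 : k0 F x b f * Nat.gcd f.den (F.lam x b) = f.den := k0_mul x b f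
  have hG : 0 < Nat.gcd f.den (F.lam x b) := Nat.gcd_pos_of_pos_left _ f.den_pos
  refine Nat.eq_of_mul_eq_mul_right hG ?_
  have h3 := beta_eq (F := F) (x := x) hM hb f
  calc kden b f * kap0 F x b f * Nat.gcd f.den (F.lam x b) =
        (Nat.gcd f.den (F.lam x b) * kap0 F x b f) * kden b f := by ring
    _ = Nat.gcd b f.den * kden b f := by rw [← h3]
    _ = f.den := h1
    _ = _ := h2.symm

/-- `gnum * kap0 = uu * lam1` -/
lemma gnum_mul_kap {x b : ℕ} (hM : 0 < M) (hb : b ∣ M) (f : ℚ) :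
    gnum b f * kap0 F x b f = F.uu x b * lam1 F x b f := by
  have hu : F.uu x b * F.lam x b = b := FL.uu_mul_lam hM hb
  have h1 := gnum_mul b f
  have h2 : lam1 F x b f * Nat.gcd f.den (F.lam x b) = F.lam x b := lam1_mul x b f
  have hG : 0 < Nat.gcd f.den (F.lam x b) := Nat.gcd_pos_of_pos_left _ f.den_pos
  refine Nat.eq_of_mul_eq_mul_right hG ?_
  rw [beta_eq (F := F) (x := x) hM hb f] at h1
  calc gnum b f * kap0 F x b f * Nat.gcd f.den (F.lam x b) =
        Nat.gcd f.den (F.lam x b) * kap0 F x b f * gnum b f := by ring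
    _ = b := h1
    _ = F.uu x b * F.lam x b := hu.symm
    _ = F.uu x b * (lam1 F x b f * Nat.gcd f.den (F.lam x b)) := congrArg _ h2.symm
    _ = _ := by ring

lemma low_lam1 {x b : ℕ} (hM : 0 < M) (hb : b ∣ M) (f : ℚ) : low x (lam1 F x b f) = 1 := by
  refine low_eq_one (lam1_pos x b f).ne' fun p hp h => ?_
  exact (FL.prime_dvd_lam hM hb hp (h.trans (Dvd.intro _ (lam1_mul x b f)))).1

/-- **low letters are explained up to `kap0`** -/
lemma low_gnum {x b : ℕ} (hM : 0 < M) (hb : b ∣ M) (f : ℚ) :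
    low x (gnum b f) * low x (kap0 F x b f) = low x b := by
  have hb0 : 0 < b := Nat.pos_of_dvd_of_pos hb hM
  have h := congrArg (low x) (gnum_mul_kap (F := F) (x := x) hM hb f)
  rw [low_mul x (gnum_pos hb0 f).ne' (kap0_pos f).ne',
    low_mul x (FL.uu_pos x b).ne' (lam1_pos x b f).ne', low_lam1 hM hb, mul_one,
    low_uu hM hb] at h
  exact h

/-! ### same point -/

/-- `kden` is the denominator of the point -/
lemma kden_eq_den {b : ℕ} (f : ℚ) : kden b f = ((b : ℚ) * f).den := by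
  have hk : (0 : ℤ) < kden b f := by exact_mod_cast kden_pos b f
  have h1 : (b : ℚ) * f = ((gnum b f * f.num : ℤ) : ℚ) / ((kden b f : ℤ) : ℚ) := by
    have h2 := kden_b_f b f
    have h3 : ((kden b f : ℤ) : ℚ) ≠ 0 := by exact_mod_cast hk.ne'
    rw [eq_div_iff h3]
    push_cast
    linear_combination h2
  have hc : Nat.Coprime (gnum b f * f.num : ℤ).natAbs (kden b f : ℤ).natAbs := by
    rw [Int.natAbs_mul, Int.natAbs_natCast, Int.natAbs_natCast]
    refine Nat.Coprime.mul_left (gnum_kden_coprime f) ?_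
    exact Nat.Coprime.coprime_dvd_right (kden_dvd b f) f.reduced
  have h4 := Rat.den_div_eq_of_coprime hk hc
  rw [← h1] at h4
  exact_mod_cast h4.symm

/-- **same point: same denominator** -/
lemma kden_eq_of_gap {g s s' : ℕ} {h : ℤ} {f f' : ℚ} (hcop : Nat.Coprime s s')
    (h0 : gap f f' s s' h = 0) : kden (g * s) f = kden (g * s') f' := by
  obtain ⟨n, n', hn⟩ := exists_shift hcop h
  have e1 : ((g * s : ℕ) : ℚ) * f + ((g * s * n : ℤ) : ℚ) =
      ((g * s' : ℕ) : ℚ) * f' + ((g * s' * n' : ℤ) : ℚ) := by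
    have h1 : (g : ℚ) * gap f f' s s' h = 0 := by rw [h0, mul_zero]
    unfold gap at h1
    rw [hn] at h1
    push_cast at h1 ⊢
    linear_combination h1
  have e2 := congrArg Rat.den e1
  rw [Rat.add_intCast_den, Rat.add_intCast_den] at e2
  rw [kden_eq_den, kden_eq_den]
  exact e2

/-- no explained differing prime `≤ x` -/
def NoEx (x b c : ℕ) (f f' : ℚ) : Prop :=
  ∀ p : ℕ, p.Prime → p ≤ x → ¬ p ∣ alC b c f f' ∧ ¬ p ∣ alC c b f' f

lemma NoEx.symm {x b c : ℕ} {f f' : ℚ} (h : NoEx x b c f f') : NoEx x c b f' f :=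
  fun p hp hx => ⟨(h p hp hx).2, (h p hp hx).1⟩

lemma low_gnum_eC {x b c : ℕ} {f f' : ℚ} (hb : 0 < b) (hn : NoEx x b c f f') :
    low x (gnum b f) = low x (eC b c f f') := by
  rw [← alC_mul b c f f', low_mul x (alC_pos hb f f').ne' (eC_pos hb c f f').ne',
    low_eq_one (alC_pos hb f f').ne' fun p hp hd => ?_, one_mul]
  by_contra hc
  exact (hn p hp (not_lt.1 hc)).1 hd

lemma low_gnum_eq {x b c : ℕ} {f f' : ℚ} (hb : 0 < b) (hc : 0 < c) (hn : NoEx x b c f f') :
    low x (gnum b f) = low x (gnum c f') := by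
  rw [low_gnum_eC hb hn, low_gnum_eC hc hn.symm, eC_comm]

section pair

variable {g s s' x x' : ℕ} {h : ℤ} {f f' : ℚ}

/-- **the low word is determined by the two denominators** (any two cuts `≥ x` may be used for the
denominators: here the same cut) -/
theorem word_eq (hM : 0 < M) (hb : g * s ∣ M) (hc : g * s' ∣ M) (hcop : Nat.Coprime s s')
    (h0 : gap f f' s s' h = 0) (hn : NoEx x (g * s) (g * s') f f') :
    low x s * low x (k0 F x (g * s') f') = low x s' * low x (k0 F x (g * s) f) := by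
  have hb0 : 0 < g * s := Nat.pos_of_dvd_of_pos hb hM
  have hc0 : 0 < g * s' := Nat.pos_of_dvd_of_pos hc hM
  have hg : 0 < g := Nat.pos_of_ne_zero fun h => by rw [h, zero_mul] at hb0; omega
  have hs : 0 < s := Nat.pos_of_ne_zero fun h => by rw [h, mul_zero] at hb0; omega
  have hs' : 0 < s' := Nat.pos_of_ne_zero fun h => by rw [h, mul_zero] at hc0; omega
  have e1 : low x (g * s) = low x g * low x s := low_mul x hg.ne' hs.ne'
  have e2 : low x (g * s') = low x g * low x s' := low_mul x hg.ne' hs'.ne'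
  have a1 := low_gnum (F := F) (x := x) hM hb f
  have a2 := low_gnum (F := F) (x := x) hM hc f'
  have a3 := low_gnum_eq hb0 hc0 hn
  have k1 : low x (k0 F x (g * s) f) = low x (kden (g * s) f) * low x (kap0 F x (g * s) f) := by
    rw [← low_mul x (kden_pos _ f).ne' (kap0_pos f).ne', kden_mul_kap hM hb]
  have k2 : low x (k0 F x (g * s') f') =
      low x (kden (g * s') f') * low x (kap0 F x (g * s') f') := by
    rw [← low_mul x (kden_pos _ f').ne' (kap0_pos f').ne', kden_mul_kap hM hc]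
  have k3 : kden (g * s) f = kden (g * s') f' := kden_eq_of_gap hcop h0
  rw [← a3] at a2
  rw [e1] at a1
  rw [e2] at a2
  refine Nat.eq_of_mul_eq_mul_left (low_pos x g) ?_
  rw [k1, k2, ← k3]
  calc low x g * (low x s * (low x (kden (g * s) f) * low x (kap0 F x (g * s') f'))) =
        (low x g * low x s) * (low x (kden (g * s) f) * low x (kap0 F x (g * s') f')) := by ring
    _ = (low x g * low x s') * (low x (kden (g * s) f) * low x (kap0 F x (g * s) f)) := by
        rw [← a1, ← a2]; ring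
    _ = _ := by ring

/-- the low word divides `k0` -/
theorem low_s_dvd_k0 (hM : 0 < M) (hb : g * s ∣ M) (hc : g * s' ∣ M) (hcop : Nat.Coprime s s')
    (h0 : gap f f' s s' h = 0) (hn : NoEx x (g * s) (g * s') f f') :
    low x s ∣ k0 F x (g * s) f := by
  have h1 := word_eq (F := F) hM hb hc hcop h0 hn
  have h2 : low x s ∣ low x s' * low x (k0 F x (g * s) f) := ⟨_, h1.symm⟩
  exact ((low_coprime hcop).dvd_of_dvd_mul_left h2).trans (low_dvd_self x _)


/-- **`uu x b = gcd(b,c) * low x s * ell x c`** for a pair good at `x` -/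
theorem uu_eq_good (hM : 0 < M) (hb : g * s ∣ M) (hc : g * s' ∣ M) (hcop : Nat.Coprime s s')
    (hx : F.good x (g * s) (g * s')) :
    F.uu x (g * s) = g * low x s * F.ell x (g * s') := by
  have hb0 : 0 < g * s := Nat.pos_of_dvd_of_pos hb hM
  have hc0 : 0 < g * s' := Nat.pos_of_dvd_of_pos hc hM
  have hg : 0 < g := Nat.pos_of_ne_zero fun h => by rw [h, zero_mul] at hb0; omega
  have hs : 0 < s := Nat.pos_of_ne_zero fun h => by rw [h, mul_zero] at hb0; omega
  have hs' : 0 < s' := Nat.pos_of_ne_zero fun h => by rw [h, mul_zero] at hc0; omega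
  have h1 := FL.uu_mul_ell (F := F) (x := x) hM hb
  have h2 := FL.good_gcd hM hb hc hx
  rw [Nat.gcd_mul_left, hcop.gcd_eq_one, mul_one, low_mul x hg.ne' hs.ne',
    low_mul x hg.ne' hs'.ne', Nat.gcd_mul_left, (low_coprime hcop).gcd_eq_one, mul_one] at h2
  rw [low_mul x hg.ne' hs.ne'] at h1
  refine Nat.eq_of_mul_eq_mul_right (FL.ell_pos (F := F) x (g * s)) ?_
  calc F.uu x (g * s) * F.ell x (g * s) = low x g * low x s * F.cen x (g * s) := h1
    _ = low x s * (low x g * F.cen x (g * s)) := by ring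
    _ = low x s * (g * (F.ell x (g * s) * F.ell x (g * s'))) := by rw [h2]
    _ = _ := by ring




end pair

end arith

/-! ### growth of `k0` in the cut -/



/-! ### the rule -/

section rule

open PairRx14

variable {M : ℕ} {F : FL M} {P : Par}



/-- an aligned (shared) prime of `b = g s`, `c = g s'` at the offset `h`: both centres are used
there and give the same point -/
structure Al (F : FL M) (P : Par) (b c s s' : ℕ) (h : ℤ) (p : ℕ) (f f' : ℚ) : Prop where
  prime : p.Prime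
  ns : ¬ p ∣ s
  ns' : ¬ p ∣ s'
  used : Fc F P b p = some f
  used' : Fc F P c p = some f'
  den : ¬ p ∣ f.den
  den' : ¬ p ∣ f'.den
  pt : BoostCx972.gap f f' s s' h = 0

lemma isE_iff {b c s s' p : ℕ} {h : ℤ} (hp : p.Prime) :
    IsE (Fc F P) b c s s' h p ↔ ∃ f f', Al F P b c s s' h p f f' := by
  constructor
  · rintro ⟨h1, h2, f, f', h3, h4, h5, h6, h7⟩
    exact ⟨f, f', hp, h1, h2, h3, h4, h5, h6, h7⟩
  · rintro ⟨f, f', _, h1, h2, h3, h4, h5, h6, h7⟩
    exact ⟨h1, h2, f, f', h3, h4, h5, h6, h7⟩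




/-- **normal member** of a shared centre at the scale `2^m` (`m ≤ m_d`, `m_d` = scale used): the
denominator is the same at the two cuts, or `f` is the tree centre at the scale `2^m` -/
def Norm (F : FL M) (P : Par) (m md d : ℕ) (f : ℚ) : Prop :=
  k0 F (P.cut m) d f = k0 F (P.cut md) d f ∨ TC F P m d f



/-! ### the largest aligned prime -/

open Classical in
/-- the aligned primes -/
noncomputable def alSet (F : FL M) (P : Par) (b c s s' : ℕ) (h : ℤ) : Finset ℕ :=
  (PrefixMx882.free M b ∪ PrefixMx882.free M c).filter fun p => ∃ f f', Al F P b c s s' h p f f'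



/-! ### kinds of the explained primes, reference scale `2^m` -/

/-- at a missing prime `p` of `d` the centre `f` (depth measured at the cut `cut m`) is too deep,
or a conflicting centre `f₂` is used; `m₁` = scale at which `f` is the tree centre of `d` with the
same depth -/
def AltN (F : FL M) (P : Par) (m d : ℕ) (f : ℚ) (p : ℕ) : Prop :=
  P.thr d (P.blk p) < dep F P m d f ∨ ∃ (m₁ m₂ : ℕ) (f₂ : ℚ), m ≤ m₁ ∧ m₁ < m₂ ∧
    TC F P m₁ d f ∧ dep F P m₁ d f = dep F P m d f ∧ f ≠ f₂ ∧ TC F P m₂ d f₂ ∧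
    dep F P m₂ d f₂ ≤ P.thr d (P.blk p) ∧ Fc F P d p = some f₂ ∧ P.Y (P.blk p) ≤ P.cut m₂ ∧
    (F.uu (P.cut m) d : ℝ) ≤ 2 * dep F P m d f * dep F P m₂ d f₂ * P.L ∧
    (2 : ℝ) ^ m ≤ 2 * dep F P m d f * dep F P m₂ d f₂





/-- **the `(H)`/`(L)` pairs of a reference scale `2^m`**: common point of two normal centres, largest
explained differing prime `p ≤ cut m`. `LabPair` of `PairR_14` is the case `mb = mc = m`. -/
structure ShPair (F : FL M) (P : Par) (m mb mc g s s' : ℕ) (h : ℤ) (f f' : ℚ) (p : ℕ) : Prop where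
  hmb : m ≤ mb
  hmc : m ≤ mc
  tcb : TC F P mb (g * s) f
  tcc : TC F P mc (g * s') f'
  nb : Norm F P m mb (g * s) f
  nc : Norm F P m mc (g * s') f'
  pt : BoostCx972.gap f f' s s' h = 0
  prime : p.Prime
  le : p ≤ P.cut m
  /-- `p` is explained, and the member missing it does not use its centre -/
  alt : (p ∣ s' ∧ p ∣ alC (g * s') (g * s) f' f ∧ AltN F P m (g * s) f p) ∨
    (p ∣ s ∧ p ∣ alC (g * s) (g * s') f f' ∧ AltN F P m (g * s') f' p)
  /-- no prime in `(p, cut]` is explained (`LDecx500.Top`; with prime powers stronger than `top`) -/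
  topE : ∀ r : ℕ, r.Prime → p < r → r ≤ P.cut m →
    ¬ r ∣ alC (g * s) (g * s') f f' ∧ ¬ r ∣ alC (g * s') (g * s) f' f
  /-- the differing primes in `(p, cut]` are unexplained -/
  top : ∀ r : ℕ, r.Prime → p < r → r ≤ P.cut m →
    (r ∣ s → r ∣ k0 F (P.cut m) (g * s) f) ∧ (r ∣ s' → r ∣ k0 F (P.cut m) (g * s') f')







end rule

end Crest.Agent.R4C.Sharedx11
namespace Crest.Agent.R4C.Sharedx11.Al
end Crest.Agent.R4C.Sharedx11.Al
end

-- ▼ part R4C/MismA_100
section

/-!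
# Row 4, block S6: mismatched certificates, arithmetic part (helper100)

A good pair `b = g s`, `c = g s'` (cut `x`), fractions `f`, `f'` giving the same point
(`gap f f' s s' h = 0`).

* `key_eq`, `den_dvd` : the denominators;
* `fact_k0` : `v_q (k0 x b f) = v_q (den f) - v_q (lam x b)`;
* **`fact_k0_le_ell`** : a prime `q > x` dividing `k0 x b f` but not `k0 x c f'` is a deficit of
  `c`, `v_q (k0 x b f) ≤ v_q (ell x c)`;
* **`upp_k0_dvd_ell`** : `k0 x c f' ≤ x` implies `upp x (k0 x b f) ∣ ell x c`.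
-/

set_option autoImplicit false

namespace Crest.Agent.R4C.MismAx100

open Crest.Agent.R4C.FLDefx935 Crest.Agent.R4C.BoostCx972 Crest.Agent.R4C.Cutx50
  Crest.Agent.R4C.Rulex945 Crest.Agent.R4C.Basex935

variable {M : ℕ} {F : FL M} {g s s' : ℕ} {h : ℤ} {f f' : ℚ}

lemma gap_symm (h0 : gap f f' s s' h = 0) : gap f' f s' s (-h) = 0 := by
  unfold gap at h0 ⊢
  push_cast
  linear_combination -h0

lemma key_eq (h0 : gap f f' s s' h = 0) :
    ((s : ℤ) * f.num + h * f.den) * f'.den = (s' : ℤ) * f'.num * f.den := by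
  have h1 : (f.num : ℚ) = f * f.den := (Rat.mul_den_eq_num f).symm
  have h2 : (f'.num : ℚ) = f' * f'.den := (Rat.mul_den_eq_num f').symm
  have h3 : (((s : ℤ) * f.num + h * f.den) * f'.den : ℚ) = (s' : ℚ) * f'.num * f.den := by
    unfold gap at h0
    push_cast
    rw [h1, h2]
    linear_combination (f.den : ℚ) * f'.den * h0
  exact_mod_cast h3

lemma isCoprime_num_den (f : ℚ) : IsCoprime f.num (f.den : ℤ) := by
  rw [Int.isCoprime_iff_gcd_eq_one]
  exact f.reduced

/-- `den f ∣ s · den f'` -/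
lemma den_dvd (h0 : gap f f' s s' h = 0) : f.den ∣ s * f'.den := by
  have h1 := key_eq h0
  have h2 : (f.den : ℤ) ∣ f.num * ((s : ℤ) * f'.den) := by
    refine ⟨(s' : ℤ) * f'.num - h * f'.den, ?_⟩
    linear_combination h1
  have h3 := (isCoprime_num_den f).symm.dvd_of_dvd_mul_left h2
  exact_mod_cast h3

/-- `q ∤ s`, `q ∣ den f`: `v_q (s') + v_q (den f) ≤ v_q (den f')` -/
lemma fact_den_ge (hs' : s' ≠ 0) (h0 : gap f f' s s' h = 0) {q : ℕ} (hq : q.Prime)
    (hqs : ¬ q ∣ s) (hqf : q ∣ f.den) :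
    s'.factorization q + f.den.factorization q ≤ f'.den.factorization q := by
  have h1 := key_eq h0
  have hqz : Prime (q : ℤ) := Nat.prime_iff_prime_int.1 hq
  have hnum : ¬ (q : ℤ) ∣ f.num := fun hc => by
    have h2 := (isCoprime_num_den f).of_isCoprime_of_dvd_left hc
    have h3 := h2.isUnit_of_dvd' (dvd_refl (q : ℤ)) (by exact_mod_cast hqf)
    exact hqz.not_isUnit h3
  have hn : ¬ (q : ℤ) ∣ (s : ℤ) * f.num + h * f.den := fun hc => by
    have h2 : (q : ℤ) ∣ h * f.den := Dvd.dvd.mul_left (by exact_mod_cast hqf) _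
    have h3 : (q : ℤ) ∣ (s : ℤ) * f.num := (dvd_add_left h2).1 hc
    rcases hqz.dvd_or_dvd h3 with h4 | h4
    · exact hqs (by exact_mod_cast h4)
    · exact hnum h4
  have hn0 : ((s : ℤ) * f.num + h * f.den).natAbs ≠ 0 := fun hc => by
    rw [Int.natAbs_eq_zero] at hc
    exact hn (hc ▸ dvd_zero _)
  have hnq : ¬ q ∣ ((s : ℤ) * f.num + h * f.den).natAbs := fun hc =>
    hn (Int.natCast_dvd.2 hc)
  have h2 : ((s : ℤ) * f.num + h * f.den).natAbs * f'.den = s' * f'.num.natAbs * f.den := by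
    have h3 := congrArg Int.natAbs h1
    simpa [Int.natAbs_mul] using h3
  have hfn0 : f'.num.natAbs ≠ 0 := fun hc => by
    rw [hc] at h2
    have h3 : ((s : ℤ) * f.num + h * f.den).natAbs * f'.den = 0 := by rw [h2]; ring
    rcases Nat.mul_eq_zero.1 h3 with h4 | h4
    · exact hn0 h4
    · exact f'.den_pos.ne' h4
  have h3 := congrArg (fun n : ℕ => n.factorization q) h2
  beta_reduce at h3
  rw [Nat.factorization_mul hn0 f'.den_pos.ne', Finsupp.add_apply,
    Nat.factorization_mul (mul_ne_zero hs' hfn0) f.den_pos.ne', Finsupp.add_apply,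
    Nat.factorization_mul hs' hfn0, Finsupp.add_apply,
    Nat.factorization_eq_zero_of_not_dvd hnq] at h3
  omega

/-- valuation of the minimal denominator -/
lemma fact_k0 (x b : ℕ) (f : ℚ) (q : ℕ) : (k0 F x b f).factorization q =
    f.den.factorization q - (F.lam x b).factorization q := by
  unfold k0
  rw [Nat.factorization_div (Nat.gcd_dvd_left _ _), Finsupp.tsub_apply,
    Nat.factorization_gcd f.den_pos.ne' (FL.lam_pos x b).ne', Finsupp.inf_apply]
  omega



end Crest.Agent.R4C.MismAx100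
end

-- ▼ part R4C/TwPair_100
section

/-!
# Row 4, block S6: the pair side of 22's lemma TW (big twist) (helper100)

Pair `b = g s`, `c = g s'`, good at the cut `x`, fractions `f`, `f'` with the same point
(`gap f f' s s' h = 0`), `x ≤ y`.

* **`k0_dvd_mul`** : `k0 y b f ∣ k0 x c f' * s`;
* `k0_le_twist` : `k0 y b f ≤ gcd (k0 y b f) s * k0 x c f'`;
* `disp_le` : `b |γ - f| ≤ c |γ - f'| + g |(s - s') γ + h|`;
* **`dep_le_twist`** : `dep m₂ b f ≤ 2 gcd (k0 (cut m₂) b f) s * dep m c f'` (`m ≤ m₂`);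
* `twist_big` : `dep m₂ b f ≥ (dep m c f')^2` and large depth give
  `gcd (k0 (cut m₂) b f) s ≥ sqrt (dep m₂ b f) / 2`;
* **`k0_stable`** : `k0 y b f ≤ x` implies `k0 x b f = k0 y b f`.
-/

set_option autoImplicit false

namespace Crest.Agent.R4C.TwPairx100

open Crest.Agent.R4C.FLDefx935 Crest.Agent.R4C.BoostCx972 Crest.Agent.R4C.Cutx50
  Crest.Agent.R4C.Rulex945 Crest.Agent.R4C.Basex935 Crest.Agent.R4C.MismAx100

variable {M : ℕ} {F : FL M} {g s s' : ℕ} {h : ℤ} {f f' : ℚ}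

/-- **denominators of a same-point pair at two cuts** -/
theorem k0_dvd_mul {x y : ℕ} (hM : 0 < M) (hb : g * s ∣ M) (hc : g * s' ∣ M)
    (hcop : Nat.Coprime s s') (hgood : F.good x (g * s) (g * s')) (_hxy : x ≤ y)
    (h0 : gap f f' s s' h = 0) :
    k0 F y (g * s) f ∣ k0 F x (g * s') f' * s := by
  have hb0 : g * s ≠ 0 := (Nat.pos_of_dvd_of_pos hb hM).ne'
  have hc0 : g * s' ≠ 0 := (Nat.pos_of_dvd_of_pos hc hM).ne'
  have hg : g ≠ 0 := fun hh => hb0 (by rw [hh, zero_mul])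
  have hs : s ≠ 0 := fun hh => hb0 (by rw [hh, mul_zero])
  have hs' : s' ≠ 0 := fun hh => hc0 (by rw [hh, mul_zero])
  rw [← Nat.factorization_le_iff_dvd (k0_pos _ _ _).ne' (mul_ne_zero (k0_pos _ _ _).ne' hs)]
  intro q
  rw [Nat.factorization_mul (k0_pos _ _ _).ne' hs, Finsupp.add_apply, fact_k0, fact_k0]
  by_cases hq : q.Prime
  swap
  · rw [Nat.factorization_eq_zero_of_not_prime _ hq]; omega
  have hden : f.den.factorization q ≤ s.factorization q + f'.den.factorization q := by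
    have h1 := (Nat.factorization_le_iff_dvd f.den_pos.ne'
      (mul_ne_zero hs f'.den_pos.ne')).2 (den_dvd h0) q
    rwa [Nat.factorization_mul hs f'.den_pos.ne', Finsupp.add_apply] at h1
  -- `v_q (lam x c) = 0` is enough
  by_cases hlc0 : (F.lam x (g * s')).factorization q = 0
  · omega
  have hqd : q ∣ F.lam x (g * s') := Nat.dvd_of_factorization_pos hlc0
  obtain ⟨hx, v, hv, hlt⟩ := FL.prime_dvd_lam hM hc hq hqd
  have hctr : F.ctr (g * s) q = some v := by
    rw [FL.ctr_eq hb hc hgood.1 hq hx.le, hv]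
  have hbv : (g * s).factorization q = v := by
    rcases hgood.2 q hq hx v hctr with h1 | h1
    · exact h1
    · omega
  have hpb : (g * s).factorization q = g.factorization q + s.factorization q := by
    rw [Nat.factorization_mul hg hs, Finsupp.add_apply]
  have hpc : (g * s').factorization q = g.factorization q + s'.factorization q := by
    rw [Nat.factorization_mul hg hs', Finsupp.add_apply]
  have hs'pos : 0 < s'.factorization q := by omega
  have hs0 : ¬ q ∣ s := fun hd => by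
    have h2 : q ∣ s' := Nat.dvd_of_factorization_pos (by omega)
    have h3 := Nat.dvd_gcd hd h2
    rw [hcop.gcd_eq_one] at h3
    exact hq.one_lt.ne' (Nat.dvd_one.1 h3)
  have hs00 : s.factorization q = 0 := Nat.factorization_eq_zero_of_not_dvd hs0
  have hqm : q ∈ M.primeFactors := by
    by_contra hc'
    have := FL.fact_zero hM hc hc'
    omega
  have hlc : (F.lam x (g * s')).factorization q = (g * s').factorization q - v := by
    rw [FL.fact_lam hM hc, if_pos hqm]
    unfold FL.lamE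
    rw [if_pos hx, hv]
  by_cases ha : f.den.factorization q = 0
  · omega
  have hqf : q ∣ f.den := Nat.dvd_of_factorization_pos ha
  have h1 := fact_den_ge hs' h0 hq hs0 hqf
  omega

lemma k0_le_twist {x y : ℕ} (hM : 0 < M) (hb : g * s ∣ M) (hc : g * s' ∣ M)
    (hcop : Nat.Coprime s s') (hgood : F.good x (g * s) (g * s')) (hxy : x ≤ y)
    (h0 : gap f f' s s' h = 0) :
    k0 F y (g * s) f ≤ Nat.gcd (k0 F y (g * s) f) s * k0 F x (g * s') f' := by
  have h1 := k0_dvd_mul hM hb hc hcop hgood hxy h0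
  set k := k0 F y (g * s) f with hk
  set k' := k0 F x (g * s') f' with hk'
  have hk0 : 0 < k := k0_pos _ _ _
  have hk0' : 0 < k' := k0_pos _ _ _
  have hg0 : 0 < Nat.gcd k s := Nat.gcd_pos_of_pos_left _ hk0
  have h2 : k ∣ Nat.gcd k s * k' := by
    have h3 : k ∣ Nat.gcd (k * k') (s * k') :=
      Nat.dvd_gcd (dvd_mul_right _ _) (by rw [mul_comm s k']; exact h1)
    rwa [Nat.gcd_mul_right] at h3
  exact Nat.le_of_dvd (Nat.mul_pos hg0 hk0') h2

/-- displacements of the two fractions of one point -/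
lemma disp_le (γ : ℝ) (h0 : gap f f' s s' h = 0) :
    ((g * s : ℕ) : ℝ) * |γ - f| ≤ ((g * s' : ℕ) : ℝ) * |γ - f'| +
      g * |((s : ℝ) - s') * γ + h| := by
  have h1 : (s : ℝ) * (f : ℝ) - s' * (f' : ℝ) + h = 0 := by
    have h2 : ((gap f f' s s' h : ℚ) : ℝ) = 0 := by rw [h0]; simp
    unfold gap at h2
    push_cast at h2
    exact h2
  have h3 : ((g * s : ℕ) : ℝ) * (γ - f) = ((g * s' : ℕ) : ℝ) * (γ - f') +
      g * (((s : ℝ) - s') * γ + h) := by
    push_cast
    linear_combination (-(g : ℝ)) * h1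
  calc ((g * s : ℕ) : ℝ) * |γ - f| = |((g * s : ℕ) : ℝ) * (γ - f)| := by
        rw [abs_mul, Nat.abs_cast]
    _ = |((g * s' : ℕ) : ℝ) * (γ - f') + g * (((s : ℝ) - s') * γ + h)| := by rw [h3]
    _ ≤ |((g * s' : ℕ) : ℝ) * (γ - f')| + |(g : ℝ) * (((s : ℝ) - s') * γ + h)| := abs_add_le _ _
    _ = _ := by rw [abs_mul, abs_mul, Nat.abs_cast, Nat.abs_cast]

/-- **depths of a same-point pair**: the difference is the twist -/
theorem dep_le_twist {P : Par} (hM : 0 < M) (hL : 0 < P.L) (hcut : Monotone P.cut)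
    (hb : g * s ∣ M) (hc : g * s' ∣ M) (hcop : Nat.Coprime s s') {m m₂ : ℕ} (hm : m ≤ m₂)
    (hgood : F.good (P.cut m) (g * s) (g * s')) (h0 : gap f f' s s' h = 0)
    (hlnk : (g : ℝ) * |((s : ℝ) - s') * P.γ + h| ≤ P.L) :
    dep F P m₂ (g * s) f ≤
      2 * (Nat.gcd (k0 F (P.cut m₂) (g * s) f) s : ℝ) * dep F P m (g * s') f' := by
  have h1 := k0_le_twist hM hb hc hcop hgood (hcut hm) h0
  have h1' : (k0 F (P.cut m₂) (g * s) f : ℝ) ≤
      (Nat.gcd (k0 F (P.cut m₂) (g * s) f) s : ℝ) * k0 F (P.cut m) (g * s') f' := by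
    exact_mod_cast h1
  have h2 := (disp_le (g := g) P.γ h0).trans (add_le_add_right hlnk _)
  unfold dep
  set kb : ℝ := (k0 F (P.cut m₂) (g * s) f : ℝ)
  set kc : ℝ := (k0 F (P.cut m) (g * s') f' : ℝ)
  set κ : ℝ := (Nat.gcd (k0 F (P.cut m₂) (g * s) f) s : ℝ)
  set db : ℝ := ((g * s : ℕ) : ℝ) * |P.γ - f|
  set dc : ℝ := ((g * s' : ℕ) : ℝ) * |P.γ - f'|
  have hx : max 1 (db / P.L) ≤ 2 * max 1 (dc / P.L) := by
    have e1 : (1 : ℝ) ≤ max 1 (dc / P.L) := le_max_left _ _
    have e2 : dc / P.L ≤ max 1 (dc / P.L) := le_max_right _ _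
    refine max_le (by linarith) ?_
    have e3 : db / P.L ≤ (dc + P.L) / P.L := div_le_div_of_nonneg_right h2 hL.le
    have e4 : (dc + P.L) / P.L = dc / P.L + 1 := by field_simp
    linarith
  have hkb : 0 ≤ kb := Nat.cast_nonneg _
  have hkc : 0 ≤ kc := Nat.cast_nonneg _
  have hκ : 0 ≤ κ := Nat.cast_nonneg _
  have hm0 : (0 : ℝ) ≤ max 1 (db / P.L) := zero_le_one.trans (le_max_left _ _)
  calc kb * max 1 (db / P.L) ≤ (κ * kc) * (2 * max 1 (dc / P.L)) :=
        mul_le_mul h1' hx hm0 (mul_nonneg hκ hkc)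
    _ = _ := by ring

/-- big twist -/
theorem twist_big {P : Par} (hM : 0 < M) (hL : 0 < P.L) (hcut : Monotone P.cut)
    (hb : g * s ∣ M) (hc : g * s' ∣ M) (hcop : Nat.Coprime s s') {m m₂ : ℕ} (hm : m ≤ m₂)
    (hgood : F.good (P.cut m) (g * s) (g * s')) (h0 : gap f f' s s' h = 0)
    (hlnk : (g : ℝ) * |((s : ℝ) - s') * P.γ + h| ≤ P.L)
    (hbig : dep F P m (g * s') f' ^ 2 ≤ dep F P m₂ (g * s) f) :
    dep F P m₂ (g * s) f ^ (1 / 2 : ℝ) / 2 ≤ (Nat.gcd (k0 F (P.cut m₂) (g * s) f) s : ℝ) := by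
  have h1 := dep_le_twist hM hL hcut hb hc hcop hm hgood h0 hlnk
  set K := dep F P m₂ (g * s) f
  set K' := dep F P m (g * s') f'
  set κ : ℝ := (Nat.gcd (k0 F (P.cut m₂) (g * s) f) s : ℝ)
  have hK1 : 1 ≤ K := one_le_dep _ _ _
  have hK1' : 1 ≤ K' := one_le_dep _ _ _
  have hκ : 0 ≤ κ := Nat.cast_nonneg _
  rw [← Real.sqrt_eq_rpow]
  have h2 : K' ≤ Real.sqrt K := Real.le_sqrt_of_sq_le hbig
  have h3 : Real.sqrt K * Real.sqrt K = K := Real.mul_self_sqrt (by linarith)
  have h4 : 0 < Real.sqrt K := Real.sqrt_pos.2 (by linarith)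
  have h5 : Real.sqrt K * Real.sqrt K ≤ 2 * κ * Real.sqrt K := by
    rw [h3]
    exact h1.trans (mul_le_mul_of_nonneg_left h2 (by positivity))
  have h6 : Real.sqrt K ≤ 2 * κ := le_of_mul_le_mul_right h5 h4
  linarith

/-- **small denominators are stable** -/
theorem k0_stable {x y b : ℕ} (hxy : x ≤ y) (h1 : k0 F y b f ≤ x) :
    k0 F x b f = k0 F y b f := by
  refine Nat.dvd_antisymm (k0_mono hxy f) ?_
  rw [← Nat.factorization_le_iff_dvd (k0_pos _ _ _).ne' (k0_pos _ _ _).ne']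
  intro q
  by_cases hq : q.Prime
  swap
  · rw [Nat.factorization_eq_zero_of_not_prime _ hq]; exact Nat.zero_le _
  by_cases hx : x < q
  · have h2 : ¬ q ∣ k0 F y b f := fun hd => by
      have := Nat.le_of_dvd (k0_pos y b f) hd
      omega
    rw [Nat.factorization_eq_zero_of_not_dvd h2]; exact Nat.zero_le _
  · rw [fact_k0, fact_k0]
    have h3 : (F.lam x b).factorization q = 0 := by
      unfold FL.lam
      rw [FL.fact_prod]
      split_ifs
      · unfold FL.lamE
        rw [if_neg hx]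
      · rfl
    omega

/-- the depth at the lower cut -/
theorem dep_stable {P : Par} (hcut : Monotone P.cut) {m m₂ b : ℕ} (hm : m ≤ m₂)
    (h1 : k0 F (P.cut m₂) b f ≤ P.cut m) : dep F P m b f = dep F P m₂ b f := by
  unfold dep
  rw [k0_stable (hcut hm) h1]

end Crest.Agent.R4C.TwPairx100
end

-- ▼ part R4C/SplitDef_945

/-!
# Row 4: the exhaustive split of the unkilled pairs (spine of S6, notes 3463, 3495, 3645) (helper945)

All predicates are over `F : FL M`, the rule `Rule_945` (parameters `P`), the pair `b, c ∣ M` and the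
offset `h`; `s = b / gcd b c`, `s' = c / gcd b c`.

* `AlLe F P b c h x` : all aligned (same point) common primes are `≤ x` (`Sharedx11.alSet`);
* `Pure F x b c` : no deficits above `x`;  `X1 P b c = exp (max 1 (L/g) ^ (1/8))`;
* `BP F P t b c h f f'` : common point `(f, f')` of the level `t` (case B);
* `BS` : `BP` + both depths `≤ E t ^ 4` (measured at the cut `cut t`);
* `LP` : class (L) at the level `t`, `p` = largest explained differing prime;
* `FarA F P i b c h` : case A, own scale `2^i`, good at `cut i`, aligned primes `≤ cut (2 i)`.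

Classes: `CNear`, `CBad`, `CHvy`, `CTw`, `CNP`, `CLow`, `CRareA`, `CUD`, `CDomP`, `CDomN`.

* the exhaustive split itself is `Split_945.split_all`.
-/

set_option autoImplicit false

namespace Crest.Agent.R4C.Splitx945

open Crest.Agent.R4C.FLDefx935 Crest.Agent.R4C.BoostCx972 Crest.Agent.R4C.CrCoinx935
  Crest.Agent.R4C.CrCountx935 Crest.Agent.R4C.Bridgex882 Crest.Agent.R4C.PrefixMx882
  Crest.Agent.R4C.S7cx14 Crest.Agent.R4C.S7dx14 Crest.Agent.R4C.Cutx50
  Crest.Agent.R4C.S2bx284 Crest.Agent.R4C.S2x232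
  Crest.Agent.R4C.PairRx14 Crest.Agent.R4C.Hclsx81
  Crest.Agent.R4C.Rulex945 Crest.Agent.R4C.Sharedx11

section defs

variable {M : ℕ} (F : FL M) (P : Par)

/-- all aligned primes are `≤ x` -/
def AlLe (b c : ℕ) (h : ℤ) (x : ℕ) : Prop :=
  ∀ q ∈ alSet F P b c (b / Nat.gcd b c) (c / Nat.gcd b c) h, q ≤ x

/-- pure pair above `x`: no deficits -/
def Pure (x b c : ℕ) : Prop := F.ell x b = 1 ∧ F.ell x c = 1

/-- the near cut: `exp (max 1 (L/g) ^ (1/8))` -/
noncomputable def X1 (b c : ℕ) : ℝ := Real.exp ((max 1 (P.L / (Nat.gcd b c : ℕ))) ^ (1 / 8 : ℝ))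

/-- common point of the level `t` (case B; the pair's own scale is `≤ 2^((t+1)/2)`) -/
structure BP (t b c : ℕ) (h : ℤ) (f f' : ℚ) : Prop where
  good : F.good (P.cut t) b c
  pt : gap f f' (b / Nat.gcd b c) (c / Nat.gcd b c) h = 0
  al : AlLe F P b c h (P.cut t)
  m0 : 2 * P.m0 < t
  scl : (Nat.gcd b c : ℝ) ^ 2 ≤ 2 ^ (t + 1) * P.L ^ 2
  near : X1 P b c < P.cut t

/-- `f` is a tree centre of an index `≥ t`, with the denominator of the cut `cut t` -/
def Ix (t d : ℕ) (f : ℚ) : Prop :=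
  ∃ m, t ≤ m ∧ TC F P m d f ∧ k0 F (P.cut m) d f = k0 F (P.cut t) d f

/-- common point of the level `t`, both depths small -/
structure BS (t b c : ℕ) (h : ℤ) (f f' : ℚ) : Prop extends BP F P t b c h f f' where
  ib : Ix F P t b f
  ic : Ix F P t c f'
  tc : TC F P t b f ∨ TC F P t c f'
  db : dep F P t b f ≤ P.E t ^ 4
  dc : dep F P t c f' ≤ P.E t ^ 4

/-- the low word is large against the depths (`Π³ ≥ K/128`) -/
def BigW (t b c : ℕ) (f f' : ℚ) : Prop :=
  dep F P t b f ≤ 128 * ((low (P.cut t) (b / Nat.gcd b c) : ℝ) *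
    low (P.cut t) (c / Nat.gcd b c)) ^ 3 ∧
  dep F P t c f' ≤ 128 * ((low (P.cut t) (b / Nat.gcd b c) : ℝ) *
    low (P.cut t) (c / Nat.gcd b c)) ^ 3

/-- a pair of class (L): common point of the level `t`, `p` = largest explained differing prime
`≤ cut t`, the member missing it is ineligible there -/
structure LP (t b c : ℕ) (h : ℤ) (f f' : ℚ) (p : ℕ) : Prop where
  good : F.good (P.cut t) b c
  pt : gap f f' (b / Nat.gcd b c) (c / Nat.gcd b c) h = 0
  db : dep F P t b f ≤ P.E t ^ 4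
  dc : dep F P t c f' ≤ P.E t ^ 4
  ib : Ix F P t b f
  ic : Ix F P t c f'
  tc : TC F P t b f ∨ TC F P t c f'
  prime : p.Prime
  le : p ≤ P.cut t
  deep : (p ∣ c / Nat.gcd b c ∧ p ∣ alC c b f' f ∧ P.thr b (P.blk p) < dep F P t b f) ∨
    (p ∣ b / Nat.gcd b c ∧ p ∣ alC b c f f' ∧ P.thr c (P.blk p) < dep F P t c f')
  top : ∀ r : ℕ, r.Prime → p < r → r ≤ P.cut t → ¬ r ∣ alC b c f f' ∧ ¬ r ∣ alC c b f' f
  topk : ∀ r : ℕ, r.Prime → p < r → r ≤ P.cut t →
    (r ∣ b / Nat.gcd b c → r ∣ k0 F (P.cut t) b f) ∧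
    (r ∣ c / Nat.gcd b c → r ∣ k0 F (P.cut t) c f')
  big : BigW F P t b c f f'
  al : AlLe F P b c h (P.cut (2 * t))
  m0 : P.m0 ≤ t
  scl : (Nat.gcd b c : ℝ) < 2 ^ (t + 1) * P.L
  near : X1 P b c < P.cut t

/-! ### the classes -/

/-- near pairs -/
def CNear (b c : ℕ) (h : ℤ) : Prop :=
  (Nat.gcd b c : ℝ) < 2 ^ P.m0 * P.L ∧ ∃ l, F.good (P.cut l) b c ∧ AlLe F P b c h (P.cut l) ∧
    (l ≤ 2 * P.m0 ∨ (P.cut l : ℝ) ≤ X1 P b c)

/-- not good at the cut `r`, level `l ≤ 2 r + 1` -/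
def CBad (b c : ℕ) (h : ℤ) : Prop :=
  ∃ r l, P.m0 ≤ r ∧ r < l ∧ l ≤ 2 * r + 1 ∧ ¬ F.good (P.cut r) b c ∧ F.good (P.cut l) b c ∧
    AlLe F P b c h (P.cut l) ∧ (Nat.gcd b c : ℝ) < 2 ^ (r + 1) * P.L ∧ X1 P b c < P.cut (r + 1)

/-- a heavy member (`w = 1_B`) -/
def CHvy (w : ℕ → ℝ) (ε : ℝ) (b c : ℕ) (h : ℤ) : Prop :=
  ∃ t, P.m0 ≤ t ∧ F.good (P.cut t) b c ∧ AlLe F P b c h (P.cut (2 * t)) ∧
    (Nat.gcd b c : ℝ) < 2 ^ (t + 1) * P.L ∧ X1 P b c < P.cut t ∧
    (HvK F w P.L (1 / ε) (2 ^ t / (2 * P.E t ^ 4)) (P.cut t) b ∨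
      HvK F w P.L (1 / ε) (2 ^ t / (2 * P.E t ^ 4)) (P.cut t) c)

/-- big twist (22's TW): asymmetric depths -/
def CTw (b c : ℕ) (h : ℤ) : Prop :=
  ∃ t m f f', BP F P t b c h f f' ∧ t ≤ m ∧
    ((TC F P m b f ∧ TC F P t c f' ∧ P.E t ^ 4 < dep F P m b f) ∨
      (TC F P m c f' ∧ TC F P t b f ∧ P.E t ^ 4 < dep F P m c f'))

/-- common point, shallow, non-pure: nothing explained differs (the low word is the quotient of the
two denominators, `Sharedx11.word_eq`), or the low word is short -/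
def CNP (b c : ℕ) (h : ℤ) : Prop :=
  ∃ t f f', BS F P t b c h f f' ∧ ¬ Pure F (P.cut t) b c ∧
    (NoEx (P.cut t) b c f f' ∨ ¬ BigW F P t b c f f')

/-- class (L) -/
def CLow (b c : ℕ) (h : ℤ) : Prop := ∃ t f f' p, LP F P t b c h f f' p

/-- case A: own scale `2^i` -/
structure FarA (i b c : ℕ) (h : ℤ) : Prop where
  m0 : P.m0 ≤ i
  lo : 2 ^ i * P.L ≤ (Nat.gcd b c : ℝ)
  hi : (Nat.gcd b c : ℝ) < 2 ^ (i + 1) * P.L
  good : F.good (P.cut i) b c
  al : AlLe F P b c h (P.cut (2 * i))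

/-- rare box at the own scale -/
def CRareA (D : ℕ → ℝ) (b c : ℕ) (h : ℤ) : Prop := ∃ i, FarA F P i b c h ∧
  Rare (upp (P.cut i) (b / Nat.gcd b c) * P.γ) (upp (P.cut i) (c / Nat.gcd b c) * P.γ) (2 ^ i)
    (D i) (low (P.cut i) (b / Nat.gcd b c)) (low (P.cut i) (c / Nat.gcd b c))

/-- unexplained deficit at the own scale -/
def CUD (D : ℕ → ℝ) (b c : ℕ) (h : ℤ) : Prop := ∃ i, FarA F P i b c h ∧
  (Pairx14.UD F P.γ (2 ^ i) (4 * D i ^ 8) (P.cut i) b c ∨
    Pairx14.UD F P.γ (2 ^ i) (4 * D i ^ 8) (P.cut i) c b)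

/-- dominant word at the own scale, entries `≤ E i` -/
structure DomA (i b c : ℕ) : Prop where
  dom : Dom (upp (P.cut i) (b / Nat.gcd b c) * P.γ) (upp (P.cut i) (c / Nat.gcd b c) * P.γ) (2 ^ i)
    (low (P.cut i) (b / Nat.gcd b c)) (low (P.cut i) (c / Nat.gcd b c))
  le_b : (low (P.cut i) (b / Nat.gcd b c) : ℝ) ≤ P.E i
  le_c : (low (P.cut i) (c / Nat.gcd b c) : ℝ) ≤ P.E i

/-- dominant word, pure (GW section) -/
def CDomP (b c : ℕ) (h : ℤ) : Prop :=
  ∃ i, FarA F P i b c h ∧ DomA P i b c ∧ Pure F (P.cut i) b c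

/-- dominant word, non-pure -/
def CDomN (b c : ℕ) (h : ℤ) : Prop :=
  ∃ i, FarA F P i b c h ∧ DomA P i b c ∧ ¬ Pure F (P.cut i) b c

end defs

/-- hypotheses on the parameters (`w = 1_B`) -/
structure Hy {M : ℕ} (_F : FL M) (P : Par) (w : ℕ → ℝ) (δ ε : ℝ) (D : ℕ → ℝ) : Prop where
  hM : 0 < M
  hL : 0 < P.L
  hN : (M : ℝ) / P.L ≤ P.N
  two : 2 ≤ P.m0
  cut_mono : Monotone P.cut
  Y_mono : StrictMono P.Y
  blkend : ∀ m, ∃ i, P.cut m = P.Y i
  cut_ge : ∀ m, 2 ^ m ≤ P.cut m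
  E_one : ∀ m, 1 ≤ P.E m
  hE : ∀ m, P.m0 ≤ m → 2 * P.E m ^ 8 < 2 ^ m
  hEc : ∀ m, P.m0 ≤ m → 2 * P.E m ^ 4 * (P.cut m : ℝ) ^ δ < 2 ^ m
  hδ : 0 ≤ δ
  hε : 0 < ε
  w0 : ∀ b, 0 ≤ w b
  thr_le : ∀ d i, P.thr d i ≤ max ((P.Y (i - 1) : ℝ) ^ δ) (ThS M w P.Y d i ^ ε)
  hD : ∀ m, P.m0 ≤ m → 4 ≤ D m
  hDT : ∀ m, P.m0 ≤ m → 8 * (4 * D m ^ 8) ^ 5 ≤ 2 ^ m
  hDE : ∀ m, P.m0 ≤ m → 2 * (4 * D m ^ 8) ≤ P.E m


end Crest.Agent.R4C.Splitx945
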