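import Crest.Agent.R4C.PureFL_232
import Crest.Agent.R4C.BoxUniq_60
import Crest.Agent.R4C.Counts_952
import Crest.Agent.R4C.PairR_14
import Crest.Agent.R4C.LowL_899
import Crest.Agent.R4C.HighW_899
import Crest.Agent.R4C.Split_945
import Crest.Agent.R4C.LBx_500

-- ▼ part R4C/Row2_7
section

/-!
# Row 4: the TWO-SIDED L² ROW LEMMA over an F-Λ structure (helper7)

Notes 3094(1) (5), 3229(3) (823). `PureG F` pairs `(b, c)`, `x` = smallest differing prime,
`b` the member with the centre letter at `x` (it "misses" `x`), `c` the member with more.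
`Vx M x b = ∏_{q < x, v_q b < v_q M} (1 - 1/q)`.

`row2_quad` / `row2_bilin` / `row2_sqrt` : if `κ b c · Vx M x b ≤ α x b + α' x c`, where
`Σ_{x missing in b} α x b / x ≤ N`, `α ≤ N`, `Σ_{x | c in excess} α' x c ≤ N'`, then
`Σ_{PureG b c} gcd ν ν κ f(b) f(c) ≤ (7 N + 4 N') Σ ν f²`.

No filtration: one-prime potentials `½ f² + ¾ (f+θ)²`, `½ (f+θ)²`.
-/

set_option autoImplicit false

open Finset
open Crest.Agent.R4C.Basex935 Crest.Agent.R4C.Cutx50 Crest.Agent.R4C.FLDefx935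
open Crest.Agent.R4C.PureL2x232

namespace Crest.Agent.R4C.Row2x7

/-- `∏_{q < x, v_q b < v_q M} (1 - 1/q)` (see `Vx_prod`) -/
noncomputable def Vx (M x b : ℕ) : ℝ := (low (x-1) b : ℝ) * nu (low (x-1) M) (low (x-1) b)





section Low

variable {p a M1 : ℕ} (hp : p.Prime) (hM : 0 < M1) (hlt : ∀ r, r.Prime → r ∣ M1 → r < p)
include hp hM hlt






end Low

/-! ### the bilinear forms -/



/-- `R x b c` : pure pair with smallest differing prime `x`, `b` has the centre letter at `x`,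
`c` has more; primes are read from the largest down. -/
inductive PureX : ℕ → (ℕ → ℕ → ℕ → Prop) → Prop
  | base {M : ℕ} {R : ℕ → ℕ → ℕ → Prop} (h : ∀ x b c, b ∣ M → c ∣ M → ¬ R x b c) : PureX M R
  | cent {p a M1 : ℕ} {R R1 : ℕ → ℕ → ℕ → Prop} (v0 : ℕ) (hp : p.Prime) (ha : 0 < a)
      (hM : 0 < M1) (hlt : ∀ r, r.Prime → r ∣ M1 → r < p) (hv0 : v0 ≤ a) (h1 : PureX M1 R1)
      (h : ∀ x v v' b c, v ≤ a → v' ≤ a → b ∣ M1 → c ∣ M1 → R x (p ^ v * b) (p ^ v' * c) →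
        min v v' = v0 ∧ ((x ∈ M1.primeFactors ∧ R1 x b c) ∨ (x = p ∧ b = c ∧ v = v0 ∧ v0 < v'))) :
      PureX (p ^ a * M1) R
  | branch {p a M1 : ℕ} {R : ℕ → ℕ → ℕ → Prop} {R1 : ℕ → ℕ → ℕ → ℕ → Prop} (hp : p.Prime)
      (ha : 0 < a) (hM : 0 < M1) (hlt : ∀ r, r.Prime → r ∣ M1 → r < p)
      (h1 : ∀ v, v ≤ a → PureX M1 (R1 v))
      (h : ∀ x v v' b c, v ≤ a → v' ≤ a → b ∣ M1 → c ∣ M1 → R x (p ^ v * b) (p ^ v' * c) →
        v = v' ∧ x ∈ M1.primeFactors ∧ R1 v x b c) : PureX (p ^ a * M1) R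

open Classical in
/-- the boosted energy -/
noncomputable def EE (M : ℕ) (R : ℕ → ℕ → ℕ → Prop) (P Q : ℕ → ℕ → ℝ) : ℝ :=
  ∑ x ∈ M.primeFactors, frm M (fun b c => if R x b c then P x b * Q x c * (Vx M x b)⁻¹ else 0)








/-! ### one-prime inequalities -/
















/-! ### the relation over an F-Λ structure -/

/-- pure pair, smallest differing prime `x`, `b` has the smaller (= centre) letter at `x` -/
def RowRel {M : ℕ} (F : FL M) (x b c : ℕ) : Prop :=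
  PureG F b c ∧ x.Prime ∧ (∀ q, q.Prime → q < x → b.factorization q = c.factorization q) ∧
    b.factorization x < c.factorization x


section Rel

variable {M : ℕ} {F : FL M}








end Rel


/-- hypotheses on the weights: `b` misses `x`, `c` contains `x` in excess -/
structure RowW {M : ℕ} (F : FL M) (κ α α' : ℕ → ℕ → ℝ) (N N' : ℝ) : Prop where
  κ0 : ∀ b c, 0 ≤ κ b c
  α0 : ∀ x b, 0 ≤ α x b
  αN : ∀ x b, α x b ≤ N
  α'0 : ∀ x b, 0 ≤ α' x b
  /-- row sum of the missing member -/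
  row : ∀ b, b ∣ M → ∑ x ∈ M.primeFactors.filter (fun x =>
    F.ctr b x = some (b.factorization x) ∧ b.factorization x < M.factorization x),
      1 / (x:ℝ) * α x b ≤ N
  /-- number of charged letters of the member containing `x` -/
  row' : ∀ c, c ∣ M → ∑ x ∈ M.primeFactors.filter (fun x =>
    ∃ v, F.ctr c x = some v ∧ v < c.factorization x), α' x c ≤ N'
  /-- the weight, both orders -/
  le : ∀ x b c, b ∣ M → c ∣ M → RowRel F x b c → κ b c * Vx M x b ≤ α x b + α' x c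
  le' : ∀ x b c, b ∣ M → c ∣ M → RowRel F x b c → κ c b * Vx M x b ≤ α x b + α' x c





/-! ### the row sum of the coins -/



end Crest.Agent.R4C.Row2x7
end

-- ▼ part R4C/TEnd_129
section

/-!
# Row 4: `t(b)` = the end of the index interval of a run (helper129), 3463 (L)(2), 3600

Over `BoxUniq_60` (`Valid F P k f m b` : the scale `2^m` is valid for the run `(f, k)` of `b`).

* `tEnd F P k f b` : the LAST valid scale (`Nat.findGreatest`), `tEnd_spec`, `le_tEnd`.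
* `valid_close` : if `m` is valid for `b₁`, some `m₂ ≤ m` is valid for `b₂`, and `b₁, b₂` are in one
  box (same letters above `X ≤ cut m₂`, `b₁ ≤ 2 b₂`), then `m` or `m - 1` (`≥ m₂`) is valid for `b₂`.
* `tEnd_close` : `tEnd b₁ ≤ tEnd b₂ + 1` in one box (no depth hypothesis).
* `tBox F P k f S` : minimum over the words `S` of the box; `tBox_le`, `le_tBox_succ`.
* `alpha_row` : the row sum of (alpha), with the loss of one scale:
  `∑_{x > cut t} (1/x) ∏_{q > cut (t+1), q < x} (1 - 1/q) ≤ 1 + (log T + 19)/log (cut t)`.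
-/

set_option autoImplicit false

namespace Crest.Agent.R4C.TEndx129

open Finset Crest.Agent.R4C.FLDefx935 Crest.Agent.R4C.Rulex945 Crest.Agent.R4C.BoxUniqx60
  Crest.Agent.R4C.Countsx952 Crest.Agent.R4C.Row2x7

variable {M : ℕ} {F : FL M} {P : Par}

open Classical in
/-- the last scale of the run `(f, k)` of `b` -/
noncomputable def tEnd (F : FL M) (P : Par) (k : ℕ) (f : ℚ) (b : ℕ) : ℕ :=
  Nat.findGreatest (fun m => Valid F P k f m b) P.N

open Classical in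
lemma tEnd_spec {k b m : ℕ} {f : ℚ} (h : Valid F P k f m b) (hm : m ≤ P.N) :
    Valid F P k f (tEnd F P k f b) b :=
  Nat.findGreatest_spec (P := fun m => Valid F P k f m b) hm h

open Classical in
lemma le_tEnd {k b m : ℕ} {f : ℚ} (h : Valid F P k f m b) (hm : m ≤ P.N) :
    m ≤ tEnd F P k f b :=
  Nat.le_findGreatest (P := fun m => Valid F P k f m b) hm h

open Classical in
lemma tEnd_le_N {k b : ℕ} {f : ℚ} : tEnd F P k f b ≤ P.N :=
  Nat.findGreatest_le (P := fun m => Valid F P k f m b) _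


/-- valid scales are `≤ N` -/
lemma valid_le_N (hL : 0 < P.L) (hN : (M : ℝ) / P.L ≤ P.N) (hM : 0 < M) {k m b : ℕ} (hb : b ∣ M)
    {f : ℚ} (h : Valid F P k f m b) : m ≤ P.N := h.tc.le_N hL hN hM hb

/-- one step: `m` valid for `b₁`, `m₂ ≤ m` valid for `b₂`, one box: `m` or `m - 1` valid for `b₂` -/
theorem valid_close (hL : 0 < P.L) (hM : 0 < M) (hcut : Monotone P.cut) (hE : Monotone P.E)
    {X b₁ b₂ m m₂ k : ℕ} {f : ℚ} (hb₁ : b₁ ∣ M) (hb₂ : b₂ ∣ M) (hX : X ≤ P.cut m₂)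
    (h : SameUp X b₁ b₂) (hR : (b₁ : ℝ) ≤ 2 * b₂) (h1 : Valid F P k f m b₁)
    (h2 : Valid F P k f m₂ b₂) (hm : m₂ ≤ m)
    (hA : (2 : ℝ) ^ m ≤ ((P.cut (m - 1) : ℝ) + 1) * 2 ^ m₂) :
    ∃ m', m₂ ≤ m' ∧ m ≤ m' + 1 ∧ m' ≤ m ∧ Valid F P k f m' b₂ := by
  rcases Nat.lt_or_ge m (m₂ + 2) with hlt | hge
  · exact ⟨m₂, le_rfl, by omega, hm, h2⟩
  · have hT1 : m₂ ≤ m - 1 := by omega
    have hXT : X ≤ P.cut m := hX.trans (hcut (by omega))
    have kT : k0 F (P.cut m) b₂ f = k := by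
      rw [← k0_eq (F := F) hb₁ hb₂ hXT h f]; exact h1.kk
    have kT1 : k0 F (P.cut (m - 1)) b₂ f = k := by
      have e1 : k ∣ k0 F (P.cut (m - 1)) b₂ f := by
        have := k0_mono (F := F) (b := b₂) (hcut hT1) f
        rwa [h2.kk] at this
      have e2 : k0 F (P.cut (m - 1)) b₂ f ∣ k := by
        have := k0_mono (F := F) (b := b₂) (hcut (show m - 1 ≤ m by omega)) f
        rwa [kT] at this
      exact Nat.dvd_antisymm e2 e1
    have hden : ∀ i, m₂ ≤ i → (k : ℝ) ≤ P.E i := fun i hi => by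
      have := h2.tc.den
      rw [h2.kk] at this
      exact this.trans (hE hi)
    have hdis : ∀ i, m₂ ≤ i → (b₂ : ℝ) * |P.γ - f| ≤ P.E i * P.L := fun i hi =>
      h2.tc.dis.trans (mul_le_mul_of_nonneg_right (hE hi) hL.le)
    have hsc : (2 : ℝ) ^ (m - 1) * P.L ≤ F.uu (P.cut m) b₂ := by
      have e1 := uu_le (F := F) hM hb₁ hb₂ hXT h hR
      have e2 := h1.tc.scl.trans e1
      have e3 : (2 : ℝ) ^ m = 2 * 2 ^ (m - 1) := by
        rw [← pow_succ']
        congr 1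
        omega
      rw [e3] at e2
      linarith
    rcases uu_jump (F := F) hM hb₂ (hcut (show m - 1 ≤ m by omega)) with hu | hu
    · refine ⟨m - 1, hT1, by omega, by omega, ⟨?_, ?_, ?_⟩, kT1⟩
      · rw [kT1]; exact hden _ hT1
      · exact hdis _ hT1
      · rw [hu]; exact hsc
    · refine ⟨m, by omega, by omega, le_rfl, ⟨?_, ?_, ?_⟩, kT⟩
      · rw [kT]; exact hden _ (by omega)
      · exact hdis _ (by omega)
      · have e1 : ((P.cut (m - 1) : ℝ) + 1) * F.uu (P.cut (m - 1)) b₂ ≤ F.uu (P.cut m) b₂ := by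
          exact_mod_cast hu
        have e2 : (2 : ℝ) ^ m₂ * P.L ≤ F.uu (P.cut (m - 1)) b₂ := by
          refine h2.tc.scl.trans ?_
          have : F.uu (P.cut m₂) b₂ ≤ F.uu (P.cut (m - 1)) b₂ :=
            Nat.le_of_dvd (FL.uu_pos _ _) (FL.uu_dvd_uu (hcut hT1))
          exact_mod_cast this
        calc (2 : ℝ) ^ m * P.L ≤ ((P.cut (m - 1) : ℝ) + 1) * 2 ^ m₂ * P.L :=
              mul_le_mul_of_nonneg_right hA hL.le
          _ = ((P.cut (m - 1) : ℝ) + 1) * (2 ^ m₂ * P.L) := by ring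
          _ ≤ ((P.cut (m - 1) : ℝ) + 1) * F.uu (P.cut (m - 1)) b₂ :=
              mul_le_mul_of_nonneg_left e2 (by positivity)
          _ ≤ _ := e1

/-- the growth condition on the cuts (for `cut m = 2^(A m)`, `A ≥ 2`: `cutA_grow`) -/
def CutGrow (P : Par) : Prop := ∀ m, 2 ≤ m → (2 : ℝ) ^ m ≤ (P.cut (m - 1) : ℝ) + 1

lemma CutGrow.mul (h : CutGrow P) {m m₂ : ℕ} (hm : 1 ≤ m) :
    (2 : ℝ) ^ m ≤ ((P.cut (m - 1) : ℝ) + 1) * 2 ^ m₂ ∨ m ≤ m₂ + 1 := by
  rcases Nat.lt_or_ge m 2 with h1 | h1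
  · right; omega
  · left
    have h2 := h m h1
    have h3 : (1 : ℝ) ≤ 2 ^ m₂ := one_le_pow₀ (by norm_num)
    have h4 : (0 : ℝ) ≤ (P.cut (m - 1) : ℝ) + 1 := by positivity
    nlinarith

lemma cutA_grow {A : ℕ} (hA : 2 ≤ A) (h : ∀ m, P.cut m = 2 ^ (A * m)) : CutGrow P := by
  intro m hm
  rw [h]
  have h1 : m ≤ A * (m - 1) := by
    have : m ≤ 2 * (m - 1) := by omega
    exact this.trans (Nat.mul_le_mul_right _ hA)
  have h2 : (2 : ℝ) ^ m ≤ (2 : ℝ) ^ (A * (m - 1)) := pow_le_pow_right₀ (by norm_num) h1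
  push_cast
  linarith

/-- **the end of the run is the same for all words of a box up to one dyadic scale** -/
theorem tEnd_close (hL : 0 < P.L) (hM : 0 < M) (hcut : Monotone P.cut) (hE : Monotone P.E)
    (hG : CutGrow P) {X b₁ b₂ m₁ m₂ k : ℕ} {f : ℚ} (hb₁ : b₁ ∣ M) (hb₂ : b₂ ∣ M)
    (hX₂ : X ≤ P.cut m₂) (h : SameUp X b₁ b₂) (hR : (b₁ : ℝ) ≤ 2 * b₂)
    (h1 : Valid F P k f m₁ b₁) (h2 : Valid F P k f m₂ b₂) (hm₁ : m₁ ≤ P.N) (hm₂ : m₂ ≤ P.N) :
    tEnd F P k f b₁ ≤ tEnd F P k f b₂ + 1 := by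
  have hv1 := tEnd_spec h1 hm₁
  set e₁ := tEnd F P k f b₁ with he₁
  have he₁N : e₁ ≤ P.N := tEnd_le_N
  have h22 := le_tEnd h2 hm₂
  rcases Nat.lt_or_ge e₁ m₂ with hlt | hge
  · omega
  · rcases Nat.lt_or_ge e₁ (m₂ + 2) with hlt2 | hge2
    · omega
    · rcases hG.mul (m := e₁) (m₂ := m₂) (by omega) with hA | hA
      · obtain ⟨m', _, h4, h5, h6⟩ := valid_close hL hM hcut hE hb₁ hb₂ hX₂ h hR hv1 h2 hge hA
        have := le_tEnd h6 (h5.trans he₁N)
        omega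
      · omega


/-! ### the value on a box -/

open Classical in
/-- minimum of `tEnd` over a set of words -/
noncomputable def tBox (F : FL M) (P : Par) (k : ℕ) (f : ℚ) (S : Finset ℕ) : ℕ :=
  if h : S.Nonempty then (S.image (tEnd F P k f)).min' (h.image _) else 0

lemma tBox_le {k : ℕ} {f : ℚ} {S : Finset ℕ} {b : ℕ} (hb : b ∈ S) :
    tBox F P k f S ≤ tEnd F P k f b := by
  classical
  have h : S.Nonempty := ⟨b, hb⟩
  unfold tBox
  rw [dif_pos h]
  exact min'_le _ _ (mem_image_of_mem _ hb)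

lemma exists_tBox {k : ℕ} {f : ℚ} {S : Finset ℕ} (h : S.Nonempty) :
    ∃ b ∈ S, tEnd F P k f b = tBox F P k f S := by
  classical
  unfold tBox
  rw [dif_pos h]
  obtain ⟨b, hb, h1⟩ := mem_image.1 (min'_mem (S.image (tEnd F P k f)) (h.image _))
  exact ⟨b, hb, h1⟩

/-- on a box (same letters above `X`, sizes within a factor 2, every word has a valid scale `m`
with `X ≤ cut m`) the end of the run is `tBox` or `tBox + 1` -/
theorem le_tBox_succ (hL : 0 < P.L) (hM : 0 < M) (hcut : Monotone P.cut) (hE : Monotone P.E)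
    (hG : CutGrow P) {X k : ℕ} {f : ℚ} {S : Finset ℕ} (hS : ∀ b ∈ S, b ∣ M)
    (hup : ∀ b ∈ S, ∀ c ∈ S, SameUp X b c) (hsz : ∀ b ∈ S, ∀ c ∈ S, (b : ℝ) ≤ 2 * c)
    (hval : ∀ b ∈ S, ∃ m, m ≤ P.N ∧ X ≤ P.cut m ∧ Valid F P k f m b) {b : ℕ} (hb : b ∈ S) :
    tEnd F P k f b ≤ tBox F P k f S + 1 := by
  obtain ⟨c, hc, hct⟩ := exists_tBox (F := F) (P := P) (k := k) (f := f) ⟨b, hb⟩
  obtain ⟨m₁, h1, _, h2⟩ := hval b hb
  obtain ⟨m₂, h3, h4, h5⟩ := hval c hc
  rw [← hct]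
  exact tEnd_close hL hM hcut hE hG (hS b hb) (hS c hc) h4 (hup b hb c hc) (hsz b hb c hc) h2 h5
    h1 h3

/-! ### the row sum of (alpha) -/





end Crest.Agent.R4C.TEndx129
end

-- ▼ part R4C/Beta_7
section

/-!
# Row 4, leaf S6-4 (β): the smallest differing high prime is the first unexplained letter (helper7)

Note 3463 (L)(2)(β), 3229 (2)(ii).

* `x1 y c f` : the first letter `> y` of `c` unexplained by the centre `f` (`q ∣ c`, `q ∣ den f`);
  `x1_eq`, `x1_upp` (depends only on the letters above `y`).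
* **`beta_core`** : same point `s f - s' f' + h = 0`, `x ∣ s'`, words equal on `(y, x)`, `f` a centre of
  `b = g s` at a cut `X ≥ x` whose `k0` has only primes `≤ y`, `x` not explained: `x = x1 y c f'`.
* **`beta_rule`**, `beta_pair` (`KCb` language) : unkilled pair, `f` tree centre of the member `b`
  missing `x` at an index `m` with the block of `x` active: `x = x1 y c f'` or `Alt F P m b f x`;
  `beta_pair'` : if moreover the depth is `≤` the threshold: `x = x1 y c f'` or a deeper centre of a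
  larger scale is used (class (H)).
* `RowUp F x b c` : pure above `x`, `b` misses `x`, `c` contains it; `rowRel_iff`, `rowUp_congr`,
  `rowUp_of_good`, `rowUp_hi`, `rowRel_hi` (words above a cut, twists removed).
* `boostK F α α'`, **`setW_boost`** : the boosted pure kernel satisfies 899's `SetW` with the constant
  `28 N + 16 N'` (from `Row2_7`).
* `tw_row`, `tw_row'`, `x1_row` : twisted weights `Σ_{κ ∈ KK z} a x (κ z)`, `Σ_κ 1[ξ (κ z) = x]`.
-/

set_option autoImplicit false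

namespace Crest.Agent.R4C.Betax7

open Finset
open Crest.Agent.R4C.FLDefx935 Crest.Agent.R4C.BoostCx972 Crest.Agent.R4C.CrCoinx935
  Crest.Agent.R4C.CrCountx935 Crest.Agent.R4C.Bridgex882
  Crest.Agent.R4C.S7cx14 Crest.Agent.R4C.S7dx14 Crest.Agent.R4C.Chainx81
  Crest.Agent.R4C.Cutx50 Crest.Agent.R4C.Pairx14 Crest.Agent.R4C.PairRx14
  Crest.Agent.R4C.Basex935 Crest.Agent.R4C.PureL2x232 Crest.Agent.R4C.Row2x7
  Crest.Agent.R4C.LowLx899

/-! ### the first unexplained letter -/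

/-- first letter `> y` of `c` unexplained by `f` -/
noncomputable def x1 (y c : ℕ) (f : ℚ) : ℕ := sInf {q | q.Prime ∧ y < q ∧ q ∣ c ∧ q ∣ f.den}

lemma x1_eq {y c x : ℕ} {f : ℚ} (hx : x.Prime) (hyx : y < x) (hxc : x ∣ c) (hxf : x ∣ f.den)
    (hmin : ∀ q, q.Prime → y < q → q < x → q ∣ c → ¬ q ∣ f.den) : x1 y c f = x := by
  have hmem : x ∈ {q | q.Prime ∧ y < q ∧ q ∣ c ∧ q ∣ f.den} := ⟨hx, hyx, hxc, hxf⟩
  refine le_antisymm (Nat.sInf_le hmem) ?_
  have h := Nat.sInf_mem ⟨x, hmem⟩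
  by_contra hcon
  exact hmin _ h.1 h.2.1 (not_le.1 hcon) h.2.2.1 h.2.2.2

lemma dvd_iff_fact {b q : ℕ} (hb : b ≠ 0) (hq : q.Prime) : q ∣ b ↔ 0 < b.factorization q := by
  constructor
  · exact fun h => hq.factorization_pos_of_dvd hb h
  · intro h
    by_contra hc
    rw [Nat.factorization_eq_zero_of_not_dvd hc] at h
    omega

lemma dvd_upp_iff {V b q : ℕ} (hb : b ≠ 0) (hq : q.Prime) (hV : V < q) : q ∣ upp V b ↔ q ∣ b := by
  rw [dvd_iff_fact (upp_pos V b).ne' hq, dvd_iff_fact hb hq, fact_upp, if_pos (by omega)]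

lemma x1_upp {V y c : ℕ} (hV : V ≤ y) (hc : c ≠ 0) (f : ℚ) : x1 y (upp V c) f = x1 y c f := by
  unfold x1
  congr 1
  ext q
  constructor
  · rintro ⟨h1, h2, h3, h4⟩
    exact ⟨h1, h2, (dvd_upp_iff hc h1 (by omega)).1 h3, h4⟩
  · rintro ⟨h1, h2, h3, h4⟩
    exact ⟨h1, h2, (dvd_upp_iff hc h1 (by omega)).2 h3, h4⟩

/-! ### (β) -/

/-- the denominators of two centres of one point -/
lemma den_dvd_of_gap {s s' : ℕ} {h : ℤ} {f f' : ℚ} (hs' : 0 < s') (h0 : gap f f' s s' h = 0) :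
    f'.den ∣ s' * f.den := by
  have hs0 : (s' : ℚ) ≠ 0 := by exact_mod_cast hs'.ne'
  have hd : (f.den : ℚ) ≠ 0 := by exact_mod_cast f.den_pos.ne'
  have e : f' = ((s * f.num + h * f.den : ℤ) : ℚ) / (((s' * f.den : ℕ) : ℤ) : ℚ) := by
    have h1 : (f : ℚ) = f.num / f.den := (Rat.num_div_den f).symm
    unfold gap at h0
    have h2 : (s' : ℚ) * f' = s * f + h := by linarith
    have h3 : f' = (s * f + h) / s' := by
      rw [← h2]; field_simp
    rw [h3]
    nth_rewrite 1 [h1]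
    push_cast
    field_simp
  have h1 := Rat.den_dvd (s * f.num + h * f.den) ((s' * f.den : ℕ) : ℤ)
  rw [Rat.divInt_eq_div, ← e] at h1
  exact_mod_cast h1

variable {M : ℕ} {F : FL M}

/-- **(β)**, arithmetic form -/
theorem beta_core {g s s' X x y : ℕ} {h : ℤ} {f f' : ℚ} (hM : 0 < M) (hb : g * s ∣ M)
    (hc : g * s' ∣ M) (hcop : Nat.Coprime s s') (h0 : gap f f' s s' h = 0) (hx : x.Prime)
    (hyx : y < x) (hxs : x ∣ s')
    (heq : ∀ q, q.Prime → y < q → q < x → (g * s).factorization q = (g * s').factorization q)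
    (hk : ∀ q, q.Prime → q ∣ Rulex945.k0 F X (g * s) f → q ≤ y) (hxX : x ≤ X)
    (hne : ¬ x ∣ alC (g * s') (g * s) f' f) : x1 y (g * s') f' = x := by
  have hg0 : g * s ≠ 0 := (Nat.pos_of_dvd_of_pos hb hM).ne'
  have hg0' : g * s' ≠ 0 := (Nat.pos_of_dvd_of_pos hc hM).ne'
  have hg : 0 < g := Nat.pos_of_ne_zero fun h => hg0 (by rw [h, zero_mul])
  have hs : 0 < s := Nat.pos_of_ne_zero fun h => hg0 (by rw [h, mul_zero])
  have hs' : 0 < s' := Nat.pos_of_ne_zero fun h => hg0' (by rw [h, mul_zero])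
  have hxd : x ∣ f'.den := by
    by_contra hcon
    exact hne (dvd_al_of_dvd hg hs hcop hx hxs hcon)
  refine x1_eq hx hyx (hxs.mul_left g) hxd ?_
  intro q hq hyq hqx _ hqd
  have h1 : ¬ q ∣ s' := by
    intro hqs
    have e := heq q hq hyq hqx
    rw [Nat.factorization_mul hg.ne' hs.ne', Nat.factorization_mul hg.ne' hs'.ne',
      Finsupp.add_apply, Finsupp.add_apply] at e
    have h2 := (dvd_iff_fact hs'.ne' hq).1 hqs
    have h3 : q ∣ s := (dvd_iff_fact hs.ne' hq).2 (by omega)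
    have h4 := Nat.dvd_gcd h3 hqs
    rw [hcop.gcd_eq_one] at h4
    exact hq.one_lt.ne' (Nat.dvd_one.1 h4)
  have h2 : q ∣ s' * f.den := hqd.trans (den_dvd_of_gap hs' h0)
  have h3 : q ∣ f.den := ((hq.dvd_mul).1 h2).resolve_left h1
  rcases (hq.dvd_mul).1 (h3.trans (Rulex945.isC_k0 (F := F) X (g * s) f).2) with h4 | h4
  · have := hk q hq h4
    omega
  · have := (FL.prime_dvd_lam hM hb hq h4).1
    omega

section rule

variable {P : Rulex945.Par}

/-- **(β)** over the rule -/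
theorem beta_rule (hL : 0 < P.L) (hM : 0 < M) (hN : (M : ℝ) / P.L ≤ P.N)
    (hE : ∀ m, P.m0 ≤ m → 2 * P.E m ^ 3 < 2 ^ m) {g s s' m x y : ℕ} {h : ℤ} {f f' : ℚ}
    (hb : g * s ∣ M) (hc : g * s' ∣ M) (hcop : Nat.Coprime s s') (h0 : gap f f' s s' h = 0)
    (hm : P.m0 ≤ m) (hT : Rulex945.TC F P m (g * s) f) (hact : P.Y (P.blk x) ≤ P.cut m)
    (hx : x.Prime) (hxm : x ≤ P.cut m) (hyx : y < x) (hxs : x ∣ s')
    (heq : ∀ q, q.Prime → y < q → q < x → (g * s).factorization q = (g * s').factorization q)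
    (hk : ∀ q, q.Prime → q ∣ Rulex945.k0 F (P.cut m) (g * s) f → q ≤ y)
    (hu : ¬ killedL (Rulex945.lamR F P) (g * s) (g * s') s s' h) :
    x1 y (g * s') f' = x ∨ Alt F P m (g * s) f x := by
  have hg0 : g * s ≠ 0 := (Nat.pos_of_dvd_of_pos hb hM).ne'
  have hg0' : g * s' ≠ 0 := (Nat.pos_of_dvd_of_pos hc hM).ne'
  have hg : 0 < g := Nat.pos_of_ne_zero fun h => hg0 (by rw [h, zero_mul])
  have hs : 0 < s := Nat.pos_of_ne_zero fun h => hg0 (by rw [h, mul_zero])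
  have hs' : 0 < s' := Nat.pos_of_ne_zero fun h => hg0' (by rw [h, mul_zero])
  by_cases hal : x ∣ alC (g * s') (g * s) f' f
  · exact Or.inr (alt_left hL hM hN hE hb hm hT hact hx hg hs hs' hcop h0 hu hal)
  · exact Or.inl (beta_core hM hb hc hcop h0 hx hyx hxs heq hk hxm hal)

/-- `x` divides the cofactor of `c` iff `c` has more letters `x` -/
lemma dvd_cof {b c x : ℕ} (hb : b ≠ 0) (hc : c ≠ 0) (hx : x.Prime)
    (hlt : b.factorization x < c.factorization x) : x ∣ c / Nat.gcd b c := by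
  have hg : 0 < Nat.gcd b c := Nat.gcd_pos_of_pos_left _ (Nat.pos_of_ne_zero hb)
  have h1 : c / Nat.gcd b c ≠ 0 := by
    have := Nat.div_pos (Nat.le_of_dvd (Nat.pos_of_ne_zero hc) (Nat.gcd_dvd_right b c)) hg
    omega
  rw [dvd_iff_fact h1 hx, Nat.factorization_div (Nat.gcd_dvd_right b c), Finsupp.tsub_apply,
    Nat.factorization_gcd hb hc, Finsupp.inf_apply]
  omega

/-- **(β)** in the language of `KCb` -/
theorem beta_pair (hL : 0 < P.L) (hM : 0 < M) (hN : (M : ℝ) / P.L ≤ P.N)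
    (hE : ∀ m, P.m0 ≤ m → 2 * P.E m ^ 3 < 2 ^ m) {b c m x y : ℕ} {h : ℤ} {f f' : ℚ}
    (hb : b ∣ M) (hc : c ∣ M) (h0 : gap f f' (b / Nat.gcd b c) (c / Nat.gcd b c) h = 0)
    (hm : P.m0 ≤ m) (hT : Rulex945.TC F P m b f) (hact : P.Y (P.blk x) ≤ P.cut m)
    (hx : x.Prime) (hxm : x ≤ P.cut m) (hyx : y < x)
    (hlt : b.factorization x < c.factorization x)
    (heq : ∀ q, q.Prime → y < q → q < x → b.factorization q = c.factorization q)
    (hk : ∀ q, q.Prime → q ∣ Rulex945.k0 F (P.cut m) b f → q ≤ y)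
    (hu : ¬ killedB (Rulex945.lamR F P) b c h) : x1 y c f' = x ∨ Alt F P m b f x := by
  have hb0 : 0 < b := Nat.pos_of_dvd_of_pos hb hM
  have hc0 : 0 < c := Nat.pos_of_dvd_of_pos hc hM
  have hg : 0 < Nat.gcd b c := Nat.gcd_pos_of_pos_left _ hb0
  have e1 : Nat.gcd b c * (b / Nat.gcd b c) = b := Nat.mul_div_cancel' (Nat.gcd_dvd_left _ _)
  have e2 : Nat.gcd b c * (c / Nat.gcd b c) = c := Nat.mul_div_cancel' (Nat.gcd_dvd_right _ _)
  have hcop : Nat.Coprime (b / Nat.gcd b c) (c / Nat.gcd b c) :=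
    Nat.coprime_div_gcd_div_gcd hg
  have := beta_rule (F := F) (P := P) (g := Nat.gcd b c) (s := b / Nat.gcd b c)
    (s' := c / Nat.gcd b c) (m := m) (x := x) (y := y) (h := h) (f := f) (f' := f') hL hM hN hE
    (by rw [e1]; exact hb) (by rw [e2]; exact hc) hcop h0 hm (by rw [e1]; exact hT) hact hx hxm
    hyx (dvd_cof hb0.ne' hc0.ne' hx hlt) (by rw [e1, e2]; exact heq) (by rw [e1]; exact hk)
    (by rw [e1, e2]; exact fun hh => hu (Rulex945.killedB_iff.2 hh))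
  rw [e1, e2] at this
  exact this

/-- **(β)** with an eligible centre: the first unexplained letter, or class (H) at `x` -/
theorem beta_pair' (hL : 0 < P.L) (hM : 0 < M) (hN : (M : ℝ) / P.L ≤ P.N)
    (hE : ∀ m, P.m0 ≤ m → 2 * P.E m ^ 3 < 2 ^ m) {b c m x y : ℕ} {h : ℤ} {f f' : ℚ}
    (hb : b ∣ M) (hc : c ∣ M) (h0 : gap f f' (b / Nat.gcd b c) (c / Nat.gcd b c) h = 0)
    (hm : P.m0 ≤ m) (hT : Rulex945.TC F P m b f) (hact : P.Y (P.blk x) ≤ P.cut m)
    (hx : x.Prime) (hxm : x ≤ P.cut m) (hyx : y < x)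
    (hlt : b.factorization x < c.factorization x)
    (heq : ∀ q, q.Prime → y < q → q < x → b.factorization q = c.factorization q)
    (hk : ∀ q, q.Prime → q ∣ Rulex945.k0 F (P.cut m) b f → q ≤ y)
    (hu : ¬ killedB (Rulex945.lamR F P) b c h)
    (hd : Rulex945.dep F P m b f ≤ P.thr b (P.blk x)) :
    x1 y c f' = x ∨ ∃ (m₂ : ℕ) (f₂ : ℚ), m < m₂ ∧ f ≠ f₂ ∧ Rulex945.TC F P m₂ b f₂ ∧
      Rulex945.dep F P m₂ b f₂ ≤ P.thr b (P.blk x) ∧ Rulex945.Fc F P b x = some f₂ ∧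
      P.Y (P.blk x) ≤ P.cut m₂ := by
  rcases beta_pair hL hM hN hE hb hc h0 hm hT hact hx hxm hyx hlt heq hk hu with h1 | h1 | h1
  · exact Or.inl h1
  · exact absurd hd (not_le.2 h1)
  · exact Or.inr h1

/-- the same point read from the other side -/
lemma gap_swap {b c : ℕ} {f f' : ℚ} {h : ℤ}
    (h0 : gap f f' (b / Nat.gcd b c) (c / Nat.gcd b c) h = 0) :
    gap f' f (c / Nat.gcd c b) (b / Nat.gcd c b) (-h) = 0 := by
  rw [Nat.gcd_comm c b]
  exact gap_symm h0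

lemma killedB_symm {lam : ℕ → ℕ → Option ℤ} {b c : ℕ} {h : ℤ} (hk : ¬ killedB lam b c h) :
    ¬ killedB lam c b (-h) := by
  intro h1
  apply hk
  rw [Rulex945.killedB_iff] at h1 ⊢
  rw [Nat.gcd_comm c b] at h1
  rcases h1 with ⟨p, hp, hd, a, ha, h2⟩ | ⟨p, hp, hd, a, ha, h2⟩
  · refine Or.inr ⟨p, hp, hd, a, ha, ?_⟩
    have e : h + ((c / Nat.gcd b c : ℕ) : ℤ) * a = -(-h - ((c / Nat.gcd b c : ℕ) : ℤ) * a) := by
      ring
    rw [e]; exact (dvd_neg).2 h2
  · refine Or.inl ⟨p, hp, hd, a, ha, ?_⟩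
    have e : h - ((b / Nat.gcd b c : ℕ) : ℤ) * a = -(-h + ((b / Nat.gcd b c : ℕ) : ℤ) * a) := by
      ring
    rw [e]; exact (dvd_neg).2 h2

end rule

/-! ### pure above `x` -/







/-! ### the boosted pure kernel -/










/-! ### twisted weights -/


lemma tw_le {KK : ℕ → Finset ℕ} {a : ℕ → ℕ → ℝ} {A N : ℝ} {x z : ℕ} (hA : 0 ≤ A)
    (hcard : ((KK z).card : ℝ) ≤ N) (ha : ∀ κ ∈ KK z, a x (κ * z) ≤ A) :
    ∑ κ ∈ KK z, a x (κ * z) ≤ N * A := by
  calc _ ≤ ∑ κ ∈ KK z, A := Finset.sum_le_sum ha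
    _ = (KK z).card * A := by rw [Finset.sum_const, nsmul_eq_mul]
    _ ≤ _ := mul_le_mul_of_nonneg_right hcard hA



end Crest.Agent.R4C.Betax7
end

-- ▼ part R4C/BoxW_899

/-!
# Row 4: the (alpha)/(beta) data of class (L) over the rule (helper899)

`HighW_899.PairW` from the landed pieces `BoxUniq_60`, `TEnd_129`, `Beta_7`, `SplitDef_945`.

* `RunP F P y r K z k f b` : `b | M` lies over the high word `z` (cut `y`), low size class `r`, and
  `(f, k)` is a run of `b` of depth `≤ K` valid at a scale `m` with `4 K² < 2^m`, `y ≤ cut m`.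
* `RunP.unique` : `(k, f)` depends only on `(z, r)`.
* `rn`, `TB`, `TB_le`, `le_TB` : the run and (up to one dyadic scale) its end.
* `TTs`, `XHs` : candidate ends / first unexplained letters over the twists `κ ∈ KK z0` and the size
  classes `r ∈ Rs`; `card_TTs`, `card_XHs : ≤ #KK z0 * #Rs`.
* `PD` : data of a pair of class (L) at the level `t` (unkilled, not in `CHvy`, low cut `Yc`);
* `pairW` : `PD` gives `PairW (hiFL hM y F) j0 P.cut ...` for the aligned primes `QQ` in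
  `(Yc, cut t]`; words `LBx_500.zz`, `upp y b = κ * zz ..`;
* `bst_le` : boost of all aligned primes `QA` above `Yc` is `≤ C * WH ...`;
* `wbd_box` : `WBd (upp y M) (WH ...) (C * N)`, `#KK * #Rs ≤ N`, for `cut m = 2^(A m)`.
-/

set_option autoImplicit false

namespace Crest.Agent.R4C.BoxWx899

open Finset Crest.Agent.R4C.Basex935 Crest.Agent.R4C.FLDefx935 Crest.Agent.R4C.Rulex945
  Crest.Agent.R4C.BoxUniqx60 Crest.Agent.R4C.TEndx129 Crest.Agent.R4C.Betax7
  Crest.Agent.R4C.HighWx899 Crest.Agent.R4C.Cutx50 Crest.Agent.R4C.BoostCx972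
  Crest.Agent.R4C.Bridgex882 Crest.Agent.R4C.Splitx945 Crest.Agent.R4C.Sharedx11
  Crest.Agent.R4C.S7dx14 Crest.Agent.R4C.LBxx500
  Crest.Agent.R4C.NonPureBlkx559 Crest.Agent.R4C.Keptx559 Crest.Agent.R4C.PureL2x232
  Crest.Agent.R4C.NonPure2x559 Crest.Agent.R4C.PairRx14

open Crest.Agent.R4C.Hclsx81 (HvK)

section runs

variable {M : ℕ} (F : FL M) (P : Par)

/-- run of a word of a box -/
structure RunP (y r : ℕ) (K : ℝ) (z k : ℕ) (f : ℚ) (b : ℕ) : Prop where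
  dvd : b ∣ M
  up : upp y b = z
  sz : Nat.log 2 (low y b) = r
  ex : ∃ m, y ≤ P.cut m ∧ 4 * K ^ 2 < 2 ^ m ∧ Valid F P k f m b ∧ dep F P m b f ≤ K

variable {F P} {y r z k k' b b' : ℕ} {K : ℝ} {f f' : ℚ}

lemma low_lt (h : Nat.log 2 (low y b) = r) : low y b < 2 ^ (r + 1) := by
  rw [← h]
  exact Nat.lt_pow_succ_log_self (by norm_num) _

lemma le_low (h : Nat.log 2 (low y b) = r) : 2 ^ r ≤ low y b := by
  rw [← h]
  exact Nat.pow_log_le_self 2 (low_pos y b).ne'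

/-- sizes of two words of a box -/
lemma size_le (hM : 0 < M) (h : RunP F P y r K z k f b) (h' : RunP F P y r K z k' f' b') :
    (b : ℝ) ≤ 2 * b' := by
  have hb0 : b ≠ 0 := (Nat.pos_of_dvd_of_pos h.dvd hM).ne'
  have hb0' : b' ≠ 0 := (Nat.pos_of_dvd_of_pos h'.dvd hM).ne'
  have e : b = low y b * z := by rw [← h.up, low_mul_upp y hb0]
  have e' : b' = low y b' * z := by rw [← h'.up, low_mul_upp y hb0']
  have h1 : low y b ≤ 2 * low y b' := by
    have h2 := low_lt h.sz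
    have h3 := le_low h'.sz
    rw [pow_succ] at h2
    omega
  have h2 : b ≤ 2 * b' := by
    rw [e, e']
    calc low y b * z ≤ 2 * low y b' * z := Nat.mul_le_mul_right _ h1
      _ = 2 * (low y b' * z) := by ring
  exact_mod_cast h2

lemma sameUp (h : RunP F P y r K z k f b) (h' : RunP F P y r K z k' f' b') : SameUp y b b' :=
  SameUp.of_upp (h.up.trans h'.up.symm)

/-- one half of the uniqueness -/
lemma k_unique_aux (hM : 0 < M) (hcut : Monotone P.cut) (hc2 : ∀ m, 2 ^ m ≤ P.cut m) (hK : 1 ≤ K)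
    {m m' : ℕ} (hb : b ∣ M) (hb' : b' ∣ M) (hS : SameUp y b b') (hy : y ≤ P.cut m')
    (hm : 4 * K ^ 2 < 2 ^ m) (hv : Valid F P k f m b) (hv' : Valid F P k' f m' b')
    (hd' : dep F P m' b' f ≤ K) (hmm : m ≤ m') : k = k' := by
  have e1 : k0 F (P.cut m') b f = k0 F (P.cut m') b' f := k0_eq (F := F) hb hb' hy hS f
  rcases k0_jump' (F := F) hM hb (hcut hmm) f with h | h
  · rw [← hv.kk, h, e1, hv'.kk]
  · exfalso
    rw [hv.kk, e1] at h
    have hk : 1 ≤ k := by rw [← hv.kk]; exact k0_pos _ _ _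
    have h1 : P.cut m + 1 ≤ k0 F (P.cut m') b' f := by
      calc P.cut m + 1 = (P.cut m + 1) * 1 := (Nat.mul_one _).symm
        _ ≤ (P.cut m + 1) * k := Nat.mul_le_mul_left _ hk
        _ ≤ _ := h
    have h2 : (k0 F (P.cut m') b' f : ℝ) ≤ K := (k0_le_dep m' b' f).trans hd'
    have h3 : ((P.cut m + 1 : ℕ) : ℝ) ≤ k0 F (P.cut m') b' f := by exact_mod_cast h1
    have h4 : ((2 ^ m : ℕ) : ℝ) ≤ P.cut m := by exact_mod_cast hc2 m
    push_cast at h3 h4
    nlinarith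

/-- **the run depends only on the high word and the size class** -/
theorem RunP.unique (hM : 0 < M) (hL : 0 < P.L) (hcut : Monotone P.cut)
    (hc2 : ∀ m, 2 ^ m ≤ P.cut m) (hK : 1 ≤ K) (h : RunP F P y r K z k f b)
    (h' : RunP F P y r K z k' f' b') : k = k' ∧ f = f' := by
  obtain ⟨m, hy, hm, hv, hd⟩ := h.ex
  obtain ⟨m', hy', hm', hv', hd'⟩ := h'.ex
  have hS := sameUp h h'
  have hf : f = f' := box_unique' hL hM hcut h.dvd h'.dvd hy hy' hS (by norm_num : (1 : ℝ) ≤ 2)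
    (size_le hM h h') (size_le hM h' h) hv.tc hv'.tc hd hd' (by linarith) (by linarith)
  subst hf
  refine ⟨?_, rfl⟩
  rcases le_total m m' with hmm | hmm
  · exact k_unique_aux hM hcut hc2 hK h.dvd h'.dvd hS hy' hm hv hv' hd' hmm
  · exact (k_unique_aux hM hcut hc2 hK h'.dvd h.dvd hS.symm hy hm' hv' hv hd hmm).symm

end runs

section box

variable {M : ℕ} (F : FL M) (P : Par) (y r : ℕ) (K : ℝ)

open Classical in
/-- the run over `(z, r)` -/
noncomputable def rn (z : ℕ) : ℕ × ℚ :=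
  if h : ∃ kf : ℕ × ℚ, ∃ b, RunP F P y r K z kf.1 kf.2 b then h.choose else (0, 0)

open Classical in
/-- the words of the box with the run -/
noncomputable def Sb (z : ℕ) : Finset ℕ :=
  M.divisors.filter (RunP F P y r K z (rn F P y r K z).1 (rn F P y r K z).2)

/-- the end of the run (minimum over the box) -/
noncomputable def TB (z : ℕ) : ℕ :=
  tBox F P (rn F P y r K z).1 (rn F P y r K z).2 (Sb F P y r K z)

variable {F P y r K} {z k b : ℕ} {f : ℚ}

lemma rn_eq (hM : 0 < M) (hL : 0 < P.L) (hcut : Monotone P.cut)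
    (hc2 : ∀ m, 2 ^ m ≤ P.cut m) (hK : 1 ≤ K) (h : RunP F P y r K z k f b) :
    rn F P y r K z = (k, f) := by
  have hex : ∃ kf : ℕ × ℚ, ∃ b, RunP F P y r K z kf.1 kf.2 b := ⟨(k, f), b, h⟩
  unfold rn
  rw [dif_pos hex]
  obtain ⟨b', hb'⟩ := hex.choose_spec
  have := hb'.unique hM hL hcut hc2 hK h
  exact Prod.ext this.1 this.2

lemma mem_Sb (hM : 0 < M) (hL : 0 < P.L) (hcut : Monotone P.cut)
    (hc2 : ∀ m, 2 ^ m ≤ P.cut m) (hK : 1 ≤ K) (h : RunP F P y r K z k f b) :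
    b ∈ Sb F P y r K z := by
  classical
  unfold Sb
  rw [mem_filter, Nat.mem_divisors, rn_eq hM hL hcut hc2 hK h]
  exact ⟨⟨h.dvd, hM.ne'⟩, h⟩

lemma TB_le (hM : 0 < M) (hL : 0 < P.L) (hcut : Monotone P.cut)
    (hc2 : ∀ m, 2 ^ m ≤ P.cut m) (hK : 1 ≤ K) (h : RunP F P y r K z k f b) :
    TB F P y r K z ≤ tEnd F P k f b := by
  have h1 := tBox_le (F := F) (P := P) (k := (rn F P y r K z).1) (f := (rn F P y r K z).2)
    (mem_Sb hM hL hcut hc2 hK h)
  unfold TB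
  rw [rn_eq hM hL hcut hc2 hK h] at h1 ⊢
  exact h1

lemma le_TB (hM : 0 < M) (hL : 0 < P.L) (hcut : Monotone P.cut) (hE : Monotone P.E)
    (hG : CutGrow P) (hN : (M : ℝ) / P.L ≤ P.N)
    (hc2 : ∀ m, 2 ^ m ≤ P.cut m) (hK : 1 ≤ K) (h : RunP F P y r K z k f b) :
    tEnd F P k f b ≤ TB F P y r K z + 1 := by
  classical
  have e := rn_eq hM hL hcut hc2 hK h
  have key : ∀ c ∈ Sb F P y r K z, RunP F P y r K z k f c := by
    intro c hc
    have := (mem_filter.1 hc).2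
    rw [e] at this
    exact this
  have h1 := le_tBox_succ (F := F) (P := P) hL hM hcut hE hG (X := y) (k := k) (f := f)
    (S := Sb F P y r K z) (fun c hc => (key c hc).dvd)
    (fun c hc c' hc' => sameUp (key c hc) (key c' hc'))
    (fun c hc c' hc' => size_le hM (key c hc) (key c' hc'))
    (fun c hc => by
      obtain ⟨m, h2, _, h4, _⟩ := (key c hc).ex
      exact ⟨m, valid_le_N hL hN hM (key c hc).dvd h4, h2, h4⟩) (mem_Sb hM hL hcut hc2 hK h)
  unfold TB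
  rw [e]
  exact h1

end box

section sets

variable {M : ℕ} (F : FL M) (P : Par) (y : ℕ) (K : ℝ) (Rs : Finset ℕ) (KK : ℕ → Finset ℕ)

/-- candidate ends of the run over `z0` -/
noncomputable def TTs (z0 : ℕ) : Finset ℕ :=
  (KK z0 ×ˢ Rs).image fun x => TB F P y x.2 K (x.1 * z0)

/-- candidate first unexplained letters over `z0` -/
noncomputable def XHs (Yc z0 : ℕ) : Finset ℕ :=
  (KK z0 ×ˢ Rs).image fun x => x1 Yc (x.1 * z0) (rn F P y x.2 K (x.1 * z0)).2

variable {F P y K Rs KK}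

lemma card_TTs (z0 : ℕ) : (TTs F P y K Rs KK z0).card ≤ (KK z0).card * Rs.card := by
  unfold TTs
  exact card_image_le.trans (card_product _ _).le

lemma card_XHs (Yc z0 : ℕ) : (XHs F P y K Rs KK Yc z0).card ≤ (KK z0).card * Rs.card := by
  unfold XHs
  exact card_image_le.trans (card_product _ _).le

lemma mem_TTs {z0 κ r : ℕ} (hκ : κ ∈ KK z0) (hr : r ∈ Rs) :
    TB F P y r K (κ * z0) ∈ TTs F P y K Rs KK z0 := by
  unfold TTs
  exact mem_image.2 ⟨(κ, r), mem_product.2 ⟨hκ, hr⟩, rfl⟩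

lemma mem_XHs {Yc z0 κ r : ℕ} (hκ : κ ∈ KK z0) (hr : r ∈ Rs) :
    x1 Yc (κ * z0) (rn F P y r K (κ * z0)).2 ∈ XHs F P y K Rs KK Yc z0 := by
  unfold XHs
  exact mem_image.2 ⟨(κ, r), mem_product.2 ⟨hκ, hr⟩, rfl⟩

end sets

section pair

variable {M : ℕ} {F : FL M} {P : Par}

/-- the depth depends on the cut only through the denominator -/
lemma dep_congr {m m' b : ℕ} {f : ℚ} (h : k0 F (P.cut m) b f = k0 F (P.cut m') b f) :
    dep F P m b f = dep F P m' b f := by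
  unfold Rulex945.dep
  rw [h]

/-- the run of a member of class (L) -/
lemma runP_of {t y : ℕ} {K : ℝ} {b : ℕ} {f : ℚ} (hb : b ∣ M) (hcut : Monotone P.cut)
    (hy : y ≤ P.cut t) (hK : 4 * K ^ 2 < 2 ^ t) (hI : Ix F P t b f) (hd : dep F P t b f ≤ K) :
    RunP F P y (Nat.log 2 (low y b)) K (upp y b) (k0 F (P.cut t) b f) f b := by
  obtain ⟨m, hm, hT, he⟩ := hI
  refine ⟨hb, rfl, rfl, m, hy.trans (hcut hm), ?_, ⟨hT, he⟩, ?_⟩
  · exact hK.trans_le (pow_le_pow_right₀ (by norm_num) hm)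
  · rw [dep_congr he]
    exact hd

/-- above the level no member of an unkilled pair outside `CHvy` is heavy -/
lemma not_hvK {w : ℕ → ℝ} {ε : ℝ} {b c t : ℕ} {h : ℤ} (hcut : Monotone P.cut) (hL : 0 < P.L)
    (hm0 : P.m0 ≤ t) (hgood : F.good (P.cut t) b c) (hal : AlLe F P b c h (P.cut (2 * t)))
    (hg : (Nat.gcd b c : ℝ) < 2 ^ (t + 1) * P.L) (hX : X1 P b c < P.cut t)
    (hn : ¬ CHvy F P w ε b c h) {e : ℕ} (he : t ≤ e) :
    ¬ HvK F w P.L (1 / ε) (2 ^ e / (2 * P.E e ^ 4)) (P.cut e) b ∧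
      ¬ HvK F w P.L (1 / ε) (2 ^ e / (2 * P.E e ^ 4)) (P.cut e) c := by
  have h1 : F.good (P.cut e) b c := FL.good_mono (hcut he) hgood
  have h2 : AlLe F P b c h (P.cut (2 * e)) := hal.mono (hcut (by omega))
  have h3 : (Nat.gcd b c : ℝ) < 2 ^ (e + 1) * P.L :=
    hg.trans_le (mul_le_mul_of_nonneg_right (pow_le_pow_right₀ (by norm_num) (by omega)) hL.le)
  have h4 : X1 P b c < P.cut e := hX.trans_le (by exact_mod_cast hcut he)
  constructor
  · intro hh
    exact hn ⟨e, hm0.trans he, h1, h2, h3, h4, Or.inl hh⟩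
  · intro hh
    exact hn ⟨e, hm0.trans he, h1, h2, h3, h4, Or.inr hh⟩

/-- one side: `b` misses the first difference `x` of the untwisted words -/
lemma side {w : ℕ → ℝ} {δ ε : ℝ} {D : ℕ → ℝ} (H : Hy F P w δ ε D) (hE : Monotone P.E)
    (hG : CutGrow P) {K : ℝ} (hK1 : 1 ≤ K) {t b c y Yc x : ℕ} {h : ℤ} {f f' : ℚ}
    {Rs Rs' : Finset ℕ} {KK KK' : ℕ → Finset ℕ} {z0 z0' κ κ' : ℕ} {Q : Finset ℕ}
    (hb : b ∣ M) (hc : c ∣ M) (h0 : gap f f' (b / Nat.gcd b c) (c / Nat.gcd b c) h = 0)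
    (hu : ¬ killedB (lamR F P) b c h) (hm0 : P.m0 ≤ t) (hy : y ≤ P.cut t) (hyY : y ≤ Yc)
    (hK : 4 * K ^ 2 < 2 ^ t) (hKY : K ≤ Yc)
    (hthr : ∀ i, P.cut t < P.Y i → K ≤ P.thr b i)
    (hIb : Ix F P t b f) (hIc : Ix F P t c f') (hdb : dep F P t b f ≤ K)
    (hdc : dep F P t c f' ≤ K) (hdE : dep F P t b f ≤ P.E t ^ 4)
    (hhv : ∀ e, t ≤ e → ¬ HvK F w P.L (1 / ε) (2 ^ e / (2 * P.E e ^ 4)) (P.cut e) b)
    (hup : upp y b = κ * z0) (hup' : upp y c = κ' * z0') (hκ : κ ∈ KK z0) (hκ' : κ' ∈ KK' z0')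
    (hr : Nat.log 2 (low y b) ∈ Rs) (hr' : Nat.log 2 (low y c) ∈ Rs')
    (hx : x.Prime) (hlt : b.factorization x < c.factorization x)
    (heq : ∀ q, q.Prime → Yc < q → q < x → b.factorization q = c.factorization q)
    (hYx : Yc < x) (hxt : P.cut t < x) (hQ : ∀ q ∈ Q, q ≤ P.cut t) :
    (∃ T ∈ TTs F P y K Rs KK z0, P.cut T < x ∧ ∀ q ∈ Q, q ≤ P.cut (T + 1)) ∨
      x ∈ XHs F P y K Rs' KK' Yc z0' := by
  have hM := H.hM
  have hL := H.hL
  have hcut := H.cut_mono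
  have hc2 := H.cut_ge
  have hN := H.hN
  have hRb := runP_of (F := F) (P := P) hb hcut hy hK hIb hdb
  have hRc := runP_of (F := F) (P := P) hc hcut hy hK hIc hdc
  rw [hup] at hRb
  rw [hup'] at hRc
  set k := k0 F (P.cut t) b f with hk
  have h1 := TB_le hM hL hcut hc2 hK1 hRb
  have h2 := le_TB hM hL hcut hE hG hN hc2 hK1 hRb
  obtain ⟨m, hm, hT, he⟩ := hIb
  have hv : Valid F P k f m b := ⟨hT, he⟩
  have hmN := valid_le_N hL hN hM hb hv
  have hvE := tEnd_spec hv hmN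
  have hme := le_tEnd hv hmN
  set e := tEnd F P k f b with hedef
  have hte : t ≤ e := hm.trans hme
  by_cases hxe : P.cut e < x
  · left
    refine ⟨_, mem_TTs hκ hr, (hcut h1).trans_lt hxe, fun q hq => ?_⟩
    exact (hQ q hq).trans (hcut (hte.trans h2))
  · right
    have hxe' : x ≤ P.cut e := not_lt.1 hxe
    have hact : P.Y (P.blk x) ≤ P.cut e := H.act e x hxe'
    have hdt : dep F P e b f = dep F P t b f := by
      have : k0 F (P.cut e) b f = k0 F (P.cut t) b f := hvE.kk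
      rw [dep_congr this]
    have hde : dep F P e b f ≤ K := hdt.le.trans hdb
    have hkk : ∀ q, q.Prime → q ∣ k0 F (P.cut e) b f → q ≤ Yc := by
      intro q _ hqd
      have h3 : q ≤ k0 F (P.cut e) b f := Nat.le_of_dvd (k0_pos _ _ _) hqd
      have h4 : (k0 F (P.cut e) b f : ℝ) ≤ Yc := ((k0_le_dep e b f).trans hde).trans hKY
      have h5 : k0 F (P.cut e) b f ≤ Yc := by exact_mod_cast h4
      exact h3.trans h5
    have hthx : K ≤ P.thr b (P.blk x) := by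
      refine hthr _ ?_
      have h3 : x ≤ P.Y (P.blk x) := Par.le_blk H.Y_mono x
      exact hxt.trans_le h3
    have hb2 := beta_pair' (F := F) (P := P) hL hM hN H.hE3 hb hc h0 (hm0.trans hte) hvE.tc hact hx
      hxe' hYx hlt heq hkk hu (hde.trans hthx)
    rcases hb2 with h3 | h3
    · have h10 := mem_XHs (F := F) (P := P) (y := y) (K := K) (Yc := Yc) (Rs := Rs') hκ' hr'
      rw [← hup'] at h10 hRc
      rw [rn_eq hM hL hcut hc2 hK1 hRc] at h10
      rw [x1_upp hyY (Nat.pos_of_dvd_of_pos hc hM).ne' f', h3] at h10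
      exact h10
    · exfalso
      have hde4 : dep F P e b f ≤ P.E e ^ 4 := by
        rw [hdt]
        exact hdE.trans (pow_le_pow_left₀ (H.E_pos t).le (hE hte) 4)
      have hdh : DH F P w ε e b f x := dh_of_alt H hb (hm0.trans hte) le_rfl hxe' hvE.tc rfl hde4
        (Or.inr h3)
      rcases hdh with h4 | h4
      · exact absurd h4 (not_lt.2 (hde.trans hthx))
      · exact hhv e hte h4

/-! ### the untwisted words -/



/-- a prime `q > p` of LP's window dividing neither denominator is not a difference -/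
lemma eq_of_top {t b c Yc q : ℕ} {f f' : ℚ} {K : ℝ} (hb : b ≠ 0) (hc : c ≠ 0)
    (hdb : dep F P t b f ≤ K) (hdc : dep F P t c f' ≤ K) (hKY : K ≤ Yc)
    (hYq : Yc < q)
    (h1 : q ∣ b / Nat.gcd b c → q ∣ k0 F (P.cut t) b f)
    (h2 : q ∣ c / Nat.gcd b c → q ∣ k0 F (P.cut t) c f') :
    b.factorization q = c.factorization q := by
  have hg : Nat.gcd b c ≠ 0 := Nat.gcd_ne_zero_left hb
  have key : ∀ {d : ℕ} {a : ℚ}, dep F P t d a ≤ K → ¬ q ∣ k0 F (P.cut t) d a := by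
    intro d a hd hqd
    have h3 : q ≤ k0 F (P.cut t) d a := Nat.le_of_dvd (k0_pos _ _ _) hqd
    have h4 : (k0 F (P.cut t) d a : ℝ) ≤ Yc := ((k0_le_dep t d a).trans hd).trans hKY
    have h5 : k0 F (P.cut t) d a ≤ Yc := by exact_mod_cast h4
    omega
  have e1 : (b / Nat.gcd b c).factorization q = 0 :=
    Nat.factorization_eq_zero_of_not_dvd fun h => key hdb (h1 h)
  have e2 : (c / Nat.gcd b c).factorization q = 0 :=
    Nat.factorization_eq_zero_of_not_dvd fun h => key hdc (h2 h)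
  have hs : b / Nat.gcd b c ≠ 0 := (Nat.div_pos (Nat.le_of_dvd (Nat.pos_of_ne_zero hb)
    (Nat.gcd_dvd_left _ _)) (Nat.pos_of_ne_zero hg)).ne'
  have hs' : c / Nat.gcd b c ≠ 0 := (Nat.div_pos (Nat.le_of_dvd (Nat.pos_of_ne_zero hc)
    (Nat.gcd_dvd_right _ _)) (Nat.pos_of_ne_zero hg)).ne'
  have e3 : b.factorization q = (Nat.gcd b c).factorization q +
      (b / Nat.gcd b c).factorization q := by
    conv_lhs => rw [← Nat.mul_div_cancel' (Nat.gcd_dvd_left b c)]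
    rw [Nat.factorization_mul hg hs]
    rfl
  have e4 : c.factorization q = (Nat.gcd b c).factorization q +
      (c / Nat.gcd b c).factorization q := by
    conv_lhs => rw [← Nat.mul_div_cancel' (Nat.gcd_dvd_right b c)]
    rw [Nat.factorization_mul hg hs']
    rfl
  rw [e3, e4, e1, e2]


/-- the common hypotheses of a pair of class (L); `K` bounds both depths, `Yc` is the low cut
(`thr ≥ K` above it) -/
structure PD (F : FL M) (P : Par) (w : ℕ → ℝ) (ε K : ℝ) (y Yc t b c : ℕ) (h : ℤ) (f f' : ℚ) :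
    Prop where
  m0 : P.m0 ≤ t
  good : F.good (P.cut t) b c
  pt : gap f f' (b / Nat.gcd b c) (c / Nat.gcd b c) h = 0
  ib : Ix F P t b f
  ic : Ix F P t c f'
  db : dep F P t b f ≤ K
  dc : dep F P t c f' ≤ K
  eb : dep F P t b f ≤ P.E t ^ 4
  ec : dep F P t c f' ≤ P.E t ^ 4
  top : ∀ r : ℕ, r.Prime → Yc < r → r ≤ P.cut t →
    (r ∣ b / Nat.gcd b c → r ∣ k0 F (P.cut t) b f) ∧
    (r ∣ c / Nat.gcd b c → r ∣ k0 F (P.cut t) c f')
  al : AlLe F P b c h (P.cut (2 * t))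
  scl : (Nat.gcd b c : ℝ) < 2 ^ (t + 1) * P.L
  near : X1 P b c < P.cut t
  yY : y ≤ Yc
  Yt : Yc ≤ P.cut t
  K1 : 1 ≤ K
  KY : K ≤ Yc
  Kt : 4 * K ^ 2 < 2 ^ t
  thb : ∀ i, (Yc : ℝ) < P.Y i → K ≤ P.thr b i
  thc : ∀ i, (Yc : ℝ) < P.Y i → K ≤ P.thr c i
  nk : ¬ killedB (lamR F P) b c h
  nh : ¬ CHvy F P w ε b c h






end pair

/-! ### the parameters `cut m = 2^(A m)`: cost -/


end Crest.Agent.R4C.BoxWx899
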