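import Crest.Agent.R4C.GWhyp_656
import Crest.Agent.R4C.PureCls_863

/-!
# Row 4, GW section: natural mass of an event of a cell (b-LAW) (helper276)

* `nu_pred`   : `∑_{u ∣ N, E u} ν_N u ≤ ∑_{S ⊆ primes of N, E (∏ S)} law S + ∑_{p ∣ N} 1/p²`.
* `nu_pred_y` : `+ 2/y` if all primes of `N` are `≥ y ≥ 1`.
* `nu_law_y`  : the hypothesis is a bound `≤ s` for the law sum.
* `nu_split`  : `ν_N (n u) = ν_{low N} n * ν_{upp N} u`.
* `cell_law`  : words `b = G * (n * u)` of a class of `PureCls_863` with fixed low part `n`.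
-/

set_option autoImplicit false

open Finset
open Crest.Agent.R4C.Basex935 Crest.Agent.R4C.Cutx50 Crest.Agent.R4C.FLDefx935
open Crest.Agent.R4C.PureL2x232 Crest.Agent.R4C.PureClsx863 Crest.Agent.R4C.GWhx656

namespace Crest.Agent.R4C.CellLawx276

open Classical in
/-- **b-LAW** -/
theorem nu_pred {N : ℕ} (hN : 0 < N) (E : ℕ → Prop) :
    ∑ u ∈ N.divisors with E u, nu N u ≤
      ∑ S ∈ N.primeFactors.powerset with E (∏ p ∈ S, p), law N.primeFactors S +
        ∑ p ∈ N.primeFactors, (1 : ℝ) / (p : ℝ) ^ 2 := by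
  have hsplit : ∑ u ∈ N.divisors with E u, nu N u ≤
      ∑ u ∈ N.divisors with (E u ∧ Squarefree u), nu N u +
        ∑ u ∈ N.divisors with ¬ Squarefree u, nu N u := by
    refine le_trans (sum_le_sum_of_subset_of_nonneg (t := (N.divisors.filter
      fun u => E u ∧ Squarefree u) ∪ (N.divisors.filter fun u => ¬ Squarefree u)) ?_
      fun b _ _ => nu_nonneg N b) ?_
    · intro u hu
      rw [mem_filter] at hu
      rw [mem_union, mem_filter, mem_filter]
      by_cases h : Squarefree u
      · exact Or.inl ⟨hu.1, hu.2, h⟩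
      · exact Or.inr ⟨hu.1, h⟩
    · rw [← sum_union_inter]
      exact le_add_of_nonneg_right (sum_nonneg fun b _ => nu_nonneg N b)
  refine hsplit.trans (add_le_add ?_ (sum_nu_nonsq hN))
  have hinj : ∀ u ∈ N.divisors.filter (fun u => E u ∧ Squarefree u),
      ∏ p ∈ u.primeFactors, p = u := fun u hu =>
    Nat.prod_primeFactors_of_squarefree (mem_filter.1 hu).2.2
  calc ∑ u ∈ N.divisors with (E u ∧ Squarefree u), nu N u
      ≤ ∑ u ∈ N.divisors with (E u ∧ Squarefree u), law N.primeFactors u.primeFactors := by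
        refine sum_le_sum fun u hu => ?_
        rw [mem_filter] at hu
        exact nu_le_law hN (Nat.dvd_of_mem_divisors hu.1) hu.2.2
    _ = ∑ S ∈ (N.divisors.filter fun u => E u ∧ Squarefree u).image Nat.primeFactors,
          law N.primeFactors S := by
        rw [sum_image]
        intro u hu v hv h
        have h' : u.primeFactors = v.primeFactors := h
        rw [← hinj u hu, ← hinj v hv, h']
    _ ≤ _ := by
        refine sum_le_sum_of_subset_of_nonneg ?_ fun S hS _ => law_nonneg fun p hp =>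
          (Nat.prime_of_mem_primeFactors hp).one_lt.le
        intro S hS
        rw [mem_image] at hS
        obtain ⟨u, hu, rfl⟩ := hS
        rw [mem_filter, mem_powerset, hinj u hu]
        have hu' := mem_filter.1 hu
        exact ⟨Nat.primeFactors_mono (Nat.dvd_of_mem_divisors hu'.1) hN.ne', hu'.2.1⟩

/-- `∑_{p ∈ P} 1/p² ≤ 2/y` for primes `> y` -/
lemma sum_sq_le {P : Finset ℕ} {y : ℕ} (hy : 1 ≤ y) (hP : ∀ p ∈ P, y < p) :
    ∑ p ∈ P, (1 : ℝ) / (p : ℝ) ^ 2 ≤ 2 / y := by
  have h1 : P ⊆ Ioo y (P.sup id + 1) := by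
    intro p hp
    rw [mem_Ioo]
    exact ⟨hP p hp, Nat.lt_succ_of_le (Finset.le_sup (f := id) hp)⟩
  calc _ ≤ ∑ i ∈ Ioo y (P.sup id + 1), ((i : ℝ) ^ 2)⁻¹ := by
        simp only [one_div]
        exact sum_le_sum_of_subset_of_nonneg h1 fun i _ _ => by positivity
    _ ≤ 2 / ((y : ℝ) + 1) := sum_Ioo_inv_sq_le _ _
    _ ≤ 2 / y := by
        have : (1 : ℝ) ≤ y := by exact_mod_cast hy
        gcongr
        linarith

open Classical in
/-- **b-LAW**, primes `> y` -/
theorem nu_pred_y {N : ℕ} (hN : 0 < N) {y : ℕ} (hy : 1 ≤ y) (hP : ∀ p ∈ N.primeFactors, y < p)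
    (E : ℕ → Prop) {s : ℝ}
    (hs : ∑ S ∈ N.primeFactors.powerset with E (∏ p ∈ S, p), law N.primeFactors S ≤ s) :
    ∑ u ∈ N.divisors with E u, nu N u ≤ s + 2 / y :=
  (nu_pred hN E).trans (add_le_add hs (sum_sq_le hy hP))

/-! ### cells: fixed low part -/

lemma prime_upp {y N p : ℕ} (hp : p ∈ (upp y N).primeFactors) : y < p := by
  rw [Nat.mem_primeFactors] at hp
  have h := hp.1.factorization_pos_of_dvd hp.2.2 hp.2.1
  rw [fact_upp] at h
  by_contra hc
  push Not at hc
  simp [hc] at h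

/-- words with a fixed part below `y` -/
lemma sum_low_fix {N : ℕ} (hN : 0 < N) (y : ℕ) {n : ℕ} (hn : n ∣ low y N) (f : ℕ → ℝ) :
    ∑ w ∈ N.divisors with low y w = n, f w = ∑ u ∈ (upp y N).divisors, f (n * u) := by
  classical
  rw [sum_filter, sum_low_upp hN y (fun w => if low y w = n then f w else 0)]
  refine sum_congr rfl fun T hT => ?_
  have hT' := Nat.dvd_of_mem_divisors hT
  rw [sum_eq_single n]
  · rw [if_pos (low_of_mul hn hT')]
  · intro n' hn' hne
    rw [if_neg]
    rw [low_of_mul (Nat.dvd_of_mem_divisors hn') hT']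
    exact hne
  · intro h
    exact absurd (Nat.mem_divisors.2 ⟨hn, (low_pos _ _).ne'⟩) h

open Classical in
/-- natural mass of an event of the cell `low y w = n` -/
theorem cell_low {N : ℕ} (hN : 0 < N) (y : ℕ) {n : ℕ} (hn : n ∣ low y N) (E : ℕ → Prop) :
    ∑ w ∈ N.divisors with (low y w = n ∧ E (upp y w)), nu N w =
      nu (low y N) n * ∑ u ∈ (upp y N).divisors with E u, nu (upp y N) u := by
  have h1 : ∑ w ∈ N.divisors with (low y w = n ∧ E (upp y w)), nu N w =
      ∑ w ∈ N.divisors with low y w = n, if E (upp y w) then nu N w else 0 := by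
    rw [← filter_filter, sum_filter (fun w => E (upp y w))]
  rw [h1, sum_low_fix hN y hn (fun w => if E (upp y w) then nu N w else 0), mul_sum, sum_filter]
  refine sum_congr rfl fun u hu => ?_
  have hu' := Nat.dvd_of_mem_divisors hu
  rw [upp_of_mul hn hu', nu_low_upp hN hn hu']



/-! ### cells of a class of `PureCls_863` -/

section cls

variable {M : ℕ} (F : FL M)






end cls

end Crest.Agent.R4C.CellLawx276
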