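import Crest.Agent.R4C.PureCls_863

/-!
# Row 4, GW section: gap nodes of a prefix world and nested cells (helper863)

* `floor_same`, `linked_cell` : a linked pair lies in one cell for `σ = 0` or `σ = 1/2`.
* `Nc`, `cell_mono` : cells at `e ∣ e'` are nested (`Q e * μ = e`).
* `mesh` : `μ = e₁ / ⌊e₁ / (2L)⌋`, `2L ≤ μ ≤ 3L`, `μ * Q = e` for `e₁ ∣ e`.
* `lev L e` = `m` with `2^m L ≤ e < 2^(m+1) L`.
* `Gap cut L G w e` : `e = G * low (cut (lev e)) w` (gap node of the word `w`);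
  `gap_nested`, `gap_dvd`, `gap_trans`.
* `gap_of_pair` : a prefix pair with gcd `G * n`, all differing primes above the cut and
  `L ≤ e / q` for the prime factors `q` of `n` gives a gap node of both words.
-/

set_option autoImplicit false

open Finset
open Crest.Agent.R4C.Basex935 Crest.Agent.R4C.Cutx50

namespace Crest.Agent.R4C.Cellx863

/-! ### cells -/


/-- cell number -/
noncomputable def Nc (γ μ σ : ℝ) (b : ℕ) : ℤ := ⌊(b : ℝ) * γ / μ + σ⌋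

/-- rounded position of `bγ` -/
noncomputable def rp (γ μ σ : ℝ) (b : ℕ) : ℝ := ((Nc γ μ σ b : ℝ) - σ) * μ

lemma rp_le {γ μ σ : ℝ} (hμ : 0 < μ) (b : ℕ) : rp γ μ σ b ≤ b * γ := by
  unfold rp Nc
  have h := Int.floor_le ((b : ℝ) * γ / μ + σ)
  have h2 : ((⌊(b : ℝ) * γ / μ + σ⌋ : ℝ) - σ) ≤ (b : ℝ) * γ / μ := by linarith
  calc _ ≤ (b : ℝ) * γ / μ * μ := mul_le_mul_of_nonneg_right h2 hμ.le
    _ = _ := by field_simp

lemma lt_rp {γ μ σ : ℝ} (hμ : 0 < μ) (b : ℕ) : b * γ < rp γ μ σ b + μ := by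
  unfold rp Nc
  have h := Int.lt_floor_add_one ((b : ℝ) * γ / μ + σ)
  have h2 : (b : ℝ) * γ / μ < ((⌊(b : ℝ) * γ / μ + σ⌋ : ℝ) - σ) + 1 := by linarith
  calc (b : ℝ) * γ = (b : ℝ) * γ / μ * μ := by field_simp
    _ < (((⌊(b : ℝ) * γ / μ + σ⌋ : ℝ) - σ) + 1) * μ := mul_lt_mul_of_pos_right h2 hμ
    _ = _ := by ring


/-- two words of one cell at `e`: the rounded positions agree modulo `e` -/
lemma rp_congr {γ μ σ : ℝ} {e Q b c : ℕ} (hQ : (Q : ℝ) * μ = e)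
    (h : Nc γ μ σ b ≡ Nc γ μ σ c [ZMOD Q]) :
    ∃ z : ℤ, rp γ μ σ b = rp γ μ σ c + z * e := by
  obtain ⟨z, hz⟩ := (Int.modEq_iff_dvd.1 h.symm)
  refine ⟨z, ?_⟩
  unfold rp
  have : (Nc γ μ σ b : ℝ) - (Nc γ μ σ c : ℝ) = (Q : ℝ) * z := by exact_mod_cast hz
  calc ((Nc γ μ σ b : ℝ) - σ) * μ
      = ((Nc γ μ σ c : ℝ) - σ) * μ + ((Nc γ μ σ b : ℝ) - (Nc γ μ σ c : ℝ)) * μ := by ring
    _ = ((Nc γ μ σ c : ℝ) - σ) * μ + z * ((Q : ℝ) * μ) := by rw [this]; ring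
    _ = _ := by rw [hQ]




/-! ### the mesh -/

/-- number of cells at the first node -/
noncomputable def Q1 (L : ℝ) (e₁ : ℕ) : ℕ := ⌊(e₁ : ℝ) / (2 * L)⌋₊

/-- mesh -/
noncomputable def mesh (L : ℝ) (e₁ : ℕ) : ℝ := (e₁ : ℝ) / Q1 L e₁

lemma Q1_ge {L : ℝ} {e₁ : ℕ} (hL : 0 < L) (h : 4 * L ≤ e₁) : 2 ≤ Q1 L e₁ := by
  unfold Q1
  refine Nat.le_floor ?_
  rw [le_div_iff₀ (by linarith)]
  push_cast
  linarith

lemma mesh_bounds {L : ℝ} {e₁ : ℕ} (hL : 0 < L) (h : 4 * L ≤ e₁) :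
    2 * L ≤ mesh L e₁ ∧ mesh L e₁ ≤ 3 * L := by
  have h2 := Q1_ge hL h
  have hQ : (2 : ℝ) ≤ Q1 L e₁ := by exact_mod_cast h2
  have hle : (Q1 L e₁ : ℝ) ≤ (e₁ : ℝ) / (2 * L) := Nat.floor_le (by positivity)
  have hlt : (e₁ : ℝ) / (2 * L) < Q1 L e₁ + 1 := Nat.lt_floor_add_one _
  rw [le_div_iff₀ (by linarith)] at hle
  rw [div_lt_iff₀ (by linarith)] at hlt
  unfold mesh
  constructor
  · rw [le_div_iff₀ (by linarith)]; linarith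
  · rw [div_le_iff₀ (by linarith)]; nlinarith

lemma mesh_pos {L : ℝ} {e₁ : ℕ} (hL : 0 < L) (h : 4 * L ≤ e₁) : 0 < mesh L e₁ := by
  have := (mesh_bounds hL h).1
  linarith

/-- number of cells at `e` -/
noncomputable def Qe (L : ℝ) (e₁ e : ℕ) : ℕ := Q1 L e₁ * (e / e₁)

lemma Qe_mul {L : ℝ} {e₁ e : ℕ} (hL : 0 < L) (h : 4 * L ≤ e₁) (hd : e₁ ∣ e) :
    (Qe L e₁ e : ℝ) * mesh L e₁ = e := by
  have h2 := Q1_ge hL h
  have hQ : (0 : ℝ) < Q1 L e₁ := by exact_mod_cast (by omega : 0 < Q1 L e₁)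
  have e1 : (e : ℝ) = (e₁ : ℝ) * ((e / e₁ : ℕ) : ℝ) := by
    exact_mod_cast (Nat.mul_div_cancel' hd).symm
  unfold Qe mesh
  push_cast
  rw [show (Q1 L e₁ : ℝ) * ((e / e₁ : ℕ) : ℝ) * ((e₁ : ℝ) / (Q1 L e₁ : ℝ)) =
    (e₁ : ℝ) * ((e / e₁ : ℕ) : ℝ) by field_simp]
  exact e1.symm

lemma Qe_dvd {L : ℝ} {e₁ e e' : ℕ} (hd : e₁ ∣ e) (h : e ∣ e') : Qe L e₁ e ∣ Qe L e₁ e' := by
  unfold Qe
  refine Nat.mul_dvd_mul_left _ ?_
  exact Nat.div_dvd_div hd h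

/-! ### levels -/






/-! ### gap nodes -/


variable {cut : ℕ → ℕ} {L : ℝ} {G w w' e e' : ℕ}







end Crest.Agent.R4C.Cellx863
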