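import Mathlib
import Crest.Agent.R4C.S2a_232

/-!
# Row 4, BLOCK S2 (note 2736): Theorem S2, mass of the rare words, density of labelled words

* `classification` : a linked coprime word is in a rare box, or special, or labelled;
* `rare_mass` : `∑ 1/(uv)` over the linked words `u,v ≤ Z` in rare boxes is `≤ 8(1+log₂Z)²/D`;
* `lab_det` : two words with the same two labels have determinant divisible by `lcm(k,k')`;
* `label_count` : number of labelled coprime words of a box.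
-/

set_option autoImplicit false

namespace Crest.Agent.R4C.Class2x992

open Crest.Agent.R4C.S2x232

/-- lower end of the dyadic box of `u` -/
def lo (u : ℕ) : ℕ := 2 ^ Nat.log 2 u


lemma lo_le {u : ℕ} (hu : 1 ≤ u) : lo u ≤ u := Nat.pow_log_le_self 2 (by omega)

lemma lt_lo (u : ℕ) : u < 2 * lo u := by
  have := Nat.lt_pow_succ_log_self (b := 2) (by norm_num) u
  unfold lo
  rw [pow_succ] at this
  omega

/-- the dyadic box of the word `(u,v)` is rare -/
def Rare (ξ ξ' t D : ℝ) (u v : ℕ) : Prop :=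
  ((boxN ξ ξ' t (lo u) (lo v)).card : ℝ) ≤ 8 * (lo u) * (lo v) / D



lemma Lab.mono {ξ K K' e e' : ℝ} {a : ℤ} {k : ℕ} (h : Lab ξ K e a k) (hK : K ≤ K') (he : e ≤ e') :
    Lab ξ K' e' a k := ⟨h.1, h.2.1, h.2.2.1.trans hK, h.2.2.2.trans he⟩


lemma sum_biUnion_le {ι α : Type*} [DecidableEq α] (s : Finset ι) (t : ι → Finset α) (f : α → ℝ)
    (hf : ∀ x, 0 ≤ f x) : ∑ x ∈ s.biUnion t, f x ≤ ∑ i ∈ s, ∑ x ∈ t i, f x := by
  classical
  induction s using Finset.induction_on with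
  | empty => simp
  | insert a s ha ih =>
    rw [Finset.biUnion_insert, Finset.sum_insert ha]
    have h1 := Finset.sum_union_inter (s₁ := t a) (s₂ := s.biUnion t) (f := f)
    have h2 : 0 ≤ ∑ x ∈ t a ∩ s.biUnion t, f x := Finset.sum_nonneg fun x _ => hf x
    linarith

/-- **mass of the rare words** -/
theorem rare_mass {D t ξ ξ' : ℝ} (hD : 0 < D) (Z : ℕ) (P : ℕ → ℕ → Prop)
    [∀ u v, Decidable (P u v)] (hP : ∀ u v, P u v → near (u * ξ - v * ξ') (1 / t) ∧ Rare ξ ξ' t D u v) :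
    ∑ u ∈ Finset.Icc 1 Z, ∑ v ∈ Finset.Icc 1 Z, (if P u v then 1 / ((u : ℝ) * v) else 0) ≤
      8 * (1 + (Nat.log 2 Z : ℝ)) ^ 2 / D := by
  classical
  set n := Nat.log 2 Z with hn
  have hbox : ∀ i j : ℕ, ∑ w ∈ (Finset.Ico (2 ^ i) (2 * 2 ^ i)) ×ˢ (Finset.Ico (2 ^ j) (2 * 2 ^ j)),
      (if P w.1 w.2 then 1 / ((w.1 : ℝ) * w.2) else 0) ≤ 8 / D := by
    intro i j
    by_cases hne : ∃ w ∈ (Finset.Ico (2 ^ i) (2 * 2 ^ i)) ×ˢ (Finset.Ico (2 ^ j) (2 * 2 ^ j)),
        P w.1 w.2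
    · obtain ⟨w0, hw0, hPw0⟩ := hne
      rw [Finset.mem_product, Finset.mem_Ico, Finset.mem_Ico] at hw0
      have e1 : lo w0.1 = 2 ^ i := by
        unfold lo
        rw [(Nat.log_eq_iff (Or.inr ⟨by norm_num, by have := hw0.1.1; have := Nat.one_le_two_pow (n := i); omega⟩)).2
          ⟨hw0.1.1, by rw [pow_succ]; omega⟩]
      have e2 : lo w0.2 = 2 ^ j := by
        unfold lo
        rw [(Nat.log_eq_iff (Or.inr ⟨by norm_num, by have := hw0.2.1; have := Nat.one_le_two_pow (n := j); omega⟩)).2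
          ⟨hw0.2.1, by rw [pow_succ]; omega⟩]
      have hR := (hP _ _ hPw0).2
      unfold Rare at hR
      rw [e1, e2] at hR
      rw [← Finset.sum_filter]
      set F := ((Finset.Ico (2 ^ i) (2 * 2 ^ i)) ×ˢ (Finset.Ico (2 ^ j) (2 * 2 ^ j))).filter
          (fun w : ℕ × ℕ => P w.1 w.2) with hF
      have hsub : F ⊆ boxN ξ ξ' t (2 ^ i) (2 ^ j) := by
        intro w hw
        rw [hF, Finset.mem_filter] at hw
        unfold boxN
        rw [Finset.mem_filter]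
        exact ⟨hw.1, (hP _ _ hw.2).1⟩
      have hUV : (0 : ℝ) < ((2 ^ i : ℕ) : ℝ) * (2 ^ j : ℕ) := by positivity
      calc ∑ w ∈ F, 1 / ((w.1 : ℝ) * w.2)
          ≤ ∑ w ∈ F, 1 / (((2 ^ i : ℕ) : ℝ) * (2 ^ j : ℕ)) := by
            refine Finset.sum_le_sum fun w hw => ?_
            rw [hF, Finset.mem_filter, Finset.mem_product, Finset.mem_Ico, Finset.mem_Ico] at hw
            apply one_div_le_one_div_of_le hUV
            have h1 : ((2 ^ i : ℕ) : ℝ) ≤ w.1 := by exact_mod_cast hw.1.1.1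
            have h2 : ((2 ^ j : ℕ) : ℝ) ≤ w.2 := by exact_mod_cast hw.1.2.1
            exact mul_le_mul h1 h2 (by positivity) (by positivity)
        _ = (F.card : ℝ) * (1 / (((2 ^ i : ℕ) : ℝ) * (2 ^ j : ℕ))) := by
            rw [Finset.sum_const, nsmul_eq_mul]
        _ ≤ (8 * ((2 ^ i : ℕ) : ℝ) * (2 ^ j : ℕ) / D) * (1 / (((2 ^ i : ℕ) : ℝ) * (2 ^ j : ℕ))) := by
            apply mul_le_mul_of_nonneg_right _ (by positivity)
            refine le_trans ?_ hR
            exact_mod_cast Finset.card_le_card hsub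
        _ = 8 / D := by field_simp
    · push Not at hne
      rw [Finset.sum_eq_zero]
      · positivity
      · intro w hw
        rw [if_neg (hne w hw)]
  -- cover the square by boxes
  have hcover : (Finset.Icc 1 Z) ×ˢ (Finset.Icc 1 Z) ⊆
      (Finset.range (n + 1) ×ˢ Finset.range (n + 1)).biUnion
        (fun ij => (Finset.Ico (2 ^ ij.1) (2 * 2 ^ ij.1)) ×ˢ (Finset.Ico (2 ^ ij.2) (2 * 2 ^ ij.2))) := by
    intro w hw
    rw [Finset.mem_product, Finset.mem_Icc, Finset.mem_Icc] at hw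
    rw [Finset.mem_biUnion]
    refine ⟨(Nat.log 2 w.1, Nat.log 2 w.2), ?_, ?_⟩
    · rw [Finset.mem_product, Finset.mem_range, Finset.mem_range]
      have h1 := Nat.log_mono_right (b := 2) hw.1.2
      have h2 := Nat.log_mono_right (b := 2) hw.2.2
      simp only
      omega
    · rw [Finset.mem_product, Finset.mem_Ico, Finset.mem_Ico]
      exact ⟨⟨lo_le hw.1.1, lt_lo _⟩, ⟨lo_le hw.2.1, lt_lo _⟩⟩
  have hnn : ∀ w : ℕ × ℕ, 0 ≤ (if P w.1 w.2 then 1 / ((w.1 : ℝ) * w.2) else 0) := by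
    intro w
    split_ifs
    · positivity
    · exact le_rfl
  calc ∑ u ∈ Finset.Icc 1 Z, ∑ v ∈ Finset.Icc 1 Z, (if P u v then 1 / ((u : ℝ) * v) else 0)
      = ∑ w ∈ (Finset.Icc 1 Z) ×ˢ (Finset.Icc 1 Z), (if P w.1 w.2 then 1 / ((w.1 : ℝ) * w.2) else 0) := by
        rw [Finset.sum_product]
    _ ≤ ∑ w ∈ (Finset.range (n + 1) ×ˢ Finset.range (n + 1)).biUnion
        (fun ij => (Finset.Ico (2 ^ ij.1) (2 * 2 ^ ij.1)) ×ˢ (Finset.Ico (2 ^ ij.2) (2 * 2 ^ ij.2))),
        (if P w.1 w.2 then 1 / ((w.1 : ℝ) * w.2) else 0) :=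
        Finset.sum_le_sum_of_subset_of_nonneg hcover (fun w _ _ => hnn w)
    _ ≤ ∑ ij ∈ Finset.range (n + 1) ×ˢ Finset.range (n + 1),
        ∑ w ∈ (Finset.Ico (2 ^ ij.1) (2 * 2 ^ ij.1)) ×ˢ (Finset.Ico (2 ^ ij.2) (2 * 2 ^ ij.2)),
        (if P w.1 w.2 then 1 / ((w.1 : ℝ) * w.2) else 0) :=
        sum_biUnion_le _ _ _ hnn
    _ ≤ ∑ ij ∈ Finset.range (n + 1) ×ˢ Finset.range (n + 1), 8 / D :=
        Finset.sum_le_sum fun ij _ => hbox ij.1 ij.2
    _ = 8 * (1 + (n : ℝ)) ^ 2 / D := by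
        rw [Finset.sum_const, Finset.card_product, Finset.card_range, nsmul_eq_mul]
        push_cast
        ring

end Crest.Agent.R4C.Class2x992
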