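import Mathlib
import Crest.Agent.R4C.Class2_992

/-!
# Row 4, BLOCK S2 (note 2736): density of the labelled words, special words along `t`

* `lab_eq` : a linked word with labels satisfies `u a k' - v a' k = m k k'`;
* `lab_det` : two words with the same two labels have determinant divisible by `lcm(k,k')`;
* `label_count` : number of labelled coprime words of a box;
* `special_double` : a special word and any other coprime word of a later scale: the product doubles;
* `special_unique`, `special_sum`.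
-/

set_option autoImplicit false

namespace Crest.Agent.R4C.Class3x992

open Crest.Agent.R4C.S2x232 Crest.Agent.R4C.Class2x992

/-! ## A. Arithmetic of the labels -/




/-! ## B. Counting spaced reals -/

lemma spaced_card {ι : Type*} (S : Finset ι) (f : ι → ℝ) {x l s : ℝ} (hs : 0 < s) (hl : 0 ≤ l)
    (h1 : ∀ i ∈ S, x ≤ f i ∧ f i ≤ x + l) (h2 : ∀ i ∈ S, ∀ j ∈ S, i ≠ j → s ≤ |f i - f j|) :
    (S.card : ℝ) ≤ 1 + l / s := by
  classical
  have hinj : Set.InjOn (fun i => ⌊(f i - x) / s⌋₊) (S : Set ι) := by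
    intro i hi j hj hij
    by_contra hne
    have h3 := h2 i hi j hj hne
    simp only at hij
    have p1 : 0 ≤ (f i - x) / s := div_nonneg (by linarith [(h1 i hi).1]) hs.le
    have p2 : 0 ≤ (f j - x) / s := div_nonneg (by linarith [(h1 j hj).1]) hs.le
    have q1 := Nat.floor_le p1
    have q2 := Nat.floor_le p2
    have q3 := Nat.lt_floor_add_one ((f i - x) / s)
    have q4 := Nat.lt_floor_add_one ((f j - x) / s)
    rw [hij] at q1 q3
    have q5 : |(f i - x) / s - (f j - x) / s| < 1 := by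
      rw [abs_lt]; constructor <;> linarith
    have q6 : (f i - x) / s - (f j - x) / s = (f i - f j) / s := by ring
    rw [q6, abs_div, abs_of_pos hs, div_lt_one hs] at q5
    linarith
  have hmap : S.image (fun i => ⌊(f i - x) / s⌋₊) ⊆ Finset.range (⌊l / s⌋₊ + 1) := by
    intro n hn
    obtain ⟨i, hi, rfl⟩ := Finset.mem_image.1 hn
    rw [Finset.mem_range, Nat.lt_succ_iff]
    apply Nat.floor_le_floor
    apply div_le_div_of_nonneg_right _ hs.le
    linarith [(h1 i hi).2]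
  have hc : S.card ≤ ⌊l / s⌋₊ + 1 := by
    rw [← Finset.card_image_of_injOn hinj]
    exact (Finset.card_le_card hmap).trans (by rw [Finset.card_range])
  have : (S.card : ℝ) ≤ (⌊l / s⌋₊ : ℝ) + 1 := by exact_mod_cast hc
  have h3 := Nat.floor_le (div_nonneg hl hs.le)
  linarith

/-! ## C. Density of the labelled words -/

/-- the slope inequality behind the count, in the variable `u/v` -/
theorem det_count (S : Finset (ℕ × ℕ)) {U V : ℕ} (hV : 1 ≤ V) {K0 x l : ℝ} (hK : 0 < K0)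
    (hl : 0 ≤ l)
    (hb : ∀ w ∈ S, U ≤ w.1 ∧ w.1 < 2 * U ∧ V ≤ w.2 ∧ w.2 < 2 * V)
    (hx : ∀ w ∈ S, x ≤ (w.1 : ℝ) / w.2 ∧ (w.1 : ℝ) / w.2 ≤ x + l)
    (hd : ∀ w ∈ S, ∀ w' ∈ S, w ≠ w' → K0 ≤ |(w.1 : ℝ) * w'.2 - w'.1 * w.2|) :
    (S.card : ℝ) ≤ 1 + l * (4 * V ^ 2) / K0 := by
  have hV0 : (0 : ℝ) < V := by exact_mod_cast hV
  have h := spaced_card S (fun w => (w.1 : ℝ) / w.2) (x := x) (l := l) (s := K0 / (4 * V ^ 2))
    (by positivity) hl hx ?_
  · calc (S.card : ℝ) ≤ 1 + l / (K0 / (4 * V ^ 2)) := h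
      _ = 1 + l * (4 * V ^ 2) / K0 := by rw [div_div_eq_mul_div]
  · intro w hw w' hw' hne
    have h1 := hd w hw w' hw' hne
    have b1 := hb w hw
    have b2 := hb w' hw'
    have v1 : (0 : ℝ) < w.2 := by
      have : 1 ≤ w.2 := hV.trans b1.2.2.1
      exact_mod_cast this
    have v2 : (0 : ℝ) < w'.2 := by
      have : 1 ≤ w'.2 := hV.trans b2.2.2.1
      exact_mod_cast this
    have e1 : (w.1 : ℝ) / w.2 - (w'.1 : ℝ) / w'.2 = (w.1 * w'.2 - w'.1 * w.2) / (w.2 * w'.2) := by
      field_simp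
    rw [e1, abs_div, abs_of_pos (mul_pos v1 v2)]
    apply div_le_div₀ (abs_nonneg _) h1 (mul_pos v1 v2)
    have c1 : (w.2 : ℝ) ≤ 2 * V := by exact_mod_cast b1.2.2.2.le
    have c2 : (w'.2 : ℝ) ≤ 2 * V := by exact_mod_cast b2.2.2.2.le
    calc (w.2 : ℝ) * w'.2 ≤ (2 * V) * (2 * V) := mul_le_mul c1 c2 v2.le (by positivity)
      _ = 4 * V ^ 2 := by ring



/-! ## D. Special words along `t` -/



lemma NN.mono {ξ ξ' t t' : ℝ} {u v : ℕ} (ht : 0 < t) (htt : t ≤ t') (h : NN ξ ξ' t' u v) :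
    NN ξ ξ' t u v := by
  obtain ⟨h1, h2, m, hm⟩ := h
  exact ⟨h1, h2, m, lt_of_lt_of_le hm (one_div_le_one_div_of_le ht htt)⟩




end Crest.Agent.R4C.Class3x992
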