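import Crest.Agent.R4C.Base_935
import Crest.Agent.R4C.MStT_590

-- ▼ part R4C/MXlow_808
section

/-!
# Row 4, low half of MX (2832(A), 2960): HVW with a relation, in two exponents (helper808)

`TGen κ r Λ C` = Theorem (T) for general `M` (590's BLOCK S9 (B1)), taken as a hypothesis.

For a relation `R` between the coprime cofactors `(b/g, c/g)` of natural density `≤ τ` and
functions `0 ≤ f, f' ≤ 1` on the divisors of `M`, the pairs with `G < gcd ≤ 2 G` satisfy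

* `mxlow`      : `Σ gcd ν ν f f' 1_R ≤ 2 C τ^(1/r) G^κ (D f)^((1+κ)/2) (D f')^((1+κ)/2)`
* `mxlow_v`    : the same as `2 C τ^(1/r) G⁻¹ (v v')^((1+κ)/2)`, `v = G D f`, `v' = G D f'`
* `mxlow_two`  : two exponents `η < η'`: `(v v')^((1+η)/2)` if `v v' ≥ 1`, `(v v')^((1+η')/2)` if
  `v v' ≤ 1` (i.e. the minimum of the two)
* `mxlow_plain`: plain masses when the anatomy weight is `≤ A` on the supports.

`D f = Σ ν(b) a(b) f(b)`, `a(b) = ∏_{p ∣ b} (1 + Λ/p)`.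
-/

set_option autoImplicit false

open Finset

namespace Crest.Agent.R4C.MXlowx808

open Basex935

/-- anatomy weight -/
noncomputable def aw (Λ : ℝ) (b : ℕ) : ℝ := ∏ p ∈ b.primeFactors, (1 + Λ / (p : ℝ))

lemma aw_ge {Λ : ℝ} (hΛ : 0 ≤ Λ) (b : ℕ) : 1 ≤ aw Λ b := by
  unfold aw
  refine Finset.one_le_prod ?_
  intro p _
  have : 0 ≤ Λ / (p : ℝ) := by positivity
  linarith

lemma aw_pos {Λ : ℝ} (hΛ : 0 ≤ Λ) (b : ℕ) : 0 < aw Λ b := lt_of_lt_of_le one_pos (aw_ge hΛ b)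

/-- weighted mass -/
noncomputable def DD (Λ : ℝ) (M : ℕ) (f : ℕ → ℝ) : ℝ := ∑ b ∈ M.divisors, nu M b * aw Λ b * f b

/-- natural density of a kernel on coprime pairs -/
noncomputable def dens (M : ℕ) (K : ℕ → ℕ → ℝ) : ℝ :=
  ∑ s ∈ M.divisors, ∑ t ∈ M.divisors, if Nat.Coprime s t then nu M s * nu M t * K s t else 0

/-- THEOREM (T) for general `M` (hypothesis) -/
def TGen (κ r Λ C : ℝ) : Prop :=
  ∀ (M : ℕ) (f f' : ℕ → ℝ) (K : ℕ → ℕ → ℝ), M ≠ 0 →
    (∀ b, 0 ≤ f b) → (∀ b, 0 ≤ f' b) → (∀ s t, 0 ≤ K s t) →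
    ∑ b ∈ M.divisors, ∑ c ∈ M.divisors, nu M b * nu M c * (Nat.gcd b c : ℝ) ^ (1 - κ) *
        (f b * f' c * K (b / Nat.gcd b c) (c / Nat.gcd b c))
      ≤ C * ((DD Λ M fun b => f b ^ (2 / (1 + κ))) ^ ((1 + κ) / 2) *
          (DD Λ M fun b => f' b ^ (2 / (1 + κ))) ^ ((1 + κ) / 2)) *
        (dens M fun s t => K s t ^ r) ^ (1 / r)

lemma DD_nonneg {Λ : ℝ} (hΛ : 0 ≤ Λ) (M : ℕ) {f : ℕ → ℝ} (hf : ∀ b, 0 ≤ f b) : 0 ≤ DD Λ M f :=
  Finset.sum_nonneg fun b _ => mul_nonneg (mul_nonneg (nu_nonneg M b) (aw_pos hΛ b).le) (hf b)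

lemma DD_mono {Λ : ℝ} (hΛ : 0 ≤ Λ) (M : ℕ) {f f' : ℕ → ℝ} (h : ∀ b, f b ≤ f' b) :
    DD Λ M f ≤ DD Λ M f' :=
  Finset.sum_le_sum fun b _ =>
    mul_le_mul_of_nonneg_left (h b) (mul_nonneg (nu_nonneg M b) (aw_pos hΛ b).le)

lemma dens_nonneg (M : ℕ) {K : ℕ → ℕ → ℝ} (hK : ∀ s t, 0 ≤ K s t) : 0 ≤ dens M K := by
  unfold dens
  refine Finset.sum_nonneg fun s _ => Finset.sum_nonneg fun t _ => ?_
  split_ifs
  · exact mul_nonneg (mul_nonneg (nu_nonneg M s) (nu_nonneg M t)) (hK s t)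
  · exact le_rfl

lemma DD_pow_le {Λ κ : ℝ} (hΛ : 0 ≤ Λ) (hκ0 : 0 < κ) (hκ1 : κ < 1) (M : ℕ) {f : ℕ → ℝ}
    (hf : ∀ b, 0 ≤ f b) (hf1 : ∀ b, f b ≤ 1) :
    DD Λ M (fun b => f b ^ (2 / (1 + κ))) ≤ DD Λ M f := by
  refine DD_mono hΛ M fun b => ?_
  have hq : 1 ≤ 2 / (1 + κ) := by
    rw [le_div_iff₀ (by linarith)]
    linarith
  rcases eq_or_lt_of_le (hf b) with h0 | h0
  · rw [← h0, Real.zero_rpow (by positivity)]
  · calc f b ^ (2 / (1 + κ)) ≤ f b ^ (1 : ℝ) :=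
          Real.rpow_le_rpow_of_exponent_ge h0 (hf1 b) hq
      _ = f b := Real.rpow_one _



/-- the energy of the related pairs at the dyadic gcd scale `G` -/
noncomputable def ER (M : ℕ) (G : ℝ) (f f' : ℕ → ℝ) (K : ℕ → ℕ → ℝ) : ℝ :=
  ∑ b ∈ M.divisors, ∑ c ∈ M.divisors,
        (if G < (Nat.gcd b c : ℝ) ∧ (Nat.gcd b c : ℝ) ≤ 2 * G then
          (Nat.gcd b c : ℝ) * nu M b * nu M c *
            (f b * f' c * K (b / Nat.gcd b c) (c / Nat.gcd b c)) else 0)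



/-- plain mass -/
noncomputable def mass (M : ℕ) (f : ℕ → ℝ) : ℝ := ∑ b ∈ M.divisors, nu M b * f b

lemma DD_le_plain {Λ A : ℝ} {M : ℕ} {f : ℕ → ℝ} (hf : ∀ b, 0 ≤ f b)
    (hA : ∀ b ∈ M.divisors, f b ≠ 0 → aw Λ b ≤ A) : DD Λ M f ≤ A * mass M f := by
  unfold DD mass
  rw [Finset.mul_sum]
  refine Finset.sum_le_sum fun b hb => ?_
  by_cases h : f b = 0
  · rw [h]; simp
  · have := hA b hb h
    calc nu M b * aw Λ b * f b = aw Λ b * (nu M b * f b) := by ring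
      _ ≤ A * (nu M b * f b) :=
          mul_le_mul_of_nonneg_right this (mul_nonneg (nu_nonneg M b) (hf b))


end Crest.Agent.R4C.MXlowx808
end

-- ▼ part R4C/MStTb_590
section

/-!
# Row 4: one-prime inequality of THEOREM (T), general exponents (helper590, note 2740 (B1))

* `exists_ok` : the constants exist.
* `MT κ r Λ p a C` : the one-prime inequality with constant `C`.
* `mt_small`, `mt_large` : it holds with `1 + C₀ p^{-(1+κ)}` for large `p`, with an absolute constant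
  for every prime.
-/

set_option autoImplicit false

open Finset

namespace Crest.Agent.R4C.MStTx590

open Multix251 Basex935

variable {κ r : ℝ}

lemma exists_ok (hκ : 0 < κ) (hκ1 : κ < 1) (hr : 2 / (1 - κ) < r) :
    ∃ ε T A Lm w0 : ℝ, 0 ≤ Lm ∧ 0 < w0 ∧ w0 ≤ 1 / (2 * (Lm + 1)) ∧ 1 ≤ T ∧
      ∀ w : ℝ, 0 < w → w ≤ w0 → Ok κ r w ε T A Lm := by
  have h1 : 0 < 1 - κ := by linarith
  have hr2 : 2 < r := by
    have h2 : (2:ℝ) ≤ 2 / (1 - κ) := by
      rw [le_div_iff₀ h1]; linarith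
    linarith
  have hθ : 0 < th κ r := by
    have h2 : 1 / r < (1 - κ) / 2 := by
      have := one_div_lt_one_div_of_lt (by positivity) hr
      rw [one_div_div] at this
      exact this
    unfold th; linarith
  set ρ := (1 + κ) / 2 with hρ
  have hρ0 : 0 < ρ := by positivity
  set ε := min (1/4 : ℝ) (min ((1/8 : ℝ) ^ (1 / ρ)) (((1 + κ) / 8) ^ (1 / κ))) with hε
  have hε0 : 0 < ε := by
    rw [hε]
    refine lt_min (by norm_num) (lt_min ?_ ?_)
    · exact Real.rpow_pos_of_pos (by norm_num) _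
    · exact Real.rpow_pos_of_pos (by positivity) _
  set c := min ((1 + κ) / 64) (1 / r / 16) with hc
  have hc0 : 0 < c := lt_min (by positivity) (by positivity)
  have hc1 : c ≤ 1 := (min_le_left _ _).trans (by linarith)
  set T := c ^ (-(1 / th κ r)) with hT
  have hT1 : 1 ≤ T := Real.one_le_rpow_of_pos_of_le_one_of_nonpos hc0 hc1 (by
    have : 0 < 1 / th κ r := by positivity
    linarith)
  have hTc : T ^ (-(th κ r)) = c := by
    rw [hT, ← Real.rpow_mul hc0.le]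
    have : -(1 / th κ r) * -(th κ r) = 1 := by field_simp
    rw [this, Real.rpow_one]
  set A := ((2:ℝ) ^ (1 / r)) ^ (1 / th κ r) with hA
  have hA0 : 0 < A := by positivity
  have hA1 : A ^ (th κ r) = 2 ^ (1 / r) := by
    rw [hA, ← Real.rpow_mul (by positivity)]
    have : 1 / th κ r * th κ r = 1 := by field_simp
    rw [this, Real.rpow_one]
  set Lm := 32 * th κ r * A with hLm
  have hLm0 : 0 ≤ Lm := by positivity
  set z := min (1/32 : ℝ) (κ * ε / 8) with hz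
  have hz0 : 0 < z := lt_min (by norm_num) (by positivity)
  set w0 := min (1/2 : ℝ) (min (z ^ (1 / th κ r)) (1 / (2 * (Lm + 1)))) with hw0
  have hw00 : 0 < w0 := lt_min (by norm_num) (lt_min (by positivity) (by positivity))
  refine ⟨ε, T, A, Lm, w0, hLm0, hw00, (min_le_right _ _).trans (min_le_right _ _), hT1, ?_⟩
  intro w hw hww
  have hwz : w ^ (th κ r) ≤ z := by
    have : w ≤ z ^ (1 / th κ r) := hww.trans ((min_le_right _ _).trans (min_le_left _ _))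
    calc w ^ (th κ r) ≤ (z ^ (1 / th κ r)) ^ (th κ r) := Real.rpow_le_rpow hw.le this hθ.le
      _ = z := by
        rw [← Real.rpow_mul hz0.le]
        have : 1 / th κ r * th κ r = 1 := by field_simp
        rw [this, Real.rpow_one]
  refine ⟨hκ, hκ1, hr, hw, hww.trans (min_le_left _ _), hε0, min_le_left _ _, ?_, ?_, hT1, ?_, ?_,
    hA0, hA1, hwz.trans (min_le_left _ _), ?_, le_rfl, ?_⟩
  · calc ε ^ ((1 + κ) / 2) ≤ ((1/8 : ℝ) ^ (1 / ρ)) ^ ρ :=
          Real.rpow_le_rpow hε0.le ((min_le_right _ _).trans (min_le_left _ _)) hρ0.le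
      _ = 1/8 := by
        rw [← Real.rpow_mul (by norm_num)]
        have : 1 / ρ * ρ = 1 := by field_simp
        rw [this, Real.rpow_one]
  · calc ε ^ κ ≤ (((1 + κ) / 8) ^ (1 / κ)) ^ κ :=
          Real.rpow_le_rpow hε0.le ((min_le_right _ _).trans (min_le_right _ _)) hκ.le
      _ = (1 + κ) / 8 := by
        rw [← Real.rpow_mul (by positivity)]
        have : 1 / κ * κ = 1 := by field_simp
        rw [this, Real.rpow_one]
  · rw [hTc]
    have : c ≤ (1 + κ) / 64 := min_le_left _ _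
    linarith
  · rw [hTc]
    have : c ≤ 1 / r / 16 := min_le_right _ _
    linarith
  · have : z ≤ κ * ε / 8 := min_le_right _ _
    linarith
  · have h2 : w ≤ 1 / (2 * (Lm + 1)) := hww.trans ((min_le_right _ _).trans (min_le_right _ _))
    rw [le_div_iff₀ (by positivity)] at h2
    nlinarith

/-- anatomy factor of one prime -/
noncomputable def lam1 (Λ w : ℝ) (v : ℕ) : ℝ := if v = 0 then 1 else 1 + Λ * w

/-- the one-prime inequality -/
def MT (κ r Λ : ℝ) (p a : ℕ) (C : ℝ) : Prop :=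
  ∀ (F G : ℕ → ℝ) (K : ℕ → ℕ → ℝ), (∀ v, 0 ≤ F v) → (∀ v, 0 ≤ G v) → (∀ i j, 0 ≤ K i j) →
    ∑ v ∈ range (a + 1), ∑ v' ∈ range (a + 1),
      nup p a v * nup p a v' * ((p : ℝ) ^ (min v v')) ^ (1 - κ)
        * (F v * G v' * K (v - v') (v' - v)) ≤
    C * ((∑ v ∈ range (a + 1), nup p a v * lam1 Λ (1 / p) v * F v ^ (2 / (1 + κ))) ^ ((1 + κ) / 2)
      * (∑ v ∈ range (a + 1), nup p a v * lam1 Λ (1 / p) v * G v ^ (2 / (1 + κ))) ^ ((1 + κ) / 2)
      * (∑ i ∈ range (a + 1), ∑ j ∈ range (a + 1), nup p a i * nup p a j * K i j ^ r) ^ (1 / r))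

lemma dist_add_two_min (v v' : ℕ) : v + v' = 2 * min v v' + Nat.dist v v' := by
  unfold Nat.dist; omega

lemma expo {p : ℕ} (hp : 0 < p) (v v' : ℕ) :
    ((p : ℝ) ^ (min v v')) ^ (1 - κ) *
      (((1 / (p : ℝ)) ^ v) ^ (1 - (1 + κ) / 2) * ((1 / (p : ℝ)) ^ v') ^ (1 - (1 + κ) / 2)) =
      ((1 / (p : ℝ)) ^ (Nat.dist v v')) ^ (1 - (1 + κ) / 2) := by
  have hp0 : (0:ℝ) < p := by exact_mod_cast hp
  have e1 : ((p : ℝ) ^ (min v v')) ^ (1 - κ) = (((p : ℝ) ^ (min v v')) ^ 2) ^ (1 - (1 + κ) / 2) := by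
    rw [← Real.rpow_natCast (_ ^ _) 2, ← Real.rpow_mul (by positivity)]
    congr 1
    push_cast
    ring
  rw [e1, ← Real.mul_rpow (by positivity) (by positivity), ← Real.mul_rpow (by positivity)
    (by positivity)]
  congr 1
  have h := dist_add_two_min v v'
  rw [← pow_add, h, pow_add, ← pow_mul]
  have e2 : (p : ℝ) ^ (min v v' * 2) * (1 / (p : ℝ)) ^ (2 * min v v') = 1 := by
    rw [mul_comm 2, ← mul_pow, mul_one_div_cancel hp0.ne', one_pow]
  rw [← mul_assoc, e2, one_mul]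

lemma lam_bound {L w ρ : ℝ} (hL : 0 ≤ L) (hw : 0 < w) (hw1 : w ≤ 1 / (2 * (L + 1)))
    (hρ : 1/2 ≤ ρ) :
    (1 + (6 * L + 6) * w) ^ (-ρ) ≤ (1 - w) ^ (1 - ρ) * (1 - L * w) := by
  have hLw : 2 * (L + 1) * w ≤ 1 := by
    rw [le_div_iff₀ (by positivity)] at hw1
    linarith
  have hw2 : w ≤ 1/2 := by nlinarith
  have h1 : (1 + (6 * L + 6) * w) ^ (-ρ) ≤ 1 / (1 + (2 * L + 2) * w) := by
    have hb : 1 ≤ 1 + (6 * L + 6) * w := by nlinarith
    calc (1 + (6 * L + 6) * w) ^ (-ρ) ≤ (1 + (6 * L + 6) * w) ^ (-(1/2 : ℝ)) :=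
          Real.rpow_le_rpow_of_exponent_le hb (by linarith)
      _ = 1 / Real.sqrt (1 + (6 * L + 6) * w) := by
          rw [Real.rpow_neg (by linarith), Real.sqrt_eq_rpow, one_div ((1 + (6 * L + 6) * w) ^ _)]
      _ ≤ 1 / (1 + (2 * L + 2) * w) := by
          apply one_div_le_one_div_of_le (by nlinarith)
          apply Real.le_sqrt_of_sq_le
          have hq : 0 ≤ (L + 1) * w := by positivity
          have hq1 : (L + 1) * w ≤ 1/2 := by linarith
          nlinarith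
  have h2 : 1 - w ≤ (1 - w) ^ (1 - ρ) := by
    calc 1 - w = (1 - w) ^ (1:ℝ) := (Real.rpow_one _).symm
      _ ≤ (1 - w) ^ (1 - ρ) :=
        Real.rpow_le_rpow_of_exponent_ge (by linarith) (by linarith) (by linarith)
  have h3 : 0 ≤ 1 - L * w := by nlinarith
  refine h1.trans (le_trans ?_ (mul_le_mul_of_nonneg_right h2 h3))
  have hq : 0 ≤ (L + 1) * w := by positivity
  have hq1 : (L + 1) * w ≤ 1/2 := by linarith
  rw [div_le_iff₀ (by nlinarith)]
  have h4 : 1 - (L + 1) * w ≤ (1 - w) * (1 - L * w) := by nlinarith [mul_nonneg hL (sq_nonneg w)]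
  have h5 : 1 ≤ (1 - (L + 1) * w) * (1 + (2 * L + 2) * w) := by
    nlinarith [mul_nonneg hq (sub_nonneg.2 hq1)]
  have h6 : 0 ≤ 1 + (2 * L + 2) * w := by nlinarith
  exact h5.trans (mul_le_mul_of_nonneg_right h4 h6)

/-- one variable: `ν F = ν^{1-ρ} λ^{-ρ} (ν λ F^q)^ρ` -/
lemma one_var (hκ : 0 < κ) {n l F : ℝ} (hn : 0 < n) (hl : 0 < l) (hF : 0 ≤ F) :
    n * F = n ^ (1 - (1 + κ) / 2) * l ^ (-((1 + κ) / 2)) *
      (n * l * F ^ (2 / (1 + κ))) ^ ((1 + κ) / 2) := by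
  have hF2 : (F ^ (2 / (1 + κ))) ^ ((1 + κ) / 2) = F := by
    rw [← Real.rpow_mul hF]
    have : 2 / (1 + κ) * ((1 + κ) / 2) = 1 := by field_simp
    rw [this, Real.rpow_one]
  rw [Real.mul_rpow (by positivity) (Real.rpow_nonneg hF _), hF2, Real.mul_rpow hn.le hl.le]
  have e1 : n ^ (1 - (1 + κ) / 2) * n ^ ((1 + κ) / 2) = n := by
    rw [← Real.rpow_add hn]; simp
  have e2 : l ^ (-((1 + κ) / 2)) * l ^ ((1 + κ) / 2) = 1 := by
    rw [← Real.rpow_add hl]; simp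
  calc n * F = (n ^ (1 - (1 + κ) / 2) * n ^ ((1 + κ) / 2)) *
        (l ^ (-((1 + κ) / 2)) * l ^ ((1 + κ) / 2)) * F := by rw [e1, e2, mul_one]
    _ = _ := by ring

/-- relation variable -/
lemma rel_var {r n K : ℝ} (hr : 0 < r) (hn : 0 < n) (hK : 0 ≤ K) :
    K = n ^ (-(1 / r)) * (n * K ^ r) ^ (1 / r) := by
  have hK2 : (K ^ r) ^ (1 / r) = K := by
    rw [← Real.rpow_mul hK]
    have : r * (1 / r) = 1 := by field_simp
    rw [this, Real.rpow_one]
  rw [Real.mul_rpow hn.le (Real.rpow_nonneg hK _), hK2, ← mul_assoc, ← Real.rpow_add hn]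
  simp

lemma nup_pos {p : ℕ} (hp : 2 ≤ p) (a v : ℕ) : 0 < nup p a v := by
  have hp0 : (0:ℝ) < p := by exact_mod_cast (by omega : 0 < p)
  have h1 : (1:ℝ) / p ≤ 1 / 2 := one_div_le_one_div_of_le two_pos (by exact_mod_cast hp)
  unfold nup
  split_ifs
  · have : (0:ℝ) < 1 - 1 / p := by linarith
    positivity
  · positivity

/-- the pointwise estimate, with a free majorant `μ` of `ν^{1-ρ} λ^{-ρ} w^{-v(1-ρ)}` -/
lemma term_le (hκ : 0 < κ) (hκ1 : κ < 1) (hr : 0 < r) {Λ : ℝ} (hΛ : 0 ≤ Λ) {p a : ℕ} (hp : 2 ≤ p)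
    {μ : ℕ → ℝ} (hμ0 : ∀ v, 0 ≤ μ v)
    (hμ : ∀ v ∈ range (a + 1), (nup p a v) ^ (1 - (1 + κ) / 2) *
      (lam1 Λ (1 / p) v) ^ (-((1 + κ) / 2)) ≤ ((1 / (p : ℝ)) ^ v) ^ (1 - (1 + κ) / 2) * μ v)
    {F G : ℕ → ℝ} {K : ℕ → ℕ → ℝ} (hF : ∀ v, 0 ≤ F v) (hG : ∀ v, 0 ≤ G v) (hK : ∀ i j, 0 ≤ K i j)
    {NF NG NK : ℝ} (hNF : 0 < NF) (hNG : 0 < NG) (hNK : 0 < NK)
    {v v' : ℕ} (hv : v ∈ range (a + 1)) (hv' : v' ∈ range (a + 1)) :
    nup p a v * nup p a v' * ((p : ℝ) ^ (min v v')) ^ (1 - κ)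
        * (F v * G v' * K (v - v') (v' - v)) ≤
    (NF ^ ((1 + κ) / 2) * NG ^ ((1 + κ) / 2) * NK ^ (1 / r)) *
      ((1 - 1 / (p : ℝ)) ^ (-(2 * (1 / r))) *
      (μ v * μ v' * (((1 / (p : ℝ)) ^ (th κ r)) ^ (Nat.dist v v') *
        ((nup p a v * lam1 Λ (1 / p) v * F v ^ (2 / (1 + κ))) / NF *
          ((nup p a v' * lam1 Λ (1 / p) v' * G v' ^ (2 / (1 + κ))) / NG)) ^ ((1 + κ) / 2)) *
        ((nup p a (v - v') * nup p a (v' - v) * K (v - v') (v' - v) ^ r) / NK) ^ (1 / r))) := by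
  have hp0 : (0:ℝ) < p := by exact_mod_cast (by omega : 0 < p)
  have hw1 : (1:ℝ) / p ≤ 1 / 2 := one_div_le_one_div_of_le two_pos (by exact_mod_cast hp)
  have hw0 : (0:ℝ) < 1 / p := by positivity
  have hnp := nup_pos hp a
  have hlam : ∀ v, 0 < lam1 Λ (1 / (p:ℝ)) v := by
    intro v
    unfold lam1
    split_ifs
    · norm_num
    · positivity
  set ρ := (1 + κ) / 2 with hρ
  set w := 1 / (p : ℝ) with hw
  set θ := th κ r with hθ
  set α := nup p a v * lam1 Λ w v * F v ^ (2 / (1 + κ)) with hα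
  set β := nup p a v' * lam1 Λ w v' * G v' ^ (2 / (1 + κ)) with hβ
  set γ := nup p a (v - v') * nup p a (v' - v) * K (v - v') (v' - v) ^ r with hγ
  set n := nup p a (v - v') * nup p a (v' - v) with hn
  have hn0 : 0 < n := mul_pos (hnp _) (hnp _)
  have hα0 : 0 ≤ α := mul_nonneg (mul_nonneg (hnp v).le (hlam v).le) (Real.rpow_nonneg (hF v) _)
  have hβ0 : 0 ≤ β := mul_nonneg (mul_nonneg (hnp v').le (hlam v').le) (Real.rpow_nonneg (hG v') _)
  have hγ0 : 0 ≤ γ := mul_nonneg hn0.le (Real.rpow_nonneg (hK _ _) _)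
  have e1 := one_var hκ (hnp v) (hlam v) (hF v)
  have e2 := one_var hκ (hnp v') (hlam v') (hG v')
  have e3 := rel_var hr hn0 (hK (v - v') (v' - v))
  rw [← hρ, ← hα] at e1
  rw [← hρ, ← hβ] at e2
  rw [← hγ] at e3
  -- bound of n^{-1/r}
  have hnle : n ^ (-(1 / r)) ≤ (1 - w) ^ (-(2 * (1 / r))) * (w ^ (Nat.dist v v')) ^ (-(1 / r)) := by
    have hvr := mem_range.1 hv
    have hvr' := mem_range.1 hv'
    have h1 : (1 - w) * w ^ (v - v') ≤ nup p a (v - v') := nup_ge (by omega) a _ (by omega)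
    have h2 : (1 - w) * w ^ (v' - v) ≤ nup p a (v' - v) := nup_ge (by omega) a _ (by omega)
    have hw1' : 0 < 1 - w := by linarith
    have h3 : (1 - w) ^ (2:ℝ) * w ^ (Nat.dist v v') ≤ n := by
      calc (1 - w) ^ (2:ℝ) * w ^ (Nat.dist v v')
          = ((1 - w) * w ^ (v - v')) * ((1 - w) * w ^ (v' - v)) := by
            have e5 : Nat.dist v v' = (v - v') + (v' - v) := rfl
            rw [e5, pow_add, Real.rpow_two]; ring
        _ ≤ _ := mul_le_mul h1 h2 (by positivity) (hnp _).le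
    calc n ^ (-(1 / r)) ≤ ((1 - w) ^ (2:ℝ) * w ^ (Nat.dist v v')) ^ (-(1 / r)) :=
          Real.rpow_le_rpow_of_nonpos (by positivity) h3 (by
            have : 0 < 1 / r := by positivity
            linarith)
      _ = _ := by
          rw [Real.mul_rpow (by positivity) (by positivity), ← Real.rpow_mul hw1'.le]
          congr 2
          ring
  have hsplit : ∀ z N : ℝ, 0 ≤ z → 0 < N → z ^ ρ = N ^ ρ * (z / N) ^ ρ := by
    intro z N hz hN
    rw [← Real.mul_rpow hN.le (by positivity)]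
    congr 1
    field_simp
  have hsplit2 : γ ^ (1 / r) = NK ^ (1 / r) * (γ / NK) ^ (1 / r) := by
    rw [← Real.mul_rpow hNK.le (by positivity)]
    congr 1
    field_simp
  have hx0 : 0 ≤ α / NF := by positivity
  have hy0 : 0 ≤ β / NG := by positivity
  have hk0 : 0 ≤ γ / NK := by positivity
  have hgk : 0 ≤ ((p : ℝ) ^ (min v v')) ^ (1 - κ) := by positivity
  -- assemble
  have A1 : nup p a v * F v ≤ (w ^ v) ^ (1 - ρ) * μ v * (NF ^ ρ * (α / NF) ^ ρ) := by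
    rw [e1, hsplit α NF hα0 hNF]
    exact mul_le_mul_of_nonneg_right (hμ v hv) (by positivity)
  have A2 : nup p a v' * G v' ≤ (w ^ v') ^ (1 - ρ) * μ v' * (NG ^ ρ * (β / NG) ^ ρ) := by
    rw [e2, hsplit β NG hβ0 hNG]
    exact mul_le_mul_of_nonneg_right (hμ v' hv') (by positivity)
  have A3 : K (v - v') (v' - v) ≤ ((1 - w) ^ (-(2 * (1 / r))) *
      (w ^ (Nat.dist v v')) ^ (-(1 / r))) * (NK ^ (1 / r) * (γ / NK) ^ (1 / r)) := by
    rw [e3, hsplit2]
    exact mul_le_mul_of_nonneg_right hnle (by positivity)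
  have hμv := hμ0 v
  have hμv' := hμ0 v'
  have B1 : 0 ≤ (w ^ v) ^ (1 - ρ) * μ v * (NF ^ ρ * (α / NF) ^ ρ) := by positivity
  have B2 : 0 ≤ (w ^ v') ^ (1 - ρ) * μ v' * (NG ^ ρ * (β / NG) ^ ρ) := by positivity
  have hexp := expo (κ := κ) (by omega : 0 < p) v v'
  rw [← hw, ← hρ] at hexp
  have hpow : (w ^ (Nat.dist v v')) ^ (1 - ρ) * (w ^ (Nat.dist v v')) ^ (-(1 / r)) =
      (w ^ θ) ^ (Nat.dist v v') := by
    rw [omega_pow hw0.le, ← Real.rpow_add (by positivity)]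
    congr 1
    rw [hθ, hρ]
    unfold th
    ring
  calc nup p a v * nup p a v' * ((p : ℝ) ^ (min v v')) ^ (1 - κ)
        * (F v * G v' * K (v - v') (v' - v))
      = ((p : ℝ) ^ (min v v')) ^ (1 - κ) * ((nup p a v * F v) * (nup p a v' * G v')
          * K (v - v') (v' - v)) := by ring
    _ ≤ ((p : ℝ) ^ (min v v')) ^ (1 - κ) *
          (((w ^ v) ^ (1 - ρ) * μ v * (NF ^ ρ * (α / NF) ^ ρ)) *
          ((w ^ v') ^ (1 - ρ) * μ v' * (NG ^ ρ * (β / NG) ^ ρ)) *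
          (((1 - w) ^ (-(2 * (1 / r))) * (w ^ (Nat.dist v v')) ^ (-(1 / r))) *
            (NK ^ (1 / r) * (γ / NK) ^ (1 / r)))) := by
        refine mul_le_mul_of_nonneg_left ?_ hgk
        refine mul_le_mul (mul_le_mul A1 A2 ?_ B1) A3 (hK _ _) (mul_nonneg B1 B2)
        exact mul_nonneg (hnp _).le (hG _)
    _ = (((p : ℝ) ^ (min v v')) ^ (1 - κ) * ((w ^ v) ^ (1 - ρ) * (w ^ v') ^ (1 - ρ))) *
          (w ^ (Nat.dist v v')) ^ (-(1 / r)) * (NF ^ ρ * NG ^ ρ * NK ^ (1 / r)) *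
          ((1 - w) ^ (-(2 * (1 / r))) * (μ v * μ v' * ((α / NF) ^ ρ * (β / NG) ^ ρ) *
            (γ / NK) ^ (1 / r))) := by ring
    _ = _ := by
        rw [hexp, hpow, Real.mul_rpow hx0 hy0]
        ring

/-- the norms dominate: normalised shares -/
lemma MT_of {Λ : ℝ} (hκ : 0 < κ) (hκ1 : κ < 1) (hr : 0 < r) (hΛ : 0 ≤ Λ) {p a : ℕ} (hp : 2 ≤ p)
    {μ : ℕ → ℝ} (hμ0 : ∀ v, 0 ≤ μ v)
    (hμ : ∀ v ∈ range (a + 1), (nup p a v) ^ (1 - (1 + κ) / 2) *
      (lam1 Λ (1 / p) v) ^ (-((1 + κ) / 2)) ≤ ((1 / (p : ℝ)) ^ v) ^ (1 - (1 + κ) / 2) * μ v)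
    {C : ℝ} (hC : 0 ≤ C)
    (hcore : ∀ (x y : ℕ → ℝ) (k : ℕ → ℕ → ℝ), (∀ v, 0 ≤ x v) → (∀ v, 0 ≤ y v) →
      ∑ v ∈ range (a + 1), x v ≤ 1 → ∑ v ∈ range (a + 1), y v ≤ 1 → (∀ i j, 0 ≤ k i j) →
      k 0 0 + ∑ d ∈ Icc 1 a, (k d 0 + k 0 d) ≤ 1 →
      (1 - 1 / (p : ℝ)) ^ (-(2 * (1 / r))) *
        LL ((1 + κ) / 2) (1 / r) ((1 / (p : ℝ)) ^ (th κ r)) (range (a + 1)) μ x y k ≤ C) :
    MT κ r Λ p a C := by
  intro F G K hF hG hK
  have hp0 : (0:ℝ) < p := by exact_mod_cast (by omega : 0 < p)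
  have hnp := nup_pos hp a
  have hlam : ∀ v, 0 < lam1 Λ (1 / (p:ℝ)) v := by
    intro v
    unfold lam1
    split_ifs
    · norm_num
    · positivity
  set NF := ∑ v ∈ range (a + 1), nup p a v * lam1 Λ (1 / p) v * F v ^ (2 / (1 + κ)) with hNF
  set NG := ∑ v ∈ range (a + 1), nup p a v * lam1 Λ (1 / p) v * G v ^ (2 / (1 + κ)) with hNG
  set NK := ∑ i ∈ range (a + 1), ∑ j ∈ range (a + 1), nup p a i * nup p a j * K i j ^ r with hNK
  have tF : ∀ v, 0 ≤ nup p a v * lam1 Λ (1 / p) v * F v ^ (2 / (1 + κ)) := fun v =>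
    mul_nonneg (mul_nonneg (hnp v).le (hlam v).le) (Real.rpow_nonneg (hF v) _)
  have tG : ∀ v, 0 ≤ nup p a v * lam1 Λ (1 / p) v * G v ^ (2 / (1 + κ)) := fun v =>
    mul_nonneg (mul_nonneg (hnp v).le (hlam v).le) (Real.rpow_nonneg (hG v) _)
  have tK : ∀ i j, 0 ≤ nup p a i * nup p a j * K i j ^ r := fun i j =>
    mul_nonneg (mul_nonneg (hnp i).le (hnp j).le) (Real.rpow_nonneg (hK i j) _)
  have nF : 0 ≤ NF := sum_nonneg fun v _ => tF v
  have nG : 0 ≤ NG := sum_nonneg fun v _ => tG v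
  have nK : 0 ≤ NK := sum_nonneg fun i _ => sum_nonneg fun j _ => tK i j
  have hRHS : 0 ≤ C * (NF ^ ((1 + κ) / 2) * NG ^ ((1 + κ) / 2) * NK ^ (1 / r)) := by positivity
  have hq : (2 / (1 + κ)) ≠ 0 := by positivity
  -- degenerate cases
  rcases nF.eq_or_lt with z | pF
  · have hz : ∀ v ∈ range (a + 1), F v = 0 := by
      intro v hv
      have h1 := (sum_eq_zero_iff_of_nonneg (fun v _ => tF v)).1 z.symm v hv
      have h2 : F v ^ (2 / (1 + κ)) = 0 := by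
        rcases mul_eq_zero.1 h1 with h3 | h3
        · exact absurd h3 (mul_pos (hnp v) (hlam v)).ne'
        · exact h3
      exact (Real.rpow_eq_zero (hF v) hq).1 h2
    rw [sum_eq_zero]
    · exact hRHS
    · intro v hv
      refine sum_eq_zero fun v' _ => ?_
      rw [hz v hv]; ring
  rcases nG.eq_or_lt with z | pG
  · have hz : ∀ v ∈ range (a + 1), G v = 0 := by
      intro v hv
      have h1 := (sum_eq_zero_iff_of_nonneg (fun v _ => tG v)).1 z.symm v hv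
      have h2 : G v ^ (2 / (1 + κ)) = 0 := by
        rcases mul_eq_zero.1 h1 with h3 | h3
        · exact absurd h3 (mul_pos (hnp v) (hlam v)).ne'
        · exact h3
      exact (Real.rpow_eq_zero (hG v) hq).1 h2
    rw [sum_eq_zero]
    · exact hRHS
    · intro v hv
      refine sum_eq_zero fun v' hv' => ?_
      rw [hz v' hv']; ring
  rcases nK.eq_or_lt with z | pK
  · have hz : ∀ i ∈ range (a + 1), ∀ j ∈ range (a + 1), K i j = 0 := by
      intro i hi j hj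
      have h0 := (sum_eq_zero_iff_of_nonneg (fun i _ => sum_nonneg fun j _ => tK i j)).1 z.symm i hi
      have h1 := (sum_eq_zero_iff_of_nonneg (fun j _ => tK i j)).1 h0 j hj
      have h2 : K i j ^ r = 0 := by
        rcases mul_eq_zero.1 h1 with h3 | h3
        · exact absurd h3 (mul_pos (hnp i) (hnp j)).ne'
        · exact h3
      exact (Real.rpow_eq_zero (hK i j) hr.ne').1 h2
    rw [sum_eq_zero]
    · exact hRHS
    · intro v hv
      refine sum_eq_zero fun v' hv' => ?_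
      rw [mem_range] at hv hv'
      rw [hz (v - v') (mem_range.2 (by omega)) (v' - v) (mem_range.2 (by omega))]; ring
  -- main case
  set x : ℕ → ℝ := fun v => (nup p a v * lam1 Λ (1 / p) v * F v ^ (2 / (1 + κ))) / NF with hx
  set y : ℕ → ℝ := fun v => (nup p a v * lam1 Λ (1 / p) v * G v ^ (2 / (1 + κ))) / NG with hy
  set k : ℕ → ℕ → ℝ := fun i j => (nup p a i * nup p a j * K i j ^ r) / NK with hk
  have hx0 : ∀ v, 0 ≤ x v := fun v => div_nonneg (tF v) nF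
  have hy0 : ∀ v, 0 ≤ y v := fun v => div_nonneg (tG v) nG
  have hk0 : ∀ i j, 0 ≤ k i j := fun i j => div_nonneg (tK i j) nK
  have hx1 : ∑ v ∈ range (a + 1), x v ≤ 1 := by
    rw [hx, ← sum_div, ← hNF, div_self pF.ne']
  have hy1 : ∑ v ∈ range (a + 1), y v ≤ 1 := by
    rw [hy, ← sum_div, ← hNG, div_self pG.ne']
  have hk1 : k 0 0 + ∑ d ∈ Icc 1 a, (k d 0 + k 0 d) ≤ 1 := by
    have e1 : ∑ i ∈ range (a + 1), ∑ j ∈ range (a + 1), k i j = 1 := by
      rw [hk]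
      simp_rw [← sum_div]
      rw [← hNK, div_self pK.ne']
    have e2 : range (a + 1) = insert 0 (Icc 1 a) := by
      ext i
      rw [mem_range, mem_insert, mem_Icc]
      omega
    have h0 : (0:ℕ) ∉ Icc 1 a := by rw [mem_Icc]; omega
    rw [e2, sum_insert h0, sum_insert h0] at e1
    have e3 : ∑ i ∈ Icc 1 a, k i 0 ≤ ∑ i ∈ Icc 1 a, ∑ j ∈ insert 0 (Icc 1 a), k i j := by
      refine sum_le_sum fun i _ => ?_
      exact single_le_sum (f := fun j => k i j) (fun j _ => hk0 i j) (mem_insert_self _ _)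
    rw [sum_add_distrib]
    linarith
  have hc := hcore x y k hx0 hy0 hx1 hy1 hk0 hk1
  have hN : 0 ≤ NF ^ ((1 + κ) / 2) * NG ^ ((1 + κ) / 2) * NK ^ (1 / r) := by positivity
  calc ∑ v ∈ range (a + 1), ∑ v' ∈ range (a + 1),
        nup p a v * nup p a v' * ((p : ℝ) ^ (min v v')) ^ (1 - κ)
          * (F v * G v' * K (v - v') (v' - v))
      ≤ ∑ v ∈ range (a + 1), ∑ v' ∈ range (a + 1),
        (NF ^ ((1 + κ) / 2) * NG ^ ((1 + κ) / 2) * NK ^ (1 / r)) *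
        ((1 - 1 / (p : ℝ)) ^ (-(2 * (1 / r))) *
        (μ v * μ v' * (((1 / (p : ℝ)) ^ (th κ r)) ^ (Nat.dist v v') *
          (x v * y v') ^ ((1 + κ) / 2)) * (k (v - v') (v' - v)) ^ (1 / r))) :=
        sum_le_sum fun v hv => sum_le_sum fun v' hv' =>
          term_le hκ hκ1 hr hΛ hp hμ0 hμ hF hG hK pF pG pK hv hv'
    _ = (NF ^ ((1 + κ) / 2) * NG ^ ((1 + κ) / 2) * NK ^ (1 / r)) *
        ((1 - 1 / (p : ℝ)) ^ (-(2 * (1 / r))) *
        LL ((1 + κ) / 2) (1 / r) ((1 / (p : ℝ)) ^ (th κ r)) (range (a + 1)) μ x y k) := by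
        unfold LL
        simp_rw [mul_sum]
    _ ≤ (NF ^ ((1 + κ) / 2) * NG ^ ((1 + κ) / 2) * NK ^ (1 / r)) * C :=
        mul_le_mul_of_nonneg_left hc hN
    _ = _ := by ring

lemma LL_scale {ρ e ω c : ℝ} {s : Finset ℕ} {μ x y : ℕ → ℝ} {k : ℕ → ℕ → ℝ} :
    LL ρ e ω s (fun v => c * μ v) x y k = c * c * LL ρ e ω s μ x y k := by
  unfold LL
  rw [mul_sum]
  refine sum_congr rfl fun v _ => ?_
  rw [mul_sum]
  exact sum_congr rfl fun v' _ => by ring

/-- **one-prime inequality, large primes** -/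
theorem mt_small (hκ : 0 < κ) (hκ1 : κ < 1) (hr : 2 / (1 - κ) < r) :
    ∃ Λ C0 w0 : ℝ, 0 ≤ Λ ∧ 0 ≤ C0 ∧ 0 < w0 ∧ ∀ p a : ℕ, 2 ≤ p → 0 < a → 1 / (p : ℝ) ≤ w0 →
      MT κ r Λ p a (1 + C0 * (1 / (p : ℝ)) ^ (1 + κ)) := by
  obtain ⟨ε, T, A, Lm, w0, hLm, hw0, hw0', hT, hok⟩ := exists_ok hκ hκ1 hr
  refine ⟨6 * Lm + 6, 4 + 3 * T ^ 2 + 2 * T ^ (1 + κ), w0, by positivity, by positivity, hw0, ?_⟩
  intro p a hp ha hpw
  have hp0 : (0:ℝ) < p := by exact_mod_cast (by omega : 0 < p)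
  have hw : (0:ℝ) < 1 / p := by positivity
  have h := hok (1 / (p : ℝ)) hw hpw
  have hw2 := h.w1
  have hr0 : 0 < r := by linarith [h.r0]
  have hρ : (1:ℝ)/2 ≤ (1 + κ) / 2 := by linarith
  have h1w : 0 < 1 - 1 / (p:ℝ) := by linarith
  have hL1 : 0 ≤ 1 - Lm * (1 / (p:ℝ)) := by linarith [h.L2]
  set μ' : ℕ → ℝ := fun v => if v = 0 then 1 else 1 - Lm * (1 / (p:ℝ)) with hμ'
  have hμ'0 : ∀ v, 0 ≤ μ' v := by
    intro v
    simp only [hμ']
    split_ifs
    · norm_num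
    · exact hL1
  have hμ'1 : ∀ v, μ' v ≤ 1 := by
    intro v
    simp only [hμ']
    split_ifs
    · exact le_rfl
    · have : 0 ≤ Lm * (1 / (p:ℝ)) := by positivity
      linarith
  refine MT_of hκ hκ1 hr0 (by positivity) hp
    (μ := fun v => (1 - 1 / (p:ℝ)) ^ (1 - (1 + κ) / 2) * μ' v)
    (fun v => mul_nonneg (Real.rpow_nonneg h1w.le _) (hμ'0 v)) ?_ (by positivity) ?_
  · intro v hv
    rw [mem_range] at hv
    by_cases hv0 : v = 0
    · subst hv0
      have e1 : nup p a 0 = 1 - 1 / (p:ℝ) := by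
        unfold nup
        rw [if_pos ha]; simp
      rw [e1]
      simp [lam1, hμ']
    · have e1 : lam1 (6 * Lm + 6) (1 / (p:ℝ)) v = 1 + (6 * Lm + 6) * (1 / (p:ℝ)) := by
        unfold lam1; rw [if_neg hv0]
      have e2 : μ' v = 1 - Lm * (1 / (p:ℝ)) := by simp only [hμ']; rw [if_neg hv0]
      rw [e1, e2]
      refine mul_le_mul ?_ (lam_bound hLm hw (hpw.trans hw0') hρ) (by positivity) (by positivity)
      exact Real.rpow_le_rpow (nup_pos hp a v).le (nup_le (by omega) a v (by omega)) (by linarith)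
  · intro x y k hx hy hx1 hy1 hk hk1
    rw [LL_scale]
    have hc := core h (s := range (a + 1)) (N := a) (le_refl _) (μ := μ') (x := x) (y := y) (k := k)
      (fun v _ => ⟨hμ'0 v, hμ'1 v⟩) (fun v _ hv0 => by simp only [hμ']; rw [if_neg hv0]) hx hy hx1
      hy1 hk hk1
    refine le_trans (le_of_eq ?_) hc
    rw [← mul_assoc]
    congr 1
    rw [← Real.rpow_add h1w, ← Real.rpow_add h1w]
    congr 1
    unfold th
    ring

lemma geomS {ω : ℝ} (h0 : 0 ≤ ω) (h1 : ω < 1) (t : Finset ℕ) (v : ℕ) :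
    ∑ v' ∈ t, ω ^ (Nat.dist v v') ≤ 2 / (1 - ω) := by
  have hs : Summable (fun j : ℕ => ω ^ j) := summable_geometric_of_lt_one h0 h1
  have e : ∑ v' ∈ t, ω ^ (Nat.dist v v') =
      ∑ v' ∈ t.filter (fun v' => v ≤ v'), ω ^ (Nat.dist v v') +
      ∑ v' ∈ t.filter (fun v' => ¬ v ≤ v'), ω ^ (Nat.dist v v') :=
    (sum_filter_add_sum_filter_not t _ _).symm
  have r1 : ∑ v' ∈ t.filter (fun v' => v ≤ v'), ω ^ (Nat.dist v v') ≤ (1 - ω)⁻¹ := by
    rw [← tsum_geometric_of_lt_one h0 h1]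
    calc ∑ v' ∈ t.filter (fun v' => v ≤ v'), ω ^ (Nat.dist v v')
        = ∑ j ∈ (t.filter (fun v' => v ≤ v')).image (fun v' => v' - v), ω ^ j := by
          rw [sum_image]
          · refine sum_congr rfl fun v' hv' => ?_
            rw [mem_filter] at hv'
            rw [Nat.dist_eq_sub_of_le hv'.2]
          · intro a ha b hb hab
            rw [mem_coe, mem_filter] at ha hb
            simp only at hab
            omega
      _ ≤ _ := hs.sum_le_tsum _ (fun j _ => by positivity)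
  have r2 : ∑ v' ∈ t.filter (fun v' => ¬ v ≤ v'), ω ^ (Nat.dist v v') ≤ (1 - ω)⁻¹ := by
    rw [← tsum_geometric_of_lt_one h0 h1]
    calc ∑ v' ∈ t.filter (fun v' => ¬ v ≤ v'), ω ^ (Nat.dist v v')
        = ∑ j ∈ (t.filter (fun v' => ¬ v ≤ v')).image (fun v' => v - v'), ω ^ j := by
          rw [sum_image]
          · refine sum_congr rfl fun v' hv' => ?_
            rw [mem_filter] at hv'
            rw [Nat.dist_eq_sub_of_le_right (by omega)]
          · intro a ha b hb hab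
            rw [mem_coe, mem_filter] at ha hb
            simp only at hab
            omega
      _ ≤ _ := hs.sum_le_tsum _ (fun j _ => by positivity)
  rw [e]
  calc _ ≤ (1 - ω)⁻¹ + (1 - ω)⁻¹ := add_le_add r1 r2
    _ = 2 / (1 - ω) := by ring

lemma dsum_le {ρ ω : ℝ} (h0 : 0 ≤ ω) (h1 : ω < 1) (hρ : 1/2 ≤ ρ) (s : Finset ℕ) (x y : ℕ → ℝ)
    (hx : ∀ v, 0 ≤ x v) (hy : ∀ v, 0 ≤ y v) (hx1 : ∑ v ∈ s, x v ≤ 1) (hy1 : ∑ v ∈ s, y v ≤ 1) :
    ∑ v ∈ s, ∑ v' ∈ s, ω ^ (Nat.dist v v') * (x v * y v') ^ ρ ≤ 2 / (1 - ω) := by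
  have sx := pow_sum_le' hρ zero_le_one s x hx hx1
  have sy := pow_sum_le' hρ zero_le_one s y hy hy1
  rw [Real.one_rpow] at sx sy
  have hS : 0 ≤ 2 / (1 - ω) := div_nonneg two_pos.le (by linarith)
  calc ∑ v ∈ s, ∑ v' ∈ s, ω ^ (Nat.dist v v') * (x v * y v') ^ ρ
      ≤ ∑ v ∈ s, ∑ v' ∈ s, (ω ^ (Nat.dist v v') * (x v ^ (2 * ρ) / 2)
          + ω ^ (Nat.dist v v') * (y v' ^ (2 * ρ) / 2)) := by
        refine sum_le_sum fun v _ => sum_le_sum fun v' _ => ?_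
        rw [← mul_add]
        refine mul_le_mul_of_nonneg_left ?_ (by positivity)
        have := amgm (κ := ρ) (hx v) (hy v')
        linarith
    _ = ∑ v ∈ s, (∑ v' ∈ s, ω ^ (Nat.dist v v')) * (x v ^ (2 * ρ) / 2)
        + ∑ v' ∈ s, (∑ v ∈ s, ω ^ (Nat.dist v' v)) * (y v' ^ (2 * ρ) / 2) := by
        simp_rw [sum_add_distrib, sum_mul]
        congr 1
        rw [sum_comm]
        refine sum_congr rfl fun v' _ => sum_congr rfl fun v _ => ?_
        rw [Nat.dist_comm]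
    _ ≤ ∑ v ∈ s, (2 / (1 - ω)) * (x v ^ (2 * ρ) / 2)
        + ∑ v' ∈ s, (2 / (1 - ω)) * (y v' ^ (2 * ρ) / 2) := by
        refine add_le_add (sum_le_sum fun v _ => ?_) (sum_le_sum fun v _ => ?_)
        · refine mul_le_mul_of_nonneg_right (geomS h0 h1 s v) ?_
          have := Real.rpow_nonneg (hx v) (2 * ρ)
          positivity
        · refine mul_le_mul_of_nonneg_right (geomS h0 h1 s v) ?_
          have := Real.rpow_nonneg (hy v) (2 * ρ)
          positivity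
    _ = (2 / (1 - ω)) * ((∑ v ∈ s, x v ^ (2 * ρ) + ∑ v ∈ s, y v ^ (2 * ρ)) / 2) := by
        rw [← mul_sum, ← mul_sum, ← sum_div, ← sum_div]; ring
    _ ≤ (2 / (1 - ω)) * 1 := mul_le_mul_of_nonneg_left (by linarith) hS
    _ = _ := mul_one _

/-- **one-prime inequality, every prime**, constant independent of the exponent -/
theorem mt_large (hκ : 0 < κ) (hκ1 : κ < 1) (hr : 2 / (1 - κ) < r) {Λ : ℝ} (hΛ : 0 ≤ Λ) {p a : ℕ}
    (hp : 2 ≤ p) : MT κ r Λ p a (4 / (1 - (1/2 : ℝ) ^ (th κ r))) := by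
  have h1 : 0 < 1 - κ := by linarith
  have hr2 : 2 < r := by
    have h2 : (2:ℝ) ≤ 2 / (1 - κ) := by
      rw [le_div_iff₀ h1]; linarith
    linarith
  have hθ : 0 < th κ r := by
    have h2 : 1 / r < (1 - κ) / 2 := by
      have := one_div_lt_one_div_of_lt (by positivity) hr
      rw [one_div_div] at this
      exact this
    unfold th; linarith
  have hp0 : (0:ℝ) < p := by exact_mod_cast (by omega : 0 < p)
  have hw : (0:ℝ) < 1 / p := by positivity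
  have hw1 : (1:ℝ) / p ≤ 1 / 2 := one_div_le_one_div_of_le two_pos (by exact_mod_cast hp)
  have h1w : 0 < 1 - 1 / (p:ℝ) := by linarith
  have he : 0 < 1 / r := by positivity
  have he1 : 1 / r ≤ 1 / 2 := one_div_le_one_div_of_le two_pos hr2.le
  have hhalf : (1/2 : ℝ) ^ (th κ r) < 1 := Real.rpow_lt_one (by norm_num) (by norm_num) hθ
  have hω1 : (1 / (p:ℝ)) ^ (th κ r) ≤ (1/2 : ℝ) ^ (th κ r) := Real.rpow_le_rpow hw.le hw1 hθ.le
  have hω0 : 0 ≤ (1 / (p:ℝ)) ^ (th κ r) := Real.rpow_nonneg hw.le _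
  refine MT_of hκ hκ1 (by linarith) hΛ hp (μ := fun _ => 1) (fun _ => zero_le_one) ?_
    (div_nonneg (by norm_num) (by linarith)) ?_
  · intro v hv
    rw [mem_range] at hv
    refine mul_le_mul ?_ ?_ ?_ (by positivity)
    · exact Real.rpow_le_rpow (nup_pos hp a v).le (nup_le (by omega) a v (by omega)) (by linarith)
    · refine Real.rpow_le_one_of_one_le_of_nonpos ?_ (by linarith)
      unfold lam1
      split_ifs
      · exact le_rfl
      · have : 0 ≤ Λ * (1 / (p:ℝ)) := by positivity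
        linarith
    · refine Real.rpow_nonneg ?_ _
      unfold lam1
      split_ifs
      · norm_num
      · positivity
  · intro x y k hx hy hx1 hy1 hk hk1
    have hk2 := k_le_one hk hk1 (s := range (a + 1)) (le_refl _)
    have hc := LL_crude (ρ := (1 + κ) / 2) he.le hω0 (s := range (a + 1)) (μ := fun _ => 1)
      (x := x) (y := y) (k := k) (fun _ _ => ⟨zero_le_one, le_rfl⟩) hx hy hk2
    rw [← dc] at hc
    have hd := dsum_le (ρ := (1 + κ) / 2) hω0 (lt_of_le_of_lt hω1 hhalf) (by linarith)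
      (range (a + 1)) x y hx hy hx1 hy1
    have hpre : (1 - 1 / (p : ℝ)) ^ (-(2 * (1 / r))) ≤ 2 := by
      calc (1 - 1 / (p : ℝ)) ^ (-(2 * (1 / r))) ≤ (1/2 : ℝ) ^ (-(2 * (1 / r))) :=
            Real.rpow_le_rpow_of_nonpos (by norm_num) (by linarith) (by linarith)
        _ = 2 ^ (2 * (1 / r)) := by
            rw [show (1/2 : ℝ) = 2⁻¹ by norm_num, Real.inv_rpow two_pos.le, Real.rpow_neg two_pos.le,
              inv_inv]
        _ ≤ 2 ^ (1:ℝ) := Real.rpow_le_rpow_of_exponent_le (by norm_num) (by linarith)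
        _ = 2 := Real.rpow_one 2
    have hden : 2 / (1 - (1 / (p:ℝ)) ^ (th κ r)) ≤ 2 / (1 - (1/2 : ℝ) ^ (th κ r)) :=
      div_le_div_of_nonneg_left (by norm_num) (by linarith) (by linarith)
    have hLL := hc.trans (hd.trans hden)
    have hpre0 : 0 ≤ (1 - 1 / (p : ℝ)) ^ (-(2 * (1 / r))) := Real.rpow_nonneg h1w.le _
    have h2 : 0 ≤ 2 / (1 - (1/2 : ℝ) ^ (th κ r)) := div_nonneg (by norm_num) (by linarith)
    calc (1 - 1 / (p : ℝ)) ^ (-(2 * (1 / r))) *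
          LL ((1 + κ) / 2) (1 / r) ((1 / (p : ℝ)) ^ (th κ r)) (range (a + 1)) (fun _ => 1) x y k
        ≤ (1 - 1 / (p : ℝ)) ^ (-(2 * (1 / r))) * (2 / (1 - (1/2 : ℝ) ^ (th κ r))) :=
          mul_le_mul_of_nonneg_left hLL hpre0
      _ ≤ 2 * (2 / (1 - (1/2 : ℝ) ^ (th κ r))) := mul_le_mul_of_nonneg_right hpre h2
      _ = _ := by ring

end Crest.Agent.R4C.MStTx590
end

-- ▼ part R4C/TGen_590
section

/-!
# Row 4: THEOREM (T) / (REL*) for ARBITRARY M (helper590; notes 2368 (helper124), 2740 (B1))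

Words = divisors of `M`, exact law `nu M b = φ(M/b)/M` (`Base_935`), anatomy weight
`an Λ b = ∏_{p ∣ b} (1 + Λ/p)` (one factor per prime, whatever the exponent).

* `thmT_gen`   : exact-gcd bilinear inequality with an `L^r` relation weight.
* `relstar_gen`: COROLLARY (REL*): all pairs with `gcd ≤ Y`, weight `gcd`.
* `relset_gen` : the same for sets `B, B'` and a relation `R`.
-/

set_option autoImplicit false

open Finset

namespace Crest.Agent.R4C.TGenx590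

open Basex935 MStTx590

variable {κ r : ℝ}

/-- anatomy weight -/
noncomputable def an (Λ : ℝ) (b : ℕ) : ℝ := ∏ p ∈ b.primeFactors, (1 + Λ / p)

/-- the bilinear form of THEOREM (T) -/
noncomputable def tform (κ : ℝ) (M : ℕ) (f g : ℕ → ℝ) (K : ℕ → ℕ → ℝ) : ℝ :=
  ∑ b ∈ M.divisors, ∑ c ∈ M.divisors, nu M b * nu M c * ((Nat.gcd b c : ℕ) : ℝ) ^ (1 - κ) *
    (f b * g c * K (b / Nat.gcd b c) (c / Nat.gcd b c))

/-- `‖f‖^q` -/
noncomputable def nf (κ Λ : ℝ) (M : ℕ) (f : ℕ → ℝ) : ℝ :=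
  ∑ b ∈ M.divisors, nu M b * an Λ b * f b ^ (2 / (1 + κ))

/-- `‖K‖^r` -/
noncomputable def nK (r : ℝ) (M : ℕ) (K : ℕ → ℕ → ℝ) : ℝ :=
  ∑ s ∈ M.divisors, ∑ t ∈ M.divisors, nu M s * nu M t * K s t ^ r

lemma an_nonneg {Λ : ℝ} (hΛ : 0 ≤ Λ) (b : ℕ) : 0 ≤ an Λ b :=
  prod_nonneg fun p _ => by positivity


lemma an_split {Λ : ℝ} {p : ℕ} (hp : p.Prime) (v : ℕ) {b : ℕ} (hb : ¬ p ∣ b) :
    an Λ (p ^ v * b) = lam1 Λ (1 / (p:ℝ)) v * an Λ b := by
  have hb0 : b ≠ 0 := fun h => hb (h ▸ dvd_zero p)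
  unfold an lam1
  by_cases hv : v = 0
  · subst hv; simp
  · rw [if_neg hv, Nat.primeFactors_mul (pow_ne_zero _ hp.ne_zero) hb0,
      Nat.primeFactors_prime_pow hv hp, ← insert_eq, prod_insert]
    · ring
    · intro h
      exact hb (Nat.dvd_of_mem_primeFactors h)

lemma nf_nonneg {Λ : ℝ} (hΛ : 0 ≤ Λ) (M : ℕ) {f : ℕ → ℝ} (hf : ∀ b, 0 ≤ f b) :
    0 ≤ nf κ Λ M f :=
  sum_nonneg fun b _ => mul_nonneg (mul_nonneg (nu_nonneg _ _) (an_nonneg hΛ _))
    (Real.rpow_nonneg (hf b) _)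

lemma nK_nonneg (M : ℕ) {K : ℕ → ℕ → ℝ} (hK : ∀ s t, 0 ≤ K s t) : 0 ≤ nK r M K :=
  sum_nonneg fun s _ => sum_nonneg fun t _ => mul_nonneg (mul_nonneg (nu_nonneg _ _)
    (nu_nonneg _ _)) (Real.rpow_nonneg (hK s t) _)

lemma nf_split {Λ : ℝ} {p : ℕ} (hp : p.Prime) (a : ℕ) {M1 : ℕ} (hM : 0 < M1) (h : ¬ p ∣ M1)
    (f : ℕ → ℝ) :
    nf κ Λ (p ^ a * M1) f = ∑ v ∈ range (a + 1), nup p a v * lam1 Λ (1 / p) v *
      nf κ Λ M1 (fun b => f (p ^ v * b)) := by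
  have hcop : Nat.Coprime (p ^ a) M1 :=
    Nat.Coprime.pow_left a ((Nat.Prime.coprime_iff_not_dvd hp).2 h)
  unfold nf
  rw [sum_split hp a hM h]
  refine sum_congr rfl fun v hv => ?_
  rw [mem_range] at hv
  rw [mul_sum]
  refine sum_congr rfl fun b hb => ?_
  rw [Nat.mem_divisors] at hb
  rw [nu_mul hcop (pow_dvd_pow p (by omega)) hb.1, nu_prime_pow hp (by omega),
    an_split hp v (fun hc => h (hc.trans hb.1))]
  ring

lemma nK_split {p : ℕ} (hp : p.Prime) (a : ℕ) {M1 : ℕ} (hM : 0 < M1) (h : ¬ p ∣ M1)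
    (K : ℕ → ℕ → ℝ) :
    nK r (p ^ a * M1) K = ∑ i ∈ range (a + 1), ∑ j ∈ range (a + 1), nup p a i * nup p a j *
      nK r M1 (fun s t => K (p ^ i * s) (p ^ j * t)) := by
  have hcop : Nat.Coprime (p ^ a) M1 :=
    Nat.Coprime.pow_left a ((Nat.Prime.coprime_iff_not_dvd hp).2 h)
  unfold nK
  rw [sum_split hp a hM h]
  refine sum_congr rfl fun i hi => ?_
  rw [mem_range] at hi
  rw [sum_congr rfl fun s _ => sum_split hp a hM h _, sum_comm]
  refine sum_congr rfl fun j hj => ?_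
  rw [mem_range] at hj
  rw [mul_sum]
  refine sum_congr rfl fun s hs => ?_
  rw [mul_sum]
  refine sum_congr rfl fun t ht => ?_
  rw [Nat.mem_divisors] at hs ht
  rw [nu_mul hcop (pow_dvd_pow p (by omega)) hs.1, nu_prime_pow hp (by omega),
    nu_mul hcop (pow_dvd_pow p (by omega)) ht.1, nu_prime_pow hp (by omega)]
  ring

lemma cof_split {p : ℕ} (hp : p.Prime) (v v' : ℕ) {b g : ℕ} (hg : g ∣ b) :
    (p ^ v * b) / (p ^ (min v v') * g) = p ^ (v - v') * (b / g) := by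
  rw [Nat.mul_div_mul_comm (pow_dvd_pow p (min_le_left _ _)) hg, Nat.pow_div (min_le_left _ _) hp.pos]
  congr 2
  omega

lemma tform_split {p : ℕ} (hp : p.Prime) (a : ℕ) {M1 : ℕ} (hM : 0 < M1) (h : ¬ p ∣ M1)
    (f g : ℕ → ℝ) (K : ℕ → ℕ → ℝ) :
    tform κ (p ^ a * M1) f g K = ∑ v ∈ range (a + 1), ∑ v' ∈ range (a + 1),
      nup p a v * nup p a v' * ((p : ℝ) ^ (min v v')) ^ (1 - κ) *
        tform κ M1 (fun b => f (p ^ v * b)) (fun c => g (p ^ v' * c))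
          (fun s t => K (p ^ (v - v') * s) (p ^ (v' - v) * t)) := by
  have hcop : Nat.Coprime (p ^ a) M1 :=
    Nat.Coprime.pow_left a ((Nat.Prime.coprime_iff_not_dvd hp).2 h)
  have hp0 : (0:ℝ) ≤ p := Nat.cast_nonneg _
  unfold tform
  rw [sum_split hp a hM h]
  refine sum_congr rfl fun v hv => ?_
  rw [mem_range] at hv
  rw [sum_congr rfl fun s _ => sum_split hp a hM h _, sum_comm]
  refine sum_congr rfl fun v' hv' => ?_
  rw [mem_range] at hv'
  rw [mul_sum]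
  refine sum_congr rfl fun b hb => ?_
  rw [mul_sum]
  refine sum_congr rfl fun c hc => ?_
  rw [Nat.mem_divisors] at hb hc
  have hnb : ¬ p ∣ b := fun hc' => h (hc'.trans hb.1)
  have hnc : ¬ p ∣ c := fun hc' => h (hc'.trans hc.1)
  rw [nu_mul hcop (pow_dvd_pow p (by omega)) hb.1, nu_prime_pow hp (by omega),
    nu_mul hcop (pow_dvd_pow p (by omega)) hc.1, nu_prime_pow hp (by omega),
    gcd_split hp v v' hnb hnc, cof_split hp v v' (Nat.gcd_dvd_left b c)]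
  have e2 : (p ^ v' * c) / (p ^ (min v v') * Nat.gcd b c) = p ^ (v' - v) * (c / Nat.gcd b c) := by
    rw [min_comm]
    exact cof_split hp v' v (Nat.gcd_dvd_right b c)
  rw [e2]
  have e3 : (((p ^ (min v v') * Nat.gcd b c : ℕ)) : ℝ) ^ (1 - κ) =
      ((p : ℝ) ^ (min v v')) ^ (1 - κ) * ((Nat.gcd b c : ℕ) : ℝ) ^ (1 - κ) := by
    push_cast
    rw [Real.mul_rpow (by positivity) (Nat.cast_nonneg _)]
  rw [e3]
  ring

/-- one induction step, the one-prime inequality being a hypothesis -/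
theorem thmT_prod (hκ : 0 < κ) (hr : 0 < r) {Λ : ℝ} (hΛ : 0 ≤ Λ) {C : ℕ → ℝ} (hC0 : ∀ p, 0 ≤ C p)
    (hC : ∀ p a : ℕ, p.Prime → 0 < a → MT κ r Λ p a (C p)) :
    ∀ M : ℕ, 0 < M → ∀ (f g : ℕ → ℝ) (K : ℕ → ℕ → ℝ), (∀ b, 0 ≤ f b) → (∀ b, 0 ≤ g b) →
      (∀ s t, 0 ≤ K s t) →
      tform κ M f g K ≤ (∏ p ∈ M.primeFactors, C p) *
        ((nf κ Λ M f) ^ ((1 + κ) / 2) * (nf κ Λ M g) ^ ((1 + κ) / 2) * (nK r M K) ^ (1 / r)) := by
  refine ind_min ?_ ?_
  · intro f g K hf hg hK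
    have hq : (2 / (1 + κ)) * ((1 + κ) / 2) = 1 := by field_simp
    have hn : nu 1 1 = 1 := by unfold nu; simp
    simp only [tform, nf, nK, Nat.divisors_one, sum_singleton, hn, an, Nat.primeFactors_one,
      prod_empty, Nat.gcd_self, Nat.cast_one, Real.one_rpow, one_mul, Nat.div_one]
    rw [← Real.rpow_mul (hf _), hq, Real.rpow_one, ← Real.rpow_mul (hg _), hq, Real.rpow_one,
      ← Real.rpow_mul (hK _ _), show r * (1 / r) = 1 by field_simp, Real.rpow_one]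
  · intro p a M1 hp ha hM h _ ih f g K hf hg hK
    set Q := ∏ q ∈ M1.primeFactors, C q with hQ
    have hQ0 : 0 ≤ Q := prod_nonneg fun x _ => hC0 x
    have hprod : ∏ q ∈ (p ^ a * M1).primeFactors, C q = C p * Q := by
      rw [Nat.primeFactors_mul (pow_ne_zero _ hp.ne_zero) hM.ne',
        Nat.primeFactors_prime_pow ha.ne' hp, ← insert_eq, prod_insert]
      intro hc
      exact h (Nat.dvd_of_mem_primeFactors hc)
    have hqq : ((1 + κ) / 2) * (2 / (1 + κ)) = 1 := by field_simp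
    have hrr : (1 / r) * r = 1 := by field_simp
    have nF : ∀ v, 0 ≤ nf κ Λ M1 (fun b => f (p ^ v * b)) := fun v => nf_nonneg hΛ _ fun b => hf _
    have nG : ∀ v, 0 ≤ nf κ Λ M1 (fun b => g (p ^ v * b)) := fun v => nf_nonneg hΛ _ fun b => hg _
    have nKK : ∀ i j, 0 ≤ nK r M1 (fun s t => K (p ^ i * s) (p ^ j * t)) := fun i j =>
      nK_nonneg _ fun s t => hK _ _
    set F : ℕ → ℝ := fun v => (nf κ Λ M1 (fun b => f (p ^ v * b))) ^ ((1 + κ) / 2) with hF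
    set G : ℕ → ℝ := fun v => (nf κ Λ M1 (fun b => g (p ^ v * b))) ^ ((1 + κ) / 2) with hG
    set KK : ℕ → ℕ → ℝ := fun i j => (nK r M1 (fun s t => K (p ^ i * s) (p ^ j * t))) ^ (1 / r)
      with hKK
    have pF : ∀ v, 0 ≤ F v := fun v => Real.rpow_nonneg (nF v) _
    have pG : ∀ v, 0 ≤ G v := fun v => Real.rpow_nonneg (nG v) _
    have pK : ∀ i j, 0 ≤ KK i j := fun i j => Real.rpow_nonneg (nKK i j) _
    have eF : ∀ v, F v ^ (2 / (1 + κ)) = nf κ Λ M1 (fun b => f (p ^ v * b)) := fun v => by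
      rw [hF]; simp only; rw [← Real.rpow_mul (nF v), hqq, Real.rpow_one]
    have eG : ∀ v, G v ^ (2 / (1 + κ)) = nf κ Λ M1 (fun b => g (p ^ v * b)) := fun v => by
      rw [hG]; simp only; rw [← Real.rpow_mul (nG v), hqq, Real.rpow_one]
    have eK : ∀ i j, KK i j ^ r = nK r M1 (fun s t => K (p ^ i * s) (p ^ j * t)) := fun i j => by
      rw [hKK]; simp only; rw [← Real.rpow_mul (nKK i j), hrr, Real.rpow_one]
    have hT := hC p a hp ha F G KK pF pG pK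
    simp only [eF, eG, eK] at hT
    rw [← nf_split hp a hM h, ← nf_split hp a hM h, ← nK_split hp a hM h] at hT
    rw [tform_split hp a hM h, hprod]
    have step : ∀ v ∈ range (a + 1), ∀ v' ∈ range (a + 1),
        nup p a v * nup p a v' * ((p : ℝ) ^ (min v v')) ^ (1 - κ) *
        tform κ M1 (fun b => f (p ^ v * b)) (fun c => g (p ^ v' * c))
          (fun s t => K (p ^ (v - v') * s) (p ^ (v' - v) * t)) ≤
        Q * (nup p a v * nup p a v' * ((p : ℝ) ^ (min v v')) ^ (1 - κ) *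
          (F v * G v' * KK (v - v') (v' - v))) := by
      intro v _ v' _
      have hc : 0 ≤ nup p a v * nup p a v' * ((p : ℝ) ^ (min v v')) ^ (1 - κ) :=
        mul_nonneg (mul_nonneg (nup_nonneg hp.pos a v) (nup_nonneg hp.pos a v'))
          (Real.rpow_nonneg (by positivity) _)
      have := mul_le_mul_of_nonneg_left (ih (fun b => f (p ^ v * b)) (fun c => g (p ^ v' * c))
          (fun s t => K (p ^ (v - v') * s) (p ^ (v' - v) * t)) (fun b => hf _) (fun b => hg _)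
          (fun s t => hK _ _)) hc
      refine this.trans (le_of_eq ?_)
      ring
    calc ∑ v ∈ range (a + 1), ∑ v' ∈ range (a + 1),
          nup p a v * nup p a v' * ((p : ℝ) ^ (min v v')) ^ (1 - κ) *
          tform κ M1 (fun b => f (p ^ v * b)) (fun c => g (p ^ v' * c))
            (fun s t => K (p ^ (v - v') * s) (p ^ (v' - v) * t))
        ≤ ∑ v ∈ range (a + 1), ∑ v' ∈ range (a + 1),
          Q * (nup p a v * nup p a v' * ((p : ℝ) ^ (min v v')) ^ (1 - κ) *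
            (F v * G v' * KK (v - v') (v' - v))) :=
          sum_le_sum fun v hv => sum_le_sum fun v' hv' => step v hv v' hv'
      _ = Q * ∑ v ∈ range (a + 1), ∑ v' ∈ range (a + 1),
          (nup p a v * nup p a v' * ((p : ℝ) ^ (min v v')) ^ (1 - κ) *
            (F v * G v' * KK (v - v') (v' - v))) := by
          simp_rw [mul_sum]
      _ ≤ Q * (C p * ((nf κ Λ (p ^ a * M1) f) ^ ((1 + κ) / 2) *
            (nf κ Λ (p ^ a * M1) g) ^ ((1 + κ) / 2) * (nK r (p ^ a * M1) K) ^ (1 / r))) :=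
          mul_le_mul_of_nonneg_left hT hQ0
      _ = _ := by ring

/-- the product over the primes of the one-prime constants is bounded -/
theorem prod_bound (hκ : 0 < κ) {C0 w0 C1 : ℝ} (hC0 : 0 ≤ C0) (hw0 : 0 < w0) (hC1 : 1 ≤ C1) :
    ∃ C : ℝ, 1 ≤ C ∧ ∀ P : Finset ℕ, (∀ p ∈ P, 2 ≤ p) →
      ∏ p ∈ P, (if 1 / (p:ℝ) ≤ w0 then 1 + C0 * (1 / (p:ℝ)) ^ (1 + κ) else C1) ≤ C := by
  have hs : Summable (fun n : ℕ => ((n : ℝ) ^ (1 + κ))⁻¹) :=
    Real.summable_nat_rpow_inv.mpr (by linarith)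
  set S := ∑' n : ℕ, ((n : ℝ) ^ (1 + κ))⁻¹ with hS
  set N := ⌈1 / w0⌉₊ with hN
  refine ⟨C1 ^ N * Real.exp (C0 * S), ?_, ?_⟩
  · have h1 : (1 : ℝ) ≤ C1 ^ N := one_le_pow₀ hC1
    have hS0 : 0 ≤ S := tsum_nonneg fun n => by positivity
    have h2 : 1 ≤ Real.exp (C0 * S) := Real.one_le_exp (by positivity)
    nlinarith
  intro P hP
  have hterm : ∀ p ∈ P, (if 1 / (p:ℝ) ≤ w0 then 1 + C0 * (1 / (p:ℝ)) ^ (1 + κ) else C1)
      ≤ (if p < N then C1 else 1) * Real.exp (C0 * ((p : ℝ) ^ (1 + κ))⁻¹) := by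
    intro p hp
    have h2 := hP p hp
    have h2' : (2 : ℝ) ≤ p := by exact_mod_cast h2
    have hexp : 1 ≤ Real.exp (C0 * ((p : ℝ) ^ (1 + κ))⁻¹) := Real.one_le_exp (by positivity)
    have e : (1 / (p:ℝ)) ^ (1 + κ) = ((p : ℝ) ^ (1 + κ))⁻¹ := by
      rw [one_div, Real.inv_rpow (by positivity)]
    split_ifs with h h' h'
    · have := Real.add_one_le_exp (C0 * ((p : ℝ) ^ (1 + κ))⁻¹)
      rw [e]
      nlinarith
    · have := Real.add_one_le_exp (C0 * ((p : ℝ) ^ (1 + κ))⁻¹)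
      rw [e, one_mul]
      linarith
    · nlinarith
    · exfalso
      apply h
      rw [div_le_iff₀ (by linarith)]
      have h3 : 1 / w0 ≤ (N : ℝ) := Nat.le_ceil _
      have h4 : (N : ℝ) ≤ p := by exact_mod_cast (not_lt.mp h')
      rw [div_le_iff₀ hw0] at h3
      nlinarith
  calc ∏ p ∈ P, (if 1 / (p:ℝ) ≤ w0 then 1 + C0 * (1 / (p:ℝ)) ^ (1 + κ) else C1)
      ≤ ∏ p ∈ P, ((if p < N then C1 else 1) * Real.exp (C0 * ((p : ℝ) ^ (1 + κ))⁻¹)) := by
        refine prod_le_prod (fun p hp => ?_) hterm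
        split_ifs
        · positivity
        · linarith
    _ = (∏ p ∈ P, (if p < N then C1 else 1)) *
        Real.exp (∑ p ∈ P, C0 * ((p : ℝ) ^ (1 + κ))⁻¹) := by
        rw [prod_mul_distrib, Real.exp_sum]
    _ ≤ C1 ^ N * Real.exp (C0 * S) := by
        have h1 : (∏ p ∈ P, (if p < N then C1 else 1)) ≤ C1 ^ N := by
          rw [prod_ite, prod_const_one, mul_one, prod_const]
          refine pow_le_pow_right₀ hC1 ?_
          calc (P.filter (· < N)).card ≤ (range N).card :=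
                card_le_card fun x hx => mem_range.mpr (mem_filter.mp hx).2
            _ = N := card_range N
        have h2 : ∑ p ∈ P, C0 * ((p : ℝ) ^ (1 + κ))⁻¹ ≤ C0 * S := by
          rw [← mul_sum]
          exact mul_le_mul_of_nonneg_left
            (hs.sum_le_tsum P fun i _ => by positivity) hC0
        exact mul_le_mul h1 (Real.exp_le_exp.mpr h2) (Real.exp_pos _).le (by positivity)

/-- **THEOREM (T), arbitrary `M`**: absolute constants `Λ, C` depending only on `κ, r` -/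
theorem thmT_gen (hκ : 0 < κ) (hκ1 : κ < 1) (hr : 2 / (1 - κ) < r) :
    ∃ Λ C : ℝ, 0 ≤ Λ ∧ 1 ≤ C ∧ ∀ M : ℕ, 0 < M → ∀ (f g : ℕ → ℝ) (K : ℕ → ℕ → ℝ),
      (∀ b, 0 ≤ f b) → (∀ b, 0 ≤ g b) → (∀ s t, 0 ≤ K s t) →
      tform κ M f g K ≤ C *
        ((nf κ Λ M f) ^ ((1 + κ) / 2) * (nf κ Λ M g) ^ ((1 + κ) / 2) * (nK r M K) ^ (1 / r)) := by
  have h1 : 0 < 1 - κ := by linarith
  have hr2 : 2 < r := by
    have h2 : (2:ℝ) ≤ 2 / (1 - κ) := by
      rw [le_div_iff₀ h1]; linarith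
    linarith
  have hθ : 0 < th κ r := by
    have h2 : 1 / r < (1 - κ) / 2 := by
      have := one_div_lt_one_div_of_lt (by positivity) hr
      rw [one_div_div] at this
      exact this
    unfold th; linarith
  have hhalf : (1/2 : ℝ) ^ (th κ r) < 1 := Real.rpow_lt_one (by norm_num) (by norm_num) hθ
  have hhalf0 : 0 < (1/2 : ℝ) ^ (th κ r) := Real.rpow_pos_of_pos (by norm_num) _
  obtain ⟨Λ, C0, w0, hΛ, hC0, hw0, hsmall⟩ := mt_small hκ hκ1 hr
  set C1 := 4 / (1 - (1/2 : ℝ) ^ (th κ r)) with hC1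
  have hC11 : 1 ≤ C1 := by
    rw [hC1, le_div_iff₀ (by linarith)]
    linarith
  obtain ⟨C, hC1', hC⟩ := prod_bound hκ hC0 hw0 hC11
  refine ⟨Λ, C, hΛ, hC1', fun M hM f g K hf hg hK => ?_⟩
  have h := thmT_prod (κ := κ) (r := r) hκ (by linarith) hΛ
    (C := fun p => if 1 / (p:ℝ) ≤ w0 then 1 + C0 * (1 / (p:ℝ)) ^ (1 + κ) else C1)
    (fun p => by
      split_ifs
      · positivity
      · linarith)
    (fun p a hp ha => by
      split_ifs with h
      · exact hsmall p a hp.two_le ha h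
      · exact mt_large hκ hκ1 hr hΛ hp.two_le) M hM f g K hf hg hK
  refine h.trans (mul_le_mul_of_nonneg_right
    (hC M.primeFactors fun p hp => (Nat.prime_of_mem_primeFactors hp).two_le) ?_)
  exact mul_nonneg (mul_nonneg (Real.rpow_nonneg (nf_nonneg hΛ M hf) _)
    (Real.rpow_nonneg (nf_nonneg hΛ M hg) _)) (Real.rpow_nonneg (nK_nonneg M hK) _)




end Crest.Agent.R4C.TGenx590
end

-- ▼ part R4C/MXlowB_808

/-!
# Row 4: the low half of MX, unconditional (helper808, from 590's `thmT_gen`)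

`tgen`  : `0 < κ < 1`, `2/(1-κ) < r` : there are `Λ ≥ 0`, `C ≥ 1` with `TGen κ r Λ C`
(all `M ≠ 0`).  Then `mxlow`, `mxlow_v`, `mxlow_two`, `mxlow_plain` of `MXlow_808` hold without
hypothesis; for convenience:

* `mxlowU`    : `Σ_{G < gcd ≤ 2G} gcd ν ν f f' K ≤ C τ^(1/r) G^κ (D f)^((1+κ)/2) (D f')^((1+κ)/2)`
* `mxlowU_two`: the minimum of the two exponents `η < η'` with common constants `Λ, C`.
-/

set_option autoImplicit false

open Finset

namespace Crest.Agent.R4C.MXlowBx808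

open Basex935 MXlowx808 TGenx590

lemma an_eq (Λ : ℝ) (b : ℕ) : an Λ b = aw Λ b := rfl

/-- THEOREM (T) for general `M` in the form used by `MXlow_808` -/
theorem tgen {κ r : ℝ} (hκ : 0 < κ) (hκ1 : κ < 1) (hr : 2 / (1 - κ) < r) :
    ∃ Λ C : ℝ, 0 ≤ Λ ∧ 1 ≤ C ∧ TGen κ r Λ C := by
  obtain ⟨Λ, C, hΛ, hC1, hC⟩ := thmT_gen hκ hκ1 hr
  have h1 : 0 < 1 - κ := by linarith
  have hr0 : 0 < r := lt_trans (by positivity) hr
  refine ⟨Λ, C, hΛ, hC1, ?_⟩
  intro M f f' K hM hf hf' hK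
  have hM0 : 0 < M := Nat.pos_of_ne_zero hM
  have h := hC M hM0 f f' (fun s t => if Nat.Coprime s t then K s t else 0) hf hf'
    (fun s t => by
      show 0 ≤ (if Nat.Coprime s t then K s t else 0)
      split_ifs
      · exact hK s t
      · exact le_rfl)
  have e1 : tform κ M f f' (fun s t => if Nat.Coprime s t then K s t else 0) =
      ∑ b ∈ M.divisors, ∑ c ∈ M.divisors, nu M b * nu M c * (Nat.gcd b c : ℝ) ^ (1 - κ) *
        (f b * f' c * K (b / Nat.gcd b c) (c / Nat.gcd b c)) := by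
    unfold tform
    refine sum_congr rfl fun b hb => sum_congr rfl fun c _ => ?_
    have hb0 : 0 < b := Nat.pos_of_mem_divisors hb
    have hco : Nat.Coprime (b / Nat.gcd b c) (c / Nat.gcd b c) :=
      Nat.coprime_div_gcd_div_gcd (Nat.gcd_pos_of_pos_left c hb0)
    show nu M b * nu M c * (Nat.gcd b c : ℝ) ^ (1 - κ) * (f b * f' c *
      (if Nat.Coprime (b / Nat.gcd b c) (c / Nat.gcd b c) then
        K (b / Nat.gcd b c) (c / Nat.gcd b c) else 0)) = _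
    rw [if_pos hco]
  have e2 : nK r M (fun s t => if Nat.Coprime s t then K s t else 0) =
      dens M fun s t => K s t ^ r := by
    unfold nK MXlowx808.dens
    refine sum_congr rfl fun s _ => sum_congr rfl fun t _ => ?_
    show nu M s * nu M t * (if Nat.Coprime s t then K s t else 0) ^ r =
      if Nat.Coprime s t then nu M s * nu M t * K s t ^ r else 0
    split_ifs
    · rfl
    · rw [Real.zero_rpow hr0.ne', mul_zero]
  rw [e1, e2] at h
  refine h.trans (le_of_eq ?_)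
  show C * ((DD Λ M fun b => f b ^ (2 / (1 + κ))) ^ ((1 + κ) / 2) *
      (DD Λ M fun b => f' b ^ (2 / (1 + κ))) ^ ((1 + κ) / 2) *
        (dens M fun s t => K s t ^ r) ^ (1 / r)) = _
  ring

/-- `TGen` is monotone in `Λ` and `C` -/
lemma TGen.mono {κ r Λ Λ' C C' : ℝ} (hκ : 0 < κ) (hΛ : 0 ≤ Λ) (hΛ' : Λ ≤ Λ') (hC : 0 ≤ C)
    (hC' : C ≤ C') (h : TGen κ r Λ C) : TGen κ r Λ' C' := by
  intro M f f' K hM hf hf' hK
  refine (h M f f' K hM hf hf' hK).trans ?_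
  have hdens0 : 0 ≤ dens M fun s t => K s t ^ r :=
    dens_nonneg M fun s t => Real.rpow_nonneg (hK s t) _
  have hρ : 0 ≤ (1 + κ) / 2 := by positivity
  have haw : ∀ b, aw Λ b ≤ aw Λ' b := by
    intro b
    unfold aw
    refine Finset.prod_le_prod (fun p _ => by positivity) fun p _ => ?_
    have : Λ / (p : ℝ) ≤ Λ' / p := div_le_div_of_nonneg_right hΛ' (Nat.cast_nonneg p)
    linarith
  have hDD : ∀ g : ℕ → ℝ, (∀ b, 0 ≤ g b) → DD Λ M g ≤ DD Λ' M g := by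
    intro g hg
    unfold DD
    refine Finset.sum_le_sum fun b _ => ?_
    exact mul_le_mul_of_nonneg_right (mul_le_mul_of_nonneg_left (haw b) (nu_nonneg M b)) (hg b)
  have hq : ∀ b, 0 ≤ f b ^ (2 / (1 + κ)) := fun b => Real.rpow_nonneg (hf b) _
  have hq' : ∀ b, 0 ≤ f' b ^ (2 / (1 + κ)) := fun b => Real.rpow_nonneg (hf' b) _
  have a1 : (DD Λ M fun b => f b ^ (2 / (1 + κ))) ^ ((1 + κ) / 2) ≤
      (DD Λ' M fun b => f b ^ (2 / (1 + κ))) ^ ((1 + κ) / 2) :=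
    Real.rpow_le_rpow (DD_nonneg hΛ M hq) (hDD _ hq) hρ
  have a2 : (DD Λ M fun b => f' b ^ (2 / (1 + κ))) ^ ((1 + κ) / 2) ≤
      (DD Λ' M fun b => f' b ^ (2 / (1 + κ))) ^ ((1 + κ) / 2) :=
    Real.rpow_le_rpow (DD_nonneg hΛ M hq') (hDD _ hq') hρ
  have b1 : 0 ≤ (DD Λ M fun b => f b ^ (2 / (1 + κ))) ^ ((1 + κ) / 2) :=
    Real.rpow_nonneg (DD_nonneg hΛ M hq) _
  have b2 : 0 ≤ (DD Λ M fun b => f' b ^ (2 / (1 + κ))) ^ ((1 + κ) / 2) :=
    Real.rpow_nonneg (DD_nonneg hΛ M hq') _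
  refine mul_le_mul_of_nonneg_right ?_ (Real.rpow_nonneg hdens0 _)
  refine mul_le_mul hC' (mul_le_mul a1 a2 b2 (b1.trans a1)) (mul_nonneg b1 b2) (hC.trans hC')



end Crest.Agent.R4C.MXlowBx808
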