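import Mathlib
import Crest.Agent.R4C.S2a_232

-- ▼ part R4C/KillS2_949
section

/-!
# Row 4, BLOCK S2 (note 2736): the KILL LEMMA (helper949)

`q = G s'`, `q' = G s`, `s = s₀ x`, `s' = s₀' x'` coprime, offset `h`, `|(s - s') γ + h| < 1/t`.
Labels `a/k` of `x γ` and `a'/k'` of `x' γ` in lowest terms.
-/

set_option autoImplicit false

namespace Crest.Agent.R4C.KillS2x949

/-- the two labels are the same point -/
theorem same_pt {γ t E : ℝ} {s₀ x s₀' x' : ℕ} {a a' h : ℤ} {k k' : ℕ} (hs : 0 < s₀) (hs' : 0 < s₀')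
    (hk : 0 < k) (hk' : 0 < k') (hE : 0 < E) (ht : E ^ 2 * (1 + 2 * E) ≤ t)
    (hkE : (k : ℝ) ≤ E) (hkE' : (k' : ℝ) ≤ E)
    (hl : |((s₀ : ℝ) * x - s₀' * x') * γ + h| < 1 / t)
    (h1 : |(x : ℝ) * γ - a / k| ≤ E / (t * s₀)) (h2 : |(x' : ℝ) * γ - a' / k'| ≤ E / (t * s₀')) :
    s₀ * a * k' - s₀' * a' * k + h * (k * k') = 0 := by
  have hs0 : (0 : ℝ) < s₀ := by exact_mod_cast hs
  have hs0' : (0 : ℝ) < s₀' := by exact_mod_cast hs'
  have hk0 : (0 : ℝ) < k := by exact_mod_cast hk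
  have hk0' : (0 : ℝ) < k' := by exact_mod_cast hk'
  have ht0 : 0 < t := lt_of_lt_of_le (by positivity) ht
  set X : ℤ := s₀ * a * k' - s₀' * a' * k + h * (k * k') with hX
  have e : (X : ℝ) = (k * k') * ((((s₀ : ℝ) * x - s₀' * x') * γ + h) - s₀ * ((x : ℝ) * γ - a / k)
      + s₀' * ((x' : ℝ) * γ - a' / k')) := by
    rw [hX]
    push_cast
    field_simp
    ring
  have b1 : |(s₀ : ℝ) * ((x : ℝ) * γ - a / k)| ≤ E / t := by
    rw [abs_mul, abs_of_pos hs0]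
    calc (s₀ : ℝ) * |(x : ℝ) * γ - a / k| ≤ s₀ * (E / (t * s₀)) :=
          mul_le_mul_of_nonneg_left h1 hs0.le
      _ = E / t := by field_simp
  have b2 : |(s₀' : ℝ) * ((x' : ℝ) * γ - a' / k')| ≤ E / t := by
    rw [abs_mul, abs_of_pos hs0']
    calc (s₀' : ℝ) * |(x' : ℝ) * γ - a' / k'| ≤ s₀' * (E / (t * s₀')) :=
          mul_le_mul_of_nonneg_left h2 hs0'.le
      _ = E / t := by field_simp
  have b3 : |((((s₀ : ℝ) * x - s₀' * x') * γ + h) - s₀ * ((x : ℝ) * γ - a / k)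
      + s₀' * ((x' : ℝ) * γ - a' / k'))| < (1 + 2 * E) / t := by
    have h3 := abs_add_le ((((s₀ : ℝ) * x - s₀' * x') * γ + h) - s₀ * ((x : ℝ) * γ - a / k))
      (s₀' * ((x' : ℝ) * γ - a' / k'))
    have h4 := abs_sub ((((s₀ : ℝ) * x - s₀' * x') * γ + h)) (s₀ * ((x : ℝ) * γ - a / k))
    have h5 : (1 + 2 * E) / t = 1 / t + E / t + E / t := by ring
    rw [h5]
    linarith
  have b4 : |(X : ℝ)| < 1 := by
    rw [e, abs_mul, abs_of_pos (mul_pos hk0 hk0')]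
    calc (k * k' : ℝ) * _ < (k * k') * ((1 + 2 * E) / t) :=
          mul_lt_mul_of_pos_left b3 (mul_pos hk0 hk0')
      _ ≤ (E * E) * ((1 + 2 * E) / t) := by
          refine mul_le_mul_of_nonneg_right ?_ (by positivity)
          exact mul_le_mul hkE hkE' hk0'.le hE.le
      _ = (E ^ 2 * (1 + 2 * E)) / t := by ring
      _ ≤ 1 := by rw [div_le_one ht0]; exact ht
  have b5 : |X| < 1 := by exact_mod_cast b4
  exact Int.abs_lt_one_iff.1 b5

/-- **structure of a common centre** -/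
theorem structure_ {s₀ s₀' : ℕ} {a a' h : ℤ} {k k' : ℕ}
    (hk : 0 < k) (hk' : 0 < k') (hc : IsCoprime a (k : ℤ)) (hc' : IsCoprime a' (k' : ℤ))
    (hz : s₀ * a * k' - s₀' * a' * k + h * (k * k') = 0) :
    ∃ κ k₁ k₁' r r' : ℕ, κ = Nat.gcd k k' ∧ k = κ * k₁ ∧ k' = κ * k₁' ∧ Nat.Coprime k₁ k₁' ∧
      s₀ = k₁ * r ∧ s₀' = k₁' * r' ∧ (r : ℤ) * a - r' * a' + h * κ = 0 := by
  obtain ⟨k₁, hk₁⟩ := Nat.gcd_dvd_left k k'
  obtain ⟨k₁', hk₁'⟩ := Nat.gcd_dvd_right k k'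
  set κ := Nat.gcd k k' with hκ
  have hκ0 : 0 < κ := Nat.gcd_pos_of_pos_left _ hk
  have hcop : Nat.Coprime k₁ k₁' := by
    have := Nat.gcd_mul_left κ k₁ k₁'
    rw [← hk₁, ← hk₁', ← hκ] at this
    exact Nat.eq_of_mul_eq_mul_left hκ0 (by rw [← this, mul_one])
  have hκz : (κ : ℤ) ≠ 0 := by exact_mod_cast hκ0.ne'
  have ek : (k : ℤ) = κ * k₁ := by exact_mod_cast hk₁
  have ek' : (k' : ℤ) = κ * k₁' := by exact_mod_cast hk₁'
  have e1 : s₀ * a * k₁' - s₀' * a' * k₁ + h * (κ * k₁ * k₁') = 0 := by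
    have : (κ : ℤ) * (s₀ * a * k₁' - s₀' * a' * k₁ + h * (κ * k₁ * k₁')) = 0 := by
      rw [ek, ek'] at hz
      linear_combination hz
    exact (mul_eq_zero.1 this).resolve_left hκz
  have c1 : IsCoprime (k₁ : ℤ) (k₁' : ℤ) := Nat.isCoprime_iff_coprime.2 hcop
  have c2 : IsCoprime (k₁ : ℤ) a := by
    rw [ek] at hc
    exact hc.symm.of_mul_left_right
  have c3 : IsCoprime (k₁' : ℤ) a' := by
    rw [ek'] at hc'
    exact hc'.symm.of_mul_left_right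
  have d1 : (k₁ : ℤ) ∣ s₀ := by
    have : (k₁ : ℤ) ∣ s₀ * (a * k₁') := ⟨s₀' * a' - h * (κ * k₁'), by linear_combination e1⟩
    exact (c2.mul_right c1).dvd_of_dvd_mul_right this
  have d2 : (k₁' : ℤ) ∣ s₀' := by
    have : (k₁' : ℤ) ∣ s₀' * (a' * k₁) := ⟨s₀ * a + h * (κ * k₁), by linear_combination -e1⟩
    exact (c3.mul_right c1.symm).dvd_of_dvd_mul_right this
  obtain ⟨r, hr⟩ := Int.natCast_dvd_natCast.1 d1
  obtain ⟨r', hr'⟩ := Int.natCast_dvd_natCast.1 d2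
  refine ⟨κ, k₁, k₁', r, r', rfl, hk₁, hk₁', hcop, hr, hr', ?_⟩
  have hk10 : (k₁ : ℤ) ≠ 0 := by
    have : k₁ ≠ 0 := by rintro rfl; rw [mul_zero] at hk₁; omega
    exact_mod_cast this
  have hk10' : (k₁' : ℤ) ≠ 0 := by
    have : k₁' ≠ 0 := by rintro rfl; rw [mul_zero] at hk₁'; omega
    exact_mod_cast this
  have es : (s₀ : ℤ) = k₁ * r := by exact_mod_cast hr
  have es' : (s₀' : ℤ) = k₁' * r' := by exact_mod_cast hr'
  have : ((k₁ : ℤ) * k₁') * (r * a - r' * a' + h * κ) = 0 := by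
    rw [es, es'] at e1
    linear_combination e1
  exact (mul_eq_zero.1 this).resolve_left (mul_ne_zero hk10 hk10')

/-- **the prime `p ∣ r'` kills** -/
theorem kills {x s s₀ k k₁ κ r r' : ℕ} {a a' h : ℤ} {p : ℕ} (hp : p.Prime)
    (hsx : s = s₀ * x) (hs0 : s₀ = k₁ * r) (hk : k = κ * k₁)
    (hc : IsCoprime a (k : ℤ)) (hps : ¬ p ∣ s) (hpr : p ∣ r')
    (hz : (r : ℤ) * a - r' * a' + h * κ = 0) :
    ¬ p ∣ k * x ∧ ∀ c : ℤ, (p : ℤ) ∣ a + k * x * c → (p : ℤ) ∣ h - s * c := by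
  have hpZ : Prime (p : ℤ) := Nat.prime_iff_prime_int.1 hp
  have hpr' : (p : ℤ) ∣ (r' : ℤ) := by exact_mod_cast hpr
  have hpx : ¬ p ∣ x := fun hd => hps (by rw [hsx]; exact hd.mul_left _)
  have hpk₁ : ¬ p ∣ k₁ := fun hd => hps (by rw [hsx, hs0]; exact (hd.mul_right _).mul_right _)
  have hprr : ¬ p ∣ r := fun hd => hps (by rw [hsx, hs0]; exact (hd.mul_left _).mul_right _)
  have hpk : ¬ p ∣ k := by
    intro hd
    rw [hk] at hd
    have hκ : p ∣ κ := ((hp.dvd_mul).1 hd).resolve_right hpk₁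
    have hκ' : (p : ℤ) ∣ (κ : ℤ) := by exact_mod_cast hκ
    have h1 : (p : ℤ) ∣ r * a := by
      have e : (r : ℤ) * a = r' * a' - h * κ := by linear_combination hz
      rw [e]
      exact dvd_sub (hpr'.mul_right _) (hκ'.mul_left _)
    have h2 : (p : ℤ) ∣ a := by
      rcases hpZ.dvd_or_dvd h1 with h3 | h3
      · exact absurd (by exact_mod_cast h3) hprr
      · exact h3
    have h4 : (p : ℤ) ∣ k := by rw [hk]; push_cast; exact hκ'.mul_right _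
    exact hpZ.not_isUnit (hc.isUnit_of_dvd' h2 h4)
  refine ⟨fun hd => ?_, fun c hcc => ?_⟩
  · rcases (hp.dvd_mul).1 hd with h1 | h1
    · exact hpk h1
    · exact hpx h1
  · -- `s a + k x h = k₁ x r' a'`
    have e1 : (s : ℤ) * a + k * x * h = k₁ * x * (r' * a') := by
      have h1 : (s : ℤ) = k₁ * r * x := by rw [hsx, hs0]; push_cast; ring
      have h2 : (k : ℤ) = κ * k₁ := by exact_mod_cast hk
      rw [h1, h2]
      linear_combination (k₁ : ℤ) * x * hz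
    have h1 : (p : ℤ) ∣ (k * x) * (h - s * c) := by
      have e2 : ((k : ℤ) * x) * (h - s * c) = k₁ * x * (r' * a') - s * (a + k * x * c) := by
        linear_combination e1
      rw [e2]
      exact dvd_sub ((hpr'.mul_right _).mul_left _) (hcc.mul_left _)
    rcases hpZ.dvd_or_dvd h1 with h2 | h2
    · exfalso
      have h3 : p ∣ k * x := by exact_mod_cast h2
      rcases (hp.dvd_mul).1 h3 with h4 | h4
      · exact hpk h4
      · exact hpx h4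
    · exact h2

/-- **KILL LEMMA** (2736).  With `κ = gcd(k,k')`, `k = κ k₁`, `k' = κ k₁'`: `s₀ = k₁ r`,
`s₀' = k₁' r'`, `gcd(r,r') = 1` and every prime `p ∣ r'` (resp. `p ∣ r`) kills. -/
theorem kill_lemma {γ t E : ℝ} {s s' s₀ x s₀' x' : ℕ} {a a' h : ℤ} {k k' : ℕ}
    (hsx : s = s₀ * x) (hsx' : s' = s₀' * x') (hs0 : 0 < s) (hs0' : 0 < s')
    (hcop : Nat.Coprime s s')
    (hk : 0 < k) (hk' : 0 < k') (hc : IsCoprime a (k : ℤ)) (hc' : IsCoprime a' (k' : ℤ))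
    (hE : 0 < E) (ht : E ^ 2 * (1 + 2 * E) ≤ t) (hkE : (k : ℝ) ≤ E) (hkE' : (k' : ℝ) ≤ E)
    (hl : |((s : ℝ) - s') * γ + h| < 1 / t)
    (h1 : |(x : ℝ) * γ - a / k| ≤ E / (t * s₀)) (h2 : |(x' : ℝ) * γ - a' / k'| ≤ E / (t * s₀')) :
    ∃ r r' : ℕ, s₀ = (k / Nat.gcd k k') * r ∧ s₀' = (k' / Nat.gcd k k') * r' ∧
      Nat.Coprime r r' ∧ (r : ℤ) * a - r' * a' + h * (Nat.gcd k k' : ℕ) = 0 ∧
      (∀ p : ℕ, p.Prime → p ∣ r' → p ∣ s' ∧ ¬ p ∣ s ∧ ¬ p ∣ k * x ∧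
        ∀ c : ℤ, (p : ℤ) ∣ a + k * x * c → (p : ℤ) ∣ h - s * c) ∧
      (∀ p : ℕ, p.Prime → p ∣ r → p ∣ s ∧ ¬ p ∣ s' ∧ ¬ p ∣ k' * x' ∧
        ∀ c : ℤ, (p : ℤ) ∣ a' + k' * x' * c → (p : ℤ) ∣ h + s' * c) := by
  have hs : 0 < s₀ := Nat.pos_of_ne_zero (by rintro rfl; simp at hsx; omega)
  have hs' : 0 < s₀' := Nat.pos_of_ne_zero (by rintro rfl; simp at hsx'; omega)
  have hl' : |((s₀ : ℝ) * x - s₀' * x') * γ + h| < 1 / t := by
    have e : ((s₀ : ℝ) * x - s₀' * x') = (s : ℝ) - s' := by rw [hsx, hsx']; push_cast; ring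
    rw [e]; exact hl
  have hz := same_pt hs hs' hk hk' hE ht hkE hkE' hl' h1 h2
  obtain ⟨κ, k₁, k₁', r, r', hκ, ek, ek', ck, es, es', hz'⟩ := structure_ hk hk' hc hc' hz
  have hκ0 : 0 < κ := by rw [hκ]; exact Nat.gcd_pos_of_pos_left _ hk
  have dk : k / Nat.gcd k k' = k₁ := by
    rw [← hκ]; exact Nat.div_eq_of_eq_mul_right hκ0 ek
  have dk' : k' / Nat.gcd k k' = k₁' := by
    rw [← hκ]; exact Nat.div_eq_of_eq_mul_right hκ0 ek'
  have hrs : r ∣ s := by rw [hsx, es]; exact (Dvd.intro_left _ rfl).mul_right _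
  have hrs' : r' ∣ s' := by rw [hsx', es']; exact (Dvd.intro_left _ rfl).mul_right _
  refine ⟨r, r', by rw [dk]; exact es, by rw [dk']; exact es',
    Nat.Coprime.coprime_dvd_left hrs (Nat.Coprime.coprime_dvd_right hrs' hcop), by rw [← hκ]; exact hz',
    fun p hp hpr => ?_, fun p hp hpr => ?_⟩
  · have hps' : p ∣ s' := hpr.trans hrs'
    have hps : ¬ p ∣ s := fun hd => by
      have := Nat.dvd_gcd hd hps'
      rw [hcop.gcd_eq_one] at this
      exact hp.one_lt.ne' (Nat.dvd_one.1 this)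
    obtain ⟨q1, q2⟩ := kills hp hsx es ek hc hps hpr hz'
    exact ⟨hps', hps, q1, q2⟩
  · have hps : p ∣ s := hpr.trans hrs
    have hps' : ¬ p ∣ s' := fun hd => by
      have := Nat.dvd_gcd hps hd
      rw [hcop.gcd_eq_one] at this
      exact hp.one_lt.ne' (Nat.dvd_one.1 this)
    have hz'' : (r' : ℤ) * a' - r * a + (-h) * κ = 0 := by linear_combination -hz'
    obtain ⟨q1, q2⟩ := kills hp hsx' es' ek' hc' hps' hpr hz''
    refine ⟨hps, hps', q1, fun c hcc => ?_⟩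
    have := q2 c hcc
    have e : h + s' * c = -(-h - s' * c) := by ring
    rw [e]
    exact (dvd_neg).2 this

/-- kind (ii-a) or some killing prime -/
theorem special_or_kill {r r' : ℕ} :
    (r = 1 ∧ r' = 1) ∨ (∃ p : ℕ, p.Prime ∧ p ∣ r') ∨ (∃ p : ℕ, p.Prime ∧ p ∣ r) := by
  rcases eq_or_ne r' 1 with h' | h'
  · rcases eq_or_ne r 1 with h | h
    · exact Or.inl ⟨h, h'⟩
    · exact Or.inr (Or.inr (Nat.exists_prime_and_dvd h))
  · exact Or.inr (Or.inl (Nat.exists_prime_and_dvd h'))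

end Crest.Agent.R4C.KillS2x949
end

-- ▼ part R4C/S2b_284

/-! Row 4, BLOCK S2 v1.1 (notes 2736, 2896): classification theorem, two words, short word,
doubling along `t`. -/

set_option autoImplicit false

open Finset

namespace Crest.Agent.R4C.S2bx284

open Crest.Agent.R4C.S2x232

/-- dyadic floor -/
def dy (u : ℕ) : ℕ := 2 ^ Nat.log 2 u

lemma dy_pos (u : ℕ) : 1 ≤ dy u := Nat.one_le_two_pow


lemma lt_dy (u : ℕ) : u < 2 * dy u := by
  have := Nat.lt_pow_succ_log_self (b := 2) (by norm_num) u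
  unfold dy
  rw [Nat.pow_succ] at this
  omega

/-- kind (i) -/
def Rare (ξ ξ' t D : ℝ) (u v : ℕ) : Prop :=
  ((boxN ξ ξ' t (dy u) (dy v)).card : ℝ) ≤ 8 * dy u * dy v / D

/-- kind (iii) -/
def Uniq (ξ ξ' t D : ℝ) (u v : ℕ) : Prop :=
  Nat.Coprime u v ∧ NN ξ ξ' t u v ∧ (u:ℝ) < 2*D^2 ∧ (v:ℝ) < 2*D^2 ∧
  ∀ u1 v1 : ℕ, Nat.Coprime u1 v1 → NN ξ ξ' t u1 v1 → (u1:ℝ) < D^6 → (v1:ℝ) < D^6 →
    (u1, v1) = (u, v)

/-- kind (ii) with explicit labels -/
def Labd (ξ ξ' t E : ℝ) (a : ℤ) (k : ℕ) (a' : ℤ) (k' : ℕ) (u v : ℕ) : Prop :=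
  Lab ξ E (E/(t*u)) a k ∧ Lab ξ' E (E/(t*v)) a' k'

lemma Lab.mono {ξ K e K2 e2 : ℝ} {a : ℤ} {k : ℕ} (h : Lab ξ K e a k) (hK : K ≤ K2) (he : e ≤ e2) :
    Lab ξ K2 e2 a k := ⟨h.1, h.2.1, h.2.2.1.trans hK, h.2.2.2.trans he⟩

/-- THEOREM S2 (classification), note 2736. -/
theorem classify {ξ ξ' t D : ℝ} (hD : 4 ≤ D) (ht : 2*D ≤ t) {u v : ℕ}
    (hco : Nat.Coprime u v) (hN : NN ξ ξ' t u v) :
    Rare ξ ξ' t D u v ∨ Uniq ξ ξ' t D u v ∨
      ∃ (a : ℤ) (k : ℕ) (a' : ℤ) (k' : ℕ), Labd ξ ξ' t (4*D^8) a k a' k' u v := by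
  classical
  by_cases hr : Rare ξ ξ' t D u v
  · exact Or.inl hr
  right
  unfold Rare at hr
  push Not at hr
  have hD0 : 0 < D := by linarith
  have ht0 : 0 < t := by linarith
  obtain ⟨hu, hv, hn⟩ := hN
  have hu1 := dy_pos u
  have hv1 := dy_pos v
  have hu2 := lt_dy u
  have hv2 := lt_dy v
  have key : ∀ w : ℕ, 1 ≤ w → 3*D/(t*(dy w : ℕ)) ≤ 4*D^8/(t*w) := by
    intro w hw
    have hwR : (0:ℝ) < w := by exact_mod_cast hw
    have hdR : (0:ℝ) < (dy w : ℕ) := by exact_mod_cast (dy_pos w)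
    have hlt : (w:ℝ) ≤ 2 * (dy w : ℕ) := by exact_mod_cast (lt_dy w).le
    rw [div_le_div_iff₀ (by positivity) (by positivity)]
    have h1 : 3 * D * (t * w) ≤ 3 * D * (t * (2 * (dy w : ℕ))) := by gcongr
    have h2 : 6 * D ≤ 4 * D^8 := by
      have h7 : (4:ℝ)^7 ≤ D^7 := pow_le_pow_left₀ (by norm_num) hD 7
      have e : D^8 = D^7 * D := by ring
      rw [e]
      nlinarith
    have h3 : 6 * D * (t * (dy w : ℕ)) ≤ 4 * D^8 * (t * (dy w : ℕ)) := by gcongr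
    nlinarith
  by_cases hbig : D^2 ≤ (dy u : ℝ) ∨ D^2 ≤ (dy v : ℝ)
  · right
    obtain ⟨a, k, a', k', h1, h2⟩ := lemma2 hu1 hv1 hD ht hbig hr
    have h38 : D^3/2 ≤ 4*D^8 := by
      have h5 : (1:ℝ) ≤ D^5 := one_le_pow₀ (by linarith)
      have e : D^8 = D^3 * D^5 := by ring
      have h3 : 0 < D^3 := by positivity
      nlinarith
    exact ⟨a, k, a', k', Lab.mono h1 h38 (key u hu), Lab.mono h2 h38 (key v hv)⟩
  · push Not at hbig
    have huD : (u:ℝ) < 2 * D^2 := by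
      have : (u:ℝ) < 2 * (dy u : ℕ) := by exact_mod_cast hu2
      linarith [hbig.1]
    have hvD : (v:ℝ) < 2 * D^2 := by
      have : (v:ℝ) < 2 * (dy v : ℕ) := by exact_mod_cast hv2
      linarith [hbig.2]
    by_cases huq : ∀ u1 v1 : ℕ, Nat.Coprime u1 v1 → NN ξ ξ' t u1 v1 → (u1:ℝ) < D^6 →
        (v1:ℝ) < D^6 → (u1, v1) = (u, v)
    · exact Or.inl ⟨hco, ⟨hu, hv, hn⟩, huD, hvD, huq⟩
    · right
      push Not at huq
      obtain ⟨u1, v1, hco1, hN1, hu6, hv6, hne⟩ := huq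
      obtain ⟨a, k, a', k', h1, h2⟩ :=
        lemma3 hD ht0 (Ne.symm hne) hco hco1 ⟨hu, hv, hn⟩ hN1 huD hvD hu6 hv6
      exact ⟨a, k, a', k', h1, h2⟩

/-! ### lattice and strip -/

/-- the lattice of common centres -/
def InLat (a : ℤ) (k : ℕ) (a' : ℤ) (k' u v : ℕ) : Prop :=
  ∃ h : ℤ, (u:ℤ) * a * k' - v * a' * k + h * (k * k') = 0

/-- depth of a word -/
noncomputable def dep (k k' : ℕ) (t δ δ' : ℝ) (u v : ℕ) : ℝ :=
  (Nat.lcm k k' : ℝ) * max 1 (max (t * u * |δ|) (t * v * |δ'|))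

lemma dep_mono {k k' : ℕ} {t δ δ' : ℝ} (ht : 0 ≤ t) {u v U V : ℕ} (hu : u ≤ U) (hv : v ≤ V) :
    dep k k' t δ δ' u v ≤ dep k k' t δ δ' U V := by
  unfold dep
  have hu' : (u:ℝ) ≤ U := by exact_mod_cast hu
  have hv' : (v:ℝ) ≤ V := by exact_mod_cast hv
  gcongr


/-- two different coprime lattice words have determinant `≥ lcm(k,k')` -/
theorem lcm_le_det {a a' : ℤ} {k k' u1 v1 u2 v2 : ℕ} (hk : 0 < k) (hk' : 0 < k')
    (hc : IsCoprime a (k:ℤ)) (hc' : IsCoprime a' (k':ℤ))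
    (h1 : InLat a k a' k' u1 v1) (h2 : InLat a k a' k' u2 v2)
    (hco1 : Nat.Coprime u1 v1) (hco2 : Nat.Coprime u2 v2)
    (hu1 : 1 ≤ u1) (hne : (u1, v1) ≠ (u2, v2)) :
    (Nat.lcm k k' : ℤ) ≤ |(u1:ℤ) * v2 - u2 * v1| := by
  obtain ⟨h, hh⟩ := h1
  obtain ⟨g, hg⟩ := h2
  obtain ⟨κ, k₁, k₁', r, r', hκ, ek, ek', ck, es, es', hz⟩ :=
    KillS2x949.structure_ hk hk' hc hc' hh
  obtain ⟨κ2, k₂, k₂', q, q', hκ2, ek2, ek2', ck2, es2, es2', hz2⟩ :=
    KillS2x949.structure_ hk hk' hc hc' hg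
  have hκκ : κ2 = κ := by rw [hκ, hκ2]
  subst hκκ
  have hκ0 : 0 < κ2 := by rw [hκ2]; exact Nat.gcd_pos_of_pos_left _ hk
  have e1 : k₂ = k₁ := Nat.eq_of_mul_eq_mul_left hκ0 (by rw [← ek2, ← ek])
  have e2 : k₂' = k₁' := Nat.eq_of_mul_eq_mul_left hκ0 (by rw [← ek2', ← ek'])
  subst e1 e2
  -- the determinant is a multiple of the lcm
  have hlcm : Nat.lcm k k' = κ2 * (k₂ * k₂') := by
    have h3 : Nat.gcd k k' * Nat.lcm k k' = k * k' := Nat.gcd_mul_lcm k k'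
    rw [← hκ2, ek, ek'] at h3
    apply Nat.eq_of_mul_eq_mul_left hκ0
    rw [ek, ek', h3]
    ring
  have hca' : IsCoprime a' (κ2:ℤ) := by
    rw [ek'] at hc'
    push_cast at hc'
    exact hc'.of_mul_right_left
  have hdvd : (κ2:ℤ) ∣ (r:ℤ) * q' - q * r' := by
    have h4 : (κ2:ℤ) ∣ ((r:ℤ) * q' - q * r') * a' := by
      refine ⟨(r:ℤ) * g - q * h, ?_⟩
      linear_combination (q:ℤ) * hz - (r:ℤ) * hz2
    exact hca'.symm.dvd_of_dvd_mul_right h4
  have hdet : ((u1:ℤ) * v2 - u2 * v1) = (k₂ * k₂') * ((r:ℤ) * q' - q * r') := by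
    rw [es, es', es2, es2']
    push_cast
    ring
  have hdvd2 : (Nat.lcm k k' : ℤ) ∣ (u1:ℤ) * v2 - u2 * v1 := by
    rw [hdet, hlcm]
    push_cast
    rw [mul_comm (κ2:ℤ)]
    exact mul_dvd_mul_left _ hdvd
  have hne0 : (u1:ℤ) * v2 - u2 * v1 ≠ 0 := by
    intro h0
    have h5 : u1 * v2 = u2 * v1 := by
      have : (u1:ℤ) * v2 = u2 * v1 := by linarith
      exact_mod_cast this
    have h6 : u1 ∣ u2 := hco1.dvd_of_dvd_mul_right ⟨v2, h5.symm⟩
    have h7 : u2 ∣ u1 := hco2.dvd_of_dvd_mul_right ⟨v1, h5⟩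
    have h8 : u1 = u2 := Nat.dvd_antisymm h6 h7
    have h9 : v2 = v1 := by
      rw [← h8] at h5
      exact Nat.eq_of_mul_eq_mul_left hu1 h5
    exact hne (by rw [h8, h9])
  exact Int.le_of_dvd (abs_pos.2 hne0) ((dvd_abs _ _).2 hdvd2)

/-- **(1) TWO WORDS** of 2896 -/
theorem two_words {a a' : ℤ} {k k' u1 v1 u2 v2 : ℕ} {t δ δ' : ℝ} (ht : 0 < t)
    (hk : 0 < k) (hk' : 0 < k')
    (hc : IsCoprime a (k:ℤ)) (hc' : IsCoprime a' (k':ℤ))
    (h1 : InLat a k a' k' u1 v1) (h2 : InLat a k a' k' u2 v2)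
    (s1 : |u1 * δ - v1 * δ'| < 1 / t) (s2 : |u2 * δ - v2 * δ'| < 1 / t)
    (hco1 : Nat.Coprime u1 v1) (hco2 : Nat.Coprime u2 v2)
    (hu1 : 1 ≤ u1) (hv1 : 1 ≤ v1) (hu2 : 1 ≤ u2) (hv2 : 1 ≤ v2) (hne : (u1, v1) ≠ (u2, v2)) :
    dep k k' t δ δ' (max u1 u2) (max v1 v2) ≤ 2 * ((max u1 u2 : ℕ) * (max v1 v2 : ℕ)) := by
  have hdet := lcm_le_det hk hk' hc hc' h1 h2 hco1 hco2 hu1 hne
  set Δ : ℝ := (u1:ℝ) * v2 - u2 * v1 with hΔ
  have hdetR : (Nat.lcm k k' : ℝ) ≤ |Δ| := by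
    have : ((Nat.lcm k k' : ℤ) : ℝ) ≤ ((|(u1:ℤ) * v2 - u2 * v1| : ℤ) : ℝ) := by exact_mod_cast hdet
    push_cast at this
    exact this
  set U : ℕ := max u1 u2 with hU
  set V : ℕ := max v1 v2 with hV
  have hu1U : (u1:ℝ) ≤ U := by exact_mod_cast le_max_left _ _
  have hu2U : (u2:ℝ) ≤ U := by exact_mod_cast le_max_right _ _
  have hv1V : (v1:ℝ) ≤ V := by exact_mod_cast le_max_left _ _
  have hv2V : (v2:ℝ) ≤ V := by exact_mod_cast le_max_right _ _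
  have hu1R : (0:ℝ) < u1 := by exact_mod_cast hu1
  have hu2R : (0:ℝ) < u2 := by exact_mod_cast hu2
  have hv1R : (0:ℝ) < v1 := by exact_mod_cast hv1
  have hv2R : (0:ℝ) < v2 := by exact_mod_cast hv2
  have hUR : (0:ℝ) < U := lt_of_lt_of_le hu1R hu1U
  have hVR : (0:ℝ) < V := lt_of_lt_of_le hv1R hv1V
  have hΔUV : |Δ| ≤ U * V := by
    have a1 : (u1:ℝ) * v2 ≤ U * V := mul_le_mul hu1U hv2V hv2R.le hUR.le
    have a2 : (u2:ℝ) * v1 ≤ U * V := mul_le_mul hu2U hv1V hv1R.le hUR.le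
    have a3 : 0 < (u1:ℝ) * v2 := by positivity
    have a4 : 0 < (u2:ℝ) * v1 := by positivity
    rw [abs_le]; constructor <;> rw [hΔ] <;> linarith
  have hl0 : (0:ℝ) ≤ Nat.lcm k k' := by positivity
  -- `t |δ| |Δ| ≤ 2 V`
  have b1 : t * (|δ| * |Δ|) ≤ 2 * V := by
    have e : δ * Δ = (u1 * δ - v1 * δ') * v2 - (u2 * δ - v2 * δ') * v1 := by rw [hΔ]; ring
    rw [← abs_mul, e]
    have c1 : |(u1 * δ - v1 * δ') * v2 - (u2 * δ - v2 * δ') * v1| ≤ 1/t * V + 1/t * V := by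
      refine (abs_sub _ _).trans ?_
      rw [abs_mul, abs_mul, abs_of_pos hv2R, abs_of_pos hv1R]
      exact add_le_add (mul_le_mul s1.le hv2V hv2R.le (by positivity))
        (mul_le_mul s2.le hv1V hv1R.le (by positivity))
    calc t * |(u1 * δ - v1 * δ') * v2 - (u2 * δ - v2 * δ') * v1|
        ≤ t * (1/t * V + 1/t * V) := mul_le_mul_of_nonneg_left c1 ht.le
      _ = 2 * V := by field_simp; ring
  have b2 : t * (|δ'| * |Δ|) ≤ 2 * U := by
    have e : δ' * Δ = (u1 * δ - v1 * δ') * u2 - (u2 * δ - v2 * δ') * u1 := by rw [hΔ]; ring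
    rw [← abs_mul, e]
    have c1 : |(u1 * δ - v1 * δ') * u2 - (u2 * δ - v2 * δ') * u1| ≤ 1/t * U + 1/t * U := by
      refine (abs_sub _ _).trans ?_
      rw [abs_mul, abs_mul, abs_of_pos hu2R, abs_of_pos hu1R]
      exact add_le_add (mul_le_mul s1.le hu2U hu2R.le (by positivity))
        (mul_le_mul s2.le hu1U hu1R.le (by positivity))
    calc t * |(u1 * δ - v1 * δ') * u2 - (u2 * δ - v2 * δ') * u1|
        ≤ t * (1/t * U + 1/t * U) := mul_le_mul_of_nonneg_left c1 ht.le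
      _ = 2 * U := by field_simp; ring
  unfold dep
  rw [mul_max_of_nonneg _ _ hl0, mul_max_of_nonneg _ _ hl0]
  refine max_le ?_ (max_le ?_ ?_)
  · rw [mul_one]; nlinarith [mul_pos hUR hVR]
  · have c1 : (Nat.lcm k k' : ℝ) * |δ| ≤ |Δ| * |δ| := mul_le_mul_of_nonneg_right hdetR (abs_nonneg _)
    calc (Nat.lcm k k' : ℝ) * (t * U * |δ|) = (t * U) * ((Nat.lcm k k' : ℝ) * |δ|) := by ring
      _ ≤ (t * U) * (|Δ| * |δ|) := mul_le_mul_of_nonneg_left c1 (by positivity)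
      _ = U * (t * (|δ| * |Δ|)) := by ring
      _ ≤ U * (2 * V) := mul_le_mul_of_nonneg_left b1 hUR.le
      _ = 2 * (U * V) := by ring
  · have c1 : (Nat.lcm k k' : ℝ) * |δ'| ≤ |Δ| * |δ'| :=
      mul_le_mul_of_nonneg_right hdetR (abs_nonneg _)
    calc (Nat.lcm k k' : ℝ) * (t * V * |δ'|) = (t * V) * ((Nat.lcm k k' : ℝ) * |δ'|) := by ring
      _ ≤ (t * V) * (|Δ| * |δ'|) := mul_le_mul_of_nonneg_left c1 (by positivity)
      _ = V * (t * (|δ'| * |Δ|)) := by ring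
      _ ≤ V * (2 * U) := mul_le_mul_of_nonneg_left b2 hVR.le
      _ = 2 * (U * V) := by ring

/-- a SHORT word: depth `≥ 64` and `Π³ ≤` depth -/
def IsShort (k k' : ℕ) (t δ δ' : ℝ) (u v : ℕ) : Prop :=
  64 ≤ dep k k' t δ δ' u v ∧ ((u:ℝ) * v)^3 ≤ dep k k' t δ δ' u v


/-! ### words of `N_t` near the labels lie in the lattice and in the strip -/

lemma inLat_of_near {ξ ξ' t E : ℝ} {a a' : ℤ} {k k' u v : ℕ} (hE : 1 ≤ E) (ht : 8*E^5 ≤ t)
    (hk : 0 < k) (hk' : 0 < k') (hkE : (k:ℝ) ≤ E) (hkE' : (k':ℝ) ≤ E)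
    (hn : near (u * ξ - v * ξ') (1/t))
    (hu : u * |ξ - a/k| ≤ 1/(4*E^2)) (hv : v * |ξ' - a'/k'| ≤ 1/(4*E^2)) :
    InLat a k a' k' u v ∧ |u * (ξ - a/k) - v * (ξ' - a'/k')| < 1/t := by
  obtain ⟨m, hm⟩ := hn
  have hE0 : 0 < E := by linarith
  have ht0 : 0 < t := lt_of_lt_of_le (by positivity) ht
  have hkR : (0:ℝ) < k := by exact_mod_cast hk
  have hkR' : (0:ℝ) < k' := by exact_mod_cast hk'
  have hE2 : 1 ≤ E^2 := one_le_pow₀ hE
  have h1t : 1/t ≤ 1/(8*E^2) := by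
    apply one_div_le_one_div_of_le (by positivity)
    have : E^2 ≤ E^5 := pow_le_pow_right₀ hE (by norm_num)
    linarith
  set X : ℤ := u * a * k' - v * a' * k + (-m) * (k * k') with hX
  have eX : (X:ℝ) = (k * k') * ((u * ξ - v * ξ' - m) - u * (ξ - a/k) + v * (ξ' - a'/k')) := by
    rw [hX]; push_cast; field_simp; ring
  have hu' : |(u:ℝ) * (ξ - a/k)| ≤ 1/(4*E^2) := by
    rw [abs_mul, abs_of_nonneg (by positivity : (0:ℝ) ≤ u)]; exact hu
  have hv' : |(v:ℝ) * (ξ' - a'/k')| ≤ 1/(4*E^2) := by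
    rw [abs_mul, abs_of_nonneg (by positivity : (0:ℝ) ≤ v)]; exact hv
  have hb : |(u * ξ - v * ξ' - m) - u * (ξ - a/k) + v * (ξ' - a'/k')| <
      1/(8*E^2) + 1/(4*E^2) + 1/(4*E^2) := by
    have c1 := abs_add_le ((u * ξ - v * ξ' - m) - u * (ξ - a/k)) (v * (ξ' - a'/k'))
    have c2 := abs_sub (u * ξ - v * ξ' - m) (u * (ξ - a/k))
    linarith
  have hX1 : |(X:ℝ)| < 1 := by
    rw [eX, abs_mul, abs_of_pos (mul_pos hkR hkR')]
    calc (k * k' : ℝ) * _ < (k * k') * (1/(8*E^2) + 1/(4*E^2) + 1/(4*E^2)) :=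
          mul_lt_mul_of_pos_left hb (mul_pos hkR hkR')
      _ ≤ (E * E) * (1/(8*E^2) + 1/(4*E^2) + 1/(4*E^2)) := by
          refine mul_le_mul_of_nonneg_right ?_ (by positivity)
          exact mul_le_mul hkE hkE' hkR'.le hE0.le
      _ = 5/8 := by field_simp; norm_num
      _ < 1 := by norm_num
  have hX0 : X = 0 := Int.abs_lt_one_iff.1 (by exact_mod_cast hX1)
  refine ⟨⟨-m, hX0⟩, ?_⟩
  have e0 : u * (ξ - a/k) - v * (ξ' - a'/k') = u * ξ - v * ξ' - m := by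
    rw [hX0] at eX
    have h7 : ((k:ℝ) * k') ≠ 0 := by positivity
    have h8 : (u * ξ - v * ξ' - m) - u * (ξ - a/k) + v * (ξ' - a'/k') = 0 := by
      push_cast at eX
      exact (mul_eq_zero.1 eX.symm).resolve_left h7
    linarith
  rw [e0]; exact hm

/-- kind (ii) words lie in lattice and strip -/
lemma inLat_of_labd {ξ ξ' t E : ℝ} {a a' : ℤ} {k k' u v : ℕ} (hE : 1 ≤ E) (ht : 8*E^5 ≤ t)
    (hN : NN ξ ξ' t u v) (hL : Labd ξ ξ' t E a k a' k' u v) :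
    InLat a k a' k' u v ∧ |u * (ξ - a/k) - v * (ξ' - a'/k')| < 1/t := by
  obtain ⟨hu, hv, hn⟩ := hN
  obtain ⟨⟨hk, hc, hkE, hd⟩, ⟨hk', hc', hkE', hd'⟩⟩ := hL
  have hE0 : 0 < E := by linarith
  have ht0 : 0 < t := lt_of_lt_of_le (by positivity) ht
  have hb : E/t ≤ 1/(4*E^2) := by
    rw [div_le_div_iff₀ ht0 (by positivity)]
    have : E^3 ≤ E^5 := pow_le_pow_right₀ hE (by norm_num)
    have h3 : 0 < E^3 := by positivity
    nlinarith
  have huR : (0:ℝ) < u := by exact_mod_cast hu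
  have hvR : (0:ℝ) < v := by exact_mod_cast hv
  refine inLat_of_near hE ht hk hk' hkE hkE' hn ?_ ?_
  · refine (mul_le_mul_of_nonneg_left hd huR.le).trans ?_
    have e : (u:ℝ) * (E/(t*u)) = E/t := by field_simp
    rw [e]; exact hb
  · refine (mul_le_mul_of_nonneg_left hd' hvR.le).trans ?_
    have e : (v:ℝ) * (E/(t*v)) = E/t := by field_simp
    rw [e]; exact hb

/-- depth of a kind (ii) word is `≤ E³` -/
lemma dep_le {ξ ξ' t E : ℝ} {a a' : ℤ} {k k' u v : ℕ} (hE : 1 ≤ E) (ht : 0 < t)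
    (hu : 1 ≤ u) (hv : 1 ≤ v) (hL : Labd ξ ξ' t E a k a' k' u v) :
    dep k k' t (ξ - a/k) (ξ' - a'/k') u v ≤ E^3 := by
  obtain ⟨⟨hk, hc, hkE, hd⟩, ⟨hk', hc', hkE', hd'⟩⟩ := hL
  have hE0 : 0 < E := by linarith
  have huR : (0:ℝ) < u := by exact_mod_cast hu
  have hvR : (0:ℝ) < v := by exact_mod_cast hv
  have hl : (Nat.lcm k k' : ℝ) ≤ E * E := by
    have h1 : Nat.lcm k k' ≤ k * k' := Nat.le_of_dvd (by positivity) (Nat.lcm_dvd_mul k k')
    have h2 : (Nat.lcm k k' : ℝ) ≤ k * k' := by exact_mod_cast h1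
    exact h2.trans (mul_le_mul hkE hkE' (by positivity) hE0.le)
  have h1 : t * u * |ξ - a/k| ≤ E := by
    have h2 : t * u * |ξ - a/k| ≤ t * u * (E/(t*u)) := mul_le_mul_of_nonneg_left hd (by positivity)
    have e : t * u * (E/(t*u)) = E := by field_simp
    linarith
  have h2 : t * v * |ξ' - a'/k'| ≤ E := by
    have h2 : t * v * |ξ' - a'/k'| ≤ t * v * (E/(t*v)) := mul_le_mul_of_nonneg_left hd' (by positivity)
    have e : t * v * (E/(t*v)) = E := by field_simp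
    linarith
  unfold dep
  calc (Nat.lcm k k' : ℝ) * max 1 (max (t * u * |ξ - a/k|) (t * v * |ξ' - a'/k'|))
      ≤ (E * E) * E := mul_le_mul hl (max_le hE (max_le h1 h2))
        (le_trans zero_le_one (le_max_left _ _)) (by positivity)
    _ = E^3 := by ring

/-! ### dominant words -/

/-- a DOMINANT word: every other coprime word of `N_t` has at least twice its product -/
def Dom (ξ ξ' t : ℝ) (u v : ℕ) : Prop :=
  Nat.Coprime u v ∧ NN ξ ξ' t u v ∧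
    ∀ u' v' : ℕ, Nat.Coprime u' v' → NN ξ ξ' t u' v' → (u', v') ≠ (u, v) → 2 * (u * v) ≤ u' * v'

lemma NN.anti {ξ ξ' t t' : ℝ} (ht : 0 < t) (h : t ≤ t') {u v : ℕ} (hN : NN ξ ξ' t' u v) :
    NN ξ ξ' t u v :=
  ⟨hN.1, hN.2.1, near_mono hN.2.2 (one_div_le_one_div_of_le ht h)⟩

/-- two dominant words at scales `t ≤ t'` are equal or the later one has twice the product -/
theorem dom_double {ξ ξ' t t' : ℝ} (ht : 0 < t) (h : t ≤ t') {u v u' v' : ℕ}
    (hw : Dom ξ ξ' t u v) (hw' : Dom ξ ξ' t' u' v') (hne : (u', v') ≠ (u, v)) :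
    2 * (u * v) ≤ u' * v' :=
  hw.2.2 u' v' hw'.1 (NN.anti ht h hw'.2.1) hne


/-- kind (iii) is dominant -/
theorem dom_of_uniq {ξ ξ' t D : ℝ} (hD : 4 ≤ D) {u v : ℕ} (h : Uniq ξ ξ' t D u v) :
    Dom ξ ξ' t u v := by
  obtain ⟨hco, hN, hu, hv, huq⟩ := h
  refine ⟨hco, hN, fun u' v' hco' hN' hne => ?_⟩
  have huR : (1:ℝ) ≤ u := by exact_mod_cast hN.1
  have hvR : (1:ℝ) ≤ v := by exact_mod_cast hN.2.1
  have huR' : (1:ℝ) ≤ u' := by exact_mod_cast hN'.1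
  have hvR' : (1:ℝ) ≤ v' := by exact_mod_cast hN'.2.1
  have h6 : D^6 ≤ (u':ℝ) * v' := by
    by_contra hcon
    push Not at hcon
    have h1 : (u':ℝ) < D^6 := by nlinarith
    have h2 : (v':ℝ) < D^6 := by nlinarith
    exact hne (huq u' v' hco' hN' h1 h2)
  have h7 : (2:ℝ) * (u * v) ≤ D^6 := by
    have a1 : (u:ℝ) * v ≤ (2*D^2) * (2*D^2) := mul_le_mul hu.le hv.le (by positivity) (by positivity)
    have a2 : 2 * ((2*D^2) * (2*D^2)) ≤ D^6 := by
      have e1 : 2 * ((2*D^2) * (2*D^2)) = 8 * D^4 := by ring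
      have e2 : D^6 = D^2 * D^4 := by ring
      rw [e1, e2]
      have h8 : 8 ≤ D^2 := by nlinarith
      have h4 : 0 < D^4 := by positivity
      nlinarith
    linarith
  have h8 : (2:ℝ) * (u * v) ≤ u' * v' := h7.trans h6
  exact_mod_cast h8

/-- either near the labels, or one entry is `≥ 2E²` -/
lemma near_or_big {ξ t E : ℝ} {a : ℤ} {k u : ℕ} (hE : 1 ≤ E) (ht : 8*E^5 ≤ t)
    (hd : |ξ - a/k| ≤ E/t) : u * |ξ - a/k| ≤ 1/(4*E^2) ∨ 2 * E^2 ≤ (u:ℝ) := by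
  by_cases h : u * |ξ - a/k| ≤ 1/(4*E^2)
  · exact Or.inl h
  right
  push Not at h
  have hE0 : 0 < E := by linarith
  have ht0 : 0 < t := lt_of_lt_of_le (by positivity) ht
  have h1 : 1/(4*E^2) < u * (E/t) := lt_of_lt_of_le h (mul_le_mul_of_nonneg_left hd (by positivity))
  rw [div_lt_iff₀ (by positivity)] at h1
  have e : (u:ℝ) * (E/t) * (4*E^2) = u * (4*E^3) / t := by field_simp
  rw [e, lt_div_iff₀ ht0, one_mul] at h1
  have h2 : 8*E^5 < u * (4*E^3) := lt_of_le_of_lt ht h1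
  have h3 : 0 < 4*E^3 := by positivity
  have h4 : (2 * E^2) * (4*E^3) < u * (4*E^3) := by
    have e2 : (2 * E^2) * (4*E^3) = 8*E^5 := by ring
    rw [e2]; exact h2
  exact (lt_of_mul_lt_mul_right h4 h3.le).le

lemma labd_le {ξ t E : ℝ} {a : ℤ} {k u : ℕ} (hE : 0 < E) (ht : 0 < t) (hu : 1 ≤ u)
    (h : Lab ξ E (E/(t*u)) a k) : |ξ - a/k| ≤ E/t := by
  refine h.2.2.2.trans ?_
  have huR : (1:ℝ) ≤ u := by exact_mod_cast hu
  apply div_le_div_of_nonneg_left hE.le ht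
  nlinarith

/-- the label word (ii-a) is dominant -/
theorem dom_of_label {ξ ξ' t E : ℝ} {a a' : ℤ} {k k' u v : ℕ} (hE : 1 ≤ E) (ht : 8*E^5 ≤ t)
    (hco : Nat.Coprime u v) (hN : NN ξ ξ' t u v) (hL : Labd ξ ξ' t E a k a' k' u v)
    (hu : u = k / Nat.gcd k k') (hv : v = k' / Nat.gcd k k') : Dom ξ ξ' t u v := by
  refine ⟨hco, hN, fun u' v' hco' hN' hne => ?_⟩
  have hE0 : 0 < E := by linarith
  have ht0 : 0 < t := lt_of_lt_of_le (by positivity) ht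
  obtain ⟨hL1, hL2⟩ := hL
  have hd := labd_le hE0 ht0 hN.1 hL1
  have hd' := labd_le hE0 ht0 hN.2.1 hL2
  obtain ⟨hk, hc, hkE, -⟩ := hL1
  obtain ⟨hk', hc', hkE', -⟩ := hL2
  have huk : u ≤ k := hu ▸ Nat.div_le_self _ _
  have hvk : v ≤ k' := hv ▸ Nat.div_le_self _ _
  have hE2 : (u:ℝ) * v ≤ E^2 := by
    have a1 : (u:ℝ) ≤ E := le_trans (by exact_mod_cast huk) hkE
    have a2 : (v:ℝ) ≤ E := le_trans (by exact_mod_cast hvk) hkE'
    rw [pow_two]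
    exact mul_le_mul a1 a2 (by positivity) hE0.le
  have huR' : (1:ℝ) ≤ u' := by exact_mod_cast hN'.1
  have hvR' : (1:ℝ) ≤ v' := by exact_mod_cast hN'.2.1
  have fin : (2:ℝ) * E^2 ≤ u' * v' → 2 * (u * v) ≤ u' * v' := by
    intro h
    have : (2:ℝ) * (u * v) ≤ u' * v' := by linarith
    exact_mod_cast this
  rcases near_or_big (u := u') hE ht hd with h1 | h1
  · rcases near_or_big (u := v') hE ht hd' with h2 | h2
    · obtain ⟨⟨h, hh⟩, -⟩ := inLat_of_near hE ht hk hk' hkE hkE' hN'.2.2 h1 h2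
      obtain ⟨κ, k₁, k₁', r, r', hκ, ek, ek', ck, es, es', hz⟩ :=
        KillS2x949.structure_ hk hk' hc hc' hh
      have hκ0 : 0 < κ := by rw [hκ]; exact Nat.gcd_pos_of_pos_left _ hk
      have eu : u = k₁ := by
        rw [hu, ← hκ]; exact Nat.div_eq_of_eq_mul_right hκ0 ek
      have ev : v = k₁' := by
        rw [hv, ← hκ]; exact Nat.div_eq_of_eq_mul_right hκ0 ek'
      have hr : 1 ≤ r := by
        rcases Nat.eq_zero_or_pos r with h0 | h0
        · exfalso; rw [h0, mul_zero] at es; have := hN'.1; omega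
        · exact h0
      have hr' : 1 ≤ r' := by
        rcases Nat.eq_zero_or_pos r' with h0 | h0
        · exfalso; rw [h0, mul_zero] at es'; have := hN'.2.1; omega
        · exact h0
      have hrr : 2 ≤ r * r' := by
        by_contra hlt
        have h1 : r * r' = 1 := by
          have := Nat.mul_pos hr hr'
          omega
        have h2 : r = 1 := Nat.eq_one_of_mul_eq_one_right h1
        have h3 : r' = 1 := Nat.eq_one_of_mul_eq_one_left h1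
        apply hne
        rw [es, es', h2, h3, mul_one, mul_one, eu, ev]
      calc 2 * (u * v) ≤ (r * r') * (u * v) := Nat.mul_le_mul_right _ hrr
        _ = u' * v' := by rw [es, es', eu, ev]; ring
    · exact fin (by nlinarith)
  · exact fin (by nlinarith)

/-- a short word is dominant -/
theorem dom_of_short {ξ ξ' t E : ℝ} {a a' : ℤ} {k k' u v : ℕ} (hE : 1 ≤ E) (ht : 8*E^5 ≤ t)
    (hco : Nat.Coprime u v) (hN : NN ξ ξ' t u v) (hL : Labd ξ ξ' t E a k a' k' u v)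
    (hS : IsShort k k' t (ξ - a/k) (ξ' - a'/k') u v) : Dom ξ ξ' t u v := by
  refine ⟨hco, hN, fun u' v' hco' hN' hne => ?_⟩
  have hE0 : 0 < E := by linarith
  have ht0 : 0 < t := lt_of_lt_of_le (by positivity) ht
  obtain ⟨hIn, hSt⟩ := inLat_of_labd hE ht hN hL
  have hdep := dep_le hE ht0 hN.1 hN.2.1 hL
  obtain ⟨hL1, hL2⟩ := hL
  have hd := labd_le hE0 ht0 hN.1 hL1
  have hd' := labd_le hE0 ht0 hN.2.1 hL2
  obtain ⟨hk, hc, hkE, -⟩ := hL1
  obtain ⟨hk', hc', hkE', -⟩ := hL2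
  have huR : (1:ℝ) ≤ u := by exact_mod_cast hN.1
  have hvR : (1:ℝ) ≤ v := by exact_mod_cast hN.2.1
  have huR' : (1:ℝ) ≤ u' := by exact_mod_cast hN'.1
  have hvR' : (1:ℝ) ≤ v' := by exact_mod_cast hN'.2.1
  have hPE : (u:ℝ) * v ≤ E := by
    have h1 : ((u:ℝ) * v)^3 ≤ E^3 := hS.2.trans hdep
    exact le_of_pow_le_pow_left₀ (by norm_num) hE0.le h1
  have fin : (2:ℝ) * E^2 ≤ u' * v' → 2 * (u * v) ≤ u' * v' := by
    intro h
    have h3 : E ≤ E^2 := by nlinarith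
    have : (2:ℝ) * (u * v) ≤ u' * v' := by linarith
    exact_mod_cast this
  rcases near_or_big (u := u') hE ht hd with h1 | h1
  · rcases near_or_big (u := v') hE ht hd' with h2 | h2
    · obtain ⟨hIn', hSt'⟩ := inLat_of_near hE ht hk hk' hkE hkE' hN'.2.2 h1 h2
      have hK := two_words ht0 hk hk' hc hc' hIn hIn' hSt hSt' hco hco' hN.1 hN.2.1 hN'.1 hN'.2.1
        (Ne.symm hne)
      have hmono : dep k k' t (ξ - a/k) (ξ' - a'/k') u v ≤
          dep k k' t (ξ - a/k) (ξ' - a'/k') (max u u') (max v v') :=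
        dep_mono ht0.le (le_max_left _ _) (le_max_left _ _)
      obtain ⟨hS1, hS2⟩ := hS
      -- W = max u u' * max v v' ≥ max(32, Π³/2)
      set W : ℝ := ((max u u' : ℕ):ℝ) * (max v v' : ℕ) with hW
      have hW1 : 32 ≤ W := by linarith
      have hW2 : ((u:ℝ) * v)^3 ≤ 2 * W := by linarith
      -- reduce to natural numbers
      set P : ℝ := (u:ℝ) * v with hP
      set P' : ℝ := (u':ℝ) * v' with hP'
      have hP1 : 1 ≤ P := by nlinarith
      have hP1' : 1 ≤ P' := by nlinarith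
      -- W ≤ P * P'
      have hWPP : W ≤ P * P' := by
        have hmu : max u u' ≤ u * u' :=
          max_le (Nat.le_mul_of_pos_right _ (by have := hN'.1; omega))
            (Nat.le_mul_of_pos_left _ (by have := hN.1; omega))
        have hmv : max v v' ≤ v * v' :=
          max_le (Nat.le_mul_of_pos_right _ (by have := hN'.2.1; omega))
            (Nat.le_mul_of_pos_left _ (by have := hN.2.1; omega))
        have a1 : ((max u u' : ℕ):ℝ) ≤ u * u' := by exact_mod_cast hmu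
        have a2 : ((max v v' : ℕ):ℝ) ≤ v * v' := by exact_mod_cast hmv
        calc W ≤ (u * u') * (v * v') := mul_le_mul a1 a2 (by positivity) (by positivity)
          _ = P * P' := by rw [hP, hP']; ring
      have hres : 2 * P ≤ P' := by
        by_cases hP4 : P ≤ 4
        · -- P * P' ≥ 32
          have h3 : 32 ≤ P * P' := hW1.trans hWPP
          by_contra hcon
          push Not at hcon
          nlinarith
        · push Not at hP4
          have h3 : P^3 ≤ 2 * (P * P') := hW2.trans (by linarith)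
          have h4 : P * P^2 ≤ P * (2 * P') := by nlinarith
          have h5 : P^2 ≤ 2 * P' := le_of_mul_le_mul_left h4 (by linarith)
          nlinarith
      rw [hP, hP'] at hres
      exact_mod_cast hres
    · exact fin (by nlinarith)
  · exact fin (by nlinarith)




end Crest.Agent.R4C.S2bx284
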