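import Mathlib
import Crest.Agent.R4C.Class3_992
import Crest.Agent.R4C.RelTail_808
import Crest.Agent.R4C.MXlowB_808
import Crest.Agent.R4C.S2b_284

-- ▼ part R4C/Class4_992
section

/-!
# Row 4, BLOCK S2 v1.1 (note 2896 (3)): natural mass of the labelled words that are not short

`depth` of a word `(u,v)` with labels `a/k`, `a'/k'`:
`K(w) = lcm(k,k') · max(1, t u |ξ - a/k|, t v |ξ' - a'/k'|)`.

* `dyadic_mass` : a bound `β` per dyadic box gives `β (1+log₂ Z)²`;
* `box_label_mass` : coprime labelled words of a box with `depth ≥ K` which are not short: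
  mass `≤ 5 K^{-1/3}`;
* `label_mass` : `∑ 1/(uv) ≤ 5 (1+log₂Z)² K^{-1/3}`.
-/

set_option autoImplicit false

namespace Crest.Agent.R4C.Class4x992

open Crest.Agent.R4C.S2x232 Crest.Agent.R4C.Class2x992 Crest.Agent.R4C.Class3x992

/-- the depth of a word with given labels -/
noncomputable def depth (ξ ξ' t : ℝ) (a : ℤ) (k : ℕ) (a' : ℤ) (k' : ℕ) (u v : ℝ) : ℝ :=
  Nat.lcm k k' * max 1 (t * max (u * |ξ - a / k|) (v * |ξ' - a' / k'|))




/-- a bound per dyadic box -/
theorem dyadic_mass (Z : ℕ) (f : ℕ × ℕ → ℝ) (hf : ∀ w, 0 ≤ f w) {β : ℝ}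
    (hbox : ∀ i j : ℕ, ∑ w ∈ (Finset.Ico (2 ^ i) (2 * 2 ^ i)) ×ˢ (Finset.Ico (2 ^ j) (2 * 2 ^ j)),
      f w ≤ β) :
    ∑ u ∈ Finset.Icc 1 Z, ∑ v ∈ Finset.Icc 1 Z, f (u, v) ≤ β * (1 + (Nat.log 2 Z : ℝ)) ^ 2 := by
  classical
  set n := Nat.log 2 Z with hn
  have hcover : (Finset.Icc 1 Z) ×ˢ (Finset.Icc 1 Z) ⊆
      (Finset.range (n + 1) ×ˢ Finset.range (n + 1)).biUnion
        (fun ij => (Finset.Ico (2 ^ ij.1) (2 * 2 ^ ij.1)) ×ˢ (Finset.Ico (2 ^ ij.2) (2 * 2 ^ ij.2))) := by
    intro w hw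
    rw [Finset.mem_product, Finset.mem_Icc, Finset.mem_Icc] at hw
    rw [Finset.mem_biUnion]
    refine ⟨(Nat.log 2 w.1, Nat.log 2 w.2), ?_, ?_⟩
    · rw [Finset.mem_product, Finset.mem_range, Finset.mem_range]
      have h1 := Nat.log_mono_right (b := 2) hw.1.2
      have h2 := Nat.log_mono_right (b := 2) hw.2.2
      simp only
      omega
    · rw [Finset.mem_product, Finset.mem_Ico, Finset.mem_Ico]
      exact ⟨⟨lo_le hw.1.1, lt_lo _⟩, ⟨lo_le hw.2.1, lt_lo _⟩⟩
  calc ∑ u ∈ Finset.Icc 1 Z, ∑ v ∈ Finset.Icc 1 Z, f (u, v)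
      = ∑ w ∈ (Finset.Icc 1 Z) ×ˢ (Finset.Icc 1 Z), f w := by
        rw [Finset.sum_product]
    _ ≤ ∑ w ∈ (Finset.range (n + 1) ×ˢ Finset.range (n + 1)).biUnion
        (fun ij => (Finset.Ico (2 ^ ij.1) (2 * 2 ^ ij.1)) ×ˢ (Finset.Ico (2 ^ ij.2) (2 * 2 ^ ij.2))),
        f w := Finset.sum_le_sum_of_subset_of_nonneg hcover (fun w _ _ => hf w)
    _ ≤ ∑ ij ∈ Finset.range (n + 1) ×ˢ Finset.range (n + 1),
        ∑ w ∈ (Finset.Ico (2 ^ ij.1) (2 * 2 ^ ij.1)) ×ˢ (Finset.Ico (2 ^ ij.2) (2 * 2 ^ ij.2)),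
        f w := sum_biUnion_le _ _ _ hf
    _ ≤ ∑ ij ∈ Finset.range (n + 1) ×ˢ Finset.range (n + 1), β :=
        Finset.sum_le_sum fun ij _ => hbox ij.1 ij.2
    _ = β * (1 + (n : ℝ)) ^ 2 := by
        rw [Finset.sum_const, Finset.card_product, Finset.card_range, nsmul_eq_mul]
        push_cast
        ring



/-- laws `ν₀(n) ≤ 1/n` on the low words -/
theorem mass_of_laws (Z : ℕ) (P : ℕ → ℕ → Prop) [∀ u v, Decidable (P u v)] {μ μ' : ℕ → ℝ} {β : ℝ}
    (h0' : ∀ n, 0 ≤ μ' n) (h1 : ∀ n, 1 ≤ n → μ n ≤ 1 / n)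
    (h1' : ∀ n, 1 ≤ n → μ' n ≤ 1 / n)
    (h : ∑ u ∈ Finset.Icc 1 Z, ∑ v ∈ Finset.Icc 1 Z, (if P u v then 1 / ((u : ℝ) * v) else 0) ≤ β) :
    ∑ u ∈ Finset.Icc 1 Z, ∑ v ∈ Finset.Icc 1 Z, (if P u v then μ u * μ' v else 0) ≤ β := by
  refine le_trans ?_ h
  refine Finset.sum_le_sum fun u hu => Finset.sum_le_sum fun v hv => ?_
  rw [Finset.mem_Icc] at hu hv
  split_ifs
  · have e : 1 / ((u : ℝ) * v) = (1 / u) * (1 / v) := by ring
    rw [e]
    exact mul_le_mul (h1 u hu.1) (h1' v hv.1) (h0' v) (by positivity)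
  · exact le_rfl

end Crest.Agent.R4C.Class4x992
end

-- ▼ part R4C/RelRare_808

/-!
# Row 4: energy of the rare pairs and of the deep labelled pairs, anatomy weights (helper808)

Relations of the coprime cofactors `s = b/g`, `s' = c/g`, cut at a height `y ≥ 8`
(`low y s`, `upp y s` = smooth and rough part):

* `KRare γ t D y s s'` : linked at scale `t` and the box of the smooth word is rare;
* `KDeep γ t E K y s s'` : linked, the smooth word has labels (`≤ E`), is not short and has depth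
  `≥ K` (`S2b_284`).

* `dens_cut`    : natural density of a relation given by the smooth word, general `M`;
* `dens_rare`   : `≤ C (1 + 2 log y log D)² / D`;
* `dens_deep`   : `≤ C (1 + 2 log y log K)² K^(-1/3)`;
* `rare_energy`, `deep_energy` : energies at the dyadic scale `G < gcd ≤ 2G`;
* `rare_energy_t` : with `D = t^c`, `log y ≤ C₁ t^(c/8)`, window `L`:
  `L · energy ≤ C t^(-(c/(2r) - κ)) ((L D f)(L D f'))^((1+κ)/2)`.
-/

set_option autoImplicit false

open Finset

namespace Crest.Agent.R4C.RelRarex808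

open Basex935 Cutx50 MXlowx808 MXlowBx808 RelTailx808 S2x232

/-! ### natural density of a relation between smooth words -/

lemma sum_div_le (N Z : ℕ) {z : ℝ} (hZ : z ≤ (Z : ℝ) + 1) {h : ℕ → ℝ} (h0 : ∀ n, 0 ≤ h n) :
    ∑ n ∈ N.divisors, (if (n : ℝ) < z then h n else 0) ≤
      ∑ n ∈ Icc 1 Z, (if n ∣ N then h n else 0) := by
  rw [← Finset.sum_filter]
  calc ∑ n ∈ N.divisors.filter (fun n : ℕ => (n : ℝ) < z), h n
      = ∑ n ∈ N.divisors.filter (fun n : ℕ => (n : ℝ) < z), (if n ∣ N then h n else 0) := by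
        refine sum_congr rfl fun n hn => ?_
        rw [Finset.mem_filter, Nat.mem_divisors] at hn
        rw [if_pos hn.1.1]
    _ ≤ ∑ n ∈ Icc 1 Z, (if n ∣ N then h n else 0) := by
        refine sum_le_sum_of_subset_of_nonneg ?_ ?_
        · intro n hn
          rw [Finset.mem_filter] at hn
          rw [Finset.mem_Icc]
          refine ⟨Nat.pos_of_mem_divisors hn.1, ?_⟩
          have h1 : (n : ℝ) < (Z : ℝ) + 1 := lt_of_lt_of_le hn.2 hZ
          have h2 : n < Z + 1 := by exact_mod_cast h1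
          omega
        · intro n _ _
          split_ifs
          · exact h0 n
          · exact le_rfl

open Classical in
lemma inner_le {M y Z : ℕ} (hy : 8 ≤ y) {z β : ℝ} (hz : 0 < z)
    (hZ : z ≤ (Z : ℝ) + 1) (P : ℕ → ℕ → Prop)
    (hP : ∑ u ∈ Icc 1 Z, ∑ v ∈ Icc 1 Z, (if P u v then 1 / ((u : ℝ) * v) else 0) ≤ β) :
    ∑ n ∈ (low y M).divisors, ∑ n' ∈ (low y M).divisors,
        nu (low y M) n * nu (low y M) n' * (if P n n' then 1 else 0) ≤
      2 * (Real.exp 14 * z ^ (-(1 / Real.log y))) + β := by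
  set N := low y M with hN
  have hN0 : 0 < N := low_pos y M
  set τ := Real.exp 14 * z ^ (-(1 / Real.log y)) with hτ
  have htail : ∑ n ∈ N.divisors, (if z ≤ (n : ℝ) then nu N n else 0) ≤ τ := by
    rw [← Finset.sum_filter]
    exact low_tail' (M := M) hy hz
  have hν : ∀ n, 0 ≤ nu N n := nu_nonneg N
  have hpt : ∀ n n' : ℕ, nu N n * nu N n' * (if P n n' then (1 : ℝ) else 0) ≤
      (if z ≤ (n : ℝ) then nu N n else 0) * nu N n' +
      nu N n * (if z ≤ (n' : ℝ) then nu N n' else 0) +
      (if (n : ℝ) < z then (if (n' : ℝ) < z then (if P n n' then nu N n * nu N n' else 0) else 0)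
        else 0) := by
    intro n n'
    have h1 := hν n
    have h2 := hν n'
    have h3 : 0 ≤ nu N n * nu N n' := mul_nonneg h1 h2
    by_cases c1 : z ≤ (n : ℝ)
    · have c1' : ¬ (n : ℝ) < z := not_lt.2 c1
      rw [if_pos c1, if_neg c1']
      by_cases c2 : z ≤ (n' : ℝ)
      · rw [if_pos c2]
        split_ifs <;> nlinarith
      · rw [if_neg c2]
        split_ifs <;> nlinarith
    · have c1' : (n : ℝ) < z := not_le.1 c1
      rw [if_neg c1, if_pos c1']
      by_cases c2 : z ≤ (n' : ℝ)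
      · rw [if_pos c2, if_neg (not_lt.2 c2)]
        split_ifs <;> nlinarith
      · rw [if_neg c2, if_pos (not_le.1 c2)]
        split_ifs <;> nlinarith
  have hsum1 : ∑ n ∈ N.divisors, nu N n = 1 := sum_nu hN0
  calc ∑ n ∈ N.divisors, ∑ n' ∈ N.divisors, nu N n * nu N n' * (if P n n' then 1 else 0)
      ≤ ∑ n ∈ N.divisors, ∑ n' ∈ N.divisors,
        ((if z ≤ (n : ℝ) then nu N n else 0) * nu N n' +
        nu N n * (if z ≤ (n' : ℝ) then nu N n' else 0) +
        (if (n : ℝ) < z then (if (n' : ℝ) < z then (if P n n' then nu N n * nu N n' else 0) else 0)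
          else 0)) := sum_le_sum fun n _ => sum_le_sum fun n' _ => hpt n n'
    _ = (∑ n ∈ N.divisors, (if z ≤ (n : ℝ) then nu N n else 0)) * (∑ n' ∈ N.divisors, nu N n') +
        (∑ n ∈ N.divisors, nu N n) * (∑ n' ∈ N.divisors, (if z ≤ (n' : ℝ) then nu N n' else 0)) +
        ∑ n ∈ N.divisors, ∑ n' ∈ N.divisors,
        (if (n : ℝ) < z then (if (n' : ℝ) < z then (if P n n' then nu N n * nu N n' else 0) else 0)
          else 0) := by
        rw [sum_mul_sum, sum_mul_sum]
        simp only [sum_add_distrib]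
    _ ≤ τ + τ + β := by
        rw [hsum1, mul_one, one_mul]
        refine add_le_add (add_le_add htail htail) ?_
        calc ∑ n ∈ N.divisors, ∑ n' ∈ N.divisors,
            (if (n : ℝ) < z then (if (n' : ℝ) < z then (if P n n' then nu N n * nu N n' else 0) else 0)
              else 0)
            = ∑ n ∈ N.divisors, (if (n : ℝ) < z then (∑ n' ∈ N.divisors,
              (if (n' : ℝ) < z then (if P n n' then nu N n * nu N n' else 0) else 0)) else 0) := by
              refine sum_congr rfl fun n _ => ?_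
              split_ifs
              · rfl
              · exact sum_const_zero
          _ ≤ ∑ n ∈ Icc 1 Z, (if n ∣ N then (∑ n' ∈ N.divisors,
              (if (n' : ℝ) < z then (if P n n' then nu N n * nu N n' else 0) else 0)) else 0) := by
              refine sum_div_le N Z hZ fun n => sum_nonneg fun n' _ => ?_
              split_ifs
              · exact mul_nonneg (hν _) (hν _)
              · exact le_rfl
              · exact le_rfl
          _ ≤ ∑ n ∈ Icc 1 Z, ∑ n' ∈ Icc 1 Z,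
              (if P n n' then (if n ∣ N then nu N n else 0) * (if n' ∣ N then nu N n' else 0)
                else 0) := by
              refine sum_le_sum fun n _ => ?_
              split_ifs with hn
              · refine (sum_div_le N Z hZ (h := fun n' => if P n n' then nu N n * nu N n' else 0)
                  fun n' => ?_).trans (le_of_eq ?_)
                · show 0 ≤ (if P n n' then nu N n * nu N n' else 0)
                  split_ifs
                  · exact mul_nonneg (hν _) (hν _)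
                  · exact le_rfl
                · refine sum_congr rfl fun n' _ => ?_
                  show (if n' ∣ N then (if P n n' then nu N n * nu N n' else 0) else 0) = _
                  split_ifs <;> simp
              · refine sum_nonneg fun n' _ => ?_
                split_ifs <;> simp
          _ ≤ β := by
              refine Class4x992.mass_of_laws Z P (μ := fun n => if n ∣ N then nu N n else 0)
                (μ' := fun n => if n ∣ N then nu N n else 0) ?_ ?_ ?_ hP
              · intro n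
                show 0 ≤ (if n ∣ N then nu N n else 0)
                split_ifs
                · exact hν _
                · exact le_rfl
              · intro n _
                show (if n ∣ N then nu N n else 0) ≤ _
                split_ifs with hd
                · exact Lawx69.nu_le_inv hN0 hd
                · positivity
              · intro n _
                show (if n ∣ N then nu N n else 0) ≤ _
                split_ifs with hd
                · exact Lawx69.nu_le_inv hN0 hd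
                · positivity
    _ = 2 * τ + β := by ring

lemma coprime_low {y s t : ℕ} (h : Nat.Coprime s t) : Nat.Coprime (low y s) (low y t) :=
  Nat.Coprime.coprime_dvd_left (low_dvd_self y s)
    (Nat.Coprime.coprime_dvd_right (low_dvd_self y t) h)

open Classical in
/-- **density of a relation between the smooth words** -/
theorem dens_cut {M y Z : ℕ} (hM : 0 < M) (hy : 8 ≤ y) {z β : ℝ} (hz : 0 < z)
    (hZ : z ≤ (Z : ℝ) + 1) (Q : ℕ → ℕ → ℕ → ℕ → Prop)
    (hQ : ∀ x x', ∑ u ∈ Icc 1 Z, ∑ v ∈ Icc 1 Z, (if Q x x' u v then 1 / ((u : ℝ) * v) else 0) ≤ β)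
    (K : ℕ → ℕ → ℝ)
    (hK : ∀ s t, s ∣ M → t ∣ M → Nat.Coprime s t →
      K s t ≤ if Q (upp y s) (upp y t) (low y s) (low y t) then 1 else 0) :
    MXlowx808.dens M K ≤ 2 * (Real.exp 14 * z ^ (-(1 / Real.log y))) + β := by
  have h1 : MXlowx808.dens M K ≤ ∑ s ∈ M.divisors, ∑ t ∈ M.divisors, nu M s * nu M t *
      (if Q (upp y s) (upp y t) (low y s) (low y t) then 1 else 0) := by
    unfold MXlowx808.dens
    refine sum_le_sum fun s hs => sum_le_sum fun t ht => ?_
    rw [Nat.mem_divisors] at hs ht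
    have hn : 0 ≤ nu M s * nu M t := mul_nonneg (nu_nonneg _ _) (nu_nonneg _ _)
    by_cases hc : Nat.Coprime s t
    · rw [if_pos hc]
      exact mul_le_mul_of_nonneg_left (hK s t hs.1 ht.1 hc) hn
    · rw [if_neg hc]
      refine mul_nonneg hn ?_
      split_ifs <;> norm_num
  refine h1.trans ?_
  rw [sum_low_upp hM y]
  have h2 : ∀ T ∈ (upp y M).divisors, ∀ n ∈ (low y M).divisors,
      ∑ t ∈ M.divisors, nu M (n * T) * nu M t *
        (if Q (upp y (n * T)) (upp y t) (low y (n * T)) (low y t) then (1 : ℝ) else 0) =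
      ∑ T' ∈ (upp y M).divisors, ∑ n' ∈ (low y M).divisors,
        (nu (upp y M) T * nu (upp y M) T') * (nu (low y M) n * nu (low y M) n' *
          (if Q T T' n n' then 1 else 0)) := by
    intro T hT n hn
    rw [Nat.mem_divisors] at hT hn
    rw [sum_low_upp hM y]
    refine sum_congr rfl fun T' hT' => sum_congr rfl fun n' hn' => ?_
    rw [Nat.mem_divisors] at hT' hn'
    rw [nu_low_upp hM hn.1 hT.1, nu_low_upp hM hn'.1 hT'.1, upp_of_mul hn.1 hT.1,
      upp_of_mul hn'.1 hT'.1, low_of_mul hn.1 hT.1, low_of_mul hn'.1 hT'.1]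
    ring
  calc ∑ T ∈ (upp y M).divisors, ∑ n ∈ (low y M).divisors,
        ∑ t ∈ M.divisors, nu M (n * T) * nu M t *
        (if Q (upp y (n * T)) (upp y t) (low y (n * T)) (low y t) then (1 : ℝ) else 0)
      = ∑ T ∈ (upp y M).divisors, ∑ n ∈ (low y M).divisors,
        ∑ T' ∈ (upp y M).divisors, ∑ n' ∈ (low y M).divisors,
        (nu (upp y M) T * nu (upp y M) T') * (nu (low y M) n * nu (low y M) n' *
          (if Q T T' n n' then 1 else 0)) :=
        sum_congr rfl fun T hT => sum_congr rfl fun n hn => h2 T hT n hn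
    _ = ∑ T ∈ (upp y M).divisors, ∑ T' ∈ (upp y M).divisors,
        (nu (upp y M) T * nu (upp y M) T') * ∑ n ∈ (low y M).divisors, ∑ n' ∈ (low y M).divisors,
          (nu (low y M) n * nu (low y M) n' * (if Q T T' n n' then 1 else 0)) := by
        refine sum_congr rfl fun T _ => ?_
        rw [sum_comm]
        refine sum_congr rfl fun T' _ => ?_
        rw [mul_sum]
        refine sum_congr rfl fun n _ => ?_
        rw [mul_sum]
    _ ≤ ∑ T ∈ (upp y M).divisors, ∑ T' ∈ (upp y M).divisors,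
        (nu (upp y M) T * nu (upp y M) T') *
          (2 * (Real.exp 14 * z ^ (-(1 / Real.log y))) + β) := by
        refine sum_le_sum fun T _ => sum_le_sum fun T' _ => ?_
        exact mul_le_mul_of_nonneg_left (inner_le hy hz hZ (Q T T') (hQ T T'))
          (mul_nonneg (nu_nonneg _ _) (nu_nonneg _ _))
    _ = _ := by
        have h3 : ∑ T ∈ (upp y M).divisors, nu (upp y M) T = 1 := sum_nu (upp_pos y M)
        calc ∑ T ∈ (upp y M).divisors, ∑ T' ∈ (upp y M).divisors,
              (nu (upp y M) T * nu (upp y M) T') *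
              (2 * (Real.exp 14 * z ^ (-(1 / Real.log y))) + β)
            = (∑ T ∈ (upp y M).divisors, nu (upp y M) T) *
              (∑ T' ∈ (upp y M).divisors, nu (upp y M) T') *
              (2 * (Real.exp 14 * z ^ (-(1 / Real.log y))) + β) := by
              rw [sum_mul_sum, sum_mul]
              refine sum_congr rfl fun T _ => ?_
              rw [sum_mul]
          _ = _ := by rw [h3]; ring

/-! ### the choice of `z` -/

/-- `z = exp(log y · l)`, `Z = ⌊z⌋`: the tail is `e^14 e^{-l}` and `1 + log₂ Z ≤ 1 + 2 log y · l` -/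
lemma choice {y : ℕ} (hy : 8 ≤ y) {l : ℝ} (hl : 0 ≤ l) :
    let z := Real.exp (Real.log y * l)
    0 < z ∧ z ≤ (⌊z⌋₊ : ℝ) + 1 ∧ z ^ (-(1 / Real.log y)) = Real.exp (-l) ∧
      (1 + (Nat.log 2 ⌊z⌋₊ : ℝ)) ^ 2 ≤ (1 + 2 * Real.log y * l) ^ 2 := by
  intro z
  have hy8 : (8 : ℝ) ≤ y := by exact_mod_cast hy
  have hly : 2 ≤ Real.log y := log_eight.trans (Real.log_le_log (by norm_num) hy8)
  have hz : 0 < z := Real.exp_pos _
  have hz1 : 1 ≤ z := Real.one_le_exp (by positivity)
  refine ⟨hz, (Nat.lt_floor_add_one z).le, ?_, ?_⟩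
  · rw [Real.rpow_def_of_pos hz, Real.log_exp]
    congr 1
    field_simp
  · have h1 : 1 ≤ ⌊z⌋₊ := Nat.le_floor (by exact_mod_cast hz1)
    have h2 : ((2 ^ Nat.log 2 ⌊z⌋₊ : ℕ) : ℝ) ≤ z :=
      le_trans (by exact_mod_cast Nat.pow_log_le_self 2 (by omega)) (Nat.floor_le hz.le)
    have h3 : (Nat.log 2 ⌊z⌋₊ : ℝ) * Real.log 2 ≤ Real.log y * l := by
      have h4 := Real.log_le_log (by positivity) h2
      push_cast at h4
      rw [Real.log_pow, Real.log_exp] at h4
      exact h4
    have h5 := Real.log_two_gt_d9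
    have h6 : (0 : ℝ) ≤ (Nat.log 2 ⌊z⌋₊ : ℝ) := Nat.cast_nonneg _
    have h7 : (Nat.log 2 ⌊z⌋₊ : ℝ) ≤ 2 * Real.log y * l := by nlinarith
    exact pow_le_pow_left₀ (by positivity) (by linarith) 2

/-! ### rare pairs -/

open Classical in
/-- linked at scale `t`, the box of the smooth word is rare -/
noncomputable def KRare (γ t D : ℝ) (y s s' : ℕ) : ℝ :=
  if near (((s : ℝ) - s') * γ) (1 / t) ∧
    S2bx284.Rare ((upp y s : ℕ) * γ) ((upp y s' : ℕ) * γ) t D (low y s) (low y s') then 1 else 0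

lemma KRare_nonneg (γ t D : ℝ) (y s s' : ℕ) : 0 ≤ KRare γ t D y s s' := by
  unfold KRare; split_ifs <;> norm_num


lemma near_split {γ δ : ℝ} {y s s' : ℕ} (hs : s ≠ 0) (hs' : s' ≠ 0)
    (h : near (((s : ℝ) - s') * γ) δ) :
    near (((low y s : ℕ) : ℝ) * ((upp y s : ℕ) * γ) - ((low y s' : ℕ) : ℝ) * ((upp y s' : ℕ) * γ))
      δ := by
  have e1 : ((low y s : ℕ) : ℝ) * (upp y s : ℕ) = s := by exact_mod_cast low_mul_upp y hs
  have e2 : ((low y s' : ℕ) : ℝ) * (upp y s' : ℕ) = s' := by exact_mod_cast low_mul_upp y hs'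
  have e : ((low y s : ℕ) : ℝ) * ((upp y s : ℕ) * γ) -
      ((low y s' : ℕ) : ℝ) * ((upp y s' : ℕ) * γ) = ((s : ℝ) - s') * γ := by
    rw [← e1, ← e2]
    ring
  rwa [e]


/-! ### deep labelled pairs -/




lemma dep_eq {ξ ξ' t : ℝ} (ht : 0 ≤ t) {a : ℤ} {k : ℕ} {a' : ℤ} {k' u v : ℕ} :
    S2bx284.dep k k' t (ξ - a / k) (ξ' - a' / k') u v =
      Class4x992.depth ξ ξ' t a k a' k' u v := by
  unfold S2bx284.dep Class4x992.depth
  rw [mul_max_of_nonneg _ _ ht, ← mul_assoc t (u : ℝ), ← mul_assoc t (v : ℝ)]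



/-! ### energies -/



/-! ### in terms of the scale `t = G/L` -/




end Crest.Agent.R4C.RelRarex808
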