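import Mathlib
import Crest.Agent.R4C.HVWt_19
import Crest.Agent.R4C.PrefixM_882
import Crest.Agent.R4C.Counts_952
import Crest.Agent.R4C.NearBoost_60

-- ▼ part R4C/Ky_952
section

/-!
# Row 4, block S7 (1)(b): the event `K_y = {∑_{p ∣ s s', p > y} 1/p ≥ δ}` (helper952)

* `iy y n = ∑_{p ∣ n, p > y} 1/p`, `W y l n = exp (l * iy y n)` (Chernoff weight).
* `nu_ky`    : natural law `nu M`, any `M`:  `P(iy ≥ δ) ≤ exp (-A y)` for `y ≥ Y0 A δ`.
* `card_ky`  : `#{n ≤ N : iy ≥ δ} ≤ N exp (-A y)`.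
* `card_ky_rough` : `#{n ≤ N, n x-rough : iy ≥ δ} ≤ (2 + C2) (N / log x) exp (-A y)`.
* `RhoB_ky` : the density of the relation `K_y` in every model `(Mz, H)` of THEOREM (R).
* `energy_ky` : `∑_{X < gcd ≤ 2X} gcd nu nu f f' 1[K_y] ≤ C X^(2κ-1) e^{-A y} (..)^κ (..)^κ`.
-/

set_option autoImplicit false
set_option linter.unusedVariables false

namespace Crest.Agent.R4C.Kyx952

open Finset Crest.Agent.R4C.Basex935

/-- `∑_{p ∣ n, p > y} 1/p` -/
noncomputable def iy (y : ℝ) (n : ℕ) : ℝ :=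
  ∑ p ∈ n.primeFactors.filter (fun p : ℕ => y < (p : ℝ)), (1 : ℝ) / p

/-- local factor of the Chernoff weight -/
noncomputable def ew (y l : ℝ) (p : ℕ) : ℝ := if y < (p : ℝ) then Real.exp (l / p) else 1

/-- Chernoff weight -/
noncomputable def W (y l : ℝ) (n : ℕ) : ℝ := ∏ p ∈ n.primeFactors, ew y l p

variable {y l θ : ℝ}


lemma one_le_ew (hl : 0 ≤ l) (p : ℕ) : 1 ≤ ew y l p := by
  unfold ew
  split_ifs
  · exact Real.one_le_exp (by positivity)
  · exact le_rfl

lemma W_eq (y l : ℝ) (n : ℕ) : W y l n = Real.exp (l * iy y n) := by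
  unfold W iy ew
  rw [mul_sum, Real.exp_sum, prod_filter]
  refine prod_congr rfl fun p _ => ?_
  split_ifs
  · rw [mul_one_div]
  · rfl

lemma W_pos (y l : ℝ) (n : ℕ) : 0 < W y l n := by rw [W_eq]; exact Real.exp_pos _


lemma iy_mul_le (y : ℝ) {d e : ℕ} (hd : d ≠ 0) (he : e ≠ 0) : iy y (d * e) ≤ iy y d + iy y e := by
  unfold iy
  rw [Nat.primeFactors_mul hd he, filter_union]
  rw [← sum_union_inter]
  have : 0 ≤ ∑ p ∈ d.primeFactors.filter (fun p : ℕ => y < (p : ℝ)) ∩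
      e.primeFactors.filter (fun p : ℕ => y < (p : ℝ)), (1 : ℝ) / p :=
    sum_nonneg fun p _ => by positivity
  linarith

lemma iy_mono (y : ℝ) {d e : ℕ} (h : d.primeFactors ⊆ e.primeFactors) : iy y d ≤ iy y e := by
  unfold iy
  exact sum_le_sum_of_subset_of_nonneg (filter_subset_filter _ h) fun p _ _ => by positivity

lemma W_mul_le (hl : 0 ≤ l) {d e : ℕ} (hd : d ≠ 0) (he : e ≠ 0) :
    W y l (d * e) ≤ W y l d * W y l e := by
  rw [W_eq, W_eq, W_eq, ← Real.exp_add, Real.exp_le_exp, ← mul_add]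
  exact mul_le_mul_of_nonneg_left (iy_mul_le y hd he) hl

lemma ew_sub_nonneg (hl : 0 ≤ l) (p : ℕ) : 0 ≤ ew y l p - 1 := sub_nonneg.2 (one_le_ew hl p)

lemma ew_sub_le (hy : 0 < y) (hθ : 0 ≤ θ) (p : ℕ) :
    ew y (θ * y) p - 1 ≤ if y < (p : ℝ) then θ * y * Real.exp θ / p else 0 := by
  unfold ew
  split_ifs with h
  · have hp : (0 : ℝ) < p := hy.trans h
    have hu : θ * y / p ≤ θ := by
      rw [div_le_iff₀ hp]
      exact mul_le_mul_of_nonneg_left h.le hθ
    have hu0 : 0 ≤ θ * y / p := by positivity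
    have h1 : Real.exp (θ * y / p) - 1 ≤ θ * y / p * Real.exp (θ * y / p) := by
      have h2 := Real.add_one_le_exp (-(θ * y / p))
      have h3 : Real.exp (-(θ * y / p)) * Real.exp (θ * y / p) = 1 := by
        rw [← Real.exp_add, neg_add_cancel, Real.exp_zero]
      nlinarith [Real.exp_pos (θ * y / p)]
    calc _ ≤ θ * y / p * Real.exp (θ * y / p) := h1
      _ ≤ θ * y / p * Real.exp θ := mul_le_mul_of_nonneg_left (Real.exp_le_exp.2 hu) hu0
      _ = _ := by ring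
  · simp

lemma sum_inv_sq_gt (hy : 1 ≤ y) (P : Finset ℕ) :
    ∑ p ∈ P.filter (fun p : ℕ => y < (p : ℝ)), 1 / (p : ℝ) ^ 2 ≤ 2 / y := by
  have h1 : P.filter (fun p : ℕ => y < (p : ℝ)) ⊆ Ioo ⌊y⌋₊ (P.sup id + 1) := by
    intro p hp
    rw [mem_filter] at hp
    rw [mem_Ioo]
    exact ⟨(Nat.floor_lt (by linarith)).2 hp.2, Nat.lt_succ_of_le (Finset.le_sup (f := id) hp.1)⟩
  calc _ ≤ ∑ i ∈ Ioo ⌊y⌋₊ (P.sup id + 1), ((i : ℝ) ^ 2)⁻¹ := by
        simp only [one_div]
        exact sum_le_sum_of_subset_of_nonneg h1 fun i _ _ => by positivity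
    _ ≤ 2 / ((⌊y⌋₊ : ℝ) + 1) := sum_Ioo_inv_sq_le _ _
    _ ≤ 2 / y := by
        have : y ≤ (⌊y⌋₊ : ℝ) + 1 := (Nat.lt_floor_add_one y).le
        gcongr



/-- `∏ (1 + (ew p - 1)/p) ≤ exp (2 θ e^θ)` -/
lemma prod_ew_le (hy : 1 ≤ y) (hθ : 0 ≤ θ) (P : Finset ℕ) :
    ∏ p ∈ P, (1 + (ew y (θ * y) p - 1) / p) ≤ Real.exp (2 * θ * Real.exp θ) := by
  have hy0 : 0 < y := by linarith
  have hl : 0 ≤ θ * y := by positivity
  calc ∏ p ∈ P, (1 + (ew y (θ * y) p - 1) / p)
      ≤ ∏ p ∈ P, Real.exp ((ew y (θ * y) p - 1) / p) := by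
        refine prod_le_prod (fun p _ => ?_) fun p _ => ?_
        · have := ew_sub_nonneg (y := y) hl p
          positivity
        · have := Real.add_one_le_exp ((ew y (θ * y) p - 1) / p)
          linarith
    _ = Real.exp (∑ p ∈ P, (ew y (θ * y) p - 1) / p) := by rw [Real.exp_sum]
    _ ≤ _ := by
        rw [Real.exp_le_exp]
        calc ∑ p ∈ P, (ew y (θ * y) p - 1) / p
            ≤ ∑ p ∈ P, (if y < (p : ℝ) then θ * y * Real.exp θ * (1 / (p : ℝ) ^ 2) else 0) := by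
              refine sum_le_sum fun p _ => ?_
              have h1 := ew_sub_le hy0 hθ p
              split_ifs at h1 ⊢ with h2
              · have hp : (0 : ℝ) < p := hy0.trans h2
                calc (ew y (θ * y) p - 1) / p ≤ (θ * y * Real.exp θ / p) / p :=
                      div_le_div_of_nonneg_right h1 hp.le
                  _ = _ := by field_simp
              · exact div_nonpos_of_nonpos_of_nonneg h1 (by positivity)
          _ = θ * y * Real.exp θ * ∑ p ∈ P.filter (fun p : ℕ => y < (p : ℝ)), 1 / (p : ℝ) ^ 2 := by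
              rw [← sum_filter, mul_sum]
          _ ≤ θ * y * Real.exp θ * (2 / y) :=
              mul_le_mul_of_nonneg_left (sum_inv_sq_gt hy P) (by positivity)
          _ = _ := by field_simp


/-! ### (i) natural law -/

lemma W_eq_prod {M b : ℕ} (hM : 0 < M) (hb : b ∣ M) (y l : ℝ) :
    W y l b = ∏ p ∈ M.primeFactors, (if 0 < b.factorization p then ew y l p else 1) := by
  have hb0 : b ≠ 0 := fun h => hM.ne' (Nat.eq_zero_of_zero_dvd (h ▸ hb))
  unfold W
  rw [← prod_filter]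
  refine prod_congr ?_ fun _ _ => rfl
  ext p
  rw [mem_filter]
  constructor
  · intro hp
    refine ⟨Nat.primeFactors_mono hb hM.ne' hp, ?_⟩
    exact (Nat.prime_of_mem_primeFactors hp).factorization_pos_of_dvd hb0
      (Nat.dvd_of_mem_primeFactors hp)
  · rintro ⟨hp, h⟩
    exact Nat.mem_primeFactors.2 ⟨Nat.prime_of_mem_primeFactors hp,
      Nat.dvd_of_factorization_pos h.ne', hb0⟩

/-- moment of the natural law -/
theorem nu_W_le (hy : 1 ≤ y) (hθ : 0 ≤ θ) {M : ℕ} (hM : 0 < M) :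
    ∑ b ∈ M.divisors, nu M b * W y (θ * y) b ≤ Real.exp (2 * θ * Real.exp θ) := by
  have h1 : ∑ b ∈ M.divisors, nu M b * W y (θ * y) b =
      ∏ p ∈ M.primeFactors, ∑ v ∈ range (M.factorization p + 1),
        nup p (M.factorization p) v * (if 0 < v then ew y (θ * y) p else 1) := by
    rw [← PrefixMx882.sum_prod (fun p v => nup p (M.factorization p) v *
      (if 0 < v then ew y (θ * y) p else 1)) M hM]
    refine sum_congr rfl fun b hb => ?_
    rw [Nat.mem_divisors] at hb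
    rw [PrefixMx882.nu_eq_prod M hM b hb.1, W_eq_prod hM hb.1, ← prod_mul_distrib]
  rw [h1]
  refine le_trans (le_of_eq ?_) (prod_ew_le hy hθ M.primeFactors)
  refine prod_congr rfl fun p hp => ?_
  have hpp := Nat.prime_of_mem_primeFactors hp
  have ha : 0 < M.factorization p :=
    hpp.factorization_pos_of_dvd hM.ne' (Nat.dvd_of_mem_primeFactors hp)
  have hp0 : (p : ℝ) ≠ 0 := by exact_mod_cast hpp.ne_zero
  rw [Finset.range_eq_Ico, sum_eq_sum_Ico_succ_bot (by omega), if_neg (lt_irrefl 0)]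
  have h2 : ∑ v ∈ Ico (0 + 1) (M.factorization p + 1),
      nup p (M.factorization p) v * (if 0 < v then ew y (θ * y) p else 1) =
      (1 / (p : ℝ)) ^ 1 * ew y (θ * y) p := by
    rw [← PrefixMx882.nup_tail p (show 1 ≤ M.factorization p by omega), sum_mul]
    refine sum_congr rfl fun v hv => ?_
    rw [mem_Ico] at hv
    rw [if_pos (by omega)]
  rw [h2]
  unfold nup
  rw [if_pos ha]
  field_simp
  ring






/-! ### (ii), (iii) counting -/

lemma W_expand (y l : ℝ) (n : ℕ) :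
    W y l n = ∑ t ∈ n.primeFactors.powerset, ∏ p ∈ t, (ew y l p - 1) := by
  rw [← Finset.prod_one_add]
  unfold W
  refine prod_congr rfl fun p _ => ?_
  ring

open Classical in
lemma sum_W_le (hl : 0 ≤ l) {S P : Finset ℕ} (hP : ∀ p ∈ P, p.Prime)
    (hS : ∀ n ∈ S, n.primeFactors ⊆ P) (F : Finset ℕ → ℝ)
    (hF : ∀ t, t ⊆ P → ((S.filter (fun n => (∏ p ∈ t, p) ∣ n)).card : ℝ) ≤ F t) :
    ∑ n ∈ S, W y l n ≤ ∑ t ∈ P.powerset, (∏ p ∈ t, (ew y l p - 1)) * F t := by
  have hg : ∀ t : Finset ℕ, 0 ≤ ∏ p ∈ t, (ew y l p - 1) := fun t =>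
    prod_nonneg fun p _ => ew_sub_nonneg hl p
  calc ∑ n ∈ S, W y l n
      = ∑ n ∈ S, ∑ t ∈ P.powerset, (if t ⊆ n.primeFactors then ∏ p ∈ t, (ew y l p - 1) else 0) := by
        refine sum_congr rfl fun n hn => ?_
        rw [W_expand, ← sum_filter]
        refine sum_congr ?_ fun _ _ => rfl
        ext t
        rw [mem_powerset, mem_filter, mem_powerset]
        exact ⟨fun h => ⟨h.trans (hS n hn), h⟩, fun h => h.2⟩
    _ = ∑ t ∈ P.powerset, ∑ n ∈ S, (if t ⊆ n.primeFactors then ∏ p ∈ t, (ew y l p - 1) else 0) :=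
        sum_comm
    _ ≤ _ := by
        refine sum_le_sum fun t ht => ?_
        rw [mem_powerset] at ht
        rw [← sum_filter, sum_const, nsmul_eq_mul, mul_comm]
        refine mul_le_mul_of_nonneg_left (le_trans ?_ (hF t ht)) (hg t)
        have : S.filter (fun n => t ⊆ n.primeFactors) ⊆ S.filter (fun n => (∏ p ∈ t, p) ∣ n) := by
          intro n hn
          rw [mem_filter] at hn ⊢
          refine ⟨hn.1, ?_⟩
          refine Finset.prod_primes_dvd n (fun p hp => (hP p (ht hp)).prime) fun p hp => ?_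
          exact Nat.dvd_of_mem_primeFactors (hn.2 hp)
        exact_mod_cast card_le_card this

lemma primes_sub {N : ℝ} {n : ℕ} (hn : n ∈ Icc 1 ⌊N⌋₊) :
    n.primeFactors ⊆ (Icc 1 ⌊N⌋₊).filter Nat.Prime := by
  intro p hp
  rw [mem_Icc] at hn
  rw [mem_filter, mem_Icc]
  have h1 := Nat.prime_of_mem_primeFactors hp
  have h2 := Nat.le_of_dvd (by omega) (Nat.dvd_of_mem_primeFactors hp)
  exact ⟨⟨h1.one_lt.le, by omega⟩, h1⟩

/-- counted moment -/
theorem sum_W_Icc (hy : 1 ≤ y) (hθ : 0 ≤ θ) {N : ℝ} (hN : 0 ≤ N) :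
    ∑ n ∈ Icc 1 ⌊N⌋₊, W y (θ * y) n ≤ N * Real.exp (2 * θ * Real.exp θ) := by
  classical
  have hl : 0 ≤ θ * y := mul_nonneg hθ (by linarith)
  have h1 := sum_W_le (y := y) hl (S := Icc 1 ⌊N⌋₊) (P := (Icc 1 ⌊N⌋₊).filter Nat.Prime)
    (fun p hp => (mem_filter.1 hp).2) (fun n hn => primes_sub hn)
    (fun t => N * ∏ p ∈ t, (1 / (p : ℝ))) (by
      intro t ht
      have hD : 0 < ∏ p ∈ t, p := prod_pos fun p hp => (mem_filter.1 (ht hp)).2.pos
      have h2 : ((Icc 1 ⌊N⌋₊).filter (fun n => (∏ p ∈ t, p) ∣ n)).card = ⌊N⌋₊ / ∏ p ∈ t, p := by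
        have := Nat.Ioc_filter_dvd_card_eq_div ⌊N⌋₊ (∏ p ∈ t, p)
        rwa [show Ioc 0 ⌊N⌋₊ = Icc 1 ⌊N⌋₊ from rfl] at this
      rw [h2]
      have h3 : ((∏ p ∈ t, p : ℕ) : ℝ) = ∏ p ∈ t, (p : ℝ) := by push_cast; rfl
      calc ((⌊N⌋₊ / ∏ p ∈ t, p : ℕ) : ℝ) ≤ (⌊N⌋₊ : ℝ) / ((∏ p ∈ t, p : ℕ) : ℝ) := Nat.cast_div_le
        _ ≤ N / ((∏ p ∈ t, p : ℕ) : ℝ) :=
            div_le_div_of_nonneg_right (Nat.floor_le hN) (by positivity)
        _ = N * ∏ p ∈ t, (1 / (p : ℝ)) := by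
            rw [h3]
            simp only [one_div]
            rw [prod_inv_distrib, div_eq_mul_inv])
  refine h1.trans ?_
  have h2 : ∑ t ∈ ((Icc 1 ⌊N⌋₊).filter Nat.Prime).powerset,
      (∏ p ∈ t, (ew y (θ * y) p - 1)) * (N * ∏ p ∈ t, (1 / (p : ℝ))) =
      N * ∏ p ∈ (Icc 1 ⌊N⌋₊).filter Nat.Prime, (1 + (ew y (θ * y) p - 1) / p) := by
    rw [Finset.prod_one_add, mul_sum]
    refine sum_congr rfl fun t _ => ?_
    rw [show (∏ p ∈ t, (ew y (θ * y) p - 1)) * (N * ∏ p ∈ t, (1 / (p : ℝ))) =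
      N * ((∏ p ∈ t, (ew y (θ * y) p - 1)) * ∏ p ∈ t, (1 / (p : ℝ))) by ring, ← prod_mul_distrib]
    congr 1
    refine prod_congr rfl fun p _ => ?_
    ring
  rw [h2]
  exact mul_le_mul_of_nonneg_left (prod_ew_le hy hθ _) hN






open Countsx952




/-! ### the relation `K_y` in the models of THEOREM (R) -/

/-- product of the two cofactors `s s'` -/
def cof (b c : ℕ) : ℕ := b / Nat.gcd b c * (c / Nat.gcd b c)

lemma cof_ne_zero {b c : ℕ} (hb : b ≠ 0) (hc : c ≠ 0) : cof b c ≠ 0 := by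
  unfold cof
  have h1 : 0 < b / Nat.gcd b c := Nat.div_pos (Nat.le_of_dvd (Nat.pos_of_ne_zero hb)
    (Nat.gcd_dvd_left _ _)) (Nat.gcd_pos_of_pos_left _ (Nat.pos_of_ne_zero hb))
  have h2 : 0 < c / Nat.gcd b c := Nat.div_pos (Nat.le_of_dvd (Nat.pos_of_ne_zero hc)
    (Nat.gcd_dvd_right _ _)) (Nat.gcd_pos_of_pos_left _ (Nat.pos_of_ne_zero hb))
  exact (Nat.mul_pos h1 h2).ne'

lemma mem_cof {b c : ℕ} (hb : b ≠ 0) (hc : c ≠ 0) (p : ℕ) :
    p ∈ (cof b c).primeFactors ↔ b.factorization p ≠ c.factorization p := by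
  have h1 : b / Nat.gcd b c ≠ 0 := (Nat.div_pos (Nat.le_of_dvd (Nat.pos_of_ne_zero hb)
    (Nat.gcd_dvd_left _ _)) (Nat.gcd_pos_of_pos_left _ (Nat.pos_of_ne_zero hb))).ne'
  have h2 : c / Nat.gcd b c ≠ 0 := (Nat.div_pos (Nat.le_of_dvd (Nat.pos_of_ne_zero hc)
    (Nat.gcd_dvd_right _ _)) (Nat.gcd_pos_of_pos_left _ (Nat.pos_of_ne_zero hb))).ne'
  rw [← Nat.support_factorization, Finsupp.mem_support_iff]
  unfold cof
  rw [Nat.factorization_mul h1 h2, Finsupp.add_apply, Nat.factorization_div (Nat.gcd_dvd_left _ _),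
    Nat.factorization_div (Nat.gcd_dvd_right _ _), Nat.factorization_gcd hb hc]
  simp only [Finsupp.coe_tsub, Pi.sub_apply, Finsupp.inf_apply]
  omega

/-- subadditivity along differing primes -/
lemma iy_cof_le (y : ℝ) {a b a1 b1 a2 b2 : ℕ} (ha : a ≠ 0) (hb : b ≠ 0) (ha1 : a1 ≠ 0)
    (hb1 : b1 ≠ 0) (ha2 : a2 ≠ 0) (hb2 : b2 ≠ 0)
    (h : ∀ p, a.factorization p ≠ b.factorization p →
      a1.factorization p ≠ b1.factorization p ∨ a2.factorization p ≠ b2.factorization p) :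
    iy y (cof a b) ≤ iy y (cof a1 b1) + iy y (cof a2 b2) := by
  refine le_trans (iy_mono y ?_) (iy_mul_le y (cof_ne_zero ha1 hb1) (cof_ne_zero ha2 hb2))
  intro p hp
  rw [mem_cof ha hb] at hp
  rw [Nat.primeFactors_mul (cof_ne_zero ha1 hb1) (cof_ne_zero ha2 hb2), mem_union,
    mem_cof ha1 hb1, mem_cof ha2 hb2]
  exact h p hp

open Classical in
/-- indicator of `K_y` -/
noncomputable def KY (y δ : ℝ) (b c : ℕ) : ℝ := if δ ≤ iy y (cof b c) then 1 else 0

lemma KY_nonneg (y δ : ℝ) (b c : ℕ) : 0 ≤ KY y δ b c := by unfold KY; split_ifs <;> norm_num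
lemma KY_le_one (y δ : ℝ) (b c : ℕ) : KY y δ b c ≤ 1 := by unfold KY; split_ifs <;> norm_num

/-- `1[iy ≥ δ] ≤ e^{-lδ} W` -/
lemma KY_le (hl : 0 ≤ l) (δ : ℝ) (b c : ℕ) : KY y δ b c ≤ Real.exp (-(l * δ)) * W y l (cof b c) := by
  unfold KY
  split_ifs with h
  · rw [W_eq, ← Real.exp_add]
    apply Real.one_le_exp
    have := mul_le_mul_of_nonneg_left h hl
    linarith
  · exact mul_nonneg (Real.exp_pos _).le (W_pos _ _ _).le

lemma nu_scale {M G e : ℕ} (hM : 0 < M) (hG : G ∣ M) :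
    (G : ℝ) * nu M (G * e) = nu (M / G) e := by
  have hG0 : 0 < G := Nat.pos_of_dvd_of_pos hG hM
  have h1 : (G : ℝ) ≠ 0 := by exact_mod_cast hG0.ne'
  have h2 : (M : ℝ) ≠ 0 := by exact_mod_cast hM.ne'
  unfold nu
  rw [← Nat.div_div_eq_div_mul, Nat.cast_div hG h1]
  field_simp

open Classical in
/-- weighted mass of one dyadic class of the model `(Mz, H)` -/
theorem sum_nwb_W (hy : 1 ≤ y) (hθ : 0 ≤ θ) {Mz H : ℕ} (hMz : Mz ≠ 0) (hH : H ∣ Mz) (i : ℕ) :
    ∑ u ∈ Mz.divisors.filter (fun u => Nat.log 2 (H / Nat.gcd H u) = i),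
      ((Nat.gcd H u : ℝ) * nu Mz u) * W y (θ * y) (cof H u) ≤
      2 * 2 ^ i * Real.exp (4 * θ * Real.exp θ) := by
  have hl : 0 ≤ θ * y := mul_nonneg hθ (by linarith)
  have hMp : 0 < Mz := Nat.pos_of_ne_zero hMz
  have hH0 : 0 < H := Nat.pos_of_dvd_of_pos hH hMp
  have hmap : ∀ u ∈ Mz.divisors.filter (fun u => Nat.log 2 (H / Nat.gcd H u) = i),
      H / Nat.gcd H u ∈ Finset.Ico (2 ^ i) (2 ^ (i + 1)) := by
    intro u hu
    obtain ⟨h1, h2⟩ := Finset.mem_filter.1 hu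
    have h3 : 0 < H / Nat.gcd H u := Nat.div_pos (Nat.le_of_dvd hH0 (Nat.gcd_dvd_left _ _))
      (Nat.gcd_pos_of_pos_left _ hH0)
    rw [Finset.mem_Ico, ← h2]
    exact ⟨Nat.pow_log_le_self 2 h3.ne', Nat.lt_pow_succ_log_self (by norm_num) _⟩
  rw [← Finset.sum_fiberwise_of_maps_to hmap]
  have hfib : ∀ d ∈ Finset.Ico (2 ^ i) (2 ^ (i + 1)),
      ∑ u ∈ (Mz.divisors.filter (fun u => Nat.log 2 (H / Nat.gcd H u) = i)).filter
        (fun u => H / Nat.gcd H u = d),
        ((Nat.gcd H u : ℝ) * nu Mz u) * W y (θ * y) (cof H u) ≤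
        W y (θ * y) d * Real.exp (2 * θ * Real.exp θ) := by
    intro d hd
    rcases Finset.eq_empty_or_nonempty ((Mz.divisors.filter
      (fun u => Nat.log 2 (H / Nat.gcd H u) = i)).filter (fun u => H / Nat.gcd H u = d)) with h0 | h0
    · rw [h0, sum_empty]
      exact mul_nonneg (W_pos _ _ _).le (Real.exp_pos _).le
    · obtain ⟨u0, hu0⟩ := h0
      rw [mem_filter] at hu0
      set G := Nat.gcd H u0 with hG
      have hGH : G ∣ H := Nat.gcd_dvd_left _ _
      have hG0 : 0 < G := Nat.gcd_pos_of_pos_left _ hH0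
      have hd0 : 0 < d := by
        rw [← hu0.2]
        exact Nat.div_pos (Nat.le_of_dvd hH0 hGH) hG0
      have hGM : G ∣ Mz := hGH.trans hH
      have hgcd : ∀ u, H / Nat.gcd H u = d → Nat.gcd H u = G := by
        intro u hu
        have e1 : Nat.gcd H u * d = H := by
          rw [← hu]; exact Nat.mul_div_cancel' (Nat.gcd_dvd_left _ _)
        have e2 : G * d = H := by
          rw [← hu0.2]; exact Nat.mul_div_cancel' hGH
        exact Nat.eq_of_mul_eq_mul_right hd0 (e1.trans e2.symm)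
      calc _ ≤ ∑ u ∈ ((Mz / G).divisors).image (fun e => G * e),
            W y (θ * y) d * (((G : ℝ) * nu Mz u) * W y (θ * y) (u / G)) := by
            refine (Finset.sum_le_sum (g := fun u => W y (θ * y) d *
              (((G : ℝ) * nu Mz u) * W y (θ * y) (u / G))) ?_).trans
                (Finset.sum_le_sum_of_subset_of_nonneg ?_ ?_)
            · intro u hu
              rw [mem_filter, mem_filter, Nat.mem_divisors] at hu
              have hg := hgcd u hu.2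
              have hu0' : u ≠ 0 := ne_zero_of_dvd_ne_zero hMz hu.1.1.1
              have hGu : G ∣ u := by rw [← hg]; exact Nat.gcd_dvd_right _ _
              have e1 : cof H u = d * (u / G) := by
                unfold cof
                rw [hg, ← hu0.2]
              have hue : u / G ≠ 0 := (Nat.div_pos (Nat.le_of_dvd (Nat.pos_of_ne_zero hu0') hGu) hG0).ne'
              rw [hg, e1]
              have h3 := W_mul_le (y := y) hl hd0.ne' hue
              have h4 : 0 ≤ (G : ℝ) * nu Mz u := mul_nonneg (by positivity) (nu_nonneg _ _)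
              calc (G : ℝ) * nu Mz u * W y (θ * y) (d * (u / G))
                  ≤ (G : ℝ) * nu Mz u * (W y (θ * y) d * W y (θ * y) (u / G)) :=
                    mul_le_mul_of_nonneg_left h3 h4
                _ = _ := by ring
            · intro u hu
              rw [mem_filter, mem_filter, Nat.mem_divisors] at hu
              have hg := hgcd u hu.2
              have hGu : G ∣ u := by rw [← hg]; exact Nat.gcd_dvd_right _ _
              rw [mem_image]
              refine ⟨u / G, ?_, Nat.mul_div_cancel' hGu⟩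
              rw [Nat.mem_divisors]
              refine ⟨Nat.div_dvd_div hGu hu.1.1.1, ?_⟩
              exact (Nat.div_pos (Nat.le_of_dvd hMp hGM) hG0).ne'
            · intro u _ _
              have h4 : 0 ≤ (G : ℝ) * nu Mz u := mul_nonneg (by positivity) (nu_nonneg _ _)
              exact mul_nonneg (W_pos _ _ _).le (mul_nonneg h4 (W_pos _ _ _).le)
        _ = W y (θ * y) d * ∑ e ∈ (Mz / G).divisors, nu (Mz / G) e * W y (θ * y) e := by
            rw [sum_image (fun a _ b _ hab => Nat.eq_of_mul_eq_mul_left hG0 hab), mul_sum]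
            refine sum_congr rfl fun e _ => ?_
            rw [nu_scale hMp hGM, Nat.mul_div_cancel_left e hG0]
        _ ≤ _ := by
            refine mul_le_mul_of_nonneg_left (nu_W_le hy hθ ?_) (W_pos _ _ _).le
            exact Nat.div_pos (Nat.le_of_dvd hMp hGM) hG0
  refine (sum_le_sum hfib).trans ?_
  rw [← sum_mul]
  have h5 : ∑ d ∈ Finset.Ico (2 ^ i) (2 ^ (i + 1)), W y (θ * y) d ≤
      2 ^ (i + 1) * Real.exp (2 * θ * Real.exp θ) := by
    have h6 := sum_W_Icc (y := y) (θ := θ) hy hθ (N := 2 ^ (i + 1)) (by positivity)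
    have h7 : ⌊(2 : ℝ) ^ (i + 1)⌋₊ = 2 ^ (i + 1) := by
      have : ((2 : ℝ) ^ (i + 1)) = ((2 ^ (i + 1) : ℕ) : ℝ) := by push_cast; rfl
      rw [this, Nat.floor_natCast]
    rw [h7] at h6
    refine le_trans (sum_le_sum_of_subset_of_nonneg ?_ fun n _ _ => (W_pos _ _ _).le) h6
    intro n hn
    rw [mem_Ico] at hn
    rw [mem_Icc]
    have : 0 < 2 ^ i := by positivity
    omega
  calc _ ≤ 2 ^ (i + 1) * Real.exp (2 * θ * Real.exp θ) * Real.exp (2 * θ * Real.exp θ) :=
        mul_le_mul_of_nonneg_right h5 (Real.exp_pos _).le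
    _ = 2 ^ (i + 1) * (Real.exp (2 * θ * Real.exp θ) * Real.exp (2 * θ * Real.exp θ)) := by ring
    _ = _ := by rw [← Real.exp_add, pow_succ]; ring_nf

open Classical in
/-- plain mass of one dyadic class -/
theorem sum_nwb {Mz H : ℕ} (hMz : Mz ≠ 0) (hH : H ∣ Mz) (i : ℕ) :
    ∑ u ∈ Mz.divisors.filter (fun u => Nat.log 2 (H / Nat.gcd H u) = i),
      ((Nat.gcd H u : ℝ) * nu Mz u) ≤ 2 * 2 ^ i := by
  have h := sum_nwb_W (y := 1) (θ := 0) le_rfl le_rfl hMz hH i
  have e : ∀ n, W 1 0 n = 1 := fun n => by rw [W_eq]; simp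
  simp only [mul_one, mul_zero, e, Real.exp_zero] at h
  exact h

open ThmRx19 OnePx19

lemma RhoB_mono {Mz H : ℕ} {K K' : ℕ → ℕ → ℝ} {ρ : ℝ}
    (hK : ∀ u ∈ Mz.divisors, ∀ v ∈ Mz.divisors, K u v ≤ K' u v)
    (h : RhoB Mz H K' ρ) : RhoB Mz H K ρ := by
  intro i j
  refine le_trans (sum_le_sum fun b hb => sum_le_sum fun c hc => ?_) (h i j)
  have h1 := hK b (mem_filter.1 hb).1 c (mem_filter.1 hc).1
  have h2 := nu_nonneg Mz b
  have h3 := nu_nonneg Mz c
  split_ifs
  · exact mul_le_mul_of_nonneg_left h1 (by positivity)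
  · exact le_rfl

/-- **the relation `K_y` is `e^{-θδy/2}`-rare in every model** -/
theorem RhoB_ky (hy : 1 ≤ y) (hθ : 0 ≤ θ) {δ : ℝ} {Mz H : ℕ} (hMz : Mz ≠ 0) (hH : H ∣ Mz) :
    RhoB Mz H (KY y δ) (8 * Real.exp (4 * θ * Real.exp θ - θ * (δ / 2) * y)) := by
  classical
  intro i j
  have hl : 0 ≤ θ * y := mul_nonneg hθ (by linarith)
  set E := Real.exp (-(θ * y * (δ / 2))) with hE
  have hE0 : 0 < E := Real.exp_pos _
  set nw' : ℕ → ℝ := fun u => (Nat.gcd H u : ℝ) * nu Mz u with hnw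
  have hnw0 : ∀ u, 0 ≤ nw' u := fun u => mul_nonneg (by positivity) (nu_nonneg _ _)
  have hpt : ∀ u ∈ Mz.divisors, ∀ v ∈ Mz.divisors,
      KY y δ u v ≤ E * (W y (θ * y) (cof H u) + W y (θ * y) (cof H v)) := by
    intro u hu v hv
    have hu0 : u ≠ 0 := ne_zero_of_dvd_ne_zero hMz (Nat.dvd_of_mem_divisors hu)
    have hv0 : v ≠ 0 := ne_zero_of_dvd_ne_zero hMz (Nat.dvd_of_mem_divisors hv)
    have hH0 : H ≠ 0 := ne_zero_of_dvd_ne_zero hMz hH
    have h1 : iy y (cof u v) ≤ iy y (cof H u) + iy y (cof H v) :=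
      iy_cof_le y hu0 hv0 hH0 hu0 hH0 hv0 fun p hp => by
        by_contra hc
        push Not at hc
        exact hp (hc.1.symm.trans hc.2)
    have h2 : KY y δ u v ≤ KY y (δ / 2) H u + KY y (δ / 2) H v := by
      unfold KY
      by_cases c0 : δ ≤ iy y (cof u v)
      · rcases le_or_gt (δ / 2) (iy y (cof H u)) with c1 | c1
        · rw [if_pos c0, if_pos c1]; split_ifs <;> norm_num
        · rw [if_pos c0, if_neg (not_le.2 c1), if_pos (by linarith)]; norm_num
      · rw [if_neg c0]; split_ifs <;> norm_num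
    have h3 := KY_le (y := y) hl (δ / 2) H u
    have h4 := KY_le (y := y) hl (δ / 2) H v
    rw [← hE] at h3 h4
    linarith
  calc _ ≤ ∑ b ∈ Mz.divisors.filter (fun b => Nat.log 2 (H / Nat.gcd H b) = i),
        ∑ c ∈ Mz.divisors.filter (fun c => Nat.log 2 (H / Nat.gcd H c) = j),
          E * (nw' b * W y (θ * y) (cof H b) * nw' c + nw' b * (nw' c * W y (θ * y) (cof H c))) := by
        refine sum_le_sum fun b hb => sum_le_sum fun c hc => ?_
        have h1 := hpt b (mem_filter.1 hb).1 c (mem_filter.1 hc).1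
        have h2 := hnw0 b
        have h3 := hnw0 c
        have h4 := (W_pos y (θ * y) (cof H b)).le
        have h5 := (W_pos y (θ * y) (cof H c)).le
        split_ifs
        · calc _ ≤ nw' b * nw' c * (E * (W y (θ * y) (cof H b) + W y (θ * y) (cof H c))) :=
                mul_le_mul_of_nonneg_left h1 (mul_nonneg h2 h3)
            _ = _ := by ring
        · positivity
    _ = E * ((∑ b ∈ Mz.divisors.filter (fun b => Nat.log 2 (H / Nat.gcd H b) = i),
            nw' b * W y (θ * y) (cof H b)) *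
            (∑ c ∈ Mz.divisors.filter (fun c => Nat.log 2 (H / Nat.gcd H c) = j), nw' c) +
          (∑ b ∈ Mz.divisors.filter (fun b => Nat.log 2 (H / Nat.gcd H b) = i), nw' b) *
            (∑ c ∈ Mz.divisors.filter (fun c => Nat.log 2 (H / Nat.gcd H c) = j),
              nw' c * W y (θ * y) (cof H c))) := by
        rw [sum_mul_sum, sum_mul_sum, ← sum_add_distrib, mul_sum]
        refine sum_congr rfl fun b _ => ?_
        rw [← sum_add_distrib, mul_sum]
    _ ≤ E * ((2 * 2 ^ i * Real.exp (4 * θ * Real.exp θ)) * (2 * 2 ^ j) +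
          (2 * 2 ^ i) * (2 * 2 ^ j * Real.exp (4 * θ * Real.exp θ))) := by
        refine mul_le_mul_of_nonneg_left (add_le_add ?_ ?_) hE0.le
        · exact mul_le_mul (sum_nwb_W hy hθ hMz hH i) (sum_nwb hMz hH j)
            (sum_nonneg fun c _ => hnw0 c) (by positivity)
        · exact mul_le_mul (sum_nwb hMz hH i) (sum_nwb_W hy hθ hMz hH j)
            (sum_nonneg fun c _ => mul_nonneg (hnw0 c) (W_pos _ _ _).le) (by positivity)
    _ = 8 * (E * Real.exp (4 * θ * Real.exp θ)) * 2 ^ i * 2 ^ j := by ring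
    _ = _ := by
        rw [hE, ← Real.exp_add]
        congr 4
        ring

/-- the active part: many differing primes `> y` make the factor `FF` tiny -/
lemma FF_ky {κ δ0 c : ℝ} (hδ0 : 0 < δ0) {p0 : ℕ} (hc : 0 < c)
    (hX : ∀ p : ℕ, p0 ≤ p → c * X1 κ δ0 p ≤ 1 / 2) {Ma h h' : ℕ} (hMa : Ma ≠ 0) (hh : h ∣ Ma)
    (hh' : h' ∣ Ma) (hy : 1 ≤ y) {δ : ℝ} (hδ : δ ≤ iy y (cof h h')) :
    FF δ0 (gg κ δ0 c p0) Ma h h' ≤ Real.exp (-(δ0 * δ * y * Real.log y)) := by
  classical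
  have hy0 : 0 < y := by linarith
  have hh0 : h ≠ 0 := ne_zero_of_dvd_ne_zero hMa hh
  have hh0' : h' ≠ 0 := ne_zero_of_dvd_ne_zero hMa hh'
  set D := (cof h h').primeFactors.filter (fun p : ℕ => y < (p : ℝ)) with hD
  have hly : 0 ≤ Real.log y := Real.log_nonneg hy
  -- number of differing primes
  have h1 : δ * y ≤ D.card := by
    have h2 : iy y (cof h h') ≤ D.card * (1 / y) := by
      unfold iy
      rw [← hD]
      calc ∑ p ∈ D, (1 : ℝ) / p ≤ ∑ _p ∈ D, 1 / y := by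
            refine sum_le_sum fun p hp => ?_
            rw [hD, mem_filter] at hp
            exact one_div_le_one_div_of_le hy0 hp.2.le
        _ = _ := by rw [sum_const, nsmul_eq_mul]
    have h3 := hδ.trans h2
    rw [mul_one_div, le_div_iff₀ hy0] at h3
    exact h3
  have hDsub : D ⊆ Ma.primeFactors := by
    intro p hp
    rw [hD, mem_filter, mem_cof hh0 hh0'] at hp
    have hpos : 0 < Ma.factorization p := by
      have a1 := fact_le hMa hh p
      have a2 := fact_le hMa hh' p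
      by_contra hcon
      push Not at hcon
      omega
    have : p ∈ Ma.factorization.support := by
      rw [Finsupp.mem_support_iff]; omega
    rwa [Nat.support_factorization] at this
  have hg : ∀ p, 0 ≤ gg κ δ0 c p0 p ∧ gg κ δ0 c p0 p ≤ 1 := by
    intro p
    unfold gg
    split_ifs with h5
    · have h6 := hX p h5
      have h7 : 0 ≤ X1 κ δ0 p := by unfold X1; positivity
      have h8 : 0 ≤ c * X1 κ δ0 p := by positivity
      constructor <;> linarith
    · constructor <;> norm_num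
  calc FF δ0 (gg κ δ0 c p0) Ma h h'
      ≤ ∏ p ∈ Ma.primeFactors, (if p ∈ D then Real.exp (-(δ0 * Real.log y)) else 1) := by
        unfold FF
        refine prod_le_prod (fun p hp => ?_) fun p hp => ?_
        · split_ifs
          · exact (hg p).1
          · positivity
        · have hp1 : (1 : ℝ) ≤ p := by
            exact_mod_cast (Nat.prime_of_mem_primeFactors hp).one_lt.le
          by_cases h5 : p ∈ D
          · rw [if_pos h5]
            rw [hD, mem_filter, mem_cof hh0 hh0'] at h5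
            rw [if_neg h5.1]
            have hp0 : (0 : ℝ) < p := by linarith
            have h6 : 1 ≤ dst (h.factorization p) (h'.factorization p) := OnePx19.dst_pos h5.1
            have h7 : (1 : ℝ) ≤ (dst (h.factorization p) (h'.factorization p) : ℝ) := by
              exact_mod_cast h6
            rw [Real.rpow_def_of_pos hp0, Real.exp_le_exp]
            have h8 : Real.log y ≤ Real.log p := Real.log_le_log hy0 h5.2.le
            have h9 : δ0 * Real.log y ≤ Real.log p * (δ0 * (dst (h.factorization p) (h'.factorization p) : ℝ)) := by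
              calc δ0 * Real.log y ≤ δ0 * Real.log p := mul_le_mul_of_nonneg_left h8 hδ0.le
                _ = Real.log p * (δ0 * 1) := by ring
                _ ≤ _ := mul_le_mul_of_nonneg_left (mul_le_mul_of_nonneg_left h7 hδ0.le)
                    (Real.log_nonneg hp1)
            linarith
          · rw [if_neg h5]
            split_ifs
            · exact (hg p).2
            · apply Real.rpow_le_one_of_one_le_of_nonpos hp1
              have : 0 ≤ δ0 * (dst (h.factorization p) (h'.factorization p) : ℝ) := by positivity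
              linarith
    _ = Real.exp (-(δ0 * Real.log y)) ^ D.card := by
        rw [← prod_filter, filter_mem_eq_inter, inter_eq_right.2 hDsub, prod_const]
    _ ≤ _ := by
        rw [← Real.exp_nat_mul, Real.exp_le_exp]
        have h5 : 0 ≤ δ0 * Real.log y := by positivity
        have h6 := mul_le_mul_of_nonneg_right h1 h5
        linarith

/-- **energy of `K_y` at a fixed scale** (any `M`): it is `e^{-Ay}` times the HVW bound, for every
fixed `A` -/
theorem energy_ky {κ : ℝ} (hκ : 1 / 2 < κ) (hκ1 : κ < 1) :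
    ∃ C : ℝ, 0 < C ∧ ∀ A δ : ℝ, 0 ≤ A → 0 < δ → ∃ y1 : ℝ, 1 ≤ y1 ∧ ∀ y : ℝ, y1 ≤ y →
      ∀ (M : ℕ) (X : ℝ) (f f' : ℕ → ℝ), M ≠ 0 → 0 < X →
      (∀ x, 0 ≤ f x) → (∀ x, f x ≤ 1) → (∀ x, 0 ≤ f' x) → (∀ x, f' x ≤ 1) →
      ∑ b ∈ M.divisors, ∑ c ∈ M.divisors,
        (if X < (Nat.gcd b c : ℝ) ∧ (Nat.gcd b c : ℝ) ≤ 2 * X then
          (Nat.gcd b c : ℝ) * nu M b * nu M c * (f b * f' c * KY y δ b c)
        else 0) ≤ C * X ^ (2 * κ - 1) * Real.exp (-(A * y)) *
          ((∑ b ∈ M.divisors, nu M b * f b) ^ κ * (∑ b ∈ M.divisors, nu M b * f' b) ^ κ) := by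
  obtain ⟨δ0, hδ00, hδ0⟩ := exists_delta hκ hκ1
  obtain ⟨c, C, p0, hc, hC, hX, hR⟩ := thmR_b hκ hκ1 hδ00 hδ0
  refine ⟨C, hC, ?_⟩
  intro A δ hA hδ
  have h1k : 0 < 1 - κ := by linarith
  set t : ℝ := 4 * (A + 1) / (δ * (1 - κ)) with ht
  have ht0 : 0 ≤ t := by positivity
  refine ⟨max 1 (max (Real.exp (2 * A / (δ0 * δ))) (Real.log 8 + 4 * t * Real.exp t)),
    le_max_left _ _, ?_⟩
  intro y hy M X f f' hM hX0 hf hf1 hf' hf1'
  have hy1 : 1 ≤ y := (le_max_left _ _).trans hy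
  have hy0 : 0 < y := by linarith
  have hy2 : Real.exp (2 * A / (δ0 * δ)) ≤ y := ((le_max_left _ _).trans (le_max_right _ _)).trans hy
  have hy3 : Real.log 8 + 4 * t * Real.exp t ≤ y := ((le_max_right _ _).trans (le_max_right _ _)).trans hy
  refine hR M X (Real.exp (-(A * y))) f f' (KY y δ) hM hX0 (Real.exp_pos _).le hf hf1 hf' hf1'
    (KY_nonneg y δ) (KY_le_one y δ) ?_
  intro Ma Mz H h h' hMM hcop hh hh' hH
  have hMz : Mz ≠ 0 := by rintro rfl; simp at hMM; exact hM hMM.symm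
  have hMa : Ma ≠ 0 := by rintro rfl; simp at hMM; exact hM hMM.symm
  have hh0 : h ≠ 0 := ne_zero_of_dvd_ne_zero hMa hh
  have hh0' : h' ≠ 0 := ne_zero_of_dvd_ne_zero hMa hh'
  by_cases hact : δ / 2 ≤ iy y (cof h h')
  · refine ⟨1, zero_le_one, RhoB_one hMz hH _ (fun _ _ => KY_nonneg _ _ _ _)
      (fun _ _ => KY_le_one _ _ _ _), ?_⟩
    rw [Real.one_rpow, mul_one]
    refine (FF_ky hδ00 hc hX hMa hh hh' hy1 hact).trans ?_
    rw [Real.exp_le_exp]
    have h1 : 2 * A / (δ0 * δ) ≤ Real.log y := by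
      rw [Real.le_log_iff_exp_le hy0]; exact hy2
    rw [div_le_iff₀ (by positivity)] at h1
    have h2 : A * y ≤ δ0 * (δ / 2) * y * Real.log y := by
      have h3 := mul_le_mul_of_nonneg_right h1 hy0.le
      nlinarith
    linarith
  · push Not at hact
    refine ⟨8 * Real.exp (4 * t * Real.exp t - t * (δ / 2 / 2) * y), by positivity,
      RhoB_mono ?_ (RhoB_ky (δ := δ / 2) hy1 ht0 hMz hH), ?_⟩
    · intro u hu v hv
      have hu0 : u ≠ 0 := ne_zero_of_dvd_ne_zero hMz (Nat.dvd_of_mem_divisors hu)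
      have hv0 : v ≠ 0 := ne_zero_of_dvd_ne_zero hMz (Nat.dvd_of_mem_divisors hv)
      have h1 : iy y (cof (h * u) (h' * v)) ≤ iy y (cof h h') + iy y (cof u v) :=
        iy_cof_le y (mul_ne_zero hh0 hu0) (mul_ne_zero hh0' hv0) hh0 hh0' hu0 hv0 fun p hp => by
          rw [Nat.factorization_mul hh0 hu0, Nat.factorization_mul hh0' hv0, Finsupp.add_apply,
            Finsupp.add_apply] at hp
          by_contra hcon
          push Not at hcon
          exact hp (by rw [hcon.1, hcon.2])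
      unfold KY
      by_cases c0 : δ ≤ iy y (cof (h * u) (h' * v))
      · rw [if_pos c0, if_pos (by linarith)]
      · rw [if_neg c0]; split_ifs <;> norm_num
    · have hF1 := FF_le_one (κ := κ) hδ00 hc hX Ma h h'
      have hF0 := FF_nonneg (κ := κ) (δ := δ0) (c := c) hX Ma h h'
      have h2 : (8 * Real.exp (4 * t * Real.exp t - t * (δ / 2 / 2) * y)) ^ (1 - κ) ≤
          Real.exp (-(A * y)) := by
        have e1 : 8 * Real.exp (4 * t * Real.exp t - t * (δ / 2 / 2) * y) =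
            Real.exp (Real.log 8 + (4 * t * Real.exp t - t * (δ / 2 / 2) * y)) := by
          rw [Real.exp_add, Real.exp_log (by norm_num)]
        rw [e1, ← Real.exp_mul, Real.exp_le_exp]
        have e2 : t * (δ / 2 / 2) * y * (1 - κ) = (A + 1) * y := by
          rw [ht]; field_simp; ring
        have h3 : Real.log 8 + 4 * t * Real.exp t ≥ 0 := by
          have := Real.log_nonneg (show (1 : ℝ) ≤ 8 by norm_num)
          positivity
        calc (Real.log 8 + (4 * t * Real.exp t - t * (δ / 2 / 2) * y)) * (1 - κ)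
            = (Real.log 8 + 4 * t * Real.exp t) * (1 - κ) - t * (δ / 2 / 2) * y * (1 - κ) := by ring
          _ = (Real.log 8 + 4 * t * Real.exp t) * (1 - κ) - (A + 1) * y := by rw [e2]
          _ ≤ (Real.log 8 + 4 * t * Real.exp t) * 1 - (A + 1) * y := by
              have := mul_le_mul_of_nonneg_left (show 1 - κ ≤ 1 by linarith) h3
              linarith
          _ ≤ _ := by linarith
      calc FF δ0 (gg κ δ0 c p0) Ma h h' *
            (8 * Real.exp (4 * t * Real.exp t - t * (δ / 2 / 2) * y)) ^ (1 - κ)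
          ≤ 1 * Real.exp (-(A * y)) := mul_le_mul hF1 h2 (by positivity) zero_le_one
        _ = _ := one_mul _

end Crest.Agent.R4C.Kyx952
end

-- ▼ part R4C/NearTot_360

/-!
# Row 4, BLOCK S7: the whole near part (helper360, note 3115)

* `near_cut`   : one pair, arbitrary labels: boosts summed over the unkilled offsets outside an
  exceptional set `E`, if the aligned common primes `> X` have boost `≤ K` for these offsets.
* `near_total` : all pairs with `gcd ≤ T0 L`, arbitrary labels, exceptional offsets `E b c`.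
-/

set_option autoImplicit false

open Finset

namespace Crest.Agent.R4C.NearTotx360

open Crest.Agent.R4C.Basex935 Crest.Agent.R4C.PrefixMx882 Crest.Agent.R4C.CrCountx935
  Crest.Agent.R4C.CrCoinx935 Crest.Agent.R4C.Bridgex882 Crest.Agent.R4C.NearAbsx60
  Crest.Agent.R4C.NearBoostx60 Crest.Agent.R4C.Kyx952

open Classical in
/-- the labels cut at `X` -/
noncomputable def cutL (lam : ℕ → ℕ → Option ℤ) (X : ℝ) (b p : ℕ) : Option ℤ :=
  if (p : ℝ) ≤ X then lam b p else none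

lemma cutL_of_le {lam : ℕ → ℕ → Option ℤ} {X : ℝ} {b p : ℕ} (h : (p : ℝ) ≤ X) :
    cutL lam X b p = lam b p := if_pos h

lemma cutL_of_gt {lam : ℕ → ℕ → Option ℤ} {X : ℝ} {b p : ℕ} (h : ¬ (p : ℝ) ≤ X) :
    cutL lam X b p = none := if_neg h

lemma P1_cut (M : ℕ) (lam : ℕ → ℕ → Option ℤ) (X : ℝ) (b c : ℕ) :
    P1 M (cutL lam X) b c = (P1 M lam b c).filter (fun p : ℕ => (p : ℝ) ≤ X) := by
  classical
  unfold P1
  rw [filter_filter]
  refine filter_congr fun p _ => ?_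
  by_cases h : (p : ℝ) ≤ X
  · rw [cutL_of_le h, cutL_of_le h]; simp [h]
  · rw [cutL_of_gt h, cutL_of_gt h]; simp [h]

lemma P2_cut (M : ℕ) (lam : ℕ → ℕ → Option ℤ) (X : ℝ) (b c : ℕ) :
    P2 M (cutL lam X) b c = (P2 M lam b c).filter (fun p : ℕ => (p : ℝ) ≤ X) := by
  classical
  unfold P2
  rw [filter_filter]
  refine filter_congr fun p _ => ?_
  by_cases h : (p : ℝ) ≤ X
  · rw [cutL_of_le h, cutL_of_le h]; simp [h]
  · rw [cutL_of_gt h, cutL_of_gt h]; simp [h]

lemma res_cut (lam : ℕ → ℕ → Option ℤ) {X : ℝ} (b c : ℕ) {p : ℕ} (h : (p : ℝ) ≤ X) :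
    res (cutL lam X) b c p = res lam b c p := by
  unfold res
  rw [cutL_of_le h, cutL_of_le h]

lemma killed_cut {lam : ℕ → ℕ → Option ℤ} {X : ℝ} {b c : ℕ} {h : ℤ}
    (hk : killedB (cutL lam X) b c h) : killedB lam b c h := by
  rcases hk with ⟨p, hp, h1, a, ha, h2⟩ | ⟨p, hp, h1, a, ha, h2⟩
  · refine Or.inl ⟨p, hp, h1, a, ?_, h2⟩
    by_cases h3 : (p : ℝ) ≤ X
    · rwa [cutL_of_le h3] at ha
    · rw [cutL_of_gt h3] at ha; cases ha
  · refine Or.inr ⟨p, hp, h1, a, ?_, h2⟩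
    by_cases h3 : (p : ℝ) ≤ X
    · rwa [cutL_of_le h3] at ha
    · rw [cutL_of_gt h3] at ha; cases ha

lemma prime_P1 {M : ℕ} {lam : ℕ → ℕ → Option ℤ} {b c p : ℕ} (hp : p ∈ P1 M lam b c) :
    p.Prime := by
  unfold P1 at hp
  exact prime_of_free (mem_filter.1 hp).1

lemma prime_P2 {M : ℕ} {lam : ℕ → ℕ → Option ℤ} {b c p : ℕ} (hp : p ∈ P2 M lam b c) :
    p.Prime := by
  unfold P2 at hp
  exact prime_of_free (mem_filter.1 hp).1

lemma inv_pos' {p : ℕ} (hp : p.Prime) : 0 < (1 - 1 / (p : ℝ))⁻¹ := inv_pos.2 (factor_pos hp)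

open Classical in
/-- the boost of an unkilled offset, primes `> X` taken out -/
lemma boost_cut {M b c : ℕ} (hb : 0 < b) (lam : ℕ → ℕ → Option ℤ) (X : ℝ) (h : ℤ)
    (hk : ¬ killedB lam b c h) :
    boostB M lam b c h ≤ (∏ p ∈ (P1 M lam b c).filter (fun p : ℕ => X < (p : ℝ)),
        (1 - 1 / (p : ℝ))⁻¹) *
      (∏ p ∈ (P2 M lam b c).filter (fun p : ℕ => X < (p : ℝ) ∧ (p : ℤ) ∣ h - res lam b c p),
        (1 - 1 / (p : ℝ))⁻¹) * boostB M (cutL lam X) b c h := by
  rw [boost_le hb lam h hk, boost_le hb (cutL lam X) h (fun h1 => hk (killed_cut h1)),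
    P1_cut, P2_cut]
  have e1 : ∏ p ∈ P1 M lam b c, ((1 - 1 / (p : ℝ))⁻¹ *
        (1 - if (p : ℤ) ∣ h - res lam b c p then 1 else 0)) ≤
      (∏ p ∈ (P1 M lam b c).filter (fun p : ℕ => X < (p : ℝ)), (1 - 1 / (p : ℝ))⁻¹) *
      ∏ p ∈ (P1 M lam b c).filter (fun p : ℕ => (p : ℝ) ≤ X), ((1 - 1 / (p : ℝ))⁻¹ *
        (1 - if (p : ℤ) ∣ h - res (cutL lam X) b c p then 1 else 0)) := by
    rw [← Finset.prod_filter_mul_prod_filter_not (P1 M lam b c) (fun p : ℕ => X < (p : ℝ))]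
    have h1 : ∏ p ∈ (P1 M lam b c).filter (fun p : ℕ => ¬ X < (p : ℝ)), ((1 - 1 / (p : ℝ))⁻¹ *
        (1 - if (p : ℤ) ∣ h - res lam b c p then 1 else 0)) =
        ∏ p ∈ (P1 M lam b c).filter (fun p : ℕ => (p : ℝ) ≤ X), ((1 - 1 / (p : ℝ))⁻¹ *
        (1 - if (p : ℤ) ∣ h - res (cutL lam X) b c p then 1 else 0)) := by
      refine prod_congr (filter_congr fun p _ => by rw [not_lt]) fun p hp => ?_
      rw [res_cut lam b c (mem_filter.1 hp).2]
    rw [h1]
    refine mul_le_mul_of_nonneg_right ?_ (prod_nonneg fun p hp => ?_)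
    · refine prod_le_prod (fun p hp => ?_) fun p hp => ?_
      · have := (inv_pos' (prime_P1 (mem_filter.1 hp).1)).le
        split_ifs
        · simp
        · simpa using this
      · have := (inv_pos' (prime_P1 (mem_filter.1 hp).1)).le
        split_ifs
        · simpa using this
        · simp
    · have := (inv_pos' (prime_P1 (mem_filter.1 hp).1)).le
      split_ifs
      · simp
      · simpa using this
  have e2 : ∏ p ∈ P2 M lam b c, (1 + 1 / ((p : ℝ) - 1) *
        if (p : ℤ) ∣ h - res lam b c p then 1 else 0) =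
      (∏ p ∈ (P2 M lam b c).filter (fun p : ℕ => X < (p : ℝ) ∧ (p : ℤ) ∣ h - res lam b c p),
        (1 - 1 / (p : ℝ))⁻¹) *
      ∏ p ∈ (P2 M lam b c).filter (fun p : ℕ => (p : ℝ) ≤ X), (1 + 1 / ((p : ℝ) - 1) *
        if (p : ℤ) ∣ h - res (cutL lam X) b c p then 1 else 0) := by
    rw [← Finset.prod_filter_mul_prod_filter_not (P2 M lam b c) (fun p : ℕ => X < (p : ℝ))]
    congr 1
    · conv_rhs => rw [← filter_filter, prod_filter]
      refine prod_congr rfl fun p hp => ?_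
      have h1 : (1 : ℝ) < p := by exact_mod_cast (prime_P2 (mem_filter.1 hp).1).one_lt
      have h2 : (p : ℝ) - 1 ≠ 0 := by linarith
      have h3 : (p : ℝ) ≠ 0 := by linarith
      split_ifs
      · have h4 : (1 : ℝ) - 1 / p ≠ 0 := (factor_pos (prime_P2 (mem_filter.1 hp).1)).ne'
        field_simp
        ring
      · simp
    · refine prod_congr (filter_congr fun p _ => by rw [not_lt]) fun p hp => ?_
      rw [res_cut lam b c (mem_filter.1 hp).2]
  rw [e2]
  have h0 : 0 ≤ (∏ p ∈ (P2 M lam b c).filter (fun p : ℕ => X < (p : ℝ) ∧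
        (p : ℤ) ∣ h - res lam b c p), (1 - 1 / (p : ℝ))⁻¹) *
      ∏ p ∈ (P2 M lam b c).filter (fun p : ℕ => (p : ℝ) ≤ X), (1 + 1 / ((p : ℝ) - 1) *
        if (p : ℤ) ∣ h - res (cutL lam X) b c p then 1 else 0) := by
    refine mul_nonneg (prod_nonneg fun p hp => (inv_pos' (prime_P2 (mem_filter.1 hp).1)).le)
      (prod_nonneg fun p hp => ?_)
    have h1 : (1 : ℝ) < p := by exact_mod_cast (prime_P2 (mem_filter.1 hp).1).one_lt
    have h2 : 0 < 1 / ((p : ℝ) - 1) := one_div_pos.2 (by linarith)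
    split_ifs
    · linarith
    · simp
  refine (mul_le_mul_of_nonneg_right e1 h0).trans (le_of_eq ?_)
  ring

open Classical in
/-- one pair -/
theorem near_cut {γ L : ℝ} (hL : 0 < L) {M b c : ℕ} (hb : 0 < b) (lam : ℕ → ℕ → Option ℤ)
    (y : ℕ) {X K : ℝ} (hyX : (y : ℝ) ≤ X) (hX : 2 ≤ X) (hK : 0 ≤ K) (E : Finset ℤ)
    (hE : ∀ h ∈ Lnk γ L b c, ¬ killedB lam b c h → h ∉ E →
      ∏ p ∈ (P2 M lam b c).filter (fun p : ℕ => X < (p : ℝ) ∧ (p : ℤ) ∣ h - res lam b c p),
        (1 - 1 / (p : ℝ))⁻¹ ≤ K) :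
    ∑ h ∈ (Lnk γ L b c).filter (fun h => ¬ killedB lam b c h ∧ h ∉ E), boostB M lam b c h ≤
      K * (∏ p ∈ (P1 M lam b c).filter (fun p => y < p), (1 - 1 / (p : ℝ))⁻¹) *
        (2 * Real.exp 1 * (L / (Nat.gcd b c : ℕ)) + 4 ^ y * (Real.exp 13 * Real.log X)) := by
  set D := ∏ p ∈ (P1 M lam b c).filter (fun p : ℕ => X < (p : ℝ)), (1 - 1 / (p : ℝ))⁻¹ with hD
  have hD0 : 0 ≤ D := prod_nonneg fun p hp => (inv_pos' (prime_P1 (mem_filter.1 hp).1)).le
  have hbn : ∀ (l : ℕ → ℕ → Option ℤ) (h : ℤ), 0 ≤ boostB M l b c h := by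
    intro l h
    unfold boostB
    refine prod_nonneg fun p hp => ?_
    split_ifs
    · exact (inv_pos' (prime_of_free hp)).le
    · exact zero_le_one
  -- pointwise
  have h1 : ∀ h ∈ (Lnk γ L b c).filter (fun h => ¬ killedB lam b c h ∧ h ∉ E),
      boostB M lam b c h ≤ D * K * boostB M (cutL lam X) b c h := by
    intro h hh
    rw [mem_filter] at hh
    refine (boost_cut hb lam X h hh.2.1).trans ?_
    refine mul_le_mul_of_nonneg_right ?_ (hbn _ _)
    exact mul_le_mul_of_nonneg_left (hE h hh.1 hh.2.1 hh.2.2) hD0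
  refine (sum_le_sum h1).trans ?_
  rw [← mul_sum]
  have h2 : ∑ h ∈ (Lnk γ L b c).filter (fun h => ¬ killedB lam b c h ∧ h ∉ E),
      boostB M (cutL lam X) b c h ≤
      ∑ h ∈ (Lnk γ L b c).filter (fun h => ¬ killedB (cutL lam X) b c h),
        boostB M (cutL lam X) b c h := by
    refine sum_le_sum_of_subset_of_nonneg ?_ fun h _ _ => hbn _ _
    intro h hh
    rw [mem_filter] at hh ⊢
    exact ⟨hh.1, fun h3 => hh.2.1 (killed_cut h3)⟩
  have h3 := near_boost (γ := γ) (c := c) (M := M) hL hb (cutL lam X) y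
  rw [P2_cut, P1_cut] at h3
  have h4 : ∏ p ∈ (P2 M lam b c).filter (fun p : ℕ => (p : ℝ) ≤ X), (1 - 1 / (p : ℝ))⁻¹ ≤
      Real.exp 13 * Real.log X :=
    prod_inv_le _ (fun p hp => prime_P2 (mem_filter.1 hp).1) hX fun p hp => (mem_filter.1 hp).2
  set A := ∏ p ∈ ((P1 M lam b c).filter (fun p : ℕ => (p : ℝ) ≤ X)).filter (fun p => y < p),
    (1 - 1 / (p : ℝ))⁻¹ with hA
  have hA0 : 0 ≤ A := prod_nonneg fun p hp =>
    (inv_pos' (prime_P1 (mem_filter.1 (mem_filter.1 hp).1).1)).le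
  have h5 : D * A = ∏ p ∈ (P1 M lam b c).filter (fun p => y < p), (1 - 1 / (p : ℝ))⁻¹ := by
    rw [← Finset.prod_filter_mul_prod_filter_not ((P1 M lam b c).filter (fun p => y < p))
      (fun p : ℕ => X < (p : ℝ)), hD, hA, filter_filter, filter_filter, filter_filter]
    congr 1
    · refine prod_congr (filter_congr fun p _ => ?_) fun _ _ => rfl
      constructor
      · intro h6
        exact ⟨by exact_mod_cast lt_of_le_of_lt hyX h6, h6⟩
      · exact fun h6 => h6.2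
    · refine prod_congr (filter_congr fun p _ => ?_) fun _ _ => rfl
      rw [not_lt]
      exact and_comm
  have hlog : 0 ≤ Real.log X := Real.log_nonneg (by linarith)
  have hg : (0 : ℝ) < (Nat.gcd b c : ℕ) := by exact_mod_cast Nat.gcd_pos_of_pos_left c hb
  calc D * K * ∑ h ∈ (Lnk γ L b c).filter (fun h => ¬ killedB lam b c h ∧ h ∉ E),
        boostB M (cutL lam X) b c h
      ≤ D * K * (A * (2 * Real.exp 1 * (L / (Nat.gcd b c : ℕ)) +
          4 ^ y * (Real.exp 13 * Real.log X))) := by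
        refine mul_le_mul_of_nonneg_left (h2.trans (h3.trans ?_)) (mul_nonneg hD0 hK)
        refine mul_le_mul_of_nonneg_left ?_ hA0
        exact add_le_add le_rfl (mul_le_mul_of_nonneg_left h4 (by positivity))
    _ = K * (D * A) * (2 * Real.exp 1 * (L / (Nat.gcd b c : ℕ)) +
          4 ^ y * (Real.exp 13 * Real.log X)) := by ring
    _ = _ := by rw [h5]

/-! ### The factor of the labelled differing primes -/

lemma inv_le_exp' {p : ℕ} (hp : p.Prime) : (1 - 1 / (p : ℝ))⁻¹ ≤ Real.exp (2 * (1 / (p : ℝ))) := by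
  have h1 : (2 : ℝ) ≤ p := by exact_mod_cast hp.two_le
  have h0 : (0 : ℝ) < p := by linarith
  have h2 : 1 / (p : ℝ) ≤ 1 / 2 := one_div_le_one_div_of_le (by norm_num) h1
  have h3 : 0 < 1 / (p : ℝ) := by positivity
  set x := 1 / (p : ℝ) with hx
  have h4 : (1 - x)⁻¹ ≤ 1 + 2 * x := by
    rw [inv_le_comm₀ (by linarith) (by linarith), inv_le_comm₀ (by positivity) (by linarith)]
    rw [inv_le_iff_one_le_mul₀ (by linarith)]
    nlinarith
  refine h4.trans ?_
  have := Real.add_one_le_exp (2 * x)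
  linarith

lemma prod_P1_le {M b c : ℕ} (hM : 0 < M) (hb : b ∣ M) (hc : c ∣ M)
    (lam : ℕ → ℕ → Option ℤ) (y : ℕ) :
    ∏ p ∈ (P1 M lam b c).filter (fun p => y < p), (1 - 1 / (p : ℝ))⁻¹ ≤
      Real.exp (2 * iy y (cof b c)) := by
  classical
  have hb0 : 0 < b := Nat.pos_of_dvd_of_pos hb hM
  have hc0 : 0 < c := Nat.pos_of_dvd_of_pos hc hM
  have h1 : ∏ p ∈ (P1 M lam b c).filter (fun p => y < p), (1 - 1 / (p : ℝ))⁻¹ ≤
      ∏ p ∈ (P1 M lam b c).filter (fun p => y < p), Real.exp (2 * (1 / (p : ℝ))) :=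
    prod_le_prod (fun p hp => (inv_pos' (prime_P1 (mem_filter.1 hp).1)).le)
      fun p hp => inv_le_exp' (prime_P1 (mem_filter.1 hp).1)
  refine h1.trans ?_
  rw [← Real.exp_sum, Real.exp_le_exp, ← mul_sum]
  refine mul_le_mul_of_nonneg_left ?_ (by norm_num)
  unfold iy
  refine sum_le_sum_of_subset_of_nonneg ?_ fun p _ _ => by positivity
  intro p hp
  rw [mem_filter] at hp ⊢
  have hpp := prime_P1 hp.1
  have h2 := hp.1
  unfold P1 at h2
  rw [mem_filter] at h2
  have h3 : p ∣ cof b c := by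
    unfold cof
    rcases h2.2 with h3 | h3
    · exact h3.1.mul_left _
    · exact h3.1.mul_right _
  exact ⟨Nat.mem_primeFactors.2 ⟨hpp, h3, cof_ne_zero hb0.ne' hc0.ne'⟩, by exact_mod_cast hp.2⟩

/-- one dyadic block -/
lemma iy_block {y : ℕ} (hy : 0 < y) (n : ℕ) : iy y n ≤ iy ((2 * y : ℕ) : ℝ) n + 1 := by
  classical
  unfold iy
  rw [← Finset.sum_filter_add_sum_filter_not (n.primeFactors.filter (fun p : ℕ => ((y : ℕ) : ℝ) < (p : ℝ)))
    (fun p : ℕ => ((2 * y : ℕ) : ℝ) < (p : ℝ))]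
  refine add_le_add ?_ ?_
  · refine sum_le_sum_of_subset_of_nonneg ?_ fun p _ _ => by positivity
    intro p hp
    rw [mem_filter, mem_filter] at hp
    rw [mem_filter]
    exact ⟨hp.1.1, hp.2⟩
  · have hyr : (0 : ℝ) < y := by exact_mod_cast hy
    have h1 : ∀ p ∈ (n.primeFactors.filter (fun p : ℕ => ((y : ℕ) : ℝ) < (p : ℝ))).filter
        (fun p : ℕ => ¬ ((2 * y : ℕ) : ℝ) < (p : ℝ)), (1 : ℝ) / p ≤ 1 / y := by
      intro p hp
      rw [mem_filter, mem_filter] at hp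
      exact one_div_le_one_div_of_le hyr hp.1.2.le
    refine (sum_le_sum h1).trans ?_
    rw [sum_const, nsmul_eq_mul]
    have h2 : (n.primeFactors.filter (fun p : ℕ => ((y : ℕ) : ℝ) < (p : ℝ))).filter
        (fun p : ℕ => ¬ ((2 * y : ℕ) : ℝ) < (p : ℝ)) ⊆ Ioc y (2 * y) := by
      intro p hp
      rw [mem_filter, mem_filter, not_lt] at hp
      rw [mem_Ioc]
      exact ⟨by exact_mod_cast hp.1.2, by exact_mod_cast hp.2⟩
    have h3 := card_le_card h2
    rw [Nat.card_Ioc] at h3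
    have h4 : (((n.primeFactors.filter (fun p : ℕ => ((y : ℕ) : ℝ) < (p : ℝ))).filter
        (fun p : ℕ => ¬ ((2 * y : ℕ) : ℝ) < (p : ℝ))).card : ℝ) ≤ y := by
      exact (Nat.cast_le (α := ℝ)).2 (by omega)
    rw [mul_one_div, div_le_one hyr]
    exact h4

lemma iy_blocks {y : ℕ} (hy : 0 < y) (n j : ℕ) :
    iy y n ≤ iy ((2 ^ j * y : ℕ) : ℝ) n + j := by
  induction j with
  | zero => simp
  | succ j ih =>
    have h1 := iy_block (y := 2 ^ j * y) (by positivity) n
    have e : 2 * (2 ^ j * y) = 2 ^ (j + 1) * y := by ring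
    rw [e] at h1
    push_cast at *
    linarith

open Classical in
/-- level decomposition of the factor -/
lemma level {y : ℕ} (hy : 0 < y) (n J : ℕ) (hJ : iy ((2 ^ J * y : ℕ) : ℝ) n < 1) :
    Real.exp (2 * iy y n) ≤ Real.exp 2 + ∑ j ∈ range J, Real.exp (2 * (j + 2)) *
      (if 1 ≤ iy ((2 ^ j * y : ℕ) : ℝ) n then 1 else 0) := by
  induction J with
  | zero =>
    simp only [pow_zero, one_mul] at hJ
    rw [range_zero, sum_empty, add_zero, Real.exp_le_exp]
    linarith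
  | succ J ih =>
    rw [sum_range_succ]
    by_cases h : iy ((2 ^ J * y : ℕ) : ℝ) n < 1
    · have h1 := ih h
      have h2 : 0 ≤ Real.exp (2 * ((J : ℝ) + 2)) *
          (if 1 ≤ iy ((2 ^ J * y : ℕ) : ℝ) n then (1 : ℝ) else 0) := by
        split_ifs
        · positivity
        · simp
      linarith
    · have h3 : 1 ≤ iy ((2 ^ J * y : ℕ) : ℝ) n := not_lt.1 h
      rw [if_pos h3, mul_one]
      have h4 := iy_blocks hy n (J + 1)
      have h5 : Real.exp (2 * iy y n) ≤ Real.exp (2 * ((J : ℝ) + 2)) := by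
        rw [Real.exp_le_exp]
        push_cast at h4 hJ
        linarith
      have h6 : 0 ≤ ∑ j ∈ range J, Real.exp (2 * ((j : ℝ) + 2)) *
          (if 1 ≤ iy ((2 ^ j * y : ℕ) : ℝ) n then (1 : ℝ) else 0) := by
        refine sum_nonneg fun j _ => ?_
        split_ifs
        · positivity
        · simp
      have h7 := Real.exp_pos 2
      linarith

lemma iy_zero_of_large {y M n : ℕ} (hn : ∀ p ∈ n.primeFactors, p ≤ M) (h : M ≤ y) :
    iy y n = 0 := by
  unfold iy
  refine sum_eq_zero fun p hp => ?_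
  rw [mem_filter] at hp
  have h1 : y < p := by exact_mod_cast hp.2
  have h2 := hn p hp.1
  omega

/-! ### One pair in a dyadic window -/

lemma prod_mono' {S T : Finset ℕ} (h : S ⊆ T) (f : ℕ → ℝ) (hf : ∀ p ∈ T, 1 ≤ f p) :
    ∏ p ∈ S, f p ≤ ∏ p ∈ T, f p := by
  classical
  rw [← prod_sdiff h]
  have h1 : 1 ≤ ∏ p ∈ T \ S, f p := by
    calc (1 : ℝ) = ∏ _p ∈ T \ S, (1 : ℝ) := by rw [prod_const_one]
      _ ≤ _ := prod_le_prod (fun _ _ => zero_le_one) fun p hp => hf p (mem_sdiff.1 hp).1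
  have h2 : 0 ≤ ∏ p ∈ S, f p := prod_nonneg fun p hp => zero_le_one.trans (hf p (h hp))
  exact le_mul_of_one_le_left h2 h1

lemma four_pow_le {i : ℕ} {a : ℝ} (ha : (2 : ℝ) ^ i ≤ a) : (4 : ℝ) ^ (i / 8) ≤ Real.sqrt a := by
  refine Real.le_sqrt_of_sq_le (le_trans ?_ ha)
  have e : ((4 : ℝ) ^ (i / 8)) ^ 2 = 2 ^ (4 * (i / 8)) := by
    rw [show (4 : ℝ) = 2 ^ 2 by norm_num, ← pow_mul, ← pow_mul]
    congr 1
    ring
  rw [e]
  exact pow_le_pow_right₀ (by norm_num) (by omega)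

lemma nat_le_sqrt {i : ℕ} {a : ℝ} (ha : (2 : ℝ) ^ i ≤ a) : (i : ℝ) ≤ 2 * Real.sqrt a := by
  have h1 : i / 2 < 2 ^ (i / 2) := Nat.lt_two_pow_self
  have h2 : i ≤ 2 * 2 ^ (i / 2) := by omega
  have h3 : (2 : ℝ) ^ (i / 2) ≤ Real.sqrt a := by
    refine Real.le_sqrt_of_sq_le (le_trans ?_ ha)
    rw [← pow_mul]
    exact pow_le_pow_right₀ (by norm_num) (by omega)
  have h4 : (i : ℝ) ≤ 2 * 2 ^ (i / 2) := by exact_mod_cast h2
  linarith

/-- the constant -/
noncomputable def C1 (Y : ℕ) (T0 : ℝ) : ℝ :=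
  2 * Real.exp 1 + 4 ^ Y * Real.exp 13 * (Y + 4) * T0

lemma C1_pos (Y : ℕ) {T0 : ℝ} (hT0 : 1 ≤ T0) : 0 < C1 Y T0 := by
  unfold C1
  have := Real.exp_pos 1
  have := Real.exp_pos 13
  positivity

open Classical in
lemma pair_near {T0 : ℝ} (hT0 : 1 ≤ T0) (Y : ℕ) {γ L : ℝ} (hL : 0 < L) {M b c : ℕ} (hM : 0 < M)
    (hb : b ∣ M) (hc : c ∣ M) (lam : ℕ → ℕ → Option ℤ) {K : ℝ} (hK : 0 ≤ K) (E : Finset ℤ) (i : ℕ)
    (h2 : (Nat.gcd b c : ℝ) ≤ T0 * L / 2 ^ i)
    (hE : ∀ h ∈ Lnk γ L b c, ¬ killedB lam b c h → h ∉ E →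
      ∏ p ∈ (P2 M lam b c).filter (fun p : ℕ =>
        Real.exp ((max 1 (L / (Nat.gcd b c : ℕ))) ^ (1 / 8 : ℝ)) < (p : ℝ) ∧
          (p : ℤ) ∣ h - res lam b c p), (1 - 1 / (p : ℝ))⁻¹ ≤ K) :
    (Nat.gcd b c : ℝ) * nu M b * nu M c *
      ∑ h ∈ (Lnk γ L b c).filter (fun h => ¬ killedB lam b c h ∧ h ∉ E), boostB M lam b c h ≤
    C1 Y T0 * K * L * (nu M b * nu M c * Real.exp (2 * iy ((Y + i / 8 : ℕ) : ℝ) (cof b c))) := by
  have hb0 : 0 < b := Nat.pos_of_dvd_of_pos hb hM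
  have hg : (0 : ℝ) < (Nat.gcd b c : ℕ) := by exact_mod_cast Nat.gcd_pos_of_pos_left c hb0
  set g : ℝ := ((Nat.gcd b c : ℕ) : ℝ) with hgdef
  set Δ := L / g with hΔ
  have hΔ0 : 0 < Δ := div_pos hL hg
  have hgΔ : g * Δ = L := by rw [hΔ]; field_simp
  set a := T0 * Δ with ha
  have h2i : (0 : ℝ) < 2 ^ i := by positivity
  have ha1 : (2 : ℝ) ^ i ≤ a := by
    rw [ha, hΔ]
    rw [le_div_iff₀ h2i] at h2
    rw [← mul_div_assoc, le_div_iff₀ hg]
    linarith
  have h21 : (1 : ℝ) ≤ 2 ^ i := one_le_pow₀ (by norm_num)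
  have ha0 : 1 ≤ a := h21.trans ha1
  have hmax : max 1 Δ ≤ a := by
    refine max_le ha0 ?_
    rw [ha]
    nlinarith
  set u := (max 1 Δ) ^ (1 / 8 : ℝ) with hu
  have hm1 : 1 ≤ max 1 Δ := le_max_left _ _
  have hu1 : 1 ≤ u := Real.one_le_rpow hm1 (by norm_num)
  have hus : u ≤ Real.sqrt a := by
    rw [Real.sqrt_eq_rpow]
    calc u ≤ (max 1 Δ) ^ (1 / 2 : ℝ) := Real.rpow_le_rpow_of_exponent_le hm1 (by norm_num)
      _ ≤ a ^ (1 / 2 : ℝ) := Real.rpow_le_rpow (by linarith) hmax (by norm_num)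
  have hs1 : 1 ≤ Real.sqrt a := hu1.trans hus
  set y : ℕ := Y + i / 8 with hy
  set X := max (Real.exp u) ((y : ℝ) + 2) with hX
  have hX2 : 2 ≤ X := by
    have : (0 : ℝ) ≤ y := Nat.cast_nonneg _
    exact le_trans (by linarith) (le_max_right _ _)
  have hyX : (y : ℝ) ≤ X := le_trans (by linarith) (le_max_right _ _)
  -- the hypothesis for `X`
  have hE' : ∀ h ∈ Lnk γ L b c, ¬ killedB lam b c h → h ∉ E →
      ∏ p ∈ (P2 M lam b c).filter (fun p : ℕ => X < (p : ℝ) ∧ (p : ℤ) ∣ h - res lam b c p),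
        (1 - 1 / (p : ℝ))⁻¹ ≤ K := by
    intro h hh hk hhE
    refine le_trans ?_ (hE h hh hk hhE)
    refine prod_mono' ?_ _ fun p hp => ?_
    · intro p hp
      rw [mem_filter] at hp ⊢
      exact ⟨hp.1, lt_of_le_of_lt (le_max_left _ _) hp.2.1, hp.2.2⟩
    · have hpp := prime_P2 (mem_filter.1 hp).1
      have h3 := factor_pos hpp
      rw [one_le_inv₀ h3]
      have h4 : (0 : ℝ) < p := by exact_mod_cast hpp.pos
      have : 0 ≤ 1 / (p : ℝ) := by positivity
      linarith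
  have hmain := near_cut (γ := γ) (M := M) hL hb0 lam y hyX hX2 hK E hE'
  have hP1 := prod_P1_le hM hb hc lam y
  have hP0 : 0 ≤ ∏ p ∈ (P1 M lam b c).filter (fun p => y < p), (1 - 1 / (p : ℝ))⁻¹ :=
    prod_nonneg fun p hp => (inv_pos' (prime_P1 (mem_filter.1 hp).1)).le
  -- `log X`
  have hlog : Real.log X ≤ (Y + 4) * Real.sqrt a := by
    have hy0 : (0 : ℝ) ≤ (y : ℝ) := Nat.cast_nonneg _
    have hYr : (0 : ℝ) ≤ (Y : ℝ) := Nat.cast_nonneg _
    have h3 : Real.log X ≤ max u ((y : ℝ) + 1) := by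
      rcases le_total (Real.exp u) ((y : ℝ) + 2) with h | h
      · rw [hX, max_eq_right h]
        refine le_trans ?_ (le_max_right _ _)
        have := Real.log_le_sub_one_of_pos (show (0 : ℝ) < (y : ℝ) + 2 by linarith)
        linarith
      · rw [hX, max_eq_left h, Real.log_exp]
        exact le_max_left _ _
    refine h3.trans (max_le ?_ ?_)
    · nlinarith
    · have h4 := nat_le_sqrt ha1
      have h5 : (y : ℝ) ≤ Y + i := by
        rw [hy]
        push_cast
        have : ((i / 8 : ℕ) : ℝ) ≤ i := by exact_mod_cast Nat.div_le_self i 8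
        linarith
      nlinarith
  have hlog0 : 0 ≤ Real.log X := Real.log_nonneg (by linarith)
  -- the bracket
  have hbr : 2 * Real.exp 1 * Δ + 4 ^ y * (Real.exp 13 * Real.log X) ≤ C1 Y T0 * Δ := by
    have h5 : (4 : ℝ) ^ y ≤ 4 ^ Y * Real.sqrt a := by
      rw [hy, pow_add]
      exact mul_le_mul_of_nonneg_left (four_pow_le ha1) (by positivity)
    have h6 : (4 : ℝ) ^ y * (Real.exp 13 * Real.log X) ≤
        (4 ^ Y * Real.sqrt a) * (Real.exp 13 * ((Y + 4) * Real.sqrt a)) := by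
      refine mul_le_mul h5 ?_ (by positivity) (by positivity)
      exact mul_le_mul_of_nonneg_left hlog (Real.exp_pos _).le
    have h7 : Real.sqrt a * Real.sqrt a = a := Real.mul_self_sqrt (by linarith)
    have h8 : (4 ^ Y * Real.sqrt a) * (Real.exp 13 * ((Y + 4) * Real.sqrt a)) =
        4 ^ Y * Real.exp 13 * (Y + 4) * a := by
      calc _ = 4 ^ Y * Real.exp 13 * (Y + 4) * (Real.sqrt a * Real.sqrt a) := by ring
        _ = _ := by rw [h7]
    rw [h8] at h6
    unfold C1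
    calc _ ≤ 2 * Real.exp 1 * Δ + 4 ^ Y * Real.exp 13 * (Y + 4) * a := by linarith
      _ = _ := by rw [ha]; ring
  have hbr0 : 0 ≤ 2 * Real.exp 1 * Δ + 4 ^ y * (Real.exp 13 * Real.log X) := by positivity
  have hn1 := nu_nonneg M b
  have hn2 := nu_nonneg M c
  calc g * nu M b * nu M c *
      ∑ h ∈ (Lnk γ L b c).filter (fun h => ¬ killedB lam b c h ∧ h ∉ E), boostB M lam b c h
      ≤ g * nu M b * nu M c * (K * Real.exp (2 * iy y (cof b c)) * (C1 Y T0 * Δ)) := by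
        refine mul_le_mul_of_nonneg_left (hmain.trans ?_) (by positivity)
        refine mul_le_mul ?_ hbr hbr0 (by positivity)
        exact mul_le_mul_of_nonneg_left hP1 hK
    _ = C1 Y T0 * K * (g * Δ) * (nu M b * nu M c * Real.exp (2 * iy y (cof b c))) := by ring
    _ = _ := by rw [hgΔ]

/-! ### The sum over all near pairs -/

lemma exists_window {T0 L g : ℝ} {I : ℕ} (hg : 1 ≤ g) (hI : T0 * L / 2 ^ I < 1) (hTL : 0 < T0 * L)
    (h : g ≤ T0 * L) : ∃ i ∈ range (I + 1), T0 * L / 2 ^ (i + 1) < g ∧ g ≤ T0 * L / 2 ^ i := by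
  classical
  have hP : ∃ i, T0 * L / 2 ^ (i + 1) < g := by
    refine ⟨I, lt_of_le_of_lt ?_ (hI.trans_le hg)⟩
    rw [pow_succ]
    exact div_le_div_of_nonneg_left hTL.le (by positivity) (by
      have : (0 : ℝ) < 2 ^ I := by positivity
      linarith)
  refine ⟨Nat.find hP, ?_, Nat.find_spec hP, ?_⟩
  · rw [mem_range, Nat.lt_succ_iff]
    refine Nat.find_min' hP (lt_of_le_of_lt ?_ (hI.trans_le hg))
    rw [pow_succ]
    exact div_le_div_of_nonneg_left hTL.le (by positivity) (by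
      have : (0 : ℝ) < 2 ^ I := by positivity
      linarith)
  · rcases Nat.eq_zero_or_pos (Nat.find hP) with h0 | h0
    · rw [h0, pow_zero, div_one]; exact h
    · have h1 := Nat.find_min hP (show Nat.find hP - 1 < Nat.find hP by omega)
      rw [Nat.sub_add_cancel h0] at h1
      exact not_lt.1 h1

lemma geom_half (n : ℕ) : ∑ j ∈ range n, (1 / 2 : ℝ) ^ j ≤ 2 := by
  have h := geom_sum_eq (x := (1 / 2 : ℝ)) (by norm_num) n
  rw [h]
  have : (0 : ℝ) < (1 / 2) ^ n := by positivity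
  rw [div_le_iff_of_neg (by norm_num)]
  linarith

lemma sum_sum_geom (a : ℝ) (m n : ℕ) :
    ∑ i ∈ range m, ∑ j ∈ range n, a * ((1 / 2 : ℝ) ^ i * (1 / 2) ^ j) =
      a * ((∑ i ∈ range m, (1 / 2 : ℝ) ^ i) * ∑ j ∈ range n, (1 / 2 : ℝ) ^ j) := by
  rw [Finset.sum_mul_sum, Finset.mul_sum]
  refine Finset.sum_congr rfl fun i _ => ?_
  rw [Finset.mul_sum]

/-- numerical bound of one level -/
lemma level_num (Y i j : ℕ) (hY : 1 ≤ Y) :
    Real.exp (2 * ((j : ℝ) + 2)) * Real.exp (-(32 * ((2 ^ j * (Y + i / 8) : ℕ) : ℝ))) *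
      2 ^ (i + 1) ≤ Real.exp 4 * ((1 / 2) ^ i * (1 / 2) ^ j) := by
  have h1 : 4 * (i + 1) + 32 * j ≤ 32 * (2 ^ j * (Y + i / 8)) := by
    have h2 : j < 2 ^ j := Nat.lt_two_pow_self
    have h3 : i + 1 ≤ 8 * (Y + i / 8) := by omega
    have h4 : (j + 1) * (Y + i / 8) ≤ 2 ^ j * (Y + i / 8) := Nat.mul_le_mul_right _ h2
    have h5 : 1 ≤ Y + i / 8 := by omega
    have h6 : j ≤ j * (Y + i / 8) := Nat.le_mul_of_pos_right _ h5
    have h7 : (j + 1) * (Y + i / 8) = j * (Y + i / 8) + (Y + i / 8) := by ring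
    omega
  have h1r : 4 * ((i : ℝ) + 1) + 32 * j ≤ 32 * ((2 ^ j * (Y + i / 8) : ℕ) : ℝ) := by
    exact_mod_cast h1
  have h2 : Real.exp (2 * ((j : ℝ) + 2)) * Real.exp (-(32 * ((2 ^ j * (Y + i / 8) : ℕ) : ℝ))) ≤
      Real.exp 4 * (Real.exp (-4 * ((i : ℝ) + 1)) * Real.exp (-30 * (j : ℝ))) := by
    rw [← Real.exp_add, ← Real.exp_add, ← Real.exp_add, Real.exp_le_exp]
    linarith
  have h3 : Real.exp (-30 * (j : ℝ)) ≤ (1 / 2) ^ j := by
    have e : Real.exp (-30 * (j : ℝ)) = (Real.exp (-30)) ^ j := by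
      rw [← Real.exp_nat_mul]; ring_nf
    rw [e]
    refine pow_le_pow_left₀ (Real.exp_pos _).le ?_ _
    have : Real.exp (-30) ≤ Real.exp (-1) := Real.exp_le_exp.2 (by norm_num)
    have h4 : Real.exp (-1) ≤ 1 / 2 := by
      rw [Real.exp_neg, one_div]
      exact inv_anti₀ (by norm_num) (by have := Real.add_one_le_exp 1; linarith)
    linarith
  have h4 : Real.exp (-4 * ((i : ℝ) + 1)) * 2 ^ (i + 1) ≤ (1 / 2) ^ i := by
    have e : Real.exp (-4 * ((i : ℝ) + 1)) = (Real.exp (-4)) ^ (i + 1) := by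
      rw [← Real.exp_nat_mul]; push_cast; ring_nf
    rw [e, ← mul_pow]
    have h5 : Real.exp (-4) * 2 ≤ 1 / 2 := by
      have h6 : Real.exp 4 = (Real.exp 1) ^ 4 := by rw [← Real.exp_nat_mul]; norm_num
      have h7 : (2 : ℝ) ≤ Real.exp 1 := by have := Real.add_one_le_exp 1; linarith
      have h8 : (16 : ℝ) ≤ Real.exp 4 := by
        rw [h6]
        calc (16 : ℝ) = 2 ^ 4 := by norm_num
          _ ≤ _ := pow_le_pow_left₀ (by norm_num) h7 4
      have h9 : Real.exp (-4) ≤ 1 / 16 := by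
        rw [Real.exp_neg, one_div]
        exact inv_anti₀ (by norm_num) h8
      linarith
    calc (Real.exp (-4) * 2) ^ (i + 1) ≤ (1 / 2) ^ (i + 1) :=
          pow_le_pow_left₀ (by positivity) h5 _
      _ ≤ (1 / 2) ^ i := pow_le_pow_of_le_one (by norm_num) (by norm_num) (by omega)
  calc Real.exp (2 * ((j : ℝ) + 2)) * Real.exp (-(32 * ((2 ^ j * (Y + i / 8) : ℕ) : ℝ))) *
        2 ^ (i + 1)
      ≤ Real.exp 4 * (Real.exp (-4 * ((i : ℝ) + 1)) * Real.exp (-30 * (j : ℝ))) * 2 ^ (i + 1) :=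
        mul_le_mul_of_nonneg_right h2 (by positivity)
    _ = Real.exp 4 * ((Real.exp (-4 * ((i : ℝ) + 1)) * 2 ^ (i + 1)) * Real.exp (-30 * (j : ℝ))) := by
        ring
    _ ≤ _ := mul_le_mul_of_nonneg_left (mul_le_mul h4 h3 (Real.exp_pos _).le (by positivity))
        (Real.exp_pos _).le

/-- scale bookkeeping -/
lemma scale_num {T0 L S : ℝ} (hT0 : 1 ≤ T0) (hL : 0 < L) (hS : 0 ≤ S) (hm : L * S ≤ 1) (i : ℕ) :
    L ^ 2 * (1 / (T0 * L / 2 ^ (i + 1)) * ((T0 * L / 2 ^ (i + 1)) ^ (2 * (3 / 4 : ℝ) - 1) *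
      (S ^ (3 / 4 : ℝ) * S ^ (3 / 4 : ℝ)))) ≤ 2 ^ (i + 1) * (L * S) := by
  set X := T0 * L / 2 ^ (i + 1) with hX
  have hX0 : 0 < X := by rw [hX]; positivity
  have e1 : X ^ (2 * (3 / 4 : ℝ) - 1) = Real.sqrt X := by
    rw [Real.sqrt_eq_rpow]; norm_num
  have e2 : S ^ (3 / 4 : ℝ) * S ^ (3 / 4 : ℝ) = S * Real.sqrt S := by
    rw [Real.sqrt_eq_rpow]
    rcases hS.eq_or_lt with h0 | h0
    · rw [← h0]; norm_num
    · rw [← Real.rpow_add h0]
      nth_rewrite 2 [← Real.rpow_one S]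
      rw [← Real.rpow_add h0]
      norm_num
  rw [e1, e2]
  have hr : 0 < Real.sqrt X := Real.sqrt_pos.2 hX0
  have hr2 : Real.sqrt X * Real.sqrt X = X := Real.mul_self_sqrt hX0.le
  have h1 : L * Real.sqrt S ≤ 2 ^ (i + 1) * Real.sqrt X := by
    refine abs_le_of_sq_le_sq' ?_ (by positivity) |>.2
    rw [mul_pow, mul_pow, Real.sq_sqrt hS, Real.sq_sqrt hX0.le, hX]
    have h2 : (1 : ℝ) ≤ 2 ^ (i + 1) := one_le_pow₀ (by norm_num)
    have e3 : ((2 : ℝ) ^ (i + 1)) ^ 2 * (T0 * L / 2 ^ (i + 1)) = 2 ^ (i + 1) * T0 * L := by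
      field_simp
    rw [e3]
    have h3 : (1 : ℝ) ≤ 2 ^ (i + 1) * T0 := by nlinarith
    nlinarith
  have h4 : L ^ 2 * (1 / X * (Real.sqrt X * (S * Real.sqrt S))) =
      (L * S) * (L * Real.sqrt S) / Real.sqrt X := by
    rw [eq_div_iff hr.ne']
    have : L ^ 2 * (1 / X * (Real.sqrt X * (S * Real.sqrt S))) * Real.sqrt X =
        L ^ 2 * (S * Real.sqrt S) * (Real.sqrt X * Real.sqrt X / X) := by ring
    rw [this, hr2, div_self hX0.ne']
    ring
  rw [h4, div_le_iff₀ hr]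
  have h5 : 0 ≤ L * S := mul_nonneg hL.le hS
  nlinarith [mul_le_mul_of_nonneg_left h1 h5]

open Classical in
/-- energy of the unkilled non-exceptional offsets of one pair (without the factor `L`) -/
noncomputable def EnE (γ L : ℝ) (M : ℕ) (lam : ℕ → ℕ → Option ℤ) (E : Finset ℤ) (b c : ℕ) : ℝ :=
  (Nat.gcd b c : ℝ) * nu M b * nu M c *
    ∑ h ∈ (Lnk γ L b c).filter (fun h => ¬ killedB lam b c h ∧ h ∉ E), boostB M lam b c h

open Classical in
/-- **NEAR PAIRS**: all pairs with `gcd ≤ T0 L`, arbitrary labels, exceptional offsets `E b c`;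
`K` bounds the boost of the aligned common primes `> exp ((L/g)^(1/8))`. -/
theorem near_total {T0 : ℝ} (hT0 : 1 ≤ T0) : ∃ C : ℝ, 0 < C ∧ ∀ (γ L : ℝ) (M : ℕ) (B : Finset ℕ)
    (lam : ℕ → ℕ → Option ℤ) (E : ℕ → ℕ → Finset ℤ) (K : ℝ), 0 < L → 0 < M → B ⊆ M.divisors →
    L * ∑ b ∈ B, nu M b ≤ 1 → 0 ≤ K →
    (∀ b ∈ B, ∀ c ∈ B, b ≠ c → (Nat.gcd b c : ℝ) ≤ T0 * L → ∀ h ∈ Lnk γ L b c,
      ¬ killedB lam b c h → h ∉ E b c →
      ∏ p ∈ (P2 M lam b c).filter (fun p : ℕ =>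
        Real.exp ((max 1 (L / (Nat.gcd b c : ℕ))) ^ (1 / 8 : ℝ)) < (p : ℝ) ∧
          (p : ℤ) ∣ h - res lam b c p), (1 - 1 / (p : ℝ))⁻¹ ≤ K) →
    L * ∑ b ∈ B, ∑ c ∈ (B.erase b).filter (fun c => (Nat.gcd b c : ℝ) ≤ T0 * L),
      EnE γ L M lam (E b c) b c ≤ C * K * (L * ∑ b ∈ B, nu M b) := by
  obtain ⟨C2, hC2, H2⟩ := energy_ky (κ := 3 / 4) (by norm_num) (by norm_num)
  obtain ⟨y1, hy1, H3⟩ := H2 32 1 (by norm_num) one_pos
  set Y : ℕ := ⌈y1⌉₊ with hY
  have hY1 : y1 ≤ Y := Nat.le_ceil _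
  have hYn : 1 ≤ Y := by
    have : (1 : ℝ) ≤ Y := hy1.trans hY1
    exact_mod_cast this
  have hC10 := C1_pos Y hT0
  refine ⟨C1 Y T0 * (Real.exp 2 + 4 * Real.exp 4 * C2), by positivity, ?_⟩
  intro γ L M B lam E K hL hM hB hm hK hE
  have hTL : 0 < T0 * L := by positivity
  obtain ⟨I, hI⟩ := pow_unbounded_of_one_lt (T0 * L) (show (1 : ℝ) < 2 by norm_num)
  have hI' : T0 * L / 2 ^ I < 1 := by rw [div_lt_one (by positivity)]; exact hI
  set S := ∑ b ∈ B, nu M b with hS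
  have hS0 : 0 ≤ S := sum_nonneg fun b _ => nu_nonneg M b
  set f : ℕ → ℝ := fun b => if b ∈ B then 1 else 0 with hf
  have hf0 : ∀ x, 0 ≤ f x := fun x => by rw [hf]; dsimp only; split_ifs <;> norm_num
  have hf1 : ∀ x, f x ≤ 1 := fun x => by rw [hf]; dsimp only; split_ifs <;> norm_num
  have hfS : ∑ b ∈ M.divisors, nu M b * f b = S := by
    rw [hS, ← sum_subset hB (f := fun b => nu M b * f b)]
    · refine sum_congr rfl fun b hb => ?_
      rw [hf]; dsimp only
      rw [if_pos hb, mul_one]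
    · intro b _ hb
      rw [hf]; dsimp only
      rw [if_neg hb, mul_zero]
  -- the window sums
  set X : ℕ → ℝ := fun i => T0 * L / 2 ^ (i + 1) with hX
  have hX0 : ∀ i, 0 < X i := fun i => by rw [hX]; positivity
  set T : ℕ → ℕ → ℕ → ℕ → ℝ := fun i j b c =>
    (if X i < (Nat.gcd b c : ℝ) ∧ (Nat.gcd b c : ℝ) ≤ 2 * X i then
      (Nat.gcd b c : ℝ) * nu M b * nu M c *
        (f b * f c * KY ((2 ^ j * (Y + i / 8) : ℕ) : ℝ) 1 b c) else 0) with hT
  have hT0' : ∀ i j b c, 0 ≤ T i j b c := by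
    intro i j b c
    rw [hT]; dsimp only
    split_ifs
    · have := nu_nonneg M b
      have := nu_nonneg M c
      have := hf0 b
      have := hf0 c
      have := KY_nonneg ((2 ^ j * (Y + i / 8) : ℕ) : ℝ) 1 b c
      positivity
    · exact le_rfl
  -- pointwise bound
  have hpt : ∀ b ∈ B, ∀ c ∈ (B.erase b).filter (fun c => (Nat.gcd b c : ℝ) ≤ T0 * L),
      EnE γ L M lam (E b c) b c ≤ C1 Y T0 * K * L * (Real.exp 2 * (nu M b * nu M c) +
        ∑ i ∈ range (I + 1), ∑ j ∈ range M, Real.exp (2 * ((j : ℝ) + 2)) * (1 / X i * T i j b c)) := by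
    intro b hb c hc
    rw [mem_filter, mem_erase] at hc
    obtain ⟨⟨hcb, hcB⟩, hgc⟩ := hc
    have hbM := Nat.dvd_of_mem_divisors (hB hb)
    have hcM := Nat.dvd_of_mem_divisors (hB hcB)
    have hb0 : 0 < b := Nat.pos_of_dvd_of_pos hbM hM
    have hc0 : 0 < c := Nat.pos_of_dvd_of_pos hcM hM
    have hg1 : (1 : ℝ) ≤ (Nat.gcd b c : ℕ) := by
      exact_mod_cast Nat.gcd_pos_of_pos_left c hb0
    obtain ⟨i, hi, hi1, hi2⟩ := exists_window hg1 hI' hTL hgc
    have h1 := pair_near hT0 Y hL hM hbM hcM lam hK (E b c) i hi2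
      (hE b hb c hcB (Ne.symm hcb) hgc)
    refine h1.trans (mul_le_mul_of_nonneg_left ?_ (by positivity))
    have hlev := level (y := Y + i / 8) (by omega) (cof b c) M (by
      have hbig : M ≤ 2 ^ M * (Y + i / 8) := by
        have h3 : M < 2 ^ M := Nat.lt_two_pow_self
        have h4 : 2 ^ M * 1 ≤ 2 ^ M * (Y + i / 8) := Nat.mul_le_mul_left _ (by omega)
        omega
      rw [iy_zero_of_large (M := M) (fun p hp => ?_) hbig]
      · norm_num
      · rw [mem_cof hb0.ne' hc0.ne'] at hp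
        have hpM : p ∈ M.primeFactors := by
          rw [← Nat.support_factorization, Finsupp.mem_support_iff]
          have a1 := (Nat.factorization_le_iff_dvd hb0.ne' hM.ne').2 hbM p
          have a2 := (Nat.factorization_le_iff_dvd hc0.ne' hM.ne').2 hcM p
          omega
        exact Nat.le_of_dvd hM (Nat.dvd_of_mem_primeFactors hpM))
    have hnn : 0 ≤ nu M b * nu M c := mul_nonneg (nu_nonneg _ _) (nu_nonneg _ _)
    refine (mul_le_mul_of_nonneg_left hlev hnn).trans ?_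
    rw [mul_add, mul_comm (nu M b * nu M c) (Real.exp 2)]
    refine add_le_add le_rfl ?_
    have h2 : (nu M b * nu M c) * ∑ j ∈ range M, Real.exp (2 * ((j : ℝ) + 2)) *
        (if 1 ≤ iy ((2 ^ j * (Y + i / 8) : ℕ) : ℝ) (cof b c) then (1 : ℝ) else 0) ≤
        ∑ j ∈ range M, Real.exp (2 * ((j : ℝ) + 2)) * (1 / X i * T i j b c) := by
      rw [mul_sum]
      refine sum_le_sum fun j _ => ?_
      have e1 : (if 1 ≤ iy ((2 ^ j * (Y + i / 8) : ℕ) : ℝ) (cof b c) then (1 : ℝ) else 0) =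
          KY ((2 ^ j * (Y + i / 8) : ℕ) : ℝ) 1 b c := rfl
      rw [e1]
      have hKY := KY_nonneg ((2 ^ j * (Y + i / 8) : ℕ) : ℝ) 1 b c
      have e2 : T i j b c = (Nat.gcd b c : ℝ) * nu M b * nu M c *
          KY ((2 ^ j * (Y + i / 8) : ℕ) : ℝ) 1 b c := by
        rw [hT]; dsimp only
        rw [if_pos, hf]
        · dsimp only
          rw [if_pos hb, if_pos hcB, one_mul, one_mul]
        · refine ⟨hi1, ?_⟩
          rw [hX]; dsimp only
          refine hi2.trans (le_of_eq ?_)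
          rw [pow_succ]; field_simp
      rw [e2]
      have h3 : 1 ≤ 1 / X i * (Nat.gcd b c : ℕ) := by
        rw [one_div, inv_mul_eq_div, one_le_div (hX0 i)]
        exact hi1.le
      have h4 : 0 ≤ Real.exp (2 * ((j : ℝ) + 2)) * (nu M b * nu M c *
          KY ((2 ^ j * (Y + i / 8) : ℕ) : ℝ) 1 b c) := by positivity
      calc (nu M b * nu M c) * (Real.exp (2 * ((j : ℝ) + 2)) *
            KY ((2 ^ j * (Y + i / 8) : ℕ) : ℝ) 1 b c)
          = (Real.exp (2 * ((j : ℝ) + 2)) * (nu M b * nu M c *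
            KY ((2 ^ j * (Y + i / 8) : ℕ) : ℝ) 1 b c)) * 1 := by ring
        _ ≤ (Real.exp (2 * ((j : ℝ) + 2)) * (nu M b * nu M c *
            KY ((2 ^ j * (Y + i / 8) : ℕ) : ℝ) 1 b c)) * (1 / X i * (Nat.gcd b c : ℕ)) :=
            mul_le_mul_of_nonneg_left h3 h4
        _ = _ := by ring
    refine h2.trans ?_
    exact single_le_sum (f := fun i => ∑ j ∈ range M, Real.exp (2 * ((j : ℝ) + 2)) *
      (1 / X i * T i j b c)) (fun i _ => sum_nonneg fun j _ =>
        mul_nonneg (Real.exp_pos _).le (mul_nonneg (by have := hX0 i; positivity)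
          (hT0' i j b c))) hi
  -- sum
  have hXi : ∀ i, 0 ≤ 1 / X i := fun i => by have := hX0 i; positivity
  have hsum : ∑ b ∈ B, ∑ c ∈ (B.erase b).filter (fun c => (Nat.gcd b c : ℝ) ≤ T0 * L),
      EnE γ L M lam (E b c) b c ≤ C1 Y T0 * K * L * (Real.exp 2 * (S * S) +
        ∑ i ∈ range (I + 1), ∑ j ∈ range M, Real.exp (2 * ((j : ℝ) + 2)) *
          (1 / X i * ∑ b ∈ M.divisors, ∑ c ∈ M.divisors, T i j b c)) := by
    have g1 : ∀ b c, 0 ≤ Real.exp 2 * (nu M b * nu M c) +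
        ∑ i ∈ range (I + 1), ∑ j ∈ range M, Real.exp (2 * ((j : ℝ) + 2)) *
          (1 / X i * T i j b c) := fun b c =>
      add_nonneg (mul_nonneg (Real.exp_pos _).le (mul_nonneg (nu_nonneg _ _) (nu_nonneg _ _)))
        (sum_nonneg fun i _ => sum_nonneg fun j _ => mul_nonneg (Real.exp_pos _).le
          (mul_nonneg (hXi i) (hT0' i j b c)))
    have hCK : 0 ≤ C1 Y T0 * K * L := by positivity
    calc _ ≤ ∑ b ∈ B, ∑ c ∈ (B.erase b).filter (fun c => (Nat.gcd b c : ℝ) ≤ T0 * L),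
          C1 Y T0 * K * L * (Real.exp 2 * (nu M b * nu M c) +
            ∑ i ∈ range (I + 1), ∑ j ∈ range M, Real.exp (2 * ((j : ℝ) + 2)) *
              (1 / X i * T i j b c)) :=
          sum_le_sum fun b hb => sum_le_sum fun c hc => hpt b hb c hc
      _ ≤ ∑ b ∈ B, ∑ c ∈ B, C1 Y T0 * K * L * (Real.exp 2 * (nu M b * nu M c) +
            ∑ i ∈ range (I + 1), ∑ j ∈ range M, Real.exp (2 * ((j : ℝ) + 2)) *
              (1 / X i * T i j b c)) := by
          refine sum_le_sum fun b _ => sum_le_sum_of_subset_of_nonneg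
            ((filter_subset _ _).trans (erase_subset _ _)) fun c _ _ =>
              mul_nonneg hCK (g1 b c)
      _ = C1 Y T0 * K * L * (Real.exp 2 * (S * S) +
            ∑ b ∈ B, ∑ c ∈ B, ∑ i ∈ range (I + 1), ∑ j ∈ range M,
              Real.exp (2 * ((j : ℝ) + 2)) * (1 / X i * T i j b c)) := by
          rw [hS, sum_mul_sum, mul_sum (s := B) (a := Real.exp 2), ← sum_add_distrib, mul_sum]
          refine sum_congr rfl fun b _ => ?_
          rw [mul_sum (s := B) (a := Real.exp 2), ← sum_add_distrib, mul_sum]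
      _ ≤ _ := by
          refine mul_le_mul_of_nonneg_left (add_le_add le_rfl ?_) hCK
          calc _ ≤ ∑ b ∈ M.divisors, ∑ c ∈ M.divisors, ∑ i ∈ range (I + 1), ∑ j ∈ range M,
                Real.exp (2 * ((j : ℝ) + 2)) * (1 / X i * T i j b c) := by
                have g2 : ∀ b c, 0 ≤ ∑ i ∈ range (I + 1), ∑ j ∈ range M,
                    Real.exp (2 * ((j : ℝ) + 2)) * (1 / X i * T i j b c) := fun b c =>
                  sum_nonneg fun i _ => sum_nonneg fun j _ => mul_nonneg (Real.exp_pos _).le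
                    (mul_nonneg (hXi i) (hT0' i j b c))
                calc _ ≤ ∑ b ∈ B, ∑ c ∈ M.divisors, ∑ i ∈ range (I + 1), ∑ j ∈ range M,
                      Real.exp (2 * ((j : ℝ) + 2)) * (1 / X i * T i j b c) :=
                      sum_le_sum fun b _ => sum_le_sum_of_subset_of_nonneg hB fun c _ _ => g2 b c
                  _ ≤ _ := sum_le_sum_of_subset_of_nonneg hB fun b _ _ =>
                      sum_nonneg fun c _ => g2 b c
            _ = _ := by
                have s1 : ∀ b, ∑ c ∈ M.divisors, ∑ i ∈ range (I + 1), ∑ j ∈ range M,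
                    Real.exp (2 * ((j : ℝ) + 2)) * (1 / X i * T i j b c) =
                    ∑ i ∈ range (I + 1), ∑ j ∈ range M, ∑ c ∈ M.divisors,
                      Real.exp (2 * ((j : ℝ) + 2)) * (1 / X i * T i j b c) := by
                  intro b
                  rw [sum_comm]
                  exact sum_congr rfl fun i _ => sum_comm
                rw [sum_congr rfl fun b _ => s1 b, sum_comm]
                refine sum_congr rfl fun i _ => ?_
                rw [sum_comm]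
                refine sum_congr rfl fun j _ => ?_
                rw [mul_sum, mul_sum]
                refine sum_congr rfl fun b _ => ?_
                rw [mul_sum, mul_sum]
  have hm0 : 0 ≤ L * S := mul_nonneg hL.le hS0
  -- the bound of the levels
  have hlevels : L ^ 2 * ∑ i ∈ range (I + 1), ∑ j ∈ range M, Real.exp (2 * ((j : ℝ) + 2)) *
      (1 / X i * ∑ b ∈ M.divisors, ∑ c ∈ M.divisors, T i j b c) ≤
      4 * Real.exp 4 * C2 * (L * S) := by
    have g3 : ∀ i ∈ range (I + 1), ∀ j ∈ range M, L ^ 2 * (Real.exp (2 * ((j : ℝ) + 2)) *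
        (1 / X i * ∑ b ∈ M.divisors, ∑ c ∈ M.divisors, T i j b c)) ≤
        (C2 * Real.exp 4 * (L * S)) * ((1 / 2) ^ i * (1 / 2) ^ j) := by
      intro i _ j _
      have hyy : y1 ≤ ((2 ^ j * (Y + i / 8) : ℕ) : ℝ) := by
        refine hY1.trans ?_
        have : Y ≤ 2 ^ j * (Y + i / 8) := by
          calc Y ≤ 1 * (Y + i / 8) := by omega
            _ ≤ _ := Nat.mul_le_mul_right _ Nat.one_le_two_pow
        exact_mod_cast this
      have h4 := H3 _ hyy M (X i) f f hM.ne' (hX0 i) hf0 hf1 hf0 hf1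
      rw [hfS] at h4
      have h5 : ∑ b ∈ M.divisors, ∑ c ∈ M.divisors, T i j b c ≤
          C2 * (X i) ^ (2 * (3 / 4 : ℝ) - 1) *
            Real.exp (-(32 * ((2 ^ j * (Y + i / 8) : ℕ) : ℝ))) *
              (S ^ (3 / 4 : ℝ) * S ^ (3 / 4 : ℝ)) := h4
      have h6 := scale_num hT0 hL hS0 hm i
      have h7 := level_num Y i j hYn
      set e1 := Real.exp (2 * ((j : ℝ) + 2)) with he1
      set e2 := Real.exp (-(32 * ((2 ^ j * (Y + i / 8) : ℕ) : ℝ))) with he2
      have he1p : 0 < e1 := Real.exp_pos _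
      have he2p : 0 < e2 := Real.exp_pos _
      calc L ^ 2 * (e1 * (1 / X i * ∑ b ∈ M.divisors, ∑ c ∈ M.divisors, T i j b c))
          ≤ L ^ 2 * (e1 * (1 / X i * (C2 * (X i) ^ (2 * (3 / 4 : ℝ) - 1) * e2 *
              (S ^ (3 / 4 : ℝ) * S ^ (3 / 4 : ℝ))))) := by
            refine mul_le_mul_of_nonneg_left (mul_le_mul_of_nonneg_left
              (mul_le_mul_of_nonneg_left h5 (hXi i)) he1p.le) (by positivity)
        _ = (C2 * (e1 * e2)) * (L ^ 2 * (1 / X i * ((X i) ^ (2 * (3 / 4 : ℝ) - 1) *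
              (S ^ (3 / 4 : ℝ) * S ^ (3 / 4 : ℝ))))) := by ring
        _ ≤ (C2 * (e1 * e2)) * (2 ^ (i + 1) * (L * S)) :=
            mul_le_mul_of_nonneg_left h6 (by positivity)
        _ = (C2 * (L * S)) * (e1 * e2 * 2 ^ (i + 1)) := by ring
        _ ≤ (C2 * (L * S)) * (Real.exp 4 * ((1 / 2) ^ i * (1 / 2) ^ j)) :=
            mul_le_mul_of_nonneg_left h7 (by positivity)
        _ = _ := by ring
    calc _ = ∑ i ∈ range (I + 1), ∑ j ∈ range M, L ^ 2 * (Real.exp (2 * ((j : ℝ) + 2)) *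
          (1 / X i * ∑ b ∈ M.divisors, ∑ c ∈ M.divisors, T i j b c)) := by
          rw [mul_sum]
          exact sum_congr rfl fun i _ => mul_sum _ _ _
      _ ≤ ∑ i ∈ range (I + 1), ∑ j ∈ range M,
          (C2 * Real.exp 4 * (L * S)) * ((1 / 2) ^ i * (1 / 2) ^ j) :=
          sum_le_sum fun i hi => sum_le_sum fun j hj => g3 i hi j hj
      _ = (C2 * Real.exp 4 * (L * S)) *
          ((∑ i ∈ range (I + 1), (1 / 2 : ℝ) ^ i) * ∑ j ∈ range M, (1 / 2 : ℝ) ^ j) := by
          exact sum_sum_geom _ _ _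
      _ ≤ (C2 * Real.exp 4 * (L * S)) * (2 * 2) := by
          refine mul_le_mul_of_nonneg_left ?_ (by positivity)
          exact mul_le_mul (geom_half _) (geom_half _) (sum_nonneg fun j _ => by positivity)
            (by norm_num)
      _ = _ := by ring
  have hfin := mul_le_mul_of_nonneg_left hsum hL.le
  refine hfin.trans ?_
  have h8 : (L * S) * (L * S) ≤ L * S := by nlinarith
  have hCK : 0 ≤ C1 Y T0 * K := by positivity
  calc L * (C1 Y T0 * K * L * (Real.exp 2 * (S * S) +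
        ∑ i ∈ range (I + 1), ∑ j ∈ range M, Real.exp (2 * ((j : ℝ) + 2)) *
          (1 / X i * ∑ b ∈ M.divisors, ∑ c ∈ M.divisors, T i j b c)))
      = C1 Y T0 * K * (Real.exp 2 * ((L * S) * (L * S)) +
        L ^ 2 * ∑ i ∈ range (I + 1), ∑ j ∈ range M, Real.exp (2 * ((j : ℝ) + 2)) *
          (1 / X i * ∑ b ∈ M.divisors, ∑ c ∈ M.divisors, T i j b c)) := by ring
    _ ≤ C1 Y T0 * K * (Real.exp 2 * (L * S) + 4 * Real.exp 4 * C2 * (L * S)) :=
        mul_le_mul_of_nonneg_left (add_le_add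
          (mul_le_mul_of_nonneg_left h8 (Real.exp_pos _).le) hlevels) hCK
    _ = _ := by ring

end Crest.Agent.R4C.NearTotx360
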