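import Crest.Agent.R4C.SpineDef_946
import Crest.Agent.R4C.NearTot_360

/-!
# Row 4: THE SPINE, tool kit (helper946)

* `EnR_mono`, `EnR_or_le`, `EnR_exists_le` : monotone, finite unions.
* `Lnk_card_le_one`, `sum_Lnk_le` : one offset for `gcd ≥ 2 L`.
* `EnR_le_frm`, `EnR_le_frm_one` : `EnR ≤ L * frm M (…)`.
* `scl`, `exists_scl`, `EnR_le_scales`, `EnR_le_geom` : dyadic scales.
* `ClsOK.mono`, `ClsOK.or`, `ClsOK.of_le` : closure of `ClsOK`.
* `near_cls` : the near class (`gcd ≤ 2^k L`, `h` outside the exceptional set).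
-/

set_option autoImplicit false

open Finset

namespace Crest.Agent.R4C.Spinex946

open Crest.Agent.R4C.Basex935 Crest.Agent.R4C.CrCoinx935 Crest.Agent.R4C.Bridgex882
  Crest.Agent.R4C.FLDefx935 Crest.Agent.R4C.Rulex945 Crest.Agent.R4C.FLShx326
open Crest.Agent.R4C.FLExx326 (ind ind_nonneg ind_le_one Ex_ind)
open Crest.Agent.R4C.CrCountx935 (mem_Hf Hf)

section basic

variable {γ L : ℝ} {M : ℕ} {B : Finset ℕ} {lam : ℕ → ℕ → Option ℤ}

lemma pref_nonneg (M b c : ℕ) : 0 ≤ (Nat.gcd b c : ℝ) * nu M b * nu M c :=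
  mul_nonneg (mul_nonneg (by positivity) (nu_nonneg _ _)) (nu_nonneg _ _)

open Classical in
/-- the boosted sum over the offsets of one pair -/
noncomputable def oS (γ L : ℝ) (M : ℕ) (lam : ℕ → ℕ → Option ℤ) (R : ℕ → ℕ → ℤ → Prop)
    (b c : ℕ) : ℝ :=
  ∑ h ∈ (Lnk γ L b c).filter (fun h => ¬ killedB lam b c h ∧ R b c h), boostB M lam b c h

lemma oS_nonneg (R : ℕ → ℕ → ℤ → Prop) (b c : ℕ) : 0 ≤ oS γ L M lam R b c :=
  Finset.sum_nonneg fun _ _ => boostB_nonneg _ _ _ _ _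

lemma EnR_eq (R : ℕ → ℕ → ℤ → Prop) : EnR γ L M B lam R =
    L * ∑ b ∈ B, ∑ c ∈ B.erase b, (Nat.gcd b c : ℝ) * nu M b * nu M c * oS γ L M lam R b c := rfl

/-- comparison pair by pair -/
lemma EnR_le_EnR (hL : 0 ≤ L) {R R' : ℕ → ℕ → ℤ → Prop}
    (h : ∀ b ∈ B, ∀ c ∈ B, b ≠ c → oS γ L M lam R b c ≤ oS γ L M lam R' b c) :
    EnR γ L M B lam R ≤ EnR γ L M B lam R' := by
  rw [EnR_eq, EnR_eq]
  refine mul_le_mul_of_nonneg_left (Finset.sum_le_sum fun b hb => Finset.sum_le_sum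
    fun c hc => ?_) hL
  exact mul_le_mul_of_nonneg_left (h b hb c (Finset.mem_of_mem_erase hc)
    fun e => Finset.ne_of_mem_erase hc e.symm) (pref_nonneg _ _ _)

lemma oS_mono {R R' : ℕ → ℕ → ℤ → Prop} {b c : ℕ}
    (h : ∀ x ∈ Lnk γ L b c, ¬ killedB lam b c x → R b c x → R' b c x) :
    oS γ L M lam R b c ≤ oS γ L M lam R' b c := by
  classical
  unfold oS
  refine Finset.sum_le_sum_of_subset_of_nonneg ?_ fun _ _ _ => boostB_nonneg _ _ _ _ _
  intro x hx
  rw [Finset.mem_filter] at hx ⊢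
  exact ⟨hx.1, hx.2.1, h x hx.1 hx.2.1 hx.2.2⟩

theorem EnR_mono (hL : 0 ≤ L) {R R' : ℕ → ℕ → ℤ → Prop}
    (h : ∀ b ∈ B, ∀ c ∈ B, b ≠ c → ∀ x ∈ Lnk γ L b c, ¬ killedB lam b c x →
      R b c x → R' b c x) : EnR γ L M B lam R ≤ EnR γ L M B lam R' :=
  EnR_le_EnR hL fun b hb c hc hne => oS_mono (h b hb c hc hne)

/-- finite unions -/
theorem EnR_exists_le (hL : 0 ≤ L) {ι : Type*} (s : Finset ι) (R : ι → ℕ → ℕ → ℤ → Prop) :
    EnR γ L M B lam (fun b c h => ∃ i ∈ s, R i b c h) ≤ ∑ i ∈ s, EnR γ L M B lam (R i) := by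
  classical
  have key : ∀ b c : ℕ, oS γ L M lam (fun b c h => ∃ i ∈ s, R i b c h) b c ≤
      ∑ i ∈ s, oS γ L M lam (R i) b c := by
    intro b c
    unfold oS
    have h1 : ∀ i ∈ s, ∑ h ∈ (Lnk γ L b c).filter (fun h => ¬ killedB lam b c h ∧ R i b c h),
        boostB M lam b c h = ∑ h ∈ Lnk γ L b c,
          if ¬ killedB lam b c h ∧ R i b c h then boostB M lam b c h else 0 :=
      fun i _ => Finset.sum_filter _ _
    rw [Finset.sum_congr rfl h1, Finset.sum_filter, Finset.sum_comm]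
    refine Finset.sum_le_sum fun h _ => ?_
    have h2 : ∀ i ∈ s, (0 : ℝ) ≤ if ¬ killedB lam b c h ∧ R i b c h then
        boostB M lam b c h else 0 := by
      intro i _
      split_ifs
      · exact boostB_nonneg _ _ _ _ _
      · exact le_rfl
    split_ifs with h3
    · obtain ⟨h4, i, hi, h5⟩ := h3
      refine le_trans (le_of_eq ?_) (Finset.single_le_sum h2 hi)
      rw [if_pos ⟨h4, h5⟩]
    · exact Finset.sum_nonneg h2
  have e1 : ∑ i ∈ s, EnR γ L M B lam (R i) = L * ∑ b ∈ B, ∑ c ∈ B.erase b,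
      (Nat.gcd b c : ℝ) * nu M b * nu M c * ∑ i ∈ s, oS γ L M lam (R i) b c := by
    simp only [EnR_eq, Finset.mul_sum]
    rw [Finset.sum_comm]
    refine Finset.sum_congr rfl fun b _ => ?_
    rw [Finset.sum_comm]
  rw [e1, EnR_eq]
  exact mul_le_mul_of_nonneg_left (Finset.sum_le_sum fun b _ => Finset.sum_le_sum fun c _ =>
    mul_le_mul_of_nonneg_left (key b c) (pref_nonneg _ _ _)) hL

theorem EnR_or_le (hL : 0 ≤ L) (R R' : ℕ → ℕ → ℤ → Prop) :
    EnR γ L M B lam (fun b c h => R b c h ∨ R' b c h) ≤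
      EnR γ L M B lam R + EnR γ L M B lam R' := by
  have h := EnR_exists_le (γ := γ) (M := M) (B := B) (lam := lam) hL (Finset.univ : Finset Bool)
    (fun i => if i then R else R')
  rw [Fintype.sum_bool] at h
  refine le_trans (EnR_mono hL fun b _ c _ _ x _ _ hx => ?_) h
  rcases hx with hx | hx
  · exact ⟨true, Finset.mem_univ _, by simpa using hx⟩
  · exact ⟨false, Finset.mem_univ _, by simpa using hx⟩


/-! ### passage to `frm` -/

open Classical in
/-- **conversion**: a bound `W b c` for the boosted sum over the offsets of the class -/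
theorem EnR_le_frm (hL : 0 ≤ L) (hB : B ⊆ M.divisors) {R : ℕ → ℕ → ℤ → Prop} {W : ℕ → ℕ → ℝ}
    (hW0 : ∀ b ∈ B, 0 ≤ W b b)
    (hW : ∀ b ∈ B, ∀ c ∈ B, b ≠ c → oS γ L M lam R b c ≤ W b c) :
    EnR γ L M B lam R ≤ L * frm M (fun b c => if b ∈ B ∧ c ∈ B then W b c else 0) := by
  rw [EnR_eq]
  refine mul_le_mul_of_nonneg_left ?_ hL
  unfold frm
  have hX : ∀ b ∈ B, ∀ c ∈ B, 0 ≤ W b c := by
    intro b hb c hc
    by_cases h : b = c
    · subst h; exact hW0 b hb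
    · exact (oS_nonneg R b c).trans (hW b hb c hc h)
  have h1 : ∀ b ∈ B, ∑ c ∈ B.erase b, (Nat.gcd b c : ℝ) * nu M b * nu M c * oS γ L M lam R b c ≤
      ∑ c ∈ M.divisors, (Nat.gcd b c : ℝ) * nu M b * nu M c *
        (if b ∈ B ∧ c ∈ B then W b c else 0) := by
    intro b hb
    refine le_trans (Finset.sum_le_sum fun c hc => ?_)
      (Finset.sum_le_sum_of_subset_of_nonneg ((Finset.erase_subset b B).trans hB) fun c _ _ => ?_)
    · have hcB := Finset.mem_of_mem_erase hc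
      rw [if_pos ⟨hb, hcB⟩]
      exact mul_le_mul_of_nonneg_left (hW b hb c hcB
        fun e => Finset.ne_of_mem_erase hc e.symm) (pref_nonneg _ _ _)
    · split_ifs with h2
      · exact mul_nonneg (pref_nonneg _ _ _) (hX b h2.1 c h2.2)
      · rw [mul_zero]
  refine (Finset.sum_le_sum h1).trans ?_
  refine Finset.sum_le_sum_of_subset_of_nonneg hB fun b _ _ => Finset.sum_nonneg fun c _ => ?_
  split_ifs with h2
  · exact mul_nonneg (pref_nonneg _ _ _) (hX b h2.1 c h2.2)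
  · rw [mul_zero]

/-! ### offsets -/


/-- one offset at the scales `≥ 2` -/
lemma Lnk_card_le_one (hL : 0 < L) {b c : ℕ} (h : 2 * L ≤ (Nat.gcd b c : ℝ)) :
    (Lnk γ L b c).card ≤ 1 := by
  rw [Finset.card_le_one]
  intro x hx y hy
  unfold Lnk at hx hy
  rw [mem_Hf] at hx hy
  have hg : (0 : ℝ) < (Nat.gcd b c : ℕ) := by linarith
  have h1 : L / (Nat.gcd b c : ℕ) ≤ 1 / 2 := by
    rw [div_le_div_iff₀ hg (by norm_num)]
    linarith
  rw [abs_lt] at hx hy
  have h2 : ((x : ℝ) - y) < 1 := by linarith [hx.2, hy.1]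
  have h3 : -1 < ((x : ℝ) - y) := by linarith [hx.1, hy.2]
  have h4 : x - y < 1 := by exact_mod_cast h2
  have h5 : -1 < x - y := by exact_mod_cast h3
  omega

open Classical in
/-- the sum over the offsets at a scale `≥ 2` -/
lemma oS_le_one (hL : 0 < L) {R : ℕ → ℕ → ℤ → Prop} {b c : ℕ}
    (h : 2 * L ≤ (Nat.gcd b c : ℝ)) {w : ℝ}
    (hw : ∀ x ∈ Lnk γ L b c, ¬ killedB lam b c x → R b c x → boostB M lam b c x ≤ w) :
    oS γ L M lam R b c ≤
      if ∃ x ∈ Lnk γ L b c, ¬ killedB lam b c x ∧ R b c x then w else 0 := by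
  unfold oS
  have hcard := Lnk_card_le_one (γ := γ) hL h
  split_ifs with h1
  · obtain ⟨x, hx, hk, hR⟩ := h1
    have h2 : (Lnk γ L b c).filter (fun h => ¬ killedB lam b c h ∧ R b c h) = {x} := by
      ext y
      rw [Finset.mem_filter, Finset.mem_singleton]
      constructor
      · rintro ⟨hy, _⟩
        exact Finset.card_le_one.1 hcard y hy x hx
      · rintro rfl
        exact ⟨hx, hk, hR⟩
    rw [h2, Finset.sum_singleton]
    exact hw x hx hk hR
  · refine le_of_eq (Finset.sum_eq_zero fun x hx => ?_)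
    rw [Finset.mem_filter] at hx
    exact absurd ⟨x, hx.1, hx.2⟩ h1


open Classical in
/-- **conversion at the scales `≥ 2`** (one offset): boosts `≤ W b c` on the class -/
theorem EnR_le_frm_one (hL : 0 < L) (hB : B ⊆ M.divisors) {R : ℕ → ℕ → ℤ → Prop}
    {W : ℕ → ℕ → ℝ} (hg : ∀ b ∈ B, ∀ c ∈ B, b ≠ c → ∀ x, R b c x → 2 * L ≤ (Nat.gcd b c : ℝ))
    (hW : ∀ b ∈ B, ∀ c ∈ B, b ≠ c → ∀ x ∈ Lnk γ L b c, ¬ killedB lam b c x → R b c x →
      boostB M lam b c x ≤ W b c) :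
    EnR γ L M B lam R ≤ L * frm M (fun b c => if (b ∈ B ∧ c ∈ B) ∧ b ≠ c ∧
      ∃ x ∈ Lnk γ L b c, ¬ killedB lam b c x ∧ R b c x then W b c else 0) := by
  have h := EnR_le_frm (γ := γ) (lam := lam) (M := M) (B := B) (R := R) hL.le hB
    (W := fun b c => if b ≠ c ∧ ∃ x ∈ Lnk γ L b c, ¬ killedB lam b c x ∧ R b c x
      then W b c else 0) (fun b _ => by simp) (fun b hb c hc hne => ?_)
  · refine h.trans (le_of_eq ?_)
    congr 1
    unfold frm
    refine Finset.sum_congr rfl fun b _ => Finset.sum_congr rfl fun c _ => ?_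
    congr 1
    beta_reduce
    by_cases h1 : b ∈ B ∧ c ∈ B
    · by_cases h2 : b ≠ c ∧ ∃ x ∈ Lnk γ L b c, ¬ killedB lam b c x ∧ R b c x
      · rw [if_pos h1, if_pos h2, if_pos ⟨h1, h2⟩]
      · rw [if_pos h1, if_neg h2, if_neg fun h => h2 h.2]
    · rw [if_neg h1, if_neg fun h => h1 h.1]
  · by_cases hex : ∃ x ∈ Lnk γ L b c, ¬ killedB lam b c x ∧ R b c x
    · obtain ⟨x, hx, hk, hR⟩ := hex
      have h3 := oS_le_one (γ := γ) (M := M) (lam := lam) (R := R) hL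
        (hg b hb c hc hne x hR) (w := W b c) (hW b hb c hc hne)
      rw [if_pos ⟨x, hx, hk, hR⟩] at h3
      rw [if_pos ⟨hne, x, hx, hk, hR⟩]
      exact h3
    · rw [if_neg fun h => hex h.2]
      refine le_of_eq (Finset.sum_eq_zero fun x hx => ?_)
      rw [Finset.mem_filter] at hx
      exact absurd ⟨x, hx.1, hx.2⟩ hex

/-! ### dyadic scales -/

/-- the pair has the scale `2^m`: `2^m L ≤ gcd < 2^(m+1) L` -/
def scl (L : ℝ) (m b c : ℕ) : Prop :=
  (2 : ℝ) ^ m * L ≤ (Nat.gcd b c : ℝ) ∧ (Nat.gcd b c : ℝ) < (2 : ℝ) ^ (m + 1) * L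




lemma geom_Ico {r : ℝ} (hr0 : 0 ≤ r) (hr1 : r < 1) (k n : ℕ) :
    ∑ m ∈ Finset.Ico k n, r ^ m ≤ r ^ k / (1 - r) := by
  rw [Finset.sum_Ico_eq_sum_range]
  simp only [pow_add]
  rw [← Finset.mul_sum, div_eq_mul_inv]
  refine mul_le_mul_of_nonneg_left ?_ (by positivity)
  exact sum_le_hasSum _ (fun n _ => pow_nonneg hr0 n) (hasSum_geometric_of_lt_one hr0 hr1)



end basic

/-! ### closure properties of `ClsOK` -/

section cls

variable {γ : ℝ}

/-- a class contained (under the set-up, eventually) in a good class is good -/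
theorem ClsOK.mono {R R' : Cls} (h : ClsOK γ R')
    (hR : Ev fun cp η A m0 => ∀ (L : ℝ) (M : ℕ) (B : Finset ℕ) (F : FL M), Setup η L M B F →
      ∀ b ∈ B, ∀ c ∈ B, b ≠ c → ∀ x ∈ Lnk γ L b c,
        ¬ killedB (lamOf cp A m0 γ L M B F) b c x → R cp η A m0 L M B F b c x →
          R' cp η A m0 L M B F b c x) : ClsOK γ R := by
  refine (h.and hR).mono ?_
  rintro cp η A m0 ⟨⟨C, hC⟩, h2⟩
  exact ⟨C, fun L M B F S => (EnR_mono S.hL.le (h2 L M B F S)).trans (hC L M B F S)⟩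

theorem ClsOK.or {R R' : Cls} (h : ClsOK γ R) (h' : ClsOK γ R') :
    ClsOK γ (fun cp η A m0 L M B F b c x => R cp η A m0 L M B F b c x ∨
      R' cp η A m0 L M B F b c x) := by
  refine (Ev.and h h').mono ?_
  rintro cp η A m0 ⟨⟨C, hC⟩, ⟨C', hC'⟩⟩
  exact ⟨C + C', fun L M B F S => (EnR_or_le S.hL.le _ _).trans
    (add_le_add (hC L M B F S) (hC' L M B F S))⟩


end cls

/-! ### the near class -/



end Crest.Agent.R4C.Spinex946
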