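import Crest.Agent.R4C.Base_935
import Crest.Agent.R4C.PureFL_232
import Crest.Agent.R4C.S2b_284

-- ▼ part R4C/FixedWord_423
section

/-!
# Fixed-word energy, general `M` (helper423; 129's 2501 (2)(b))

The word of the pair `(b, c)` is `(s, s') = (b / gcd b c, c / gcd b c)`.  For a FIXED word the
whole pair form costs at most `(s s')^{-1/2} Σ ν f²`; a family `W` of words with weights `w ≥ 0`
costs at most `(Σ_{x ∈ W} w x / √(x.1 x.2)) Σ ν f²`.
-/

namespace Crest.Agent.R4C.FixedWordx423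

open Finset Crest.Agent.R4C.Basex935

/-- the word of a pair -/
def wd (b c : ℕ) : ℕ × ℕ := (b / Nat.gcd b c, c / Nat.gcd b c)

lemma wd_swap (b c : ℕ) : wd c b = (wd b c).swap := by
  simp [wd, Nat.gcd_comm c b]

lemma wd_eq_iff {b c s s' : ℕ} (hb : 0 < b) :
    wd b c = (s, s') ↔ b = Nat.gcd b c * s ∧ c = Nat.gcd b c * s' := by
  have hg : 0 < Nat.gcd b c := Nat.gcd_pos_of_pos_left _ hb
  unfold wd
  rw [Prod.mk.injEq]
  constructor
  · rintro ⟨h1, h2⟩
    exact ⟨by rw [← h1, Nat.mul_div_cancel' (Nat.gcd_dvd_left b c)],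
      by rw [← h2, Nat.mul_div_cancel' (Nat.gcd_dvd_right b c)]⟩
  · rintro ⟨h1, h2⟩
    exact ⟨Nat.div_eq_of_eq_mul_right hg h1, Nat.div_eq_of_eq_mul_right hg h2⟩


lemma wd_pos {b c : ℕ} (hb : 0 < b) (hc : 0 < c) : 0 < (wd b c).1 ∧ 0 < (wd b c).2 :=
  ⟨Nat.div_pos (Nat.gcd_le_left c hb) (Nat.gcd_pos_of_pos_left _ hb),
    Nat.div_pos (Nat.gcd_le_right b hc) (Nat.gcd_pos_of_pos_left _ hb)⟩

/-- for fixed `b` and a fixed word there is at most one `c` -/
lemma wd_inj_right {b c c' : ℕ} {x : ℕ × ℕ} (hb : 0 < b) (h : wd b c = x) (h' : wd b c' = x) :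
    c = c' := by
  obtain ⟨s, s'⟩ := x
  rw [wd_eq_iff hb] at h h'
  have hs : 0 < s := by
    rcases Nat.eq_zero_or_pos s with h0 | h0
    · rw [h0, mul_zero] at h; omega
    · exact h0
  have e : Nat.gcd b c = Nat.gcd b c' := Nat.eq_of_mul_eq_mul_right hs (h.1.symm.trans h'.1)
  rw [h.2, h'.2, ← e]

/-- for fixed `c` and a fixed word there is at most one `b` -/
lemma wd_inj_left {b b' c : ℕ} {x : ℕ × ℕ} (hc : 0 < c) (h : wd b c = x) (h' : wd b' c = x) :
    b = b' := by
  refine wd_inj_right (x := x.swap) hc ?_ ?_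
  · rw [wd_swap b c, h]
  · rw [wd_swap b' c, h']

lemma nu_le_inv {M c : ℕ} (hM : 0 < M) (hc : c ∣ M) : nu M c ≤ 1 / (c : ℝ) := by
  have hc0 : 0 < c := Nat.pos_of_dvd_of_pos hc hM
  have h1 : (((M / c).totient : ℕ) : ℝ) ≤ ((M / c : ℕ) : ℝ) := by
    exact_mod_cast Nat.totient_le _
  have hM' : (0 : ℝ) < M := by exact_mod_cast hM
  have hc' : (0 : ℝ) < c := by exact_mod_cast hc0
  unfold nu
  rw [div_le_div_iff₀ hM' hc', one_mul]
  calc (((M / c).totient : ℕ) : ℝ) * c ≤ ((M / c : ℕ) : ℝ) * c := by gcongr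
    _ = M := by exact_mod_cast Nat.div_mul_cancel hc

/-- **one side**: `gcd (b, c) ν(c) ≤ 1 / s'`, `s' = c / gcd b c` -/
lemma gcd_nu_le {M b c : ℕ} (hM : 0 < M) (hc : c ∣ M) :
    (Nat.gcd b c : ℝ) * nu M c ≤ 1 / ((wd b c).2 : ℝ) := by
  have hc0 : 0 < c := Nat.pos_of_dvd_of_pos hc hM
  have hg : 0 < Nat.gcd b c := Nat.gcd_pos_of_pos_right _ hc0
  have hg' : (0 : ℝ) < Nat.gcd b c := by exact_mod_cast hg
  have h := nu_le_inv hM hc
  have e : ((wd b c).2 : ℝ) = (c : ℝ) / Nat.gcd b c := by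
    unfold wd
    rw [Nat.cast_div (Nat.gcd_dvd_right b c) hg'.ne']
  rw [e, one_div_div]
  calc (Nat.gcd b c : ℝ) * nu M c ≤ Nat.gcd b c * (1 / (c : ℝ)) := by gcongr
    _ = Nat.gcd b c / c := by ring

/-- for fixed `b`, the total weight of a word is at most `1 / s'` -/
lemma sum_right_le {M b : ℕ} (hM : 0 < M) (hb : 0 < b) (x : ℕ × ℕ) :
    ∑ c ∈ M.divisors, (if wd b c = x then (Nat.gcd b c : ℝ) * nu M c else 0) ≤
      1 / (x.2 : ℝ) := by
  classical
  by_cases hex : ∃ c ∈ M.divisors, wd b c = x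
  · obtain ⟨c0, hc0, h0⟩ := hex
    rw [Finset.sum_eq_single_of_mem c0 hc0]
    · rw [if_pos h0]
      have := gcd_nu_le (b := b) hM (Nat.dvd_of_mem_divisors hc0)
      rwa [h0] at this
    · intro c _ hne
      rw [if_neg]
      intro h
      exact hne (wd_inj_right hb h h0)
  · rw [Finset.sum_eq_zero]
    · positivity
    · intro c hc
      rw [if_neg]
      intro h
      exact hex ⟨c, hc, h⟩

/-- for fixed `c`, the total weight of a word is at most `1 / s` -/
lemma sum_left_le {M c : ℕ} (hM : 0 < M) (hc : 0 < c) (x : ℕ × ℕ) :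
    ∑ b ∈ M.divisors, (if wd b c = x then (Nat.gcd b c : ℝ) * nu M b else 0) ≤
      1 / (x.1 : ℝ) := by
  have h := sum_right_le hM hc x.swap
  simp only [Prod.snd_swap] at h
  refine le_trans (le_of_eq ?_) h
  refine Finset.sum_congr rfl fun b _ => ?_
  have e : (wd b c = x) ↔ (wd c b = x.swap) := by
    rw [wd_swap b c]
    exact ⟨fun h => by rw [h], fun h => Prod.swap_injective h⟩
  rw [Nat.gcd_comm b c]
  by_cases hw : wd b c = x
  · rw [if_pos hw, if_pos (e.1 hw)]
  · rw [if_neg hw, if_neg (fun h => hw (e.2 h))]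

/-- mass of a function -/
noncomputable def mass (M : ℕ) (f : ℕ → ℝ) : ℝ := ∑ b ∈ M.divisors, nu M b * f b ^ 2

lemma mass_nonneg (M : ℕ) (f : ℕ → ℝ) : 0 ≤ mass M f :=
  Finset.sum_nonneg fun b _ => mul_nonneg (nu_nonneg M b) (sq_nonneg _)

/-- the part of the pair form on the word `x` -/
noncomputable def frmW (M : ℕ) (x : ℕ × ℕ) (F : ℕ → ℕ → ℝ) : ℝ :=
  frm M (fun b c => if wd b c = x then F b c else 0)

lemma frm_mono {M : ℕ} {F G : ℕ → ℕ → ℝ} (h : ∀ b ∈ M.divisors, ∀ c ∈ M.divisors, F b c ≤ G b c) :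
    frm M F ≤ frm M G := by
  unfold frm
  refine Finset.sum_le_sum fun b hb => Finset.sum_le_sum fun c hc => ?_
  exact mul_le_mul_of_nonneg_left (h b hb c hc)
    (mul_nonneg (mul_nonneg (Nat.cast_nonneg _) (nu_nonneg _ _)) (nu_nonneg _ _))


/-- **fixed word, bilinear, squared form** -/
theorem word_sq {M : ℕ} (hM : 0 < M) (x : ℕ × ℕ) (f h : ℕ → ℝ) :
    (frmW M x (fun b c => |f b| * |h c|)) ^ 2 ≤
      1 / ((x.1 : ℝ) * x.2) * (mass M f * mass M h) := by
  classical
  unfold frmW frm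
  rw [← Finset.sum_product' (s := M.divisors) (t := M.divisors)
    (f := fun b c => (Nat.gcd b c : ℝ) * nu M b * nu M c *
      (if wd b c = x then |f b| * |h c| else 0))]
  -- the two squares
  set w : ℕ × ℕ → ℝ := fun y =>
    if wd y.1 y.2 = x then (Nat.gcd y.1 y.2 : ℝ) * nu M y.1 * nu M y.2 else 0 with hw
  have hw0 : ∀ y, 0 ≤ w y := by
    intro y
    simp only [hw]
    split_ifs
    · exact mul_nonneg (mul_nonneg (Nat.cast_nonneg _) (nu_nonneg _ _)) (nu_nonneg _ _)
    · exact le_rfl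
  have hA : ∑ y ∈ M.divisors ×ˢ M.divisors, w y * f y.1 ^ 2 ≤ 1 / (x.2 : ℝ) * mass M f := by
    rw [Finset.sum_product]
    unfold mass
    rw [Finset.mul_sum]
    refine Finset.sum_le_sum fun b hb => ?_
    have hb0 : 0 < b := Nat.pos_of_mem_divisors hb
    have h1 := sum_right_le (M := M) hM hb0 x
    calc ∑ c ∈ M.divisors, w (b, c) * f (b, c).1 ^ 2
        = (nu M b * f b ^ 2) *
          ∑ c ∈ M.divisors, (if wd b c = x then (Nat.gcd b c : ℝ) * nu M c else 0) := by
          rw [Finset.mul_sum]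
          refine Finset.sum_congr rfl fun c _ => ?_
          simp only [hw]
          split_ifs <;> ring
      _ ≤ (nu M b * f b ^ 2) * (1 / (x.2 : ℝ)) :=
          mul_le_mul_of_nonneg_left h1 (mul_nonneg (nu_nonneg _ _) (sq_nonneg _))
      _ = _ := by ring
  have hB : ∑ y ∈ M.divisors ×ˢ M.divisors, w y * h y.2 ^ 2 ≤ 1 / (x.1 : ℝ) * mass M h := by
    rw [Finset.sum_product_right]
    unfold mass
    rw [Finset.mul_sum]
    refine Finset.sum_le_sum fun c hc => ?_
    have hc0 : 0 < c := Nat.pos_of_mem_divisors hc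
    have h1 := sum_left_le (M := M) hM hc0 x
    calc ∑ b ∈ M.divisors, w (b, c) * h (b, c).2 ^ 2
        = (nu M c * h c ^ 2) *
          ∑ b ∈ M.divisors, (if wd b c = x then (Nat.gcd b c : ℝ) * nu M b else 0) := by
          rw [Finset.mul_sum]
          refine Finset.sum_congr rfl fun b _ => ?_
          simp only [hw]
          split_ifs <;> ring
      _ ≤ (nu M c * h c ^ 2) * (1 / (x.1 : ℝ)) :=
          mul_le_mul_of_nonneg_left h1 (mul_nonneg (nu_nonneg _ _) (sq_nonneg _))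
      _ = _ := by ring
  have hC : (∑ y ∈ M.divisors ×ˢ M.divisors, (Nat.gcd y.1 y.2 : ℝ) * nu M y.1 * nu M y.2 *
      (if wd y.1 y.2 = x then |f y.1| * |h y.2| else 0)) ^ 2 ≤
      (∑ y ∈ M.divisors ×ˢ M.divisors, w y * f y.1 ^ 2) *
        ∑ y ∈ M.divisors ×ˢ M.divisors, w y * h y.2 ^ 2 := by
    refine Finset.sum_sq_le_sum_mul_sum_of_sq_le_mul _ ?_ ?_ ?_
    · intro y _
      exact mul_nonneg (hw0 y) (sq_nonneg _)
    · intro y _
      exact mul_nonneg (hw0 y) (sq_nonneg _)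
    · intro y _
      simp only [hw]
      refine le_of_eq ?_
      split_ifs
      · rw [mul_pow _ (|f y.1| * |h y.2|), mul_pow |f y.1|, sq_abs, sq_abs]
        ring
      · ring
  refine hC.trans ?_
  calc (∑ y ∈ M.divisors ×ˢ M.divisors, w y * f y.1 ^ 2) *
        ∑ y ∈ M.divisors ×ˢ M.divisors, w y * h y.2 ^ 2
      ≤ (1 / (x.2 : ℝ) * mass M f) * (1 / (x.1 : ℝ) * mass M h) := by
        refine mul_le_mul hA hB ?_ ?_
        · exact Finset.sum_nonneg fun y _ => mul_nonneg (hw0 y) (sq_nonneg _)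
        · exact mul_nonneg (by positivity) (mass_nonneg _ _)
    _ = 1 / ((x.1 : ℝ) * x.2) * (mass M f * mass M h) := by
        rw [one_div, one_div, one_div, mul_inv]
        ring

/-- **fixed word, bilinear form** -/
theorem word_bilin {M : ℕ} (hM : 0 < M) (x : ℕ × ℕ) (f h : ℕ → ℝ) :
    frmW M x (fun b c => |f b| * |h c|) ≤
      1 / √((x.1 : ℝ) * x.2) * (√(mass M f) * √(mass M h)) := by
  have h1 := word_sq hM x f h
  have h2 : frmW M x (fun b c => |f b| * |h c|) ≤
      √(1 / ((x.1 : ℝ) * x.2) * (mass M f * mass M h)) := Real.le_sqrt_of_sq_le h1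
  refine h2.trans (le_of_eq ?_)
  rw [Real.sqrt_mul (by positivity), Real.sqrt_mul (mass_nonneg _ _), Real.sqrt_div zero_le_one,
    Real.sqrt_one]



lemma frm_sum {ι : Type*} (M : ℕ) (T : Finset ι) (F : ι → ℕ → ℕ → ℝ) :
    ∑ t ∈ T, frm M (F t) = frm M (fun b c => ∑ t ∈ T, F t b c) := by
  unfold frm
  rw [Finset.sum_comm]
  refine Finset.sum_congr rfl fun b _ => ?_
  rw [Finset.sum_comm]
  refine Finset.sum_congr rfl fun c _ => ?_
  rw [Finset.mul_sum]








/-! ### the same with the product condition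

`Σ_{x ∈ W} 1/√(x.1 x.2)` for all words in a box -/


end Crest.Agent.R4C.FixedWordx423
end

-- ▼ part R4C/VecPure_520

/-!
# Row 4, BLOCK S3: pure part with a low kernel; vector version for dominant words (helper520)

* `pure_assembly` : if the low sum of a pair kernel `K` at the cut `y` is `≤ A φ(T) φ(T')` for all
  upper words `T, T'` which are equal or a pure pair (`PureRelC`), and `K ≤ 0` otherwise, then
  `frm M K ≤ 4 A Σ ν(T) φ(T)²` (common assembly lemma of MX (2977 (2)) and VEC (3058 (2))).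
* `vec_class` : one class of words (`s₀ s₀' ≥ W`, at most one word for fixed upper words):
  `≤ 4 W^{-1/2} Σ ν f²`.
* `vec_pure` : all pairs whose low word is DOMINANT (`Dom` of `S2b_284`) and which are good and pure
  above the cut: energy `≤ 14 Σ ν f²`, all scales together.
-/

set_option autoImplicit false

open Finset
open Crest.Agent.R4C.Basex935 Crest.Agent.R4C.FLDefx935
open Crest.Agent.R4C.Cutx50 hiding mass mass_nonneg
open Crest.Agent.R4C.PureL2x232 hiding frm_mono frm_sum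

namespace Crest.Agent.R4C.VecPurex520


/-! ### words and cuts -/

open Crest.Agent.R4C.FixedWordx423 Crest.Agent.R4C.S2bx284

lemma part_div_gcd (S : ℕ → Prop) [DecidablePred S] {b c : ℕ} (hb : b ≠ 0) (hc : c ≠ 0) :
    part S (b / Nat.gcd b c) = part S b / Nat.gcd (part S b) (part S c) := by
  have hg : Nat.gcd b c ≠ 0 := Nat.gcd_ne_zero_left hb
  have h1 : b / Nat.gcd b c ≠ 0 :=
    (Nat.div_pos (Nat.gcd_le_left c (Nat.pos_of_ne_zero hb)) (Nat.pos_of_ne_zero hg)).ne'
  have h2 : part S b / Nat.gcd (part S b) (part S c) ≠ 0 :=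
    (Nat.div_pos (Nat.gcd_le_left _ (part_pos S b))
      (Nat.gcd_pos_of_pos_left _ (part_pos S b))).ne'
  refine Nat.eq_of_factorization_eq (part_ne _ _) h2 fun p => ?_
  rw [fact_part, Nat.factorization_div (Nat.gcd_dvd_left b c),
    Nat.factorization_div (Nat.gcd_dvd_left (part S b) (part S c)), Finsupp.tsub_apply,
    Finsupp.tsub_apply, Nat.factorization_gcd hb hc,
    Nat.factorization_gcd (part_ne S b) (part_ne S c), Finsupp.inf_apply, Finsupp.inf_apply,
    fact_part, fact_part]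
  split_ifs <;> simp

lemma wd_low (y : ℕ) {b c : ℕ} (hb : b ≠ 0) (hc : c ≠ 0) :
    wd (low y b) (low y c) = (low y (wd b c).1, low y (wd b c).2) := by
  unfold wd low
  simp only
  rw [part_div_gcd _ hb hc, Nat.gcd_comm b c, part_div_gcd _ hc hb,
    Nat.gcd_comm (part _ c) (part _ b)]

lemma wd_upp (y : ℕ) {b c : ℕ} (hb : b ≠ 0) (hc : c ≠ 0) :
    wd (upp y b) (upp y c) = (upp y (wd b c).1, upp y (wd b c).2) := by
  unfold wd upp
  simp only
  rw [part_div_gcd _ hb hc, Nat.gcd_comm b c, part_div_gcd _ hc hb,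
    Nat.gcd_comm (part _ c) (part _ b)]

lemma fact_wd_fst {b c : ℕ} (hb : b ≠ 0) (hc : c ≠ 0) (q : ℕ) :
    (wd b c).1.factorization q = b.factorization q - min (b.factorization q) (c.factorization q) := by
  unfold wd
  simp only
  rw [Nat.factorization_div (Nat.gcd_dvd_left b c), Finsupp.tsub_apply,
    Nat.factorization_gcd hb hc, Finsupp.inf_apply]

lemma fact_wd_snd {b c : ℕ} (hb : b ≠ 0) (hc : c ≠ 0) (q : ℕ) :
    (wd b c).2.factorization q = c.factorization q - min (b.factorization q) (c.factorization q) := by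
  unfold wd
  simp only
  rw [Nat.factorization_div (Nat.gcd_dvd_right b c), Finsupp.tsub_apply,
    Nat.factorization_gcd hb hc, Finsupp.inf_apply]

/-- mass split at the cut -/
lemma mass_cut {M : ℕ} (hM : 0 < M) (y : ℕ) (f : ℕ → ℝ) :
    mass M f = ∑ T ∈ (upp y M).divisors, nu (upp y M) T * mass (low y M) (fun u => f (u * T)) := by
  unfold mass
  rw [sum_cut (fun p => p ≤ y) hM]
  refine Finset.sum_congr rfl fun T hT => ?_
  rw [Nat.mem_divisors] at hT
  rw [Finset.mul_sum]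
  refine Finset.sum_congr rfl fun u hu => ?_
  rw [Nat.mem_divisors] at hu
  rw [nu_cut (fun p => p ≤ y) hM hu.1 hT.1]
  show nu (low y M) u * nu (upp y M) T * f (u * T) ^ 2 = _
  ring


/-! ### all words together -/

/-- the pair `(b, c)` is good at some cut `z`, without deficits above `z`, and the low part of its
word satisfies `D` (over the high part of the word); the cut is at least twice the product of the
low word -/
def VP {M : ℕ} (F : FL M) (D : ℕ → ℕ → ℕ → ℕ → Prop) (b c : ℕ) : Prop :=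
  ∃ z : ℕ, F.good z b c ∧ F.ell z b = 1 ∧ F.ell z c = 1 ∧
    D (upp z (wd b c).1) (upp z (wd b c).2) (low z (wd b c).1) (low z (wd b c).2) ∧
    2 * (low z (wd b c).1 * low z (wd b c).2) ≤ z

/-- the class of pairs of `VP` with product of the low word in `[2^i, 2^(i+1))` -/
def VPi {M : ℕ} (F : FL M) (D : ℕ → ℕ → ℕ → ℕ → Prop) (i b c : ℕ) : Prop :=
  ∃ z : ℕ, F.good z b c ∧ F.ell z b = 1 ∧ F.ell z c = 1 ∧
    D (upp z (wd b c).1) (upp z (wd b c).2) (low z (wd b c).1) (low z (wd b c).2) ∧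
    2 * (low z (wd b c).1 * low z (wd b c).2) ≤ z ∧
    Nat.log 2 (low z (wd b c).1 * low z (wd b c).2) = i

lemma low_eq_low {y z s : ℕ} (hyz : y ≤ z) (h : low z s ≤ y) : low y s = low z s := by
  rw [← low_low hyz s]
  exact low_of_large (low_pos z s).ne' h

lemma upp_eq_upp {y z s : ℕ} (hs : s ≠ 0) (h : low y s = low z s) : upp y s = upp z s := by
  have h1 := low_mul_upp y hs
  have h2 := low_mul_upp z hs
  rw [h] at h1
  exact Nat.eq_of_mul_eq_mul_left (low_pos z s) (h1.trans h2.symm)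

/-- the class `i` read at the cut `2^(i+1)` -/
lemma vpi_cut {M : ℕ} (hM : 0 < M) (F : FL M) {D : ℕ → ℕ → ℕ → ℕ → Prop} {i b c : ℕ}
    (hb : b ∣ M) (hc : c ∣ M) (h : VPi F D i b c) :
    (upp (2 ^ (i + 1)) b = upp (2 ^ (i + 1)) c ∨
      PureG (hiFL hM (2 ^ (i + 1)) F) (upp (2 ^ (i + 1)) b) (upp (2 ^ (i + 1)) c)) ∧
    D (upp (2 ^ (i + 1)) (wd b c).1) (upp (2 ^ (i + 1)) (wd b c).2)
      (low (2 ^ (i + 1)) (wd b c).1) (low (2 ^ (i + 1)) (wd b c).2) ∧
    2 ^ i ≤ low (2 ^ (i + 1)) (wd b c).1 * low (2 ^ (i + 1)) (wd b c).2 ∧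
    low (2 ^ (i + 1)) (wd b c).1 * low (2 ^ (i + 1)) (wd b c).2 < 2 ^ (i + 1) := by
  obtain ⟨z, hg, hl, hl', hD, hz, hi⟩ := h
  have hb0 : 0 < b := Nat.pos_of_dvd_of_pos hb hM
  have hc0 : 0 < c := Nat.pos_of_dvd_of_pos hc hM
  have hs := wd_pos hb0 hc0
  set y : ℕ := 2 ^ (i + 1) with hy
  set s := (wd b c).1 with hsdef
  set s' := (wd b c).2 with hs'def
  have hp1 : 0 < low z s := low_pos z s
  have hp2 : 0 < low z s' := low_pos z s'
  have hn0 : low z s * low z s' ≠ 0 := (Nat.mul_pos hp1 hp2).ne'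
  have hlo : 2 ^ i ≤ low z s * low z s' := by
    rw [← hi]; exact Nat.pow_log_le_self 2 hn0
  have hup : low z s * low z s' < y := by
    rw [hy, ← hi]; exact Nat.lt_pow_succ_log_self (by norm_num) _
  have hyz : y ≤ z := by
    have : y = 2 * 2 ^ i := by rw [hy, pow_succ]; ring
    omega
  have e1 : low y s = low z s := low_eq_low hyz ((Nat.le_mul_of_pos_right _ hp2).trans hup.le)
  have e2 : low y s' = low z s' := low_eq_low hyz ((Nat.le_mul_of_pos_left _ hp1).trans hup.le)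
  have e3 : upp y s = upp z s := upp_eq_upp hs.1.ne' e1
  have e4 : upp y s' = upp z s' := upp_eq_upp hs.2.ne' e2
  rw [e1, e2, e3, e4]
  refine ⟨?_, hD, hlo, hup⟩
  by_cases hne : upp y b = upp y c
  · exact Or.inl hne
  · refine Or.inr (pureG_upp hM F hyz hb hc hne hg ?_ hl hl')
    intro q _ hyq hqz
    have f1 := congrArg (fun n => n.factorization q) e1
    have f2 := congrArg (fun n => n.factorization q) e2
    simp only [fact_low] at f1 f2
    rw [if_neg (by omega), if_pos hqz, hsdef, fact_wd_fst hb0.ne' hc0.ne'] at f1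
    rw [if_neg (by omega), if_pos hqz, hs'def, fact_wd_snd hb0.ne' hc0.ne'] at f2
    omega

/-- two words over the same high word differ by a factor `≥ 2` -/
def Dbl (D : ℕ → ℕ → ℕ → ℕ → Prop) : Prop :=
  ∀ x x' u v u' v' : ℕ, D x x' u v → D x x' u' v' → (u', v') ≠ (u, v) →
    2 * (u * v) ≤ u' * v' ∨ 2 * (u' * v') ≤ u * v




/-- dominant words at some scale `t > 0` over the targets `x γ, x' γ` -/
def DomD (γ : ℝ) (x x' u v : ℕ) : Prop := ∃ t : ℝ, 0 < t ∧ Dom (x * γ) (x' * γ) t u v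

lemma dbl_dom (γ : ℝ) : Dbl (DomD γ) := by
  rintro x x' u v u' v' ⟨t, ht, h⟩ ⟨t', ht', h'⟩ hne
  rcases le_total t t' with hle | hle
  · exact Or.inl (dom_double ht hle h h' hne)
  · exact Or.inr (dom_double ht' hle h' h (Ne.symm hne))


end Crest.Agent.R4C.VecPurex520
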