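import Crest.Agent.R4C.VecNPw_50
import Crest.Agent.R4C.BoxUniq_60
import Crest.Agent.R4C.SplitDef_945
import Crest.Agent.R4C.SamePt_217
import Crest.Agent.R4C.B1Lev_52
import Crest.Agent.R4C.ClsBad_250
import Crest.Agent.R4C.SpineKit_946
import Crest.Agent.R4C.HyOf_281
import Crest.Agent.R4C.BoostAl_100
import Crest.Agent.R4C.VecPure_520
import Crest.Agent.R4C.BadW_14
import Crest.Agent.R4C.SpineDef_946

-- ▼ part R4C/NPBox_48
section

/-!
# Row 4: non-pure pairs, low word unique PER BOX (helper48)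

`UniqBox` : 50's `Uniq` of `VecNPj_50`, but only for pairs whose low parts have the same dyadic
sizes (`Nat.log 2 (low X b)`, `Nat.log 2 (low X c)`): this is what uniqueness of the centres in a
box (`BoxUniq_60`) gives.  In a class the size of `low X c` is determined by the size of `low X b`
up to three values, and `f = ∑_U f 1[size U]`, so the sum over the boxes costs a factor `3`
(Cauchy): `np_box_one`.  `np_boxw`, `np_SetBd_box` : one block, all classes with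
`W0 ≤ u u'` (`u, u'` the low word), weight `bst · (u u')^{1/4}`, gain `W0^{-1/8}`.
-/

set_option autoImplicit false

open Finset
open Crest.Agent.R4C.Basex935 Crest.Agent.R4C.Cutx50 Crest.Agent.R4C.HeavyLx50
open Crest.Agent.R4C.FLDefx935
open Crest.Agent.R4C.BoostRx398 (bst tf one_le_tf)
open Crest.Agent.R4C.FixedWordx423 (wd wd_pos)
open Crest.Agent.R4C.NonPureBlkx559 (Xj Xj_two log_Xj)
open Crest.Agent.R4C.VecNPx50

namespace Crest.Agent.R4C.NPBoxx48

/-- dyadic size of the low part -/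
def sz (X b : ℕ) : ℕ := Nat.log 2 (low X b)

/-- in every class and every box the low word is determined by the upper words -/
def UniqBox (M X : ℕ) (P : ℕ → ℕ → Prop) : Prop :=
  ∀ a a' e b c b1 c1, b ∣ M → c ∣ M → b1 ∣ M → c1 ∣ M → P b c → P b1 c1 →
    Cls X a a' e b c → Cls X a a' e b1 c1 → sz X b = sz X b1 → sz X c = sz X c1 →
    upp (2 ^ (a + a' + 2)) b = upp (2 ^ (a + a' + 2)) b1 →
    upp (2 ^ (a + a' + 2)) c = upp (2 ^ (a + a' + 2)) c1 →
    wd (low (2 ^ (a + a' + 2)) b) (low (2 ^ (a + a' + 2)) c) =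
      wd (low (2 ^ (a + a' + 2)) b1) (low (2 ^ (a + a' + 2)) c1)


/-- the low part is the low gcd times the low word -/
lemma low_split {b c : ℕ} (X : ℕ) (hb : 0 < b) (hc : 0 < c) :
    low X b = low X (Nat.gcd b c) * low X (wd b c).1 := by
  have hg : 0 < Nat.gcd b c := Nat.gcd_pos_of_pos_left _ hb
  have hw := wd_pos hb hc
  refine Nat.eq_of_factorization_eq (low_pos _ _).ne'
    (Nat.mul_pos (low_pos _ _) (low_pos _ _)).ne' fun q => ?_
  have e : b = Nat.gcd b c * (wd b c).1 := (Nat.mul_div_cancel' (Nat.gcd_dvd_left b c)).symm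
  have e2 : b.factorization q = (Nat.gcd b c).factorization q + ((wd b c).1).factorization q := by
    conv_lhs => rw [e]
    rw [Nat.factorization_mul hg.ne' hw.1.ne', Finsupp.add_apply]
  rw [Nat.factorization_mul (low_pos _ _).ne' (low_pos _ _).ne', Finsupp.add_apply, fact_low,
    fact_low, fact_low, e2]
  split_ifs <;> simp

lemma sz_le {X a a' e b c : ℕ} (hb : 0 < b) (hc : 0 < c) (h : Cls X a a' e b c) :
    sz X c + a ≤ sz X b + a' + 1 := by
  have h1 := low_split X hb hc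
  have h2 := low_split X hc hb
  have e1 : (wd c b).1 = (wd b c).2 := by simp [wd, Nat.gcd_comm c b]
  rw [e1, Nat.gcd_comm c b] at h2
  set G := low X (Nat.gcd b c) with hG
  have hG0 : 0 < G := low_pos _ _
  have p1 : 0 < low X (wd b c).1 := low_pos _ _
  have p2 : 0 < low X (wd b c).2 := low_pos _ _
  have q1 : 2 ^ a ≤ low X (wd b c).1 := by rw [← h.1]; exact Nat.pow_log_le_self 2 p1.ne'
  have q2 : low X (wd b c).2 < 2 ^ (a' + 1) := by
    rw [← h.2.1]; exact Nat.lt_pow_succ_log_self (by norm_num) _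
  have q3 : 2 ^ sz X c ≤ low X c := Nat.pow_log_le_self 2 (low_pos _ _).ne'
  have q4 : low X b < 2 ^ (sz X b + 1) := Nat.lt_pow_succ_log_self (by norm_num) _
  have k : 2 ^ (sz X c + a) < 2 ^ (sz X b + a' + 2) := by
    calc 2 ^ (sz X c + a) = 2 ^ sz X c * 2 ^ a := pow_add _ _ _
      _ ≤ low X c * low X (wd b c).1 := Nat.mul_le_mul q3 q1
      _ = (low X (Nat.gcd b c) * low X (wd b c).1) * low X (wd b c).2 := by rw [h2, hG]; ring
      _ = low X b * low X (wd b c).2 := by rw [← hG, ← h1]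
      _ < 2 ^ (sz X b + 1) * 2 ^ (a' + 1) := Nat.mul_lt_mul'' q4 q2
      _ = 2 ^ (sz X b + a' + 2) := by rw [← pow_add]; congr 1; ring
  have := (Nat.pow_lt_pow_iff_right (by norm_num : 1 < 2)).1 k
  omega

lemma cls_swap {X a a' e b c : ℕ} (h : Cls X a a' e b c) : Cls X a' a e c b := by
  have e1 : (wd c b).1 = (wd b c).2 := by simp [wd, Nat.gcd_comm c b]
  have e2 : (wd c b).2 = (wd b c).1 := by simp [wd, Nat.gcd_comm c b]
  refine ⟨?_, ?_, ?_⟩
  · rw [e1]; exact h.2.1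
  · rw [e2]; exact h.1
  · rw [e1, e2, mul_comm, h.2.2]; ring

lemma sz_le' {X a a' e b c : ℕ} (hb : 0 < b) (hc : 0 < c) (h : Cls X a a' e b c) :
    sz X b + a' ≤ sz X c + a + 1 := sz_le hc hb (cls_swap h)

/-- Cauchy over the boxes -/
lemma box_cauchy (N : ℕ) (x y : ℕ → ℝ) (hx : ∀ i, 0 ≤ x i) (hy : ∀ i, 0 ≤ y i) {A B : ℝ}
    (hA : ∑ i ∈ range N, x i ≤ A) (hB : ∑ i ∈ range N, y i ≤ B) :
    ∑ i ∈ range N, √(x i) * √(y i) ≤ √A * √B := by
  have h1 := Real.sum_sqrt_mul_sqrt_le (range N) hx hy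
  exact h1.trans (mul_le_mul (Real.sqrt_le_sqrt hA) (Real.sqrt_le_sqrt hB)
    (Real.sqrt_nonneg _) (Real.sqrt_nonneg _))

open Classical in
/-- one class, uniqueness per box -/
theorem np_box_one : ∃ C : ℝ, 0 < C ∧ ∀ (M : ℕ) (F : FL M), 0 < M → ∀ X : ℕ, 2 ≤ X →
    ∀ S : Finset ℕ, (∀ p ∈ S, p ≤ X) → ∀ P : ℕ → ℕ → Prop,
    (∀ b c, b ∣ M → c ∣ M → P b c → NPX F X b c) → UniqBox M X P →
    ∀ a a' e : ℕ, ∀ (f g : ℕ → ℝ), (∀ b, 0 ≤ f b) → (∀ b, 0 ≤ g b) → (∀ b, f b ≤ 1) →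
    (∀ b, g b ≤ 1) →
    frm M (fun b c => if P b c ∧ Cls X a a' e b c then bst S M b c * (f b * g c) else 0) ≤
      C * (Real.log X) ^ (-(1 / 2 : ℝ)) / √((2 : ℝ) ^ a * 2 ^ a') *
        (√(Ex M f) * √(Ex M g)) := by
  obtain ⟨C, hC, h⟩ := np_one
  refine ⟨3 * C, by positivity, fun M F hM X hX S hS P hP hU a a' e f g hf hg hf1 hg1 => ?_⟩
  have hX' : (2 : ℝ) ≤ (X : ℝ) := by exact_mod_cast hX
  have hlog : 0 < Real.log X := Real.log_pos (by linarith)
  set E : ℝ := C * (Real.log X) ^ (-(1 / 2 : ℝ)) / √((2 : ℝ) ^ a * 2 ^ a') with hE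
  have hE0 : 0 ≤ E := div_nonneg (mul_nonneg hC.le (Real.rpow_nonneg hlog.le _)) (Real.sqrt_nonneg _)
  -- the pieces
  set fU : ℕ → ℕ → ℝ := fun U b => if sz X b = U then f b else 0 with hfU
  set gU : ℕ → ℕ → ℕ → ℝ := fun d U c => if sz X c + a + 1 = U + a' + d then g c else 0 with hgU
  have hf0' : ∀ U b, 0 ≤ fU U b := fun U b => by
    simp only [hfU]; split_ifs; exacts [hf b, le_rfl]
  have hf1' : ∀ U b, fU U b ≤ 1 := fun U b => by
    simp only [hfU]; split_ifs; exacts [hf1 b, zero_le_one]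
  have hg0' : ∀ d U c, 0 ≤ gU d U c := fun d U c => by
    simp only [hgU]; split_ifs; exacts [hg c, le_rfl]
  have hg1' : ∀ d U c, gU d U c ≤ 1 := fun d U c => by
    simp only [hgU]; split_ifs; exacts [hg1 c, zero_le_one]
  obtain ⟨PU, hPU⟩ : ∃ PU : ℕ → ℕ → ℕ → ℕ → Prop, ∀ d U b c, PU d U b c ↔
    (P b c ∧ sz X b = U ∧ sz X c + a + 1 = U + a' + d) := ⟨_, fun _ _ _ _ => Iff.rfl⟩
  have hbf : ∀ b c, 0 ≤ bst S M b c * (f b * g c) := fun b c =>
    mul_nonneg (bst_nonneg _ _ _ _) (mul_nonneg (hf _) (hg _))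
  have hbU : ∀ d U b c, 0 ≤ bst S M b c * (fU U b * gU d U c) := fun d U b c =>
    mul_nonneg (bst_nonneg _ _ _ _) (mul_nonneg (hf0' _ _) (hg0' _ _ _))
  -- each piece
  have key : ∀ d U, frm M (fun b c => if PU d U b c ∧ Cls X a a' e b c then
      bst S M b c * (fU U b * gU d U c) else 0) ≤
      E * (√(Ex M (fU U)) * √(Ex M (gU d U))) := by
    intro d U
    refine h M F hM X hX S hS (PU d U)
      (fun b c hb hc hh => hP b c hb hc ((hPU _ _ _ _).1 hh).1) ?_ a a' e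
      (fU U) (gU d U) (hf0' U) (hg0' d U) (hf1' U) (hg1' d U)
    intro a2 a2' e2 b c b1 c1 hb hc hb1 hc1 h1 h2 hcl hcl1 hu hu'
    rw [hPU] at h1 h2
    refine hU a2 a2' e2 b c b1 c1 hb hc hb1 hc1 h1.1 h2.1 hcl hcl1 ?_ ?_ hu hu'
    · rw [h1.2.1, h2.2.1]
    · have := h1.2.2; have := h2.2.2; omega
  -- cover
  have hcov : frm M (fun b c => if P b c ∧ Cls X a a' e b c then bst S M b c * (f b * g c) else 0) ≤
      ∑ d ∈ range 3, ∑ U ∈ range (M + 1), frm M (fun b c =>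
        if PU d U b c ∧ Cls X a a' e b c then bst S M b c * (fU U b * gU d U c) else 0) := by
    have e1 : ∑ d ∈ range 3, ∑ U ∈ range (M + 1), frm M (fun b c =>
        if PU d U b c ∧ Cls X a a' e b c then bst S M b c * (fU U b * gU d U c) else 0) =
        frm M (fun b c => ∑ d ∈ range 3, ∑ U ∈ range (M + 1),
        if PU d U b c ∧ Cls X a a' e b c then bst S M b c * (fU U b * gU d U c) else 0) := by
      exact (Finset.sum_congr rfl fun d _ => frm_sum _ _ _).trans (frm_sum _ _ _)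
    rw [e1]
    refine frm_mono fun b c hb hc => ?_
    have hnn : ∀ d U, (0 : ℝ) ≤ if PU d U b c ∧ Cls X a a' e b c then
        bst S M b c * (fU U b * gU d U c) else 0 := by
      intro d U; split_ifs; exacts [hbU d U b c, le_rfl]
    by_cases hh : P b c ∧ Cls X a a' e b c
    · have hb0 : 0 < b := Nat.pos_of_dvd_of_pos hb hM
      have hc0 : 0 < c := Nat.pos_of_dvd_of_pos hc hM
      have k1 := sz_le hb0 hc0 hh.2
      have k2 := sz_le' hb0 hc0 hh.2
      have hU0 : sz X b ∈ range (M + 1) := by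
        rw [Finset.mem_range]
        have : low X b ≤ M := Nat.le_of_dvd hM ((low_dvd_self X b).trans hb)
        have := Nat.log_le_self 2 (low X b)
        unfold sz; omega
      obtain ⟨d, hd, hd'⟩ : ∃ d ∈ range 3, sz X c + a + 1 = sz X b + a' + d :=
        ⟨sz X c + a + 1 - (sz X b + a'), Finset.mem_range.2 (by omega), by omega⟩
      rw [if_pos hh]
      have hPP : PU d (sz X b) b c ∧ Cls X a a' e b c := ⟨(hPU _ _ _ _).2 ⟨hh.1, rfl, hd'⟩, hh.2⟩
      have hval : bst S M b c * (f b * g c) = if PU d (sz X b) b c ∧ Cls X a a' e b c then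
          bst S M b c * (fU (sz X b) b * gU d (sz X b) c) else 0 := by
        rw [if_pos hPP]
        simp only [hfU, hgU, if_true, if_pos hd']
      rw [hval]
      refine le_trans ?_ (Finset.single_le_sum (f := fun d => ∑ U ∈ range (M + 1),
        if PU d U b c ∧ Cls X a a' e b c then bst S M b c * (fU U b * gU d U c) else 0)
        (fun d _ => Finset.sum_nonneg fun U _ => hnn d U) hd)
      exact Finset.single_le_sum (f := fun U =>
        if PU d U b c ∧ Cls X a a' e b c then bst S M b c * (fU U b * gU d U c) else 0)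
        (fun U _ => hnn d U) hU0
    · rw [if_neg hh]
      exact Finset.sum_nonneg fun d _ => Finset.sum_nonneg fun U _ => hnn d U
  -- masses
  have hEf : ∑ U ∈ range (M + 1), Ex M (fU U) ≤ Ex M f := by
    rw [Ex_sum]
    refine Ex_mono M fun b _ => ?_
    simp only [hfU]
    rw [Finset.sum_ite_eq]
    split_ifs; exacts [le_rfl, hf b]
  have hEg : ∀ d, ∑ U ∈ range (M + 1), Ex M (gU d U) ≤ Ex M g := by
    intro d
    rw [Ex_sum]
    refine Ex_mono M fun c _ => ?_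
    simp only [hgU]
    by_cases hex : ∃ U ∈ range (M + 1), sz X c + a + 1 = U + a' + d
    · obtain ⟨U0, hU0, hU0'⟩ := hex
      rw [Finset.sum_eq_single U0]
      · rw [if_pos hU0']
      · intro U _ hne
        rw [if_neg (fun hh => hne (by omega))]
      · exact fun hh => absurd hU0 hh
    · push Not at hex
      rw [Finset.sum_eq_zero]
      · exact hg c
      · intro U hU
        rw [if_neg (hex U hU)]
  calc _ ≤ ∑ d ∈ range 3, ∑ U ∈ range (M + 1), E * (√(Ex M (fU U)) * √(Ex M (gU d U))) :=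
        hcov.trans (Finset.sum_le_sum fun d _ => Finset.sum_le_sum fun U _ => key d U)
    _ ≤ ∑ d ∈ range 3, E * (√(Ex M f) * √(Ex M g)) := by
        refine Finset.sum_le_sum fun d _ => ?_
        rw [← Finset.mul_sum]
        exact mul_le_mul_of_nonneg_left (box_cauchy (M + 1) _ _ (fun U => Ex_nonneg M (hf0' U))
          (fun U => Ex_nonneg M (hg0' d U)) hEf (hEg d)) hE0
    _ = _ := by
        rw [Finset.sum_const, Finset.card_range, nsmul_eq_mul, hE]
        push_cast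
        ring

/-! ### all classes, gain in the size of the word -/

/-- `r = 2^{-1/8}` -/
noncomputable def rho8 : ℝ := (2 : ℝ) ^ (-(1 / 8 : ℝ))

lemma rho8_pos : 0 < rho8 := Real.rpow_pos_of_pos (by norm_num) _

lemma rho8_lt : rho8 < 1 := Real.rpow_lt_one_of_one_lt_of_neg (by norm_num) (by norm_num)

lemma rho8_sq (a : ℕ) : rho4 ^ a = rho8 ^ a * rho8 ^ a := by
  have : rho4 = rho8 * rho8 := by
    unfold rho4 rho8
    rw [← Real.rpow_add (by norm_num)]
    norm_num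
  rw [this, mul_pow]

lemma geo8_le (N : ℕ) : ∑ a ∈ range N, rho8 ^ a ≤ (1 - rho8)⁻¹ :=
  sum_le_hasSum _ (fun n _ => pow_nonneg rho8_pos.le n)
    (hasSum_geometric_of_lt_one rho8_pos.le rho8_lt)

/-- the decay of the large classes -/
lemma rho8_large {W0 : ℝ} (hW0 : 1 ≤ W0) {a a' : ℕ} (h : W0 ≤ 2 ^ (a + 1) * 2 ^ (a' + 1)) :
    rho8 ^ a * rho8 ^ a' ≤ 2 * W0 ^ (-(1 / 8 : ℝ)) := by
  have hW : 0 < W0 := by linarith
  have e : rho8 ^ a * rho8 ^ a' = ((2 : ℝ) ^ (a + a')) ^ (-(1 / 8 : ℝ)) := by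
    unfold rho8
    rw [← pow_add, ← Real.rpow_natCast, ← Real.rpow_natCast, ← Real.rpow_mul (by norm_num),
      ← Real.rpow_mul (by norm_num), mul_comm]
  have h4 : W0 / 4 ≤ 2 ^ (a + a') := by
    rw [div_le_iff₀ (by norm_num)]
    refine h.trans (le_of_eq ?_)
    rw [pow_add, pow_add, pow_add]; ring
  rw [e]
  have h5 : ((2 : ℝ) ^ (a + a')) ^ (-(1 / 8 : ℝ)) ≤ (W0 / 4) ^ (-(1 / 8 : ℝ)) :=
    Real.rpow_le_rpow_of_nonpos (by positivity) h4 (by norm_num)
  refine h5.trans ?_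
  rw [div_eq_mul_inv, Real.mul_rpow hW.le (by norm_num), mul_comm]
  refine mul_le_mul_of_nonneg_right ?_ (Real.rpow_nonneg hW.le _)
  rw [Real.inv_rpow (by norm_num), Real.rpow_neg (by norm_num), inv_inv]
  calc (4 : ℝ) ^ (1 / 8 : ℝ) ≤ (4 : ℝ) ^ (1 / 2 : ℝ) :=
        Real.rpow_le_rpow_of_exponent_le (by norm_num) (by norm_num)
    _ = 2 := by rw [← Real.sqrt_eq_rpow, show (4 : ℝ) = 2 ^ 2 by norm_num, Real.sqrt_sq (by norm_num)]

open Classical in
/-- **one block, all classes with `W0 ≤ u u'`, weight `bst · (u u')^{1/4}`, uniqueness per box** -/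
theorem np_boxw : ∃ C : ℝ, 0 < C ∧ ∀ (M : ℕ) (F : FL M), 0 < M → ∀ X : ℕ, 2 ≤ X →
    ∀ S : Finset ℕ, (∀ p ∈ S, p ≤ X) → ∀ W0 : ℝ, 1 ≤ W0 → ∀ P : ℕ → ℕ → Prop,
    (∀ b c, b ∣ M → c ∣ M → P b c → NPX F X b c) →
    (∀ b c, b ∣ M → c ∣ M → P b c → W0 ≤ ((low X (wd b c).1 * low X (wd b c).2 : ℕ) : ℝ)) →
    UniqBox M X P →
    SetBd M (fun b c => if P b c then bst S M b c * lw X b c else 0)
      (C * (Real.log X) ^ (-(1 / 2 : ℝ)) * W0 ^ (-(1 / 8 : ℝ))) := by
  obtain ⟨C, hC, h⟩ := np_box_one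
  have hr0 := rho8_pos
  have hr1 := rho8_lt
  have hR : 0 < (1 - rho8)⁻¹ := inv_pos.2 (by linarith)
  refine ⟨8 * C * (1 - rho8)⁻¹ ^ 2, by positivity,
    fun M F hM X hX S hS W0 hW0 P hP hPW hU f g hf hg hf1 hg1 => ?_⟩
  have hX' : (2 : ℝ) ≤ (X : ℝ) := by exact_mod_cast hX
  have hlog : 0 < Real.log X := Real.log_pos (by linarith)
  set D := √(Ex M f) * √(Ex M g) with hD
  have hD0 : 0 ≤ D := mul_nonneg (Real.sqrt_nonneg _) (Real.sqrt_nonneg _)
  set L := (Real.log X) ^ (-(1 / 2 : ℝ)) with hL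
  have hL0 : 0 ≤ L := Real.rpow_nonneg hlog.le _
  set V := W0 ^ (-(1 / 8 : ℝ)) with hV
  have hV0 : 0 ≤ V := Real.rpow_nonneg (by linarith) _
  have hbf : ∀ b c, 0 ≤ bst S M b c * (f b * g c) := fun b c =>
    mul_nonneg (bst_nonneg _ _ _ _) (mul_nonneg (hf _) (hg _))
  set T : Finset (ℕ × ℕ × ℕ) := range (M + 1) ×ˢ (range (M + 1) ×ˢ range 2) with hT
  set κ : ℝ := (2 : ℝ) ^ (1 / 4 : ℝ) with hκ
  have hκ0 : 0 < κ := Real.rpow_pos_of_pos (by norm_num) _
  -- a large class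
  have hlarge : ∀ a a' e b c, b ∣ M → c ∣ M → P b c → Cls X a a' e b c →
      W0 ≤ 2 ^ (a + 1) * 2 ^ (a' + 1) := by
    intro a a' e b c hb hc hPP hcl
    have h3 : ((low X (wd b c).1 : ℕ) : ℝ) ≤ 2 ^ (a + 1) := by
      have : low X (wd b c).1 < 2 ^ (a + 1) := by
        rw [← hcl.1]; exact Nat.lt_pow_succ_log_self (by norm_num) _
      exact_mod_cast this.le
    have h4 : ((low X (wd b c).2 : ℕ) : ℝ) ≤ 2 ^ (a' + 1) := by
      have : low X (wd b c).2 < 2 ^ (a' + 1) := by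
        rw [← hcl.2.1]; exact Nat.lt_pow_succ_log_self (by norm_num) _
      exact_mod_cast this.le
    refine (hPW b c hb hc hPP).trans ?_
    push_cast
    exact mul_le_mul h3 h4 (by positivity) (by positivity)
  have h1 : frm M (fun b c => (if P b c then bst S M b c * lw X b c else 0) * (f b * g c)) ≤
      ∑ t ∈ T, frm M (fun b c => (2 * κ ^ t.1 * κ ^ t.2.1) *
        (if P b c ∧ Cls X t.1 t.2.1 t.2.2 b c then bst S M b c * (f b * g c) else 0)) := by
    rw [frm_sum]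
    refine frm_mono fun b c hb hc => ?_
    have hnn : ∀ t ∈ T, (0 : ℝ) ≤ (2 * κ ^ t.1 * κ ^ t.2.1) *
        (if P b c ∧ Cls X t.1 t.2.1 t.2.2 b c then bst S M b c * (f b * g c) else 0) := by
      intro t _
      refine mul_nonneg (by positivity) ?_
      split_ifs
      · exact hbf b c
      · exact le_rfl
    by_cases hPP : P b c
    · obtain ⟨a, ha, a', ha', e, he, hcls⟩ := exists_cls (X := X) hM hb hc
      have hmem : (a, a', e) ∈ T := by
        rw [hT, Finset.mem_product, Finset.mem_product]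
        exact ⟨ha, ha', he⟩
      refine le_trans ?_ (Finset.single_le_sum hnn hmem)
      rw [if_pos hPP, if_pos ⟨hPP, hcls⟩]
      calc bst S M b c * lw X b c * (f b * g c) = lw X b c * (bst S M b c * (f b * g c)) := by ring
        _ ≤ _ := mul_le_mul_of_nonneg_right (lw_cls hcls) (hbf b c)
    · rw [if_neg hPP, zero_mul]
      exact Finset.sum_nonneg hnn
  refine h1.trans ?_
  have h2 : ∀ t ∈ T, frm M (fun b c => (2 * κ ^ t.1 * κ ^ t.2.1) *
        (if P b c ∧ Cls X t.1 t.2.1 t.2.2 b c then bst S M b c * (f b * g c) else 0)) ≤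
      (4 * (C * L * V * D)) * (rho8 ^ t.1 * rho8 ^ t.2.1) := by
    intro t _
    have e : frm M (fun b c => (2 * κ ^ t.1 * κ ^ t.2.1) *
        (if P b c ∧ Cls X t.1 t.2.1 t.2.2 b c then bst S M b c * (f b * g c) else 0)) =
        (2 * κ ^ t.1 * κ ^ t.2.1) * frm M (fun b c =>
        (if P b c ∧ Cls X t.1 t.2.1 t.2.2 b c then bst S M b c * (f b * g c) else 0)) := by
      unfold frm
      rw [Finset.mul_sum]
      refine Finset.sum_congr rfl fun b _ => ?_
      rw [Finset.mul_sum]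
      exact Finset.sum_congr rfl fun c _ => by ring
    rw [e]
    by_cases hW : W0 ≤ 2 ^ (t.1 + 1) * 2 ^ (t.2.1 + 1)
    · refine (mul_le_mul_of_nonneg_left
        (h M F hM X hX S hS P hP hU t.1 t.2.1 t.2.2 f g hf hg hf1 hg1) (by positivity)).trans ?_
      have e2 : (2 * κ ^ t.1 * κ ^ t.2.1) * (C * L / √((2 : ℝ) ^ t.1 * 2 ^ t.2.1) * D) =
          (2 * (C * L * D)) * ((rho8 ^ t.1 * rho8 ^ t.2.1) * (rho8 ^ t.1 * rho8 ^ t.2.1)) := by
        have e3 : (rho8 ^ t.1 * rho8 ^ t.2.1) * (rho8 ^ t.1 * rho8 ^ t.2.1) =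
            rho4 ^ t.1 * rho4 ^ t.2.1 := by rw [rho8_sq, rho8_sq]; ring
        rw [e3, Real.sqrt_mul (by positivity), ← rho4_sq, ← rho4_sq]
        have k1 : √((2 : ℝ) ^ t.1) ≠ 0 := by positivity
        have k2 : √((2 : ℝ) ^ t.2.1) ≠ 0 := by positivity
        field_simp
        rw [hκ]
        ring
      rw [← hL, ← hD, e2]
      have k3 := rho8_large hW0 hW
      have k4 : 0 ≤ rho8 ^ t.1 * rho8 ^ t.2.1 := by positivity
      calc 2 * (C * L * D) * ((rho8 ^ t.1 * rho8 ^ t.2.1) * (rho8 ^ t.1 * rho8 ^ t.2.1)) ≤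
          2 * (C * L * D) * ((2 * V) * (rho8 ^ t.1 * rho8 ^ t.2.1)) :=
            mul_le_mul_of_nonneg_left (mul_le_mul_of_nonneg_right k3 k4) (by positivity)
        _ = _ := by ring
    · have e0 : frm M (fun b c =>
          (if P b c ∧ Cls X t.1 t.2.1 t.2.2 b c then bst S M b c * (f b * g c) else 0)) = 0 := by
        unfold frm
        refine Finset.sum_eq_zero fun b hb => Finset.sum_eq_zero fun c hc => ?_
        have hno : ¬ (P b c ∧ Cls X t.1 t.2.1 t.2.2 b c) := fun hh =>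
          hW (hlarge _ _ _ b c (Nat.dvd_of_mem_divisors hb) (Nat.dvd_of_mem_divisors hc) hh.1 hh.2)
        simp only [hno, if_false, mul_zero]
      rw [e0, mul_zero]
      positivity
  refine (Finset.sum_le_sum h2).trans ?_
  rw [← Finset.mul_sum, hT, Finset.sum_product]
  have hg8 := geo8_le (M + 1)
  have h3 : ∀ a ∈ range (M + 1), ∑ x ∈ range (M + 1) ×ˢ range 2, rho8 ^ a * rho8 ^ x.1 ≤
      rho8 ^ a * (2 * (1 - rho8)⁻¹) := by
    intro a _
    rw [Finset.sum_product]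
    simp only [Finset.sum_const, Finset.card_range, nsmul_eq_mul]
    rw [← Finset.mul_sum, ← Finset.mul_sum]
    have h4 : 0 ≤ rho8 ^ a := by positivity
    push_cast
    nlinarith
  have h5 : ∑ a ∈ range (M + 1), ∑ x ∈ range (M + 1) ×ˢ range 2, rho8 ^ a * rho8 ^ x.1 ≤
      2 * (1 - rho8)⁻¹ ^ 2 := by
    refine (Finset.sum_le_sum h3).trans ?_
    rw [← Finset.sum_mul]
    calc _ ≤ (1 - rho8)⁻¹ * (2 * (1 - rho8)⁻¹) := mul_le_mul_of_nonneg_right hg8 (by positivity)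
      _ = _ := by ring
  calc 4 * (C * L * V * D) * _ ≤ 4 * (C * L * V * D) * (2 * (1 - rho8)⁻¹ ^ 2) :=
        mul_le_mul_of_nonneg_left h5 (by positivity)
    _ = _ := by ring

open Classical in
/-- **block `j`**: any relation with words unique per box, words `≥ W0` -/
theorem np_SetBd_box : ∃ C : ℝ, 0 < C ∧ ∀ (M : ℕ) (F : FL M), 0 < M → ∀ j : ℕ, 1 ≤ j →
    ∀ W0 : ℝ, 1 ≤ W0 → ∀ P : ℕ → ℕ → Prop,
    (∀ b c, b ∣ M → c ∣ M → P b c → NPX F (Xj j) b c) →
    (∀ b c, b ∣ M → c ∣ M → P b c →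
      W0 ≤ ((low (Xj j) (wd b c).1 * low (Xj j) (wd b c).2 : ℕ) : ℝ)) →
    UniqBox M (Xj j) P →
    SetBd M (fun b c => if P b c then bst (pr (Xj j)) M b c * lw (Xj j) b c else 0)
      (C * ((√2)⁻¹) ^ j * W0 ^ (-(1 / 8 : ℝ))) := by
  obtain ⟨C, hC, h⟩ := np_boxw
  have hl2 : 0 < Real.log 2 := Real.log_pos (by norm_num)
  refine ⟨C * (√(Real.log 2 / 2))⁻¹, by positivity, fun M F hM j hj W0 hW0 P hP hPW hU => ?_⟩
  have hV0 : 0 ≤ W0 ^ (-(1 / 8 : ℝ)) := Real.rpow_nonneg (by linarith) _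
  refine SetBd.mono (h M F hM (Xj j) (Xj_two hj) (pr (Xj j)) (fun p hp => (mem_pr.1 hp).1) W0 hW0
    P hP hPW hU) (fun _ _ _ _ => le_rfl) ?_
  refine mul_le_mul_of_nonneg_right ?_ hV0
  calc C * (Real.log (Xj j)) ^ (-(1 / 2 : ℝ)) ≤
        C * ((√(Real.log 2 / 2))⁻¹ * ((√2)⁻¹) ^ j) :=
        mul_le_mul_of_nonneg_left (log_pow_le hj) hC.le
    _ = _ := by ring

end Crest.Agent.R4C.NPBoxx48
end

-- ▼ part R4C/NPInst_48
section

/-!
# Row 4: the low word of a common point without explained low primes (helper48)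

BLOCK S6 v1.2 (3463 + 3495), CASE B, `E` empty (11's (P2)): `b = g s`, `c = g s'`, common point
`s f + h = s' f'`, no differing prime `≤ X` is explained.  Then
`low X (den f') * low X s = low X (den f) * low X s'` (`low_den`): the low word is the reduced form
of `low X (den f) : low X (den f')`.  With the uniqueness of the centres in a box (`BoxUniq_60`) it
is unique per box (`uniq_point`), so the non-pure part over one block of cuts costs `C 2^{-j/2}`
(`np_point`), weight = full boost at the primes `≤ Xj j` times `(u u')^{1/4}`.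
-/

set_option autoImplicit false

open Finset
open Crest.Agent.R4C.Basex935 Crest.Agent.R4C.Cutx50 Crest.Agent.R4C.FLDefx935
open Crest.Agent.R4C.BoostRx398 (bst)
open Crest.Agent.R4C.FixedWordx423 (wd wd_pos)
open Crest.Agent.R4C.VecPurex520 (wd_low)
open Crest.Agent.R4C.NonPureBlkx559 (Xj Xj_two log_Xj)
open Crest.Agent.R4C.VecNPx50 Crest.Agent.R4C.NPBoxx48
open Crest.Agent.R4C.S4x74 (explL)
open Crest.Agent.R4C.Rulex945 Crest.Agent.R4C.BoxUniqx60

namespace Crest.Agent.R4C.NPInstx48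

/-! ### arithmetic of a common point -/








lemma low_coprime {s s' : ℕ} (X : ℕ) (hc : Nat.Coprime s s') :
    Nat.Coprime (low X s) (low X s') :=
  Nat.Coprime.coprime_dvd_left (low_dvd_self X s)
    (Nat.Coprime.coprime_dvd_right (low_dvd_self X s') hc)

/-- a reduced fraction is determined by its value -/
lemma word_eq {a b a1 b1 D D' : ℕ} (hD : 0 < D) (hD' : 0 < D') (hc : Nat.Coprime a b)
    (hc1 : Nat.Coprime a1 b1) (h : D' * a = D * b) (h1 : D' * a1 = D * b1) :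
    a = a1 ∧ b = b1 := by
  have e : a * b1 = a1 * b := by
    have h2 : D' * D * (a * b1) = D' * D * (a1 * b) := by
      calc D' * D * (a * b1) = (D' * a) * (D * b1) := by ring
        _ = (D * b) * (D' * a1) := by rw [h, h1]
        _ = _ := by ring
    exact Nat.eq_of_mul_eq_mul_left (Nat.mul_pos hD' hD) h2
  have d1 : a ∣ a1 := hc.dvd_of_dvd_mul_right (e ▸ dvd_mul_right a b1)
  have d2 : a1 ∣ a := hc1.dvd_of_dvd_mul_right (e.symm ▸ dvd_mul_right a1 b)
  have d3 : b ∣ b1 := hc.symm.dvd_of_dvd_mul_left (e.symm ▸ dvd_mul_left b a1)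
  have d4 : b1 ∣ b := hc1.symm.dvd_of_dvd_mul_left (e ▸ dvd_mul_left b1 a)
  exact ⟨Nat.dvd_antisymm d1 d2, Nat.dvd_antisymm d3 d4⟩

/-! ### uniqueness per box -/

variable {M : ℕ} (F : FL M) (P : Par)


variable {F P}

/-- words of one box differ by a factor `≤ 2` -/
lemma box_le {X b b1 : ℕ} (hb : 0 < b) (hb1 : 0 < b1) (h : upp X b = upp X b1)
    (hs : sz X b = sz X b1) : (b : ℝ) ≤ 2 * b1 := by
  have e1 := low_mul_upp X hb.ne'
  have e2 := low_mul_upp X hb1.ne'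
  have h1 : low X b < 2 ^ (sz X b + 1) := Nat.lt_pow_succ_log_self (by norm_num) _
  have h2 : 2 ^ sz X b1 ≤ low X b1 := Nat.pow_log_le_self 2 (low_pos _ _).ne'
  have h3 : low X b ≤ 2 * low X b1 := by
    rw [hs] at h1
    have : 2 ^ (sz X b1 + 1) = 2 * 2 ^ sz X b1 := by ring
    omega
  have h4 : b ≤ 2 * b1 := by
    calc b = low X b * upp X b := e1.symm
      _ ≤ 2 * low X b1 * upp X b := Nat.mul_le_mul_right _ h3
      _ = 2 * (low X b1 * upp X b1) := by rw [h]; ring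
      _ = 2 * b1 := by rw [e2]
  exact_mod_cast h4

lemma upp_of_cut {y X b b1 : ℕ} (hyX : y ≤ X) (h : upp y b = upp y b1) : upp X b = upp X b1 := by
  rw [← upp_upp hyX b, ← upp_upp hyX b1, h]



end Crest.Agent.R4C.NPInstx48
end

-- ▼ part R4C/NPs_217
section

/-!
# Row 4: class CNP of `SplitDef_945`, uniqueness per box and block reduction (helper217)

`PtU F P X K b c h f f'` : the linked offset `h` is a common point of tree centres `f, f'` of depth
`≤ K` at scales whose cuts are `≥ X`, and nothing explained differs `≤ X` (`NoEx`) or the low word at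
`X` is short (`32 Π < depth`).

* `two_box` : two different low words of one box (same class, same dyadic sizes, same letters
  `> X`) with the same common point: `depth ≤ 32 Π`;
* `uniq_all` : `UniqBox` for `NPX ∧ PtU`;
* `off_unique` : `f, f', h` are determined by the pair;
* `np_all` : `SetBd` for one block, constant `C (√2)^{-j}`;
* `ptU_of_BS`, `npx_of` : reduction of `CNP` at the level `t` to the block of `t`.
-/

set_option autoImplicit false

open Finset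
open Crest.Agent.R4C.Basex935 Crest.Agent.R4C.Cutx50 Crest.Agent.R4C.FLDefx935
open Crest.Agent.R4C.BoostRx398 (bst)
open Crest.Agent.R4C.BoostCx972 (gap)
open Crest.Agent.R4C.FixedWordx423 (wd wd_pos)
open Crest.Agent.R4C.VecPurex520 (wd_low part_div_gcd)
open Crest.Agent.R4C.NonPureBlkx559 (Xj Xj_two log_Xj)
open Crest.Agent.R4C.CrCountx935 Crest.Agent.R4C.Bridgex882
open Crest.Agent.R4C.VecNPx50 Crest.Agent.R4C.NPBoxx48 Crest.Agent.R4C.NPInstx48
open Crest.Agent.R4C.S2bx284 (InLat two_words dep_mono)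
open Crest.Agent.R4C.Rulex945 Crest.Agent.R4C.BoxUniqx60 Crest.Agent.R4C.Sharedx11
  Crest.Agent.R4C.Splitx945

namespace Crest.Agent.R4C.NPsx217

open Crest.Agent.R4C.SamePtx217 (kd an kd_pos kd_mul an_coprime inLat_of_point)

variable {M : ℕ}

/-! ### denominators -/

/-- a small `k0` divides the denominator of `(upp X s) f` -/
lemma k0_dvd_kd {F : FL M} {X b s : ℕ} {f : ℚ} (hk : k0 F X b f ≤ X) :
    k0 F X b f ∣ kd f (upp X s) := by
  set Λ := upp X s with hΛ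
  have h1 := k0_mul (F := F) X b f
  have h2 := kd_mul f Λ
  have h3 : Nat.Coprime (Nat.gcd f.den Λ) (k0 F X b f) := by
    refine Nat.coprime_of_dvd fun p hp h4 h5 => ?_
    have h6 : p ≤ k0 F X b f := Nat.le_of_dvd (k0_pos X b f) h5
    have h7 : p ∣ upp X s := h4.trans (Nat.gcd_dvd_right _ _)
    have h8 : ¬ p ≤ X := prime_dvd_part (fun p => ¬ p ≤ X) hp h7
    exact h8 (h6.trans hk)
  have h4 : Nat.gcd f.den Λ ∣ Nat.gcd f.den (F.lam X b) := by
    refine h3.dvd_of_dvd_mul_left ?_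
    rw [h1]
    exact Nat.gcd_dvd_left _ _
  obtain ⟨r, hr⟩ := h4
  have hG : 0 < Nat.gcd f.den Λ := Nat.gcd_pos_of_pos_left _ f.den_pos
  refine ⟨r, Nat.eq_of_mul_eq_mul_left hG ?_⟩
  rw [h2]
  calc f.den = k0 F X b f * Nat.gcd f.den (F.lam X b) := h1.symm
    _ = k0 F X b f * (Nat.gcd f.den Λ * r) := by rw [hr]
    _ = _ := by ring

lemma log_lt {a b : ℕ} (hb : 0 < b) (h : Nat.log 2 a = Nat.log 2 b) : a < 2 * b := by
  have h1 : a < 2 ^ (Nat.log 2 a + 1) := Nat.lt_pow_succ_log_self (by norm_num) _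
  have h2 : 2 ^ Nat.log 2 b ≤ b := Nat.pow_log_le_self 2 hb.ne'
  rw [h, pow_succ] at h1
  omega

/-- the upper word of a pair is determined by the letters `> X` -/
lemma upp_word {X b c b1 c1 : ℕ} (hb : b ≠ 0) (hc : c ≠ 0) (hb1 : b1 ≠ 0) (hc1 : c1 ≠ 0)
    (h : upp X b = upp X b1) (h' : upp X c = upp X c1) :
    upp X (b / Nat.gcd b c) = upp X (b1 / Nat.gcd b1 c1) := by
  have e1 : upp X (b / Nat.gcd b c) = upp X b / Nat.gcd (upp X b) (upp X c) :=
    part_div_gcd (fun p => ¬ p ≤ X) hb hc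
  have e2 : upp X (b1 / Nat.gcd b1 c1) = upp X b1 / Nat.gcd (upp X b1) (upp X c1) :=
    part_div_gcd (fun p => ¬ p ≤ X) hb1 hc1
  rw [e1, e2, h, h']

/-! ### two words of one box with the same common point -/

/-- lower bound for the depth of `S2b` -/
lemma depx_le_dep {F : FL M} {X b : ℕ} {f : ℚ} {γ L t δ δ' : ℝ} {k k' u v : ℕ} (hk : k0 F X b f ∣ k)
    (hk0 : 0 < k) (hk0' : 0 < k') (ht : (b : ℝ) * |γ - f| / L ≤ 4 * (t * u * |δ|)) :
    depx F γ L X b f ≤ 4 * S2bx284.dep k k' t δ δ' u v := by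
  unfold depx S2bx284.dep
  have h1 : (k0 F X b f : ℝ) ≤ (Nat.lcm k k' : ℝ) := by
    exact_mod_cast Nat.le_of_dvd (Nat.lcm_pos hk0 hk0') (hk.trans (Nat.dvd_lcm_left _ _))
  have h2 : max 1 ((b : ℝ) * |γ - f| / L) ≤ 4 * max 1 (max (t * u * |δ|) (t * v * |δ'|)) := by
    refine max_le ?_ (ht.trans ?_)
    · have : (1 : ℝ) ≤ max 1 (max (t * u * |δ|) (t * v * |δ'|)) := le_max_left _ _
      linarith
    · refine mul_le_mul_of_nonneg_left ?_ (by norm_num)
      exact (le_max_left _ _).trans (le_max_right _ _)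
  have h3 : (0 : ℝ) ≤ max 1 ((b : ℝ) * |γ - f| / L) := zero_le_one.trans (le_max_left _ _)
  calc (k0 F X b f : ℝ) * max 1 ((b : ℝ) * |γ - f| / L) ≤
      (Nat.lcm k k' : ℝ) * (4 * max 1 (max (t * u * |δ|) (t * v * |δ'|))) :=
        mul_le_mul h1 h2 h3 (Nat.cast_nonneg _)
    _ = _ := by ring

lemma dep_swap (k k' : ℕ) (t δ δ' : ℝ) (u v : ℕ) :
    S2bx284.dep k k' t δ δ' u v = S2bx284.dep k' k t δ' δ v u := by
  unfold S2bx284.dep
  rw [Nat.lcm_comm, max_comm (t * u * |δ|)]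

/-- **two different words of one box** -/
theorem two_box {F : FL M} {γ L : ℝ} (hL : 0 < L) {X b c b1 c1 : ℕ} {h h1 : ℤ} {f f' : ℚ}
    (hb : 0 < b) (hc : 0 < c) (hb1 : 0 < b1) (hc1 : 0 < c1)
    (hub : upp X b = upp X b1) (huc : upp X c = upp X c1)
    (hsb : sz X b = sz X b1)
    (hu : Nat.log 2 (low X (b / Nat.gcd b c)) = Nat.log 2 (low X (b1 / Nat.gcd b1 c1)))
    (hv : Nat.log 2 (low X (c / Nat.gcd b c)) = Nat.log 2 (low X (c1 / Nat.gcd b1 c1)))
    (pt : gap f f' (b / Nat.gcd b c) (c / Nat.gcd b c) h = 0)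
    (pt1 : gap f f' (b1 / Nat.gcd b1 c1) (c1 / Nat.gcd b1 c1) h1 = 0)
    (lk : h ∈ Lnk γ L b c) (lk1 : h1 ∈ Lnk γ L b1 c1)
    (kX : k0 F X b f ≤ X) (kX' : k0 F X c f' ≤ X)
    (hne : (low X (b / Nat.gcd b c), low X (c / Nat.gcd b c)) ≠
      (low X (b1 / Nat.gcd b1 c1), low X (c1 / Nat.gcd b1 c1))) :
    depx F γ L X b f ≤ 32 * ((low X (b / Nat.gcd b c) : ℝ) * low X (c / Nat.gcd b c)) ∧
    depx F γ L X c f' ≤ 32 * ((low X (b / Nat.gcd b c) : ℝ) * low X (c / Nat.gcd b c)) := by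
  set g := Nat.gcd b c with hg
  set g1 := Nat.gcd b1 c1 with hg1
  set s := b / g with hs
  set s' := c / g with hs'
  set s1 := b1 / g1 with hs1
  set s1' := c1 / g1 with hs1'
  have g0 : 0 < g := Nat.gcd_pos_of_pos_left _ hb
  have g10 : 0 < g1 := Nat.gcd_pos_of_pos_left _ hb1
  have eb : g * s = b := Nat.mul_div_cancel' (Nat.gcd_dvd_left b c)
  have ec : g * s' = c := Nat.mul_div_cancel' (Nat.gcd_dvd_right b c)
  have eb1 : g1 * s1 = b1 := Nat.mul_div_cancel' (Nat.gcd_dvd_left b1 c1)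
  have ec1 : g1 * s1' = c1 := Nat.mul_div_cancel' (Nat.gcd_dvd_right b1 c1)
  have s0 : 0 < s := Nat.pos_of_ne_zero fun h => by rw [h, mul_zero] at eb; omega
  have s0' : 0 < s' := Nat.pos_of_ne_zero fun h => by rw [h, mul_zero] at ec; omega
  have s10 : 0 < s1 := Nat.pos_of_ne_zero fun h => by rw [h, mul_zero] at eb1; omega
  have s10' : 0 < s1' := Nat.pos_of_ne_zero fun h => by rw [h, mul_zero] at ec1; omega
  set u := low X s with hud
  set v := low X s' with hvd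
  set u1 := low X s1 with hu1d
  set v1 := low X s1' with hv1d
  set x := upp X s with hx
  set x' := upp X s' with hx'
  have ex : upp X s1 = x := (upp_word hb.ne' hc.ne' hb1.ne' hc1.ne' hub huc).symm
  have ex' : upp X s1' = x' := by
    have := upp_word hc.ne' hb.ne' hc1.ne' hb1.ne' huc hub
    rw [Nat.gcd_comm c b, Nat.gcd_comm c1 b1] at this
    exact this.symm
  have us : u * x = s := low_mul_upp X s0.ne'
  have vs : v * x' = s' := low_mul_upp X s0'.ne'
  have us1 : u1 * x = s1 := by rw [← ex]; exact low_mul_upp X s10.ne'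
  have vs1 : v1 * x' = s1' := by rw [← ex']; exact low_mul_upp X s10'.ne'
  have u0 : 0 < u := low_pos _ _
  have v0 : 0 < v := low_pos _ _
  have u10 : 0 < u1 := low_pos _ _
  have v10 : 0 < v1 := low_pos _ _
  have x0 : 0 < x := upp_pos _ _
  have x0' : 0 < x' := upp_pos _ _
  -- sizes
  have hg4 : (g : ℝ) ≤ 4 * g1 := by
    have h1 := box_le hb hb1 hub hsb
    have h2 : u1 < 2 * u := log_lt u0 hu.symm
    have h3 : (u1 : ℝ) ≤ 2 * u := by exact_mod_cast h2.le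
    have e1 : (b : ℝ) = g * (u * x) := by rw [← eb, ← us]; push_cast; ring
    have e2 : (b1 : ℝ) = g1 * (u1 * x) := by rw [← eb1, ← us1]; push_cast; ring
    have hx0 : (0 : ℝ) < u * x := by positivity
    have h4 : (g : ℝ) * (u * x) ≤ 4 * g1 * (u * x) := by
      calc (g : ℝ) * (u * x) = b := e1.symm
        _ ≤ 2 * b1 := h1
        _ = 2 * g1 * x * u1 := by rw [e2]; ring
        _ ≤ 2 * g1 * x * (2 * u) := mul_le_mul_of_nonneg_left h3 (by positivity)
        _ = _ := by ring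
    exact le_of_mul_le_mul_right h4 hx0
  have gR : (0 : ℝ) < g := by exact_mod_cast g0
  have g1R : (0 : ℝ) < g1 := by exact_mod_cast g10
  set t : ℝ := min (g : ℝ) g1 / L with ht
  have t0 : 0 < t := div_pos (lt_min gR g1R) hL
  have ht4 : (g : ℝ) / L ≤ 4 * t := by
    rw [ht, ← mul_div_assoc]
    refine div_le_div_of_nonneg_right ?_ hL.le
    rcases min_choice (g : ℝ) g1 with h | h
    · rw [h]; linarith
    · rw [h]; exact hg4
  set δ : ℝ := x * (γ - f) with hδ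
  set δ' : ℝ := x' * (γ - f') with hδ'
  -- the strip
  have strip : ∀ {σ σ' U V G : ℕ} {H : ℤ}, U * x = σ → V * x' = σ' → gap f f' σ σ' H = 0 →
      H ∈ Hf γ (L / (G : ℕ)) σ σ' → t ≤ G / L → 0 < G → |(U : ℝ) * δ - V * δ'| < 1 / t := by
    intro σ σ' U V G H e1 e2 e3 e4 e5 e6
    have hGR : (0 : ℝ) < G := by exact_mod_cast e6
    have h1 := mem_Hf.1 e4
    have h2 : (σ : ℝ) * f - σ' * f' + H = 0 := by
      have : (((σ : ℚ) * f - σ' * f' + H : ℚ) : ℝ) = 0 := by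
        unfold BoostCx972.gap at e3
        rw [e3]; norm_num
      push_cast at this
      exact this
    have h3 : (U : ℝ) * δ - V * δ' = ((σ : ℝ) - σ') * γ + H := by
      have e1' : (U : ℝ) * x = σ := by exact_mod_cast e1
      have e2' : (V : ℝ) * x' = σ' := by exact_mod_cast e2
      rw [hδ, hδ']
      calc (U : ℝ) * (x * (γ - f)) - V * (x' * (γ - f')) =
          (U * x) * (γ - f) - (V * x') * (γ - f') := by ring
        _ = σ * (γ - f) - σ' * (γ - f') := by rw [e1', e2']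
        _ = _ := by linear_combination (-1) * h2
    rw [h3]
    refine h1.trans_le ?_
    rw [one_div]
    have : (L / (G : ℝ)) = ((G : ℝ) / L)⁻¹ := by rw [inv_div]
    rw [this]
    exact inv_anti₀ t0 e5
  have S1 : |(u : ℝ) * δ - v * δ'| < 1 / t := by
    refine strip us vs pt lk ?_ g0
    rw [ht]
    exact div_le_div_of_nonneg_right (min_le_left _ _) hL.le
  have S2 : |(u1 : ℝ) * δ - v1 * δ'| < 1 / t := by
    refine strip us1 vs1 pt1 lk1 ?_ g10
    rw [ht]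
    exact div_le_div_of_nonneg_right (min_le_right _ _) hL.le
  -- the lattice
  have lat : ∀ {σ σ' U V : ℕ} {H : ℤ}, U * x = σ → V * x' = σ' → gap f f' σ σ' H = 0 →
      InLat (an f x) (kd f x) (an f' x') (kd f' x') U V := by
    intro σ σ' U V H e1 e2 e3
    have h1 : ((U * (x * 1) : ℕ) : ℚ) * f - ((V * (x' * 1) : ℕ) : ℚ) * f' + H = 0 := by
      rw [mul_one, mul_one, e1, e2]
      exact e3
    have := inLat_of_point h1
    rwa [one_mul, one_mul] at this
  have hco : Nat.Coprime u v := by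
    refine low_coprime X ?_
    exact Nat.coprime_div_gcd_div_gcd g0
  have hco1 : Nat.Coprime u1 v1 := by
    refine low_coprime X ?_
    exact Nat.coprime_div_gcd_div_gcd g10
  have h2w := two_words t0 (kd_pos f x) (kd_pos f' x') (an_coprime f x) (an_coprime f' x')
    (lat us vs pt) (lat us1 vs1 pt1) S1 S2 hco hco1 u0 v0 u10 v10 hne
  have h3w := (dep_mono (k := kd f x) (k' := kd f' x') (δ := δ) (δ' := δ') t0.le
    (le_max_left u u1) (le_max_left v v1)).trans h2w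
  have h4w : (2 : ℝ) * ((max u u1 : ℕ) * (max v v1 : ℕ)) ≤ 8 * ((u : ℝ) * v) := by
    have a1 : max u u1 ≤ 2 * u := max_le (by omega) (log_lt u0 hu.symm).le
    have a2 : max v v1 ≤ 2 * v := max_le (by omega) (log_lt v0 hv.symm).le
    have a1' : ((max u u1 : ℕ) : ℝ) ≤ 2 * u := by exact_mod_cast a1
    have a2' : ((max v v1 : ℕ) : ℝ) ≤ 2 * v := by exact_mod_cast a2
    calc (2 : ℝ) * ((max u u1 : ℕ) * (max v v1 : ℕ)) ≤ 2 * ((2 * u) * (2 * v)) :=
          mul_le_mul_of_nonneg_left (mul_le_mul a1' a2' (Nat.cast_nonneg _) (by positivity))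
            (by norm_num)
      _ = _ := by ring
  have h5w := h3w.trans h4w
  -- displacement
  have disp : ∀ {d σ U y : ℕ} {e : ℚ}, g * σ = d → U * y = σ →
      (d : ℝ) * |γ - e| / L ≤ 4 * (t * U * |(y : ℝ) * (γ - e)|) := by
    intro d σ U y e e1 e2
    have e1' : (d : ℝ) = g * (U * y) := by rw [← e1, ← e2]; push_cast; ring
    rw [abs_mul, Nat.abs_cast, e1']
    calc (g : ℝ) * (U * y) * |γ - e| / L = (g : ℝ) / L * (U * y * |γ - e|) := by ring
      _ ≤ 4 * t * (U * y * |γ - e|) := mul_le_mul_of_nonneg_right ht4 (by positivity)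
      _ = _ := by ring
  constructor
  · have h6 := depx_le_dep (F := F) (γ := γ) (L := L) (δ' := δ') (v := v)
      (k0_dvd_kd (F := F) (s := s) kX) (kd_pos f x) (kd_pos f' x')
      (disp (e := f) eb us)
    linarith
  · have h6 := depx_le_dep (F := F) (γ := γ) (L := L) (δ' := δ) (v := u)
      (k0_dvd_kd (F := F) (s := s') kX') (kd_pos f' x') (kd_pos f x)
      (disp (e := f') ec vs)
    rw [dep_swap] at h5w
    linarith

/-! ### the relation -/

/-- `f` is a tree centre of `b` of depth `≤ K` at a scale whose cut is `≥ X` -/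
def Cen (F : FL M) (P : Par) (X : ℕ) (K : ℝ) (b : ℕ) (f : ℚ) : Prop :=
  ∃ m, X ≤ P.cut m ∧ 4 * K ^ 2 < 2 ^ m ∧ TC F P m b f ∧ dep F P m b f ≤ K

/-- product of the low word at the cut `X` -/
noncomputable def Pw (X b c : ℕ) : ℝ :=
  (low X (b / Nat.gcd b c) : ℝ) * low X (c / Nat.gcd b c)

lemma one_le_Pw (X b c : ℕ) : 1 ≤ Pw X b c := by
  unfold Pw
  have h1 : (1 : ℝ) ≤ low X (b / Nat.gcd b c) := by exact_mod_cast low_pos _ _
  have h2 : (1 : ℝ) ≤ low X (c / Nat.gcd b c) := by exact_mod_cast low_pos _ _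
  nlinarith

/-- common point with small depths at the cut `X`; nothing explained differs or the low word is
short -/
structure PtU (F : FL M) (P : Par) (X : ℕ) (K : ℝ) (b c : ℕ) (h : ℤ) (f f' : ℚ) : Prop where
  cb : Cen F P X K b f
  cc : Cen F P X K c f'
  pt : gap f f' (b / Nat.gcd b c) (c / Nat.gcd b c) h = 0
  lnk : h ∈ Lnk P.γ P.L b c
  alt : NoEx X b c f f' ∨ 32 * Pw X b c < depx F P.γ P.L X b f ∨
    32 * Pw X b c < depx F P.γ P.L X c f'

variable {F : FL M} {P : Par}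

lemma Cen.unique (hL : 0 < P.L) (hM : 0 < M) (hcut : Monotone P.cut) {X b b1 : ℕ} {K : ℝ}
    {f f1 : ℚ} (hb : b ∣ M) (hb1 : b1 ∣ M) (hu : upp X b = upp X b1) (hs : sz X b = sz X b1)
    (h : Cen F P X K b f) (h1 : Cen F P X K b1 f1) : f = f1 := by
  obtain ⟨m, a1, a2, a3, a4⟩ := h
  obtain ⟨m1, b1', b2, b3, b4⟩ := h1
  have hb0 := Nat.pos_of_dvd_of_pos hb hM
  have hb10 := Nat.pos_of_dvd_of_pos hb1 hM
  have e4 : (2 : ℝ) * 2 * K ^ 2 = 4 * K ^ 2 := by ring
  exact box_unique' hL hM hcut hb hb1 a1 b1' (SameUp.of_upp hu) (by norm_num)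
    (box_le hb0 hb10 hu hs) (box_le hb10 hb0 hu.symm hs.symm) a3 b3 a4 b4
    (by rw [e4]; exact a2) (by rw [e4]; exact b2)

/-- the depth is the same at `X` -/
lemma depx_eq (hM : 0 < M) {X x b : ℕ} {K : ℝ} {f : ℚ} (hb : b ∣ M) (hX : X ≤ x)
    (hK : depx F P.γ P.L x b f ≤ K) (hKX : K ≤ X) :
    depx F P.γ P.L X b f = depx F P.γ P.L x b f := by
  have h1 : (k0 F x b f : ℝ) ≤ X := (k0_le_depx x b f).trans (hK.trans hKX)
  have h2 : k0 F x b f ≤ X := by exact_mod_cast h1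
  have h3 := k0_const (F := F) hM hb hX h2
  unfold depx
  rw [h3]

lemma Cen.kX (hM : 0 < M) {X b : ℕ} {K : ℝ} {f : ℚ} (hb : b ∣ M) (hKX : K ≤ X)
    (h : Cen F P X K b f) : (k0 F X b f : ℝ) ≤ K ∧ k0 F X b f ≤ X ∧
      depx F P.γ P.L X b f ≤ K := by
  obtain ⟨m, a1, _, _, a4⟩ := h
  rw [dep_eq] at a4
  have h1 := depx_eq (P := P) hM hb a1 a4 hKX
  have h2 : depx F P.γ P.L X b f ≤ K := h1 ▸ a4
  have h3 : (k0 F X b f : ℝ) ≤ K := (k0_le_depx (γ := P.γ) (L := P.L) X b f).trans h2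
  exact ⟨h3, by exact_mod_cast h3.trans hKX, h2⟩

/-- **uniqueness per box** -/
theorem uniq_all (hL : 0 < P.L) (hM : 0 < M) (hcut : Monotone P.cut) {X : ℕ} {K : ℝ}
    (hKX : K ≤ X) :
    UniqBox M X (fun b c => NPX F X b c ∧ ∃ h f f', PtU F P X K b c h f f') := by
  intro a a' e b c b1 c1 hb hc hb1 hc1 hP hP1 hcl hcl1 hsb hsc hub huc
  obtain ⟨hN, h, f, f', hp⟩ := hP
  obtain ⟨hN1, h1, f1, f1', hp1⟩ := hP1
  have hb0 : 0 < b := Nat.pos_of_dvd_of_pos hb hM
  have hc0 : 0 < c := Nat.pos_of_dvd_of_pos hc hM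
  have hb10 : 0 < b1 := Nat.pos_of_dvd_of_pos hb1 hM
  have hc10 : 0 < c1 := Nat.pos_of_dvd_of_pos hc1 hM
  obtain ⟨hyX, e1, e2, _, _⟩ := cls_cut hN.size hcl
  obtain ⟨_, g1, g2, _, _⟩ := cls_cut hN1.size hcl1
  have hub' := upp_of_cut hyX hub
  have huc' := upp_of_cut hyX huc
  have hf : f = f1 := hp.cb.unique hL hM hcut hb hb1 hub' hsb hp1.cb
  have hf' : f' = f1' := hp.cc.unique hL hM hcut hc hc1 huc' hsc hp1.cc
  subst hf; subst hf'
  rw [wd_low _ hb0.ne' hc0.ne', wd_low _ hb10.ne' hc10.ne', e1, e2, g1, g2]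
  obtain ⟨_, kX, dX⟩ := hp.cb.kX hM hb hKX
  obtain ⟨_, kX', dX'⟩ := hp.cc.kX hM hc hKX
  obtain ⟨_, kX1, dX1⟩ := hp1.cb.kX hM hb1 hKX
  obtain ⟨_, kX1', dX1'⟩ := hp1.cc.kX hM hc1 hKX
  by_contra hne
  have t1 := two_box (F := F) hL hb0 hc0 hb10 hc10 hub' huc' hsb
    (hcl.1.trans hcl1.1.symm) (hcl.2.1.trans hcl1.2.1.symm) hp.pt hp1.pt hp.lnk hp1.lnk kX kX' hne
  have t2 := two_box (F := F) hL hb10 hc10 hb0 hc0 hub'.symm huc'.symm hsb.symm
    (hcl1.1.trans hcl.1.symm) (hcl1.2.1.trans hcl.2.1.symm) hp1.pt hp.pt hp1.lnk hp.lnk kX1 kX1'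
    (fun h => hne h.symm)
  rcases hp.alt with hn | h3 | h3
  · rcases hp1.alt with hn1 | h4 | h4
    · -- nothing explained
      apply hne
      have eb : Nat.gcd b c * (b / Nat.gcd b c) = b := Nat.mul_div_cancel' (Nat.gcd_dvd_left b c)
      have ec : Nat.gcd b c * (c / Nat.gcd b c) = c := Nat.mul_div_cancel' (Nat.gcd_dvd_right b c)
      have eb1 : Nat.gcd b1 c1 * (b1 / Nat.gcd b1 c1) = b1 :=
        Nat.mul_div_cancel' (Nat.gcd_dvd_left b1 c1)
      have ec1 : Nat.gcd b1 c1 * (c1 / Nat.gcd b1 c1) = c1 :=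
        Nat.mul_div_cancel' (Nat.gcd_dvd_right b1 c1)
      have hco : Nat.Coprime (b / Nat.gcd b c) (c / Nat.gcd b c) :=
        Nat.coprime_div_gcd_div_gcd (Nat.gcd_pos_of_pos_left _ hb0)
      have hco1 : Nat.Coprime (b1 / Nat.gcd b1 c1) (c1 / Nat.gcd b1 c1) :=
        Nat.coprime_div_gcd_div_gcd (Nat.gcd_pos_of_pos_left _ hb10)
      have q1 := Sharedx11.word_eq (F := F) (x := X) (g := Nat.gcd b c) hM
        (by rw [eb]; exact hb) (by rw [ec]; exact hc) hco hp.pt (by rw [eb, ec]; exact hn)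
      have q2 := Sharedx11.word_eq (F := F) (x := X) (g := Nat.gcd b1 c1) hM
        (by rw [eb1]; exact hb1) (by rw [ec1]; exact hc1) hco1 hp1.pt
        (by rw [eb1, ec1]; exact hn1)
      rw [eb, ec] at q1
      rw [eb1, ec1, ← k0_eq (F := F) hb hb1 le_rfl (SameUp.of_upp hub') f,
        ← k0_eq (F := F) hc hc1 le_rfl (SameUp.of_upp huc') f'] at q2
      have q3 := NPInstx48.word_eq (D := low X (k0 F X b f)) (D' := low X (k0 F X c f'))
        (low_pos _ _) (low_pos _ _) (Sharedx11.low_coprime hco) (Sharedx11.low_coprime hco1)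
        (by rw [mul_comm, q1, mul_comm]) (by rw [mul_comm, q2, mul_comm])
      exact Prod.ext q3.1 q3.2
    · exact absurd t2.1 (not_le.2 h4)
    · exact absurd t2.2 (not_le.2 h4)
  · exact absurd t1.1 (not_le.2 h3)
  · exact absurd t1.2 (not_le.2 h3)

/-- the centres and the offset are determined by the pair -/
theorem off_unique (hL : 0 < P.L) (hM : 0 < M) (hcut : Monotone P.cut) {X b c : ℕ} {K : ℝ}
    {h h1 : ℤ} {f f' f1 f1' : ℚ} (hb : b ∣ M) (hc : c ∣ M) (hp : PtU F P X K b c h f f')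
    (hp1 : PtU F P X K b c h1 f1 f1') : h = h1 := by
  have hf : f = f1 := hp.cb.unique hL hM hcut hb hb rfl rfl hp1.cb
  have hf' : f' = f1' := hp.cc.unique hL hM hcut hc hc rfl rfl hp1.cc
  subst hf; subst hf'
  have e1 := hp.pt
  have e2 := hp1.pt
  unfold BoostCx972.gap at e1 e2
  have : (h : ℚ) = h1 := by linarith
  exact_mod_cast this

open Classical in
/-- **one block** -/
theorem np_all : ∃ C : ℝ, 0 < C ∧ ∀ (M : ℕ) (F : FL M) (P : Par), 0 < M → 0 < P.L →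
    Monotone P.cut → ∀ (j : ℕ), 1 ≤ j → ∀ K : ℝ, K ≤ Xj j →
    SetBd M (fun b c => if NPX F (Xj j) b c ∧ ∃ h f f', PtU F P (Xj j) K b c h f f' then
      bst (pr (Xj j)) M b c * lw (Xj j) b c else 0) (C * ((√2)⁻¹) ^ j) := by
  obtain ⟨C, hC, h⟩ := np_SetBd_box
  refine ⟨C, hC, fun M F P hM hL hcut j hj K hKX => ?_⟩
  have h1 := h M F hM j hj 1 le_rfl
    (fun b c => NPX F (Xj j) b c ∧ ∃ h f f', PtU F P (Xj j) K b c h f f')
    (fun b c _ _ hh => hh.1) (fun b c _ _ _ => by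
      have : 0 < low (Xj j) (wd b c).1 * low (Xj j) (wd b c).2 :=
        Nat.mul_pos (low_pos _ _) (low_pos _ _)
      exact_mod_cast this) (uniq_all hL hM hcut hKX)
  rw [Real.one_rpow, mul_one] at h1
  convert h1

/-! ### reduction of `CNP` to blocks -/

lemma ell_dvd {x y b : ℕ} (hxy : x ≤ y) : F.ell y b ∣ F.ell x b := by
  unfold FL.ell
  refine Finset.prod_dvd_prod_of_dvd _ _ fun p _ => pow_dvd_pow _ ?_
  unfold FL.ellE
  by_cases h1 : y < p
  · rw [if_pos h1, if_pos (lt_of_le_of_lt hxy h1)]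
  · rw [if_neg h1]
    exact Nat.zero_le _

lemma low_le_low {x y s : ℕ} (hxy : x ≤ y) : low x s ≤ low y s := by
  refine Nat.le_of_dvd (low_pos _ _) ?_
  rw [← low_low hxy s]
  exact low_dvd_self _ _

lemma ix_cen {t X b : ℕ} {K : ℝ} {f : ℚ} (hcut : Monotone P.cut) (hX : X ≤ P.cut t)
    (hK2 : 4 * K ^ 2 < 2 ^ t) (hI : Ix F P t b f) (hd : dep F P t b f ≤ K) :
    Cen F P X K b f := by
  obtain ⟨m, h1, h2, h3⟩ := hI
  refine ⟨m, hX.trans (hcut h1), hK2.trans_le (pow_le_pow_right₀ (by norm_num) h1), h2, ?_⟩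
  unfold dep at hd ⊢
  rw [h3]
  exact hd

/-- **from the level `t` to the cut `X ≤ cut t`** -/
theorem ptU_of_BS (hM : 0 < M) (hcut : Monotone P.cut) {t X b c : ℕ} {K : ℝ} {h : ℤ} {f f' : ℚ}
    (hb : b ∣ M) (hc : c ∣ M) (hX : X ≤ P.cut t) (hEK : P.E t ^ 4 ≤ K) (hK2 : 4 * K ^ 2 < 2 ^ t)
    (hKX : K ≤ X) (hB : BS F P t b c h f f') (hl : h ∈ Lnk P.γ P.L b c)
    (halt : NoEx (P.cut t) b c f f' ∨ ¬ BigW F P t b c f f') : PtU F P X K b c h f f' := by
  have db := hB.db.trans hEK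
  have dc := hB.dc.trans hEK
  have e1 : depx F P.γ P.L X b f = dep F P t b f := depx_eq (P := P) hM hb hX db hKX
  have e2 : depx F P.γ P.L X c f' = dep F P t c f' := depx_eq (P := P) hM hc hX dc hKX
  refine ⟨ix_cen hcut hX hK2 hB.ib db, ix_cen hcut hX hK2 hB.ic dc, hB.toBP.pt, hl, ?_⟩
  have hPw : 32 * Pw X b c ≤ 128 * ((low (P.cut t) (b / Nat.gcd b c) : ℝ) *
      low (P.cut t) (c / Nat.gcd b c)) ^ 3 := by
    have h1 := one_le_Pw X b c
    have h2 : Pw X b c ≤ (low (P.cut t) (b / Nat.gcd b c) : ℝ) *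
        low (P.cut t) (c / Nat.gcd b c) := by
      unfold Pw
      have a1 : (low X (b / Nat.gcd b c) : ℝ) ≤ low (P.cut t) (b / Nat.gcd b c) := by
        exact_mod_cast low_le_low hX
      have a2 : (low X (c / Nat.gcd b c) : ℝ) ≤ low (P.cut t) (c / Nat.gcd b c) := by
        exact_mod_cast low_le_low hX
      exact mul_le_mul a1 a2 (Nat.cast_nonneg _) (Nat.cast_nonneg _)
    set w := (low (P.cut t) (b / Nat.gcd b c) : ℝ) * low (P.cut t) (c / Nat.gcd b c)
    have hw : 1 ≤ w := h1.trans h2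
    nlinarith [pow_le_pow_right₀ hw (show 1 ≤ 3 by norm_num), pow_one w]
  rcases halt with hn | hs
  · left
    exact fun p hp hpX => hn p hp (hpX.trans hX)
  · right
    unfold BigW at hs
    rw [not_and_or, not_le, not_le] at hs
    rcases hs with hs | hs
    · left
      rw [e1]
      exact hPw.trans_lt hs
    · right
      rw [e2]
      exact hPw.trans_lt hs

/-- size of the low word and non-purity at `X` -/
theorem npx_of (hM : 0 < M) {t X b c : ℕ} {K : ℝ} {h : ℤ} {f f' : ℚ} (hb : b ∣ M)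
    (hc : c ∣ M) (hX : X ≤ P.cut t) (hKX : 4 * K ^ 2 ≤ X) (hg : F.good X b c)
    (hnp : ¬ Pure F (P.cut t) b c) (hp : PtU F P X K b c h f f') : NPX F X b c := by
  have hb0 := Nat.pos_of_dvd_of_pos hb hM
  have hK1 : 1 ≤ K := by
    obtain ⟨m, _, _, _, h4⟩ := hp.cb
    exact (one_le_dep (F := F) (P := P) m b f).trans h4
  have hKX' : K ≤ X := by nlinarith
  obtain ⟨k1, _, d1⟩ := hp.cb.kX hM hb hKX'
  obtain ⟨k2, _, d2⟩ := hp.cc.kX hM hc hKX'
  refine ⟨hg, ?_, ?_⟩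
  · rintro ⟨h1, h2⟩
    refine hnp ⟨?_, ?_⟩
    · have := ell_dvd (F := F) (b := b) hX
      rw [h1] at this
      exact Nat.dvd_one.1 this
    · have := ell_dvd (F := F) (b := c) hX
      rw [h2] at this
      exact Nat.dvd_one.1 this
  · have key : Pw X b c ≤ K ^ 2 := by
      rcases hp.alt with hn | hs | hs
      · have eb : Nat.gcd b c * (b / Nat.gcd b c) = b := Nat.mul_div_cancel' (Nat.gcd_dvd_left b c)
        have ec : Nat.gcd b c * (c / Nat.gcd b c) = c :=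
          Nat.mul_div_cancel' (Nat.gcd_dvd_right b c)
        have hco : Nat.Coprime (b / Nat.gcd b c) (c / Nat.gcd b c) :=
          Nat.coprime_div_gcd_div_gcd (Nat.gcd_pos_of_pos_left _ hb0)
        have q1 := low_s_dvd_k0 (F := F) (x := X) (g := Nat.gcd b c) hM
          (by rw [eb]; exact hb) (by rw [ec]; exact hc) hco hp.pt (by rw [eb, ec]; exact hn)
        have q2 := low_s_dvd_k0 (F := F) (x := X) (g := Nat.gcd b c) hM
          (by rw [ec]; exact hc) (by rw [eb]; exact hb) hco.symm (S7dx14.gap_symm hp.pt)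
          (by rw [eb, ec]; exact hn.symm)
        rw [eb] at q1
        rw [ec] at q2
        have q1' : (low X (b / Nat.gcd b c) : ℝ) ≤ K :=
          le_trans (by exact_mod_cast Nat.le_of_dvd (k0_pos _ _ _) q1) k1
        have q2' : (low X (c / Nat.gcd b c) : ℝ) ≤ K :=
          le_trans (by exact_mod_cast Nat.le_of_dvd (k0_pos _ _ _) q2) k2
        unfold Pw
        rw [sq]
        exact mul_le_mul q1' q2' (Nat.cast_nonneg _) (by linarith)
      · have := one_le_Pw X b c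
        nlinarith
      · have := one_le_Pw X b c
        nlinarith
    have h4 : ((4 * (low X (wd b c).1 * low X (wd b c).2) : ℕ) : ℝ) ≤ X := by
      push_cast
      have : (4 : ℝ) * Pw X b c ≤ 4 * K ^ 2 := by linarith
      unfold Pw at this
      exact this.trans hKX
    exact_mod_cast h4

end Crest.Agent.R4C.NPsx217
end

-- ▼ part R4C/VecNPf_50
section

/-!
# Row 4: the NON-PURE class with all boosts (helper50)

`np_final` : for a set `B` of divisors of `M`, `F : FL M` with shares (`flam_full`), all pairs of `B`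
which for some block `j ≥ j0` are good and non-pure at `Xj j`, with a small low word determined by
the upper words, weight `≤ bst (pr (Xj j)) M b c * B1 b c` : energy `≤ C (1 + A) 2^{-j0/2} ν(B)`.
`np_final_dbl` : the same for a doubling family of words.
-/

set_option autoImplicit false

open Finset
open Crest.Agent.R4C.Basex935 Crest.Agent.R4C.Cutx50 Crest.Agent.R4C.HeavyLx50
open Crest.Agent.R4C.FLDefx935
open Crest.Agent.R4C.BoostRx398 (bst tf one_le_tf)
open Crest.Agent.R4C.VecPurex520 (Dbl)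
open Crest.Agent.R4C.NonPureBlkx559 (Xj)
open Crest.Agent.R4C.FLShx326 (Shares)

namespace Crest.Agent.R4C.VecNPx50

open Classical in
lemma setBd_sets {M : ℕ} {k : ℕ → ℕ → ℝ} {E : ℝ} (h : SetBd M k E) {S S' : Finset ℕ}
    (hS : S ⊆ M.divisors) (hS' : S' ⊆ M.divisors) :
    ∑ b ∈ S, ∑ c ∈ S', (Nat.gcd b c : ℝ) * nu M b * nu M c * k b c ≤
      E * √((∑ b ∈ S, nu M b) * ∑ c ∈ S', nu M c) := by
  have h1 := h (fun b => if b ∈ S then 1 else 0) (fun b => if b ∈ S' then 1 else 0)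
    (fun b => by split_ifs <;> norm_num) (fun b => by split_ifs <;> norm_num)
    (fun b => by split_ifs <;> norm_num) (fun b => by split_ifs <;> norm_num)
  have e : ∀ T : Finset ℕ, T ⊆ M.divisors →
      Ex M (fun b => if b ∈ T then (1 : ℝ) else 0) = ∑ b ∈ T, nu M b := by
    intro T hT
    unfold Ex
    simp only [mul_ite, mul_one, mul_zero]
    rw [← Finset.sum_filter]
    congr 1
    ext b
    simp only [Finset.mem_filter]
    exact ⟨fun h => h.2, fun h => ⟨hT h, h⟩⟩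
  have hm0 : 0 ≤ ∑ b ∈ S, nu M b := Finset.sum_nonneg fun _ _ => nu_nonneg _ _
  rw [e S hS, e S' hS', ← Real.sqrt_mul hm0] at h1
  refine le_trans (le_of_eq ?_) h1
  unfold frm
  rw [← Finset.sum_subset hS]
  · refine Finset.sum_congr rfl fun z hz => ?_
    rw [← Finset.sum_subset hS']
    · refine Finset.sum_congr rfl fun z' hz' => ?_
      simp [hz, hz']
    · intro z' _ hz'
      simp [hz']
  · intro z _ hz
    refine Finset.sum_eq_zero fun z' _ => ?_
    simp [hz]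

lemma B1hi_eq (X b c : ℕ) : B1hi X b c = B1Levx52.B1 X b c := by
  unfold B1hi B1Levx52.B1
  refine Finset.prod_congr ?_ fun p _ => rfl
  ext p
  simp



end Crest.Agent.R4C.VecNPx50
end

-- ▼ part R4C/VecNPt_50
section

/-!
# Row 4: closing lemma for classes with a bilinear set bound (helper50)

`total_of_setBd` : finite index set `T`, cuts `X i`, relations `P i` of good pairs at `X i` with the
set bound `SetBd M (1_{P i} · bst (pr (X i)) · (u u')^{1/4}) (E i)` (`u, u'` the low word at `X i`);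
weight `W b c ≤ bst (pr (X i)) M b c * B1 b c` on `P i`; then
`∑_{b,c ∈ B} [∃ i ∈ T, P i b c] gcd ν ν W ≤ C (1 + A) (∑_i E i) ν(B)`.
-/

set_option autoImplicit false

open Finset
open Crest.Agent.R4C.Basex935 Crest.Agent.R4C.Cutx50 Crest.Agent.R4C.HeavyLx50
open Crest.Agent.R4C.FLDefx935
open Crest.Agent.R4C.BoostRx398 (bst tf one_le_tf)
open Crest.Agent.R4C.FLShx326 (Shares)

namespace Crest.Agent.R4C.VecNPx50

open Classical in
/-- **closing lemma** -/
theorem total_of_setBd : ∃ C : ℝ, 0 ≤ C ∧ ∀ (M : ℕ) (F : FL M) (B : Finset ℕ) (A s : ℝ), 0 < M →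
    B ⊆ M.divisors → Shares F B A s → 0 ≤ A → 3 / 4 ≤ s →
    ∀ (ι : Type) (T : Finset ι) (X : ι → ℕ) (P : ι → ℕ → ℕ → Prop) (E : ι → ℝ),
    (∀ i ∈ T, 0 ≤ E i) →
    (∀ i ∈ T, ∀ b c, b ∣ M → c ∣ M → P i b c → F.good (X i) b c) →
    (∀ i ∈ T, SetBd M (fun b c => if P i b c then bst (pr (X i)) M b c * lw (X i) b c else 0)
      (E i)) →
    ∀ W : ℕ → ℕ → ℝ,
    (∀ i ∈ T, ∀ b ∈ B, ∀ c ∈ B, P i b c →
      W b c ≤ bst (pr (X i)) M b c * PureL2x232.B1 b c) →
    ∑ b ∈ B, ∑ c ∈ B, (if ∃ i ∈ T, P i b c then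
        (Nat.gcd b c : ℝ) * nu M b * nu M c * W b c else 0) ≤
      C * (1 + A) * (∑ i ∈ T, E i) * ∑ b ∈ B, nu M b := by
  obtain ⟨C2, hC2, h2⟩ := B1Levx52.good_B1
  refine ⟨128 * (1 + C2), by positivity,
    fun M F B A s hM hB hSh hA hs ι T X P E hE hgood hset W hW => ?_⟩
  set m := ∑ b ∈ B, nu M b with hm
  have hm0 : 0 ≤ m := Finset.sum_nonneg fun _ _ => nu_nonneg _ _
  have hwt : ∀ b c, 0 ≤ (Nat.gcd b c : ℝ) * nu M b * nu M c := fun b c =>
    mul_nonneg (mul_nonneg (by positivity) (nu_nonneg _ _)) (nu_nonneg _ _)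
  set K : ι → ℕ → ℕ → ℝ := fun i b c => (Nat.gcd b c : ℝ) * nu M b * nu M c *
    (if P i b c then bst (pr (X i)) M b c * lw (X i) b c else 0) with hK
  have hK0 : ∀ i b c, 0 ≤ K i b c := by
    intro i b c
    refine mul_nonneg (hwt b c) ?_
    split_ifs
    · exact mul_nonneg (bst_nonneg _ _ _ _) (lw_nonneg _ _ _)
    · exact le_rfl
  have h1 : ∀ b ∈ B, ∀ c ∈ B, (if ∃ i ∈ T, P i b c then
        (Nat.gcd b c : ℝ) * nu M b * nu M c * W b c else 0) ≤
      ∑ i ∈ T, 8 * (K i b c * B1Levx52.B1 (X i) b c) := by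
    intro b hb c hc
    have hbM := Nat.dvd_of_mem_divisors (hB hb)
    have hcM := Nat.dvd_of_mem_divisors (hB hc)
    have hb0 : 0 < b := Nat.pos_of_dvd_of_pos hbM hM
    have hc0 : 0 < c := Nat.pos_of_dvd_of_pos hcM hM
    have hnn : ∀ i ∈ T, (0 : ℝ) ≤ 8 * (K i b c * B1Levx52.B1 (X i) b c) :=
      fun i _ => mul_nonneg (by norm_num) (mul_nonneg (hK0 i b c) (B1Levx52.B1_nonneg _ _ _))
    by_cases hex : ∃ i ∈ T, P i b c
    · rw [if_pos hex]
      obtain ⟨i, hi, hPi⟩ := hex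
      refine le_trans ?_ (Finset.single_le_sum hnn hi)
      simp only [hK]
      rw [if_pos hPi]
      have h3 := B1_split_cut (X i) hb0 hc0
      rw [B1hi_eq] at h3
      calc (Nat.gcd b c : ℝ) * nu M b * nu M c * W b c
          ≤ (Nat.gcd b c : ℝ) * nu M b * nu M c *
            (bst (pr (X i)) M b c * (8 * lw (X i) b c * B1Levx52.B1 (X i) b c)) :=
            mul_le_mul_of_nonneg_left ((hW i hi b hb c hc hPi).trans
              (mul_le_mul_of_nonneg_left h3 (bst_nonneg _ _ _ _))) (hwt b c)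
        _ = _ := by ring
    · rw [if_neg hex]
      exact Finset.sum_nonneg hnn
  refine (Finset.sum_le_sum fun b hb => Finset.sum_le_sum fun c hc => h1 b hb c hc).trans ?_
  have hswap : ∑ b ∈ B, ∑ c ∈ B, ∑ i ∈ T, 8 * (K i b c * B1Levx52.B1 (X i) b c) =
      ∑ i ∈ T, 8 * ∑ b ∈ B, ∑ c ∈ B, K i b c * B1Levx52.B1 (X i) b c := by
    rw [Finset.sum_congr rfl fun b _ => Finset.sum_comm, Finset.sum_comm]
    refine Finset.sum_congr rfl fun j _ => ?_
    rw [Finset.mul_sum]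
    refine Finset.sum_congr rfl fun b _ => ?_
    rw [Finset.mul_sum]
  rw [hswap]
  have hi : ∀ i ∈ T, 8 * ∑ b ∈ B, ∑ c ∈ B, K i b c * B1Levx52.B1 (X i) b c ≤
      (128 * ((1 + C2) * (1 + A)) * m) * E i := by
    intro i hiT
    have h3 := h2 M F B A s hM hB hSh hA hs (X i) (K i) (E i) (hE i hiT)
      (fun b _ c _ => hK0 i b c)
      (fun b hb c hc hne => by
        have hbM := Nat.dvd_of_mem_divisors (hB hb)
        have hcM := Nat.dvd_of_mem_divisors (hB hc)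
        by_contra hng
        apply hne
        simp only [hK]
        rw [if_neg, mul_zero]
        intro hPi
        exact hng (hgood i hiT b c hbM hcM hPi))
      (fun S S' hS hS' => setBd_sets (hset i hiT) (hS.trans hB) (hS'.trans hB))
    have hA1 : 1 + C2 * A ≤ (1 + C2) * (1 + A) := by nlinarith [mul_nonneg hC2 hA]
    have hEi := hE i hiT
    calc 8 * ∑ b ∈ B, ∑ c ∈ B, K i b c * B1Levx52.B1 (X i) b c
        ≤ 8 * (16 * (1 + C2 * A) * E i * m) := mul_le_mul_of_nonneg_left h3 (by norm_num)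
      _ ≤ 8 * (16 * ((1 + C2) * (1 + A)) * E i * m) := by
          refine mul_le_mul_of_nonneg_left ?_ (by norm_num)
          refine mul_le_mul_of_nonneg_right ?_ hm0
          refine mul_le_mul_of_nonneg_right ?_ hEi
          linarith
      _ = _ := by ring
  refine (Finset.sum_le_sum hi).trans (le_of_eq ?_)
  rw [← Finset.mul_sum]
  ring

end Crest.Agent.R4C.VecNPx50
end

-- ▼ part R4C/NPTot_52
section

/-!
# Row 4: NON-PURE class total (helper52, on top of `VecNPw_50` and `B1Lev_52`)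

* `np_blockB1` : one block `j`, pairs of `B` in a relation `P` (good at `Xj j`, non-pure, low word
  determined by the upper words), weight = full boost at the primes `≤ Xj j` times the full label
  factor `B1` of ALL differing primes: `≤ C (1+A) (√2)^{-j} ν(B)`.
* `np_total` : all blocks `j ≥ j0`, `N j` relations per block, any weight `W` dominated by
  `bst (pr (Xj j)) * B1`: `≤ C (1+A) (∑_j N_j (√2)^{-j}) ν(B)`.
* `np_total_one`, `np_total_sq` : `N j ≤ 1` resp. `N j ≤ K (j+1)^2` and explicit sums.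
* `np_total_dbl` : doubling families of words (dominant words).
-/

set_option autoImplicit false

open Finset
open Crest.Agent.R4C.Basex935 Crest.Agent.R4C.Cutx50 Crest.Agent.R4C.FLDefx935
open Crest.Agent.R4C.BoostRx398 (bst tf one_le_tf)
open Crest.Agent.R4C.FixedWordx423 (wd wd_pos)
open Crest.Agent.R4C.VecPurex520 (Dbl)
open Crest.Agent.R4C.NonPureBlkx559 (Xj Xj_two log_Xj)
open Crest.Agent.R4C.VecNPx50
open Crest.Agent.R4C.FLShx326 (Shares)

namespace Crest.Agent.R4C.NPTotx52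

lemma B1_eq_hi (X b c : ℕ) : B1Levx52.B1 X b c = B1hi X b c := rfl

open Classical in
/-- **one block with `B1`** -/
theorem np_blockB1 : ∃ C : ℝ, 0 < C ∧ ∀ (M : ℕ) (F : FL M) (B : Finset ℕ) (A s : ℝ), 0 < M →
    B ⊆ M.divisors → Shares F B A s → 0 ≤ A → 3 / 4 ≤ s → ∀ j : ℕ, 1 ≤ j →
    ∀ P : ℕ → ℕ → Prop, (∀ b c, b ∣ M → c ∣ M → P b c → NPX F (Xj j) b c) →
    Uniq M (Xj j) P →
    ∑ b ∈ B, ∑ c ∈ B, (Nat.gcd b c : ℝ) * nu M b * nu M c *
      (if P b c then bst (pr (Xj j)) M b c * PureL2x232.B1 b c else 0) ≤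
      C * (1 + A) * ((√2)⁻¹) ^ j * ∑ b ∈ B, nu M b := by
  obtain ⟨C, hC, h⟩ := np_SetBdw
  obtain ⟨C1, hC1, h1⟩ := B1Levx52.good_B1
  refine ⟨8 * (16 * (1 + C1) * C), by positivity,
    fun M F B A s hM hB hS hA hs j hj P hP hU => ?_⟩
  set r : ℝ := ((√2)⁻¹) ^ j with hr
  have hr0 : 0 ≤ r := by positivity
  have hm0 : 0 ≤ ∑ b ∈ B, nu M b := Finset.sum_nonneg fun b _ => nu_nonneg M b
  set K : ℕ → ℕ → ℝ := fun b c => (Nat.gcd b c : ℝ) * nu M b * nu M c *
    (if P b c then bst (pr (Xj j)) M b c * lw (Xj j) b c else 0) with hK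
  have hg0 : ∀ b c, 0 ≤ (Nat.gcd b c : ℝ) * nu M b * nu M c := fun b c =>
    mul_nonneg (mul_nonneg (Nat.cast_nonneg _) (nu_nonneg _ _)) (nu_nonneg _ _)
  have hK0 : ∀ b c, 0 ≤ K b c := by
    intro b c
    refine mul_nonneg (hg0 b c) ?_
    split_ifs
    · exact mul_nonneg (bst_nonneg _ _ _ _) (lw_nonneg _ _ _)
    · exact le_rfl
  have hset := B1Levx52.set_of_fun (M := M) (B := B) (B' := B) (K := K) (E := C * r) hB hB (by
    intro f g hf hg hf1 hg1
    have h2 := h M F hM j hj P hP hU f g hf hg hf1 hg1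
    unfold frm Ex at h2
    refine le_trans (le_of_eq ?_) h2
    refine Finset.sum_congr rfl fun b _ => Finset.sum_congr rfl fun c _ => ?_
    simp only [hK]
    ring)
  have h3 := h1 M F B A s hM hB hS hA hs (Xj j) K (C * r) (by positivity)
    (fun b _ c _ => hK0 b c) (by
      intro b hb c hc hne
      have : P b c := by
        by_contra hn
        apply hne
        simp only [hK]
        rw [if_neg hn, mul_zero]
      exact (hP b c (Nat.dvd_of_mem_divisors (hB hb)) (Nat.dvd_of_mem_divisors (hB hc)) this).good)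
    hset
  have h4 : ∑ b ∈ B, ∑ c ∈ B, (Nat.gcd b c : ℝ) * nu M b * nu M c *
      (if P b c then bst (pr (Xj j)) M b c * PureL2x232.B1 b c else 0) ≤
      8 * ∑ b ∈ B, ∑ c ∈ B, K b c * B1Levx52.B1 (Xj j) b c := by
    rw [Finset.mul_sum]
    refine Finset.sum_le_sum fun b hb => ?_
    rw [Finset.mul_sum]
    refine Finset.sum_le_sum fun c hc => ?_
    have hb0 := Nat.pos_of_mem_divisors (hB hb)
    have hc0 := Nat.pos_of_mem_divisors (hB hc)
    by_cases hPP : P b c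
    · simp only [hK]
      rw [if_pos hPP, if_pos hPP, B1_eq_hi]
      have h5 := B1_split_cut (Xj j) hb0 hc0
      calc (Nat.gcd b c : ℝ) * nu M b * nu M c * (bst (pr (Xj j)) M b c * PureL2x232.B1 b c)
          ≤ (Nat.gcd b c : ℝ) * nu M b * nu M c *
            (bst (pr (Xj j)) M b c * (8 * lw (Xj j) b c * B1hi (Xj j) b c)) :=
            mul_le_mul_of_nonneg_left (mul_le_mul_of_nonneg_left h5 (bst_nonneg _ _ _ _)) (hg0 b c)
        _ = _ := by ring
    · rw [if_neg hPP, mul_zero]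
      exact mul_nonneg (by norm_num) (mul_nonneg (hK0 b c) (B1Levx52.B1_nonneg _ _ _))
  refine h4.trans ?_
  calc 8 * ∑ b ∈ B, ∑ c ∈ B, K b c * B1Levx52.B1 (Xj j) b c
      ≤ 8 * (16 * (1 + C1 * A) * (C * r) * ∑ b ∈ B, nu M b) :=
        mul_le_mul_of_nonneg_left h3 (by norm_num)
    _ ≤ 8 * (16 * ((1 + C1) * (1 + A)) * (C * r) * ∑ b ∈ B, nu M b) := by
        refine mul_le_mul_of_nonneg_left ?_ (by norm_num)
        refine mul_le_mul_of_nonneg_right ?_ hm0
        refine mul_le_mul_of_nonneg_right ?_ (by positivity)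
        nlinarith
    _ = _ := by ring

open Classical in
/-- **the non-pure class, all blocks, `N j` relations in block `j`** -/
theorem np_total : ∃ C : ℝ, 0 < C ∧ ∀ (M : ℕ) (F : FL M) (B : Finset ℕ) (A s : ℝ), 0 < M →
    B ⊆ M.divisors → Shares F B A s → 0 ≤ A → 3 / 4 ≤ s → ∀ j0 : ℕ, 1 ≤ j0 →
    ∀ (N : ℕ → ℕ) (P : ℕ → ℕ → ℕ → ℕ → Prop),
    (∀ j, j0 ≤ j → ∀ i, i < N j → ∀ b c, b ∣ M → c ∣ M → P j i b c → NPX F (Xj j) b c) →
    (∀ j, j0 ≤ j → ∀ i, i < N j → Uniq M (Xj j) (P j i)) →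
    ∀ W : ℕ → ℕ → ℝ,
    (∀ j, j0 ≤ j → ∀ i, i < N j → ∀ b c, b ∈ B → c ∈ B → P j i b c →
      W b c ≤ bst (pr (Xj j)) M b c * PureL2x232.B1 b c) →
    ∑ b ∈ B, ∑ c ∈ B, (if ∃ j, j0 ≤ j ∧ ∃ i, i < N j ∧ P j i b c then
      (Nat.gcd b c : ℝ) * nu M b * nu M c * W b c else 0) ≤
      C * (1 + A) * (∑ j ∈ Finset.Ico j0 (M + 1), (N j : ℝ) * ((√2)⁻¹) ^ j) *
        ∑ b ∈ B, nu M b := by
  obtain ⟨C, hC, h⟩ := np_blockB1
  refine ⟨C, hC, fun M F B A s hM hB hS hA hs j0 hj0 N P hP hU W hW => ?_⟩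
  have hg0 : ∀ b c, 0 ≤ (Nat.gcd b c : ℝ) * nu M b * nu M c := fun b c =>
    mul_nonneg (mul_nonneg (Nat.cast_nonneg _) (nu_nonneg _ _)) (nu_nonneg _ _)
  set T : ℕ → ℕ → ℕ → ℕ → ℝ := fun j i b c => (Nat.gcd b c : ℝ) * nu M b * nu M c *
    (if P j i b c then bst (pr (Xj j)) M b c * PureL2x232.B1 b c else 0) with hT
  have hT0 : ∀ j i b c, 0 ≤ T j i b c := by
    intro j i b c
    refine mul_nonneg (hg0 b c) ?_
    split_ifs
    · exact mul_nonneg (bst_nonneg _ _ _ _) (PureL2x232.B1_pos b c).le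
    · exact le_rfl
  have h1 : ∑ b ∈ B, ∑ c ∈ B, (if ∃ j, j0 ≤ j ∧ ∃ i, i < N j ∧ P j i b c then
      (Nat.gcd b c : ℝ) * nu M b * nu M c * W b c else 0) ≤
      ∑ b ∈ B, ∑ c ∈ B, ∑ j ∈ Finset.Ico j0 (M + 1), ∑ i ∈ range (N j), T j i b c := by
    refine Finset.sum_le_sum fun b hb => Finset.sum_le_sum fun c hc => ?_
    have hbM := Nat.dvd_of_mem_divisors (hB hb)
    have hcM := Nat.dvd_of_mem_divisors (hB hc)
    by_cases hex : ∃ j, j0 ≤ j ∧ ∃ i, i < N j ∧ P j i b c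
    · rw [if_pos hex]
      obtain ⟨j, hj, i, hi, hPj⟩ := hex
      have hn := hP j hj i hi b c hbM hcM hPj
      have hjM : j < M + 1 := by
        have := hn.np
        rw [not_and_or] at this
        rcases this with h5 | h5
        · exact Xj_lt hM h5
        · exact Xj_lt hM h5
      have h2 : (Nat.gcd b c : ℝ) * nu M b * nu M c * W b c ≤ T j i b c := by
        simp only [hT]
        rw [if_pos hPj]
        exact mul_le_mul_of_nonneg_left (hW j hj i hi b c hb hc hPj) (hg0 b c)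
      refine h2.trans ?_
      refine le_trans ?_ (Finset.single_le_sum (f := fun j => ∑ i ∈ range (N j), T j i b c)
        (fun j _ => Finset.sum_nonneg fun i _ => hT0 j i b c) (Finset.mem_Ico.2 ⟨hj, hjM⟩))
      exact Finset.single_le_sum (f := fun i => T j i b c) (fun i _ => hT0 j i b c)
        (Finset.mem_range.2 hi)
    · rw [if_neg hex]
      exact Finset.sum_nonneg fun j _ => Finset.sum_nonneg fun i _ => hT0 j i b c
  refine h1.trans ?_
  have h2 : ∑ b ∈ B, ∑ c ∈ B, ∑ j ∈ Finset.Ico j0 (M + 1), ∑ i ∈ range (N j), T j i b c =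
      ∑ j ∈ Finset.Ico j0 (M + 1), ∑ i ∈ range (N j), ∑ b ∈ B, ∑ c ∈ B, T j i b c := by
    calc _ = ∑ b ∈ B, ∑ j ∈ Finset.Ico j0 (M + 1), ∑ c ∈ B, ∑ i ∈ range (N j), T j i b c :=
          Finset.sum_congr rfl fun b _ => Finset.sum_comm
      _ = ∑ j ∈ Finset.Ico j0 (M + 1), ∑ b ∈ B, ∑ c ∈ B, ∑ i ∈ range (N j), T j i b c :=
          Finset.sum_comm
      _ = ∑ j ∈ Finset.Ico j0 (M + 1), ∑ b ∈ B, ∑ i ∈ range (N j), ∑ c ∈ B, T j i b c :=
          Finset.sum_congr rfl fun j _ => Finset.sum_congr rfl fun b _ => Finset.sum_comm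
      _ = _ := Finset.sum_congr rfl fun j _ => Finset.sum_comm
  rw [h2]
  calc ∑ j ∈ Finset.Ico j0 (M + 1), ∑ i ∈ range (N j), ∑ b ∈ B, ∑ c ∈ B, T j i b c
      ≤ ∑ j ∈ Finset.Ico j0 (M + 1), ∑ _i ∈ range (N j),
        (C * (1 + A) * ((√2)⁻¹) ^ j * ∑ b ∈ B, nu M b) := by
        refine Finset.sum_le_sum fun j hj => Finset.sum_le_sum fun i hi => ?_
        rw [Finset.mem_Ico] at hj
        exact h M F B A s hM hB hS hA hs j (by omega) (P j i)
          (hP j hj.1 i (Finset.mem_range.1 hi)) (hU j hj.1 i (Finset.mem_range.1 hi))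
    _ = _ := by
        simp only [Finset.sum_const, Finset.card_range, nsmul_eq_mul]
        generalize ∑ b ∈ B, nu M b = m
        rw [Finset.mul_sum, Finset.sum_mul]
        refine Finset.sum_congr rfl fun j _ => ?_
        ring

/-! ### the block sums -/

lemma sqrt2_inv_lt : (√2)⁻¹ < 1 := by
  have hs2 : 1 < √2 := by
    rw [← Real.sqrt_one]; exact Real.sqrt_lt_sqrt (by norm_num) (by norm_num)
  exact inv_lt_one_of_one_lt₀ hs2

/-- tails of `∑ (j+1)^k r^j` -/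
lemma poly_geo (k : ℕ) {r ρ : ℝ} (hr : 0 < r) (hrρ : r < ρ) (hρ : ρ < 1) : ∃ C : ℝ, 0 < C ∧
    ∀ j0 J : ℕ, ∑ j ∈ Finset.Ico j0 J, ((j : ℝ) + 1) ^ k * r ^ j ≤ C * ρ ^ j0 := by
  have hρ0 : 0 < ρ := hr.trans hrρ
  -- `(j+1)^k (r/ρ')^j` bounded with `ρ' ∈ (r, ρ)`; use summability of `(j+1)^k (r/ρ)^j`
  have hq0 : 0 < r / ρ := div_pos hr hρ0
  have hq1 : r / ρ < 1 := (div_lt_one hρ0).2 hrρ
  have hs : Summable (fun j : ℕ => ((j : ℝ) + 1) ^ k * (r / ρ) ^ j) := by
    have h1 : Summable (fun j : ℕ => ((j : ℝ)) ^ k * (r / ρ) ^ j) :=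
      summable_pow_mul_geometric_of_norm_lt_one k (by rw [Real.norm_of_nonneg hq0.le]; exact hq1)
    have h2 := (summable_nat_add_iff 1).2 h1
    have h3 : (fun j : ℕ => ((j : ℝ) + 1) ^ k * (r / ρ) ^ j) =
        fun j : ℕ => (r / ρ)⁻¹ * ((((j + 1 : ℕ) : ℝ)) ^ k * (r / ρ) ^ (j + 1)) := by
      funext j
      push_cast
      rw [pow_succ]
      field_simp
    rw [h3]
    exact h2.mul_left _
  have hnn : ∀ j : ℕ, 0 ≤ ((j : ℝ) + 1) ^ k * (r / ρ) ^ j := fun j => by positivity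
  have ht0 : 0 ≤ ∑' j : ℕ, ((j : ℝ) + 1) ^ k * (r / ρ) ^ j := tsum_nonneg hnn
  refine ⟨(∑' j : ℕ, ((j : ℝ) + 1) ^ k * (r / ρ) ^ j) + 1, by linarith, fun j0 J => ?_⟩
  calc ∑ j ∈ Finset.Ico j0 J, ((j : ℝ) + 1) ^ k * r ^ j
      ≤ ∑ j ∈ Finset.Ico j0 J, (((j : ℝ) + 1) ^ k * (r / ρ) ^ j) * ρ ^ j0 := by
        refine Finset.sum_le_sum fun j hj => ?_
        rw [Finset.mem_Ico] at hj
        have h1 : r ^ j = (r / ρ) ^ j * ρ ^ j := by
          rw [← mul_pow, div_mul_cancel₀ _ hρ0.ne']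
        rw [h1, mul_assoc]
        refine mul_le_mul_of_nonneg_left ?_ (by positivity)
        refine mul_le_mul_of_nonneg_left ?_ (by positivity)
        exact pow_le_pow_of_le_one hρ0.le hρ.le hj.1
    _ = (∑ j ∈ Finset.Ico j0 J, ((j : ℝ) + 1) ^ k * (r / ρ) ^ j) * ρ ^ j0 := by
        rw [Finset.sum_mul]
    _ ≤ ((∑' j : ℕ, ((j : ℝ) + 1) ^ k * (r / ρ) ^ j) + 1) * ρ ^ j0 := by
        refine mul_le_mul_of_nonneg_right ?_ (by positivity)
        have := hs.sum_le_tsum (Finset.Ico j0 J) (fun j _ => hnn j)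
        linarith

open Classical in
/-- **the non-pure class with `N j ≤ K (j+1)^k` words per pair of upper words**: the total is
`≤ C K (1+A) (3/4)^{j0} ν(B)` -/
theorem np_total_poly (k : ℕ) : ∃ C : ℝ, 0 < C ∧ ∀ (M : ℕ) (F : FL M) (B : Finset ℕ) (A s : ℝ),
    0 < M → B ⊆ M.divisors → Shares F B A s → 0 ≤ A → 3 / 4 ≤ s → ∀ j0 : ℕ, 1 ≤ j0 →
    ∀ (K : ℝ) (N : ℕ → ℕ) (P : ℕ → ℕ → ℕ → ℕ → Prop), 0 ≤ K →
    (∀ j, (N j : ℝ) ≤ K * ((j : ℝ) + 1) ^ k) →
    (∀ j, j0 ≤ j → ∀ i, i < N j → ∀ b c, b ∣ M → c ∣ M → P j i b c → NPX F (Xj j) b c) →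
    (∀ j, j0 ≤ j → ∀ i, i < N j → Uniq M (Xj j) (P j i)) →
    ∀ W : ℕ → ℕ → ℝ,
    (∀ j, j0 ≤ j → ∀ i, i < N j → ∀ b c, b ∈ B → c ∈ B → P j i b c →
      W b c ≤ bst (pr (Xj j)) M b c * PureL2x232.B1 b c) →
    ∑ b ∈ B, ∑ c ∈ B, (if ∃ j, j0 ≤ j ∧ ∃ i, i < N j ∧ P j i b c then
      (Nat.gcd b c : ℝ) * nu M b * nu M c * W b c else 0) ≤
      C * K * (1 + A) * (3 / 4 : ℝ) ^ j0 * ∑ b ∈ B, nu M b := by
  obtain ⟨C, hC, h⟩ := np_total
  have hr0 : 0 < (√2)⁻¹ := by positivity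
  have hr34 : (√2)⁻¹ < 3 / 4 := by
    rw [inv_lt_comm₀ (by positivity) (by norm_num)]
    rw [Real.lt_sqrt (by norm_num)]
    norm_num
  obtain ⟨C', hC', h'⟩ := poly_geo k hr0 hr34 (by norm_num)
  refine ⟨C * C', by positivity,
    fun M F B A s hM hB hS hA hs j0 hj0 K N P hK hN hP hU W hW => ?_⟩
  refine (h M F B A s hM hB hS hA hs j0 hj0 N P hP hU W hW).trans ?_
  have hm0 : 0 ≤ ∑ b ∈ B, nu M b := Finset.sum_nonneg fun b _ => nu_nonneg M b
  refine mul_le_mul_of_nonneg_right ?_ hm0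
  have h1 : ∑ j ∈ Finset.Ico j0 (M + 1), (N j : ℝ) * ((√2)⁻¹) ^ j ≤ K * (C' * (3 / 4 : ℝ) ^ j0) := by
    calc ∑ j ∈ Finset.Ico j0 (M + 1), (N j : ℝ) * ((√2)⁻¹) ^ j
        ≤ ∑ j ∈ Finset.Ico j0 (M + 1), K * (((j : ℝ) + 1) ^ k * ((√2)⁻¹) ^ j) := by
          refine Finset.sum_le_sum fun j _ => ?_
          rw [← mul_assoc]
          exact mul_le_mul_of_nonneg_right (hN j) (by positivity)
      _ = K * ∑ j ∈ Finset.Ico j0 (M + 1), ((j : ℝ) + 1) ^ k * ((√2)⁻¹) ^ j := by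
          rw [Finset.mul_sum]
      _ ≤ _ := mul_le_mul_of_nonneg_left (h' j0 (M + 1)) hK
  calc C * (1 + A) * ∑ j ∈ Finset.Ico j0 (M + 1), (N j : ℝ) * ((√2)⁻¹) ^ j
      ≤ C * (1 + A) * (K * (C' * (3 / 4 : ℝ) ^ j0)) :=
        mul_le_mul_of_nonneg_left h1 (by positivity)
    _ = _ := by ring


end Crest.Agent.R4C.NPTotx52
end

-- ▼ part R4C/ClsNP_16
section

/-!
# Row 4: `ClsOK` for the class `CNP` of the split (helper16)

Index = block `j` of the level `t`: `2^j ≤ A t < 2^(j+1)`, `X = Xj j = 2^(2^j) - 1 ≤ cut t`.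

* not good at `X` : `ClsBad_250.cls_badJ`;
* good at `X` : not pure at `X`; `NPs_217` (`uniq_all`, `np_all`): the low word is unique per box,
  set bound `C 2^{-j/2}` with the full boost at the primes `≤ X`; `bst_cut_le`: the boost of the
  primes in `(X, cut t]` is bounded; one offset per pair and block (`off_unique`); `B1` by
  `VecNPt_50.total_of_setBd`.
* **`cls_np`** : `ClsOK γ (clsNP γ)`, `clsNP` = the literal `CNP F (ParOf cp A m0 γ L M B)`.
-/

set_option autoImplicit false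

open Finset

namespace Crest.Agent.R4C.ClsNPx16

open Crest.Agent.R4C.Basex935 Crest.Agent.R4C.Cutx50 Crest.Agent.R4C.FLDefx935
open Crest.Agent.R4C.BoostRx398 (bst tf one_le_tf)
open Crest.Agent.R4C.FixedWordx423 (wd wd_pos)
open Crest.Agent.R4C.NonPureBlkx559 (Xj Xj_two log_Xj Xj_ge)
open Crest.Agent.R4C.VecNPx50 (NPX pr mem_pr lw SetBd bst_nonneg total_of_setBd Xj_lt)
open Crest.Agent.R4C.BoostCx972 (gap)
open Crest.Agent.R4C.Bridgex882 Crest.Agent.R4C.CrCoinx935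
open Crest.Agent.R4C.Rulex945 Crest.Agent.R4C.Sharedx11 Crest.Agent.R4C.Splitx945
open Crest.Agent.R4C.Spinex946 Crest.Agent.R4C.HyOfx281 Crest.Agent.R4C.NPsx217
open Crest.Agent.R4C.BoostTopx19 (prQ)
open Crest.Agent.R4C.BoostAlx100 (boost_al B1_nonneg)

/-! ### the boost between two cuts -/

/-- Mertens for a set of primes in `(x, Q]` -/
lemma prod_window {x Q : ℕ} (hx : 2 ≤ x) (hxQ : x ≤ Q) (S : Finset ℕ)
    (hS : ∀ p ∈ S, p.Prime ∧ x < p ∧ p ≤ Q) :
    ∏ p ∈ S, tf p ≤ Real.exp (22 / Real.log 2) * (Real.log Q / Real.log x) := by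
  classical
  have hx' : (2 : ℝ) ≤ x := by exact_mod_cast hx
  have hxQ' : (x : ℝ) ≤ Q := by exact_mod_cast hxQ
  have h3 := (Crest.Agent.Lib.Mertens.mertens_three x Q hx' hxQ').1
  have hlx : 0 < Real.log x := Real.log_pos (by linarith)
  have hlQ : 0 < Real.log Q := Real.log_pos (by linarith)
  have hl2 : 0 < Real.log 2 := Real.log_pos (by norm_num)
  have hpr : ∀ p ∈ Crest.Agent.Lib.Mertens.pr x Q, p.Prime := fun p hp =>
    ((Crest.Agent.Lib.Mertens.mem_pr (by linarith) (by linarith)).1 hp).2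
  have hsub : S ⊆ Crest.Agent.Lib.Mertens.pr x Q := by
    intro q hq
    refine (Crest.Agent.Lib.Mertens.mem_pr (by linarith) (by linarith)).2 ⟨⟨?_, ?_⟩, (hS q hq).1⟩
    · exact_mod_cast (hS q hq).2.1
    · exact_mod_cast (hS q hq).2.2
  have hmono : ∏ p ∈ S, tf p ≤ ∏ p ∈ Crest.Agent.Lib.Mertens.pr x Q, tf p :=
    Crest.Agent.R4C.BoostCx972.prod_pf_mono hsub hpr
  refine hmono.trans ?_
  have e : ∏ p ∈ Crest.Agent.Lib.Mertens.pr x Q, tf p =
      (∏ p ∈ Crest.Agent.Lib.Mertens.pr x Q, (1 - 1 / (p : ℝ)))⁻¹ := by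
    unfold tf
    exact Finset.prod_inv_distrib _
  rw [e]
  have h4 : 0 < Real.exp (-(22 / Real.log x)) * (Real.log x / Real.log Q) := by positivity
  refine (inv_anti₀ h4 h3).trans ?_
  have e2 : (Real.exp (-(22 / Real.log x)) * (Real.log x / Real.log Q))⁻¹ =
      Real.exp (22 / Real.log x) * (Real.log Q / Real.log x) := by
    rw [Real.exp_neg]
    field_simp
  rw [e2]
  refine mul_le_mul_of_nonneg_right ?_ (by positivity)
  refine Real.exp_le_exp.2 ?_
  exact div_le_div_of_nonneg_left (by norm_num) hl2 (Real.log_le_log (by norm_num) hx')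

/-- **boost at the primes `≤ Q` against the boost at the primes `≤ x`** -/
lemma bst_cut_le {x Q : ℕ} (hx : 2 ≤ x) (hxQ : x ≤ Q) (M b c : ℕ) :
    bst (prQ Q) M b c ≤ (Real.exp (22 / Real.log 2) * (Real.log Q / Real.log x)) *
      bst (pr x) M b c := by
  classical
  have hmem : ∀ p, p ∈ prQ Q ↔ p ≤ Q ∧ p.Prime := by
    intro p
    unfold prQ
    rw [mem_filter, mem_range, Nat.lt_succ_iff]
  have hsub : pr x ⊆ prQ Q := by
    intro p hp
    rw [mem_pr] at hp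
    exact (hmem p).2 ⟨hp.1.trans hxQ, hp.2⟩
  have hfac : ∀ p, p.Prime → (0 : ℝ) ≤ (if b.factorization p = c.factorization p ∧
      b.factorization p < M.factorization p then tf p else 1) := fun p hp => by
    split_ifs
    · exact zero_le_one.trans (one_le_tf hp)
    · exact zero_le_one
  have e : bst (prQ Q) M b c = bst (prQ Q \ pr x) M b c * bst (pr x) M b c := by
    unfold Crest.Agent.R4C.BoostRx398.bst
    exact (Finset.prod_sdiff hsub).symm
  have hpos : 0 ≤ bst (pr x) M b c :=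
    Finset.prod_nonneg fun p hp => hfac p (mem_pr.1 hp).2
  rw [e]
  refine mul_le_mul_of_nonneg_right ?_ hpos
  have hS : ∀ p ∈ prQ Q \ pr x, p.Prime ∧ x < p ∧ p ≤ Q := by
    intro p hp
    rw [mem_sdiff, hmem, mem_pr] at hp
    refine ⟨hp.1.2, ?_, hp.1.1⟩
    by_contra hc
    exact hp.2 ⟨not_lt.1 hc, hp.1.2⟩
  refine le_trans ?_ (prod_window hx hxQ _ hS)
  refine Finset.prod_le_prod (fun p hp => hfac p (hS p hp).1) fun p hp => ?_
  split_ifs
  · exact le_rfl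
  · exact one_le_tf (hS p hp).1

/-! ### the blocks -/

/-- depth bound of the block `j` -/
noncomputable def KJ (cp : ℝ) (A j : ℕ) : ℝ := (2 : ℝ) ^ (8 * cp * ((2 : ℝ) ^ j / A))

lemma KJ_one {cp : ℝ} (h : 0 ≤ cp) (A j : ℕ) : 1 ≤ KJ cp A j :=
  Real.one_le_rpow (by norm_num) (by positivity)

section num

variable {cp η : ℝ} {A m0 t j : ℕ}

lemma blk_facts (hN : Num cp η A m0) (ht : 2 * m0 < t) (hj : Nat.log 2 (A * t) = j) :
    1 ≤ j ∧ 2 ^ j ≤ A * t ∧ A * t < 2 ^ (j + 1) := by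
  have hA := hN.A_one
  have hm := hN.m0_14
  have h0 : A * t ≠ 0 := (Nat.mul_pos hA (by omega)).ne'
  have h1 : 2 ^ j ≤ A * t := hj ▸ Nat.pow_log_le_self 2 h0
  have h2 : A * t < 2 ^ (j + 1) := hj ▸ Nat.lt_pow_succ_log_self (by norm_num) _
  refine ⟨?_, h1, h2⟩
  by_contra hc
  have : j = 0 := by omega
  rw [this] at h2
  have : t ≤ A * t := Nat.le_mul_of_pos_left t hA
  omega

lemma u_facts (hN : Num cp η A m0) (ht : 2 * m0 < t) (hj : Nat.log 2 (A * t) = j) :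
    (2 : ℝ) ^ j / A ≤ t ∧ (t : ℝ) < 2 * ((2 : ℝ) ^ j / A) ∧ 14 ≤ (2 : ℝ) ^ j / A ∧
      (2 : ℝ) ^ j / A ≤ 2 ^ j := by
  obtain ⟨_, h1, h2⟩ := blk_facts hN ht hj
  have hA : (1 : ℝ) ≤ A := by exact_mod_cast hN.A_one
  have hA0 : (0 : ℝ) < A := by linarith
  have h1' : (2 : ℝ) ^ j ≤ A * t := by exact_mod_cast h1
  have h2' : (A : ℝ) * t < 2 ^ (j + 1) := by exact_mod_cast h2
  have h3 : (28 : ℝ) ≤ t := by
    have := hN.m0_14
    exact_mod_cast (by omega : 28 ≤ t)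
  have e1 : (2 : ℝ) ^ j / A ≤ t := by rw [div_le_iff₀ hA0]; linarith
  have e2 : (t : ℝ) < 2 * ((2 : ℝ) ^ j / A) := by
    rw [mul_div_assoc', lt_div_iff₀ hA0]
    rw [pow_succ] at h2'
    linarith
  exact ⟨e1, e2, by linarith, div_le_self (by positivity) hA⟩

lemma E_le_KJ (hN : Num cp η A m0) (ht : 2 * m0 < t) (hj : Nat.log 2 (A * t) = j) {γ L : ℝ}
    {M : ℕ} {B : Finset ℕ} : (ParOf cp A m0 γ L M B).E t ^ 4 ≤ KJ cp A j := by
  obtain ⟨_, h2, _, _⟩ := u_facts hN ht hj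
  rw [E_pow]
  unfold KJ
  refine Real.rpow_le_rpow_of_exponent_le (by norm_num) ?_
  have h3 := mul_le_mul_of_nonneg_left h2.le hN.cp_pos.le
  push_cast
  linarith

lemma Xj_cast (j : ℕ) : (2 : ℝ) ^ (((2 : ℝ) ^ j) - 1) ≤ (Xj j : ℝ) := by
  have h1 : ((2 ^ (2 ^ j - 1) : ℕ) : ℝ) ≤ (Xj j : ℝ) := by exact_mod_cast Xj_ge (j := j)
  have e : ((2 ^ (2 ^ j - 1) : ℕ) : ℝ) = (2 : ℝ) ^ (((2 : ℝ) ^ j) - 1) := by
    push_cast
    rw [← Real.rpow_natCast]
    congr 1
    rw [Nat.cast_sub Nat.one_le_two_pow]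
    push_cast
    ring
  rwa [e] at h1

lemma KJ_sq (hN : Num cp η A m0) (ht : 2 * m0 < t) (hj : Nat.log 2 (A * t) = j) :
    4 * KJ cp A j ^ 2 < 2 ^ t ∧ 4 * KJ cp A j ^ 2 ≤ Xj j := by
  obtain ⟨h1, _, h3, h4⟩ := u_facts hN ht hj
  have e : 4 * KJ cp A j ^ 2 = (2 : ℝ) ^ (2 + 16 * cp * ((2 : ℝ) ^ j / A)) := by
    unfold KJ
    rw [Real.rpow_add (by norm_num), ← Real.rpow_natCast, ← Real.rpow_mul (by norm_num)]
    congr 1
    · norm_num
    · congr 1
      push_cast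
      ring
  have h5 : 2 + 16 * cp * ((2 : ℝ) ^ j / A) ≤ (2 : ℝ) ^ j / A - 1 := by
    have h6 := mul_le_mul_of_nonneg_right hN.cp_le (by linarith : 0 ≤ (2 : ℝ) ^ j / A)
    nlinarith
  rw [e]
  constructor
  · rw [← Real.rpow_natCast 2 t]
    exact Real.rpow_lt_rpow_of_exponent_lt (by norm_num) (by linarith)
  · refine le_trans ?_ (Xj_cast j)
    exact Real.rpow_le_rpow_of_exponent_le (by norm_num) (by linarith)

lemma cut_facts (hN : Num cp η A m0) (ht : 2 * m0 < t) (hj : Nat.log 2 (A * t) = j) {γ L : ℝ}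
    {M : ℕ} {B : Finset ℕ} : Xj j ≤ (ParOf cp A m0 γ L M B).cut t ∧
    Real.log ((ParOf cp A m0 γ L M B).cut t : ℕ) / Real.log (Xj j) ≤ 4 := by
  obtain ⟨hj1, h1, h2⟩ := blk_facts hN ht hj
  have hc : (ParOf cp A m0 γ L M B).cut t = 2 ^ (A * t) := rfl
  constructor
  · rw [hc]
    unfold Crest.Agent.R4C.NonPureBlkx559.Xj
    exact (Nat.sub_le _ _).trans (Nat.pow_le_pow_right (by norm_num) h1)
  · have h3 := log_Xj hj1
    have hl2 : 0 < Real.log 2 := Real.log_pos (by norm_num)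
    have h4 : 0 < Real.log (Xj j) := lt_of_lt_of_le (by positivity) h3
    rw [div_le_iff₀ h4, hc]
    have e : Real.log (((2 ^ (A * t) : ℕ)) : ℝ) = ((A * t : ℕ) : ℝ) * Real.log 2 := by
      rw [Nat.cast_pow, Real.log_pow]
      norm_num
    rw [e]
    have h5 : ((A * t : ℕ) : ℝ) ≤ 2 ^ (j + 1) := by exact_mod_cast h2.le
    calc ((A * t : ℕ) : ℝ) * Real.log 2 ≤ 2 ^ (j + 1) * Real.log 2 :=
          mul_le_mul_of_nonneg_right h5 hl2.le
      _ = 4 * (2 ^ j * (Real.log 2 / 2)) := by rw [pow_succ]; ring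
      _ ≤ _ := mul_le_mul_of_nonneg_left h3 (by norm_num)

end num

lemma cutMono {cp γ L : ℝ} {A m0 M : ℕ} {B : Finset ℕ} :
    Monotone (ParOf cp A m0 γ L M B).cut := fun _ _ hab =>
  Nat.pow_le_pow_right (by norm_num) (Nat.mul_le_mul_left A hab)

/-! ### one block -/

/-- the pairs of the block `j` -/
def QJ {M : ℕ} (F : FL M) (P : Par) (K : ℝ) (j b c : ℕ) : Prop :=
  NPX F (Xj j) b c ∧ ∃ h f f', PtU F P (Xj j) K b c h f f'

/-- the offsets of the block `j` -/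
def RQ {M : ℕ} (F : FL M) (P : Par) (A : ℕ) (K : ℝ) (j b c : ℕ) (h : ℤ) : Prop :=
  QJ F P K j b c ∧ ∃ t f f', Nat.log 2 (A * t) = j ∧ BS F P t b c h f f' ∧
    PtU F P (Xj j) K b c h f f'

lemma sum_le_of_unique {S : Finset ℤ} {g : ℤ → ℝ} {w : ℝ} (hw : 0 ≤ w) (h1 : ∀ x ∈ S, g x ≤ w)
    (h2 : ∀ x ∈ S, ∀ y ∈ S, x = y) : ∑ x ∈ S, g x ≤ w := by
  rcases S.eq_empty_or_nonempty with rfl | ⟨x, hx⟩
  · rw [Finset.sum_empty]; exact hw
  · have : S = {x} := by
      ext y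
      rw [mem_singleton]
      exact ⟨fun hy => h2 y hy x hx, fun hy => hy ▸ hx⟩
    rw [this, Finset.sum_singleton]
    exact h1 x hx

/-- constant of the boost -/
noncomputable def C0 : ℝ := Real.exp 1200 * (Real.exp (22 / Real.log 2) * 4)

lemma C0_pos : 0 < C0 := by unfold C0; positivity

/-- the boost of an offset of the block `j` -/
lemma boost_le {cp η γ L K : ℝ} {A m0 : ℕ} (hN : Num cp η A m0) {M : ℕ} {B : Finset ℕ}
    (hM : 0 < M) (hL : 0 < L) {F : FL M} {b c j : ℕ} (hb : b ∣ M) (hc : c ∣ M)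
    {h : ℤ} (hl : h ∈ Lnk γ L b c)
    (h1 : RQ F (ParOf cp A m0 γ L M B) A K j b c h) :
    boostB M (lamR F (ParOf cp A m0 γ L M B)) b c h ≤
      C0 * (bst (pr (Xj j)) M b c * PureL2x232.B1 b c) := by
  obtain ⟨_, t, f, f', hj, hS, _⟩ := h1
  have ht : 2 * m0 < t := hS.m0
  obtain ⟨hj1, g1, g2⟩ := blk_facts hN ht hj
  obtain ⟨hX, hlog⟩ := cut_facts hN ht hj (γ := γ) (L := L) (M := M) (B := B)
  have hX2 : 2 ≤ Xj j := Xj_two hj1
  have hb1 := boost_al (F := F) (P := ParOf cp A m0 γ L M B) hM hb hc hL (fun i => rfl)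
    (fun b i => min_le_right _ _) (hX2.trans hX) hS.good hl hS.al (Or.inl hS.near.le)
  have hb2 := bst_cut_le hX2 hX M b c
  have hB0 := B1_nonneg b c
  have hbn := bst_nonneg (pr (Xj j)) M b c
  have hee : 0 < Real.exp (22 / Real.log 2) := Real.exp_pos _
  have hb3 : bst (prQ ((ParOf cp A m0 γ L M B).cut t)) M b c ≤
      (Real.exp (22 / Real.log 2) * 4) * bst (pr (Xj j)) M b c :=
    hb2.trans (mul_le_mul_of_nonneg_right (mul_le_mul_of_nonneg_left hlog hee.le) hbn)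
  refine hb1.trans ?_
  calc Real.exp 1200 * (PureL2x232.B1 b c * bst (prQ ((ParOf cp A m0 γ L M B).cut t)) M b c)
      ≤ Real.exp 1200 * (PureL2x232.B1 b c *
        ((Real.exp (22 / Real.log 2) * 4) * bst (pr (Xj j)) M b c)) :=
        mul_le_mul_of_nonneg_left (mul_le_mul_of_nonneg_left hb3 hB0) (Real.exp_pos _).le
    _ = _ := by unfold C0; ring

open Classical in
/-- **one block** -/
theorem block_le : ∃ C : ℝ, 0 ≤ C ∧ ∀ {cp η : ℝ} {A m0 : ℕ}, Num cp η A m0 →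
    ∀ (γ L : ℝ) (M : ℕ) (B : Finset ℕ) (F : FL M), Setup η L M B F →
    ∀ (j : ℕ), 1 ≤ j → ∀ K : ℝ, K ≤ Xj j →
    EnR γ L M B (lamOf cp A m0 γ L M B F) (RQ F (ParOf cp A m0 γ L M B) A K j) ≤
      C * (1 + sA η) * ((√2)⁻¹) ^ j := by
  obtain ⟨C, hC, H⟩ := total_of_setBd
  obtain ⟨C1, hC1, H1⟩ := np_all
  refine ⟨C0 * C * C1, mul_nonneg (mul_nonneg C0_pos.le hC) hC1.le, ?_⟩
  intro cp η A m0 hN γ L M B F S j hj K hK
  obtain ⟨hT, _⟩ := tree_spec hN.η_pos hN.η_lt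
  have hset := H1 M F (ParOf cp A m0 γ L M B) S.hM S.hL cutMono j hj K hK
  have hset' : SetBd M (fun b c => if QJ F (ParOf cp A m0 γ L M B) K j b c then
      bst (pr (Xj j)) M b c * lw (Xj j) b c else 0) (C1 * ((√2)⁻¹) ^ j) := by
    convert hset using 4
    rfl
  have h1 := H M F B (sA η) (sE η) S.hM S.hB S.shares hT.A_pos.le hT.s_gt.le Unit {()}
    (fun _ => Xj j) (fun _ => QJ F (ParOf cp A m0 γ L M B) K j)
    (fun _ => C1 * ((√2)⁻¹) ^ j) (fun _ _ => by positivity)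
    (fun _ _ b c hb hc hQ => hQ.1.good) (fun _ _ => hset')
    (fun b c => bst (pr (Xj j)) M b c * PureL2x232.B1 b c) (fun _ _ b _ c _ _ => le_rfl)
  simp only [mem_singleton, true_and, exists_const, Finset.sum_singleton] at h1
  set Q : ℕ → ℕ → Prop := QJ F (ParOf cp A m0 γ L M B) K j with hQd
  have hw : ∀ b c, 0 ≤ C0 * (bst (pr (Xj j)) M b c * PureL2x232.B1 b c) := fun b c =>
    mul_nonneg C0_pos.le (mul_nonneg (bst_nonneg _ _ _ _) (B1_nonneg _ _))
  have h2 : EnR γ L M B (lamOf cp A m0 γ L M B F) (RQ F (ParOf cp A m0 γ L M B) A K j) ≤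
      L * ∑ b ∈ B, ∑ c ∈ B, C0 * (if Q b c then (Nat.gcd b c : ℝ) * nu M b * nu M c *
        (bst (pr (Xj j)) M b c * PureL2x232.B1 b c) else 0) := by
    rw [EnR_eq]
    refine mul_le_mul_of_nonneg_left (Finset.sum_le_sum fun b hb => ?_) S.hL.le
    have hnn : ∀ c, (0 : ℝ) ≤ C0 * (if Q b c then (Nat.gcd b c : ℝ) * nu M b * nu M c *
        (bst (pr (Xj j)) M b c * PureL2x232.B1 b c) else 0) := fun c => by
      refine mul_nonneg C0_pos.le ?_
      split_ifs
      · exact mul_nonneg (pref_nonneg _ _ _) (mul_nonneg (bst_nonneg _ _ _ _) (B1_nonneg _ _))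
      · exact le_rfl
    refine le_trans (Finset.sum_le_sum fun c hc => ?_)
      (Finset.sum_le_sum_of_subset_of_nonneg (Finset.erase_subset b B) fun c _ _ => hnn c)
    have hcB := Finset.mem_of_mem_erase hc
    by_cases hQ : Q b c
    · rw [if_pos hQ]
      have h3 : oS γ L M (lamOf cp A m0 γ L M B F) (RQ F (ParOf cp A m0 γ L M B) A K j) b c ≤
          C0 * (bst (pr (Xj j)) M b c * PureL2x232.B1 b c) := by
        unfold oS
        refine sum_le_of_unique (hw b c) (fun x hx => ?_) (fun x hx y hy => ?_)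
        · rw [mem_filter] at hx
          exact boost_le hN S.hM S.hL (S.dvd hb) (S.dvd hcB) hx.1 hx.2.2
        · rw [mem_filter] at hx hy
          obtain ⟨_, _, _, _, _, _, hp⟩ := hx.2.2
          obtain ⟨_, _, _, _, _, _, hp1⟩ := hy.2.2
          exact off_unique (P := ParOf cp A m0 γ L M B) S.hL S.hM cutMono (S.dvd hb) (S.dvd hcB)
            hp hp1
      calc _ ≤ (Nat.gcd b c : ℝ) * nu M b * nu M c *
            (C0 * (bst (pr (Xj j)) M b c * PureL2x232.B1 b c)) :=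
            mul_le_mul_of_nonneg_left h3 (pref_nonneg _ _ _)
        _ = _ := by ring
    · rw [if_neg hQ, mul_zero]
      have h3 : oS γ L M (lamOf cp A m0 γ L M B F) (RQ F (ParOf cp A m0 γ L M B) A K j) b c = 0 := by
        unfold oS
        refine Finset.sum_eq_zero fun x hx => ?_
        rw [mem_filter] at hx
        exact absurd hx.2.2.1 hQ
      rw [h3, mul_zero]
  refine h2.trans ?_
  have h4 : ∑ b ∈ B, ∑ c ∈ B, C0 * (if Q b c then (Nat.gcd b c : ℝ) * nu M b * nu M c *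
        (bst (pr (Xj j)) M b c * PureL2x232.B1 b c) else 0) ≤
      C0 * (C * (1 + sA η) * (C1 * ((√2)⁻¹) ^ j) * ∑ b ∈ B, nu M b) := by
    simp_rw [← Finset.mul_sum]
    exact mul_le_mul_of_nonneg_left h1 C0_pos.le
  have hA0 := hT.A_pos.le
  have hr0 : (0 : ℝ) ≤ ((√2)⁻¹) ^ j := by positivity
  calc _ ≤ L * (C0 * (C * (1 + sA η) * (C1 * ((√2)⁻¹) ^ j) * ∑ b ∈ B, nu M b)) :=
        mul_le_mul_of_nonneg_left h4 S.hL.le
    _ = (C0 * C * C1 * (1 + sA η) * ((√2)⁻¹) ^ j) * (L * ∑ b ∈ B, nu M b) := by ring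
    _ ≤ (C0 * C * C1 * (1 + sA η) * ((√2)⁻¹) ^ j) * 1 := by
        refine mul_le_mul_of_nonneg_left S.mass ?_
        have := C0_pos.le
        positivity
    _ = _ := mul_one _

/-! ### all blocks -/

/-- the part of `CNP` which is good at the block cut -/
def CG {M : ℕ} (F : FL M) (P : Par) (A : ℕ) (b c : ℕ) (h : ℤ) : Prop :=
  ∃ t f f', BS F P t b c h f f' ∧ F.good (Xj (Nat.log 2 (A * t))) b c ∧
    ¬ Splitx945.Pure F (P.cut t) b c ∧
    (NoEx (P.cut t) b c f f' ∨ ¬ BigW F P t b c f f')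

/-- the offset lies in its block -/
lemma mem_block {cp η γ L : ℝ} {A m0 : ℕ} (hN : Num cp η A m0) {M : ℕ} {B : Finset ℕ}
    (hM : 0 < M) {F : FL M} {b c : ℕ} (hb : b ∣ M) (hc : c ∣ M) {h : ℤ}
    (hl : h ∈ Lnk γ L b c) (h1 : CG F (ParOf cp A m0 γ L M B) A b c h) :
    ∃ j ∈ Finset.Ico 1 (M + 1), RQ F (ParOf cp A m0 γ L M B) A (KJ cp A j) j b c h ∧
      KJ cp A j ≤ Xj j := by
  obtain ⟨t, f, f', hS, hg, hp, hx⟩ := h1
  have ht : 2 * m0 < t := hS.m0
  obtain ⟨j, hj⟩ : ∃ j, Nat.log 2 (A * t) = j := ⟨_, rfl⟩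
  rw [hj] at hg
  obtain ⟨hj1, _, _⟩ := blk_facts hN ht hj
  obtain ⟨hX, _⟩ := cut_facts hN ht hj (γ := γ) (L := L) (M := M) (B := B)
  have e1 := E_le_KJ hN ht hj (γ := γ) (L := L) (M := M) (B := B)
  obtain ⟨k1, k2⟩ := KJ_sq hN ht hj
  have k3 := KJ_one hN.cp_pos.le A j
  have k4 : KJ cp A j ≤ Xj j := by nlinarith
  have hu := ptU_of_BS (P := ParOf cp A m0 γ L M B) hM cutMono hb hc hX e1 k1 k4 hS hl hx
  have hn := npx_of (P := ParOf cp A m0 γ L M B) hM hb hc hX k2 hg hp hu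
  refine ⟨j, mem_Ico.2 ⟨hj1, ?_⟩, ⟨⟨hn, h, f, f', hu⟩, t, f, f', hj, hS, hu⟩, k4⟩
  have hnp := hn.np
  rw [not_and_or] at hnp
  rcases hnp with h5 | h5
  · exact Xj_lt hM h5
  · exact Xj_lt hM h5

theorem cls_good (γ : ℝ) : ClsOK γ (fun cp _ A m0 L M B F b c h =>
    CG F (ParOf cp A m0 γ L M B) A b c h) := by
  obtain ⟨C, hC, H⟩ := block_le
  refine evNum.mono ?_
  intro cp η A m0 hN
  obtain ⟨hT, _⟩ := tree_spec hN.η_pos hN.η_lt
  have hr0 : (0 : ℝ) < (√2)⁻¹ := by positivity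
  have hr1 : (√2)⁻¹ < (1 : ℝ) := Crest.Agent.R4C.NPTotx52.sqrt2_inv_lt
  have hR : (0 : ℝ) < (1 - (√2)⁻¹)⁻¹ := inv_pos.2 (by linarith)
  refine ⟨(C * (1 + sA η)) * (1 - (√2)⁻¹)⁻¹, fun L M B F S => ?_⟩
  have hA0 := hT.A_pos.le
  have hD : 0 ≤ C * (1 + sA η) := by positivity
  have h1 : EnR γ L M B (lamOf cp A m0 γ L M B F) (CG F (ParOf cp A m0 γ L M B) A) ≤
      ∑ j ∈ (Finset.Ico 1 (M + 1)).filter (fun j => KJ cp A j ≤ Xj j),
        EnR γ L M B (lamOf cp A m0 γ L M B F)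
          (RQ F (ParOf cp A m0 γ L M B) A (KJ cp A j) j) := by
    refine le_trans (EnR_mono S.hL.le fun b hb c hc _ x hx _ hR => ?_)
      (EnR_exists_le S.hL.le _ (fun (j : ℕ) =>
        RQ F (ParOf cp A m0 γ L M B) A (KJ cp A j) j))
    obtain ⟨j, hj, h2, h3⟩ := mem_block hN S.hM (S.dvd hb) (S.dvd hc) hx hR
    exact ⟨j, mem_filter.2 ⟨hj, h3⟩, h2⟩
  refine h1.trans ?_
  have h2 : ∀ j ∈ (Finset.Ico 1 (M + 1)).filter (fun j => KJ cp A j ≤ Xj j),
      EnR γ L M B (lamOf cp A m0 γ L M B F)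
          (RQ F (ParOf cp A m0 γ L M B) A (KJ cp A j) j) ≤
        (C * (1 + sA η)) * ((√2)⁻¹) ^ j := by
    intro j hj
    rw [mem_filter, mem_Ico] at hj
    exact H hN γ L M B F S j hj.1.1 (KJ cp A j) hj.2
  refine (Finset.sum_le_sum h2).trans ?_
  rw [← Finset.mul_sum]
  refine mul_le_mul_of_nonneg_left ?_ hD
  have h5 : ∑ j ∈ Finset.Ico 1 (M + 1), ((√2)⁻¹) ^ j ≤ (1 - (√2)⁻¹)⁻¹ := by
    have h6 := geom_Ico hr0.le hr1 1 (M + 1)
    refine h6.trans ?_
    rw [div_eq_mul_inv]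
    calc ((√2)⁻¹) ^ 1 * (1 - (√2)⁻¹)⁻¹ ≤ 1 * (1 - (√2)⁻¹)⁻¹ :=
          mul_le_mul_of_nonneg_right (by rw [pow_one]; exact hr1.le) hR.le
      _ = _ := one_mul _
  refine le_trans ?_ h5
  exact Finset.sum_le_sum_of_subset_of_nonneg (filter_subset _ _) fun j _ _ => by positivity

/-- the class `CNP` in the form of the spine -/
def clsNP (γ : ℝ) : Cls := fun cp _ A m0 L M B F b c h =>
  CNP F (ParOf cp A m0 γ L M B) b c h

/-- **the class `CNP` has bounded energy** -/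
theorem cls_np (γ : ℝ) : ClsOK γ (clsNP γ) := by
  refine ClsOK.mono (ClsOK.or (Crest.Agent.R4C.ClsBadx250.cls_badJ γ) (cls_good γ)) ?_
  refine evNum.mono ?_
  intro cp η A m0 hN L M B F S b hb c hc hne h hh hk hR
  obtain ⟨t, f, f', hS, hp, hx⟩ := hR
  have ht : 2 * m0 < t := hS.m0
  by_cases hg : F.good (Xj (Nat.log 2 (A * t))) b c
  · exact Or.inr ⟨t, f, f', hS, hg, hp, hx⟩
  · left
    refine Crest.Agent.R4C.ClsBadx250.CBadX_of (t := t) (by
      change m0 ≤ t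
      omega) cutMono hg hS.good (fun q hq => (hS.al q hq).trans (cutMono (by omega))) ?_ ?_
    · -- scale
      have h1 := hS.scl
      have hg0 : (0 : ℝ) ≤ Nat.gcd b c := Nat.cast_nonneg _
      have hL0 : 0 < L := S.hL
      have h2 : (Nat.gcd b c : ℝ) ^ 2 < (2 ^ (t + 1) * L) ^ 2 := by
        refine lt_of_le_of_lt h1 ?_
        have h3 : (1 : ℝ) < 2 ^ (t + 1) := one_lt_pow₀ (by norm_num) (by omega)
        have h4 : (0 : ℝ) < 2 ^ (t + 1) * L ^ 2 := by positivity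
        calc (2 : ℝ) ^ (t + 1) * L ^ 2 = 1 * (2 ^ (t + 1) * L ^ 2) := (one_mul _).symm
          _ < 2 ^ (t + 1) * (2 ^ (t + 1) * L ^ 2) := mul_lt_mul_of_pos_right h3 h4
          _ = _ := by ring
      exact lt_of_pow_lt_pow_left₀ 2 (by positivity) h2
    · refine lt_of_lt_of_le hS.near ?_
      exact_mod_cast (cutMono (cp := cp) (γ := γ) (L := L) (A := A) (m0 := m0) (M := M) (B := B))
        (Nat.le_succ t)

end Crest.Agent.R4C.ClsNPx16
end

-- ▼ part R4C/DomN_52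
section

/-!
# Row 4: class `CDomN` (dominant word, non-pure, own scale) of `SplitDef_945` (helper52)

* `bst_ratio` : `bst (primes ≤ Q) ≤ K · bst (primes ≤ X)` if `log Q ≤ 8 log X`;
* `cover_block` : a good non-pure pair at the cut `X` with a short low word is non-pure at a block end
  `Xj j`, `X < (Xj j + 1)^2`, with the same low and high words.
-/

set_option autoImplicit false

open Finset

namespace Crest.Agent.R4C.DomNx52

open Crest.Agent.R4C.Basex935 Crest.Agent.R4C.Cutx50 Crest.Agent.R4C.FLDefx935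
  Crest.Agent.R4C.FixedWordx423 Crest.Agent.R4C.VecPurex520 Crest.Agent.R4C.VecNPx50
  Crest.Agent.R4C.NonPureBlkx559 Crest.Agent.R4C.BoostCx972
open Crest.Agent.R4C.BoostRx398 (bst Bst tf one_le_tf one_le_bst)
open Crest.Agent.R4C.BoostTopx19 (prQ)

/-! ### ratio of the boosts at two cuts -/

lemma mem_prQ {Q p : ℕ} : p ∈ prQ Q ↔ p ≤ Q ∧ p.Prime := by
  classical
  unfold prQ
  rw [Finset.mem_filter, Finset.mem_range, Nat.lt_succ_iff]

lemma prod_mono_one {f : ℕ → ℝ} {A B : Finset ℕ} (h : A ⊆ B) (h1 : ∀ p ∈ B, 1 ≤ f p) :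
    ∏ p ∈ A, f p ≤ ∏ p ∈ B, f p := by
  classical
  rw [← Finset.prod_sdiff h]
  have h2 : 1 ≤ ∏ p ∈ B \ A, f p :=
    Finset.prod_induction _ (fun x : ℝ => 1 ≤ x)
      (fun a b ha hb => one_le_mul_of_one_le_of_one_le ha hb) le_rfl
      (fun p hp => h1 p (Finset.mem_sdiff.1 hp).1)
  have h3 : 1 ≤ ∏ p ∈ A, f p :=
    Finset.prod_induction _ (fun x : ℝ => 1 ≤ x)
      (fun a b ha hb => one_le_mul_of_one_le_of_one_le ha hb) le_rfl (fun p hp => h1 p (h hp))
  nlinarith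

lemma bst_union_le {S T : Finset ℕ} (hS : ∀ p ∈ S, p.Prime) (hT : ∀ p ∈ T, p.Prime)
    (M b c : ℕ) : bst S M b c ≤ Bst (S \ T) * bst T M b c := by
  classical
  unfold BoostRx398.bst BoostRx398.Bst
  set f : ℕ → ℝ := fun p => if b.factorization p = c.factorization p ∧
    b.factorization p < M.factorization p then tf p else 1 with hf
  have hf1 : ∀ p, p.Prime → 1 ≤ f p := fun p hp => by
    simp only [hf]
    split_ifs
    · exact one_le_tf hp
    · exact le_rfl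
  have hf2 : ∀ p, p.Prime → f p ≤ tf p := fun p hp => by
    simp only [hf]
    split_ifs
    · exact le_rfl
    · exact one_le_tf hp
  have e1 : ∏ p ∈ S, f p = (∏ p ∈ S \ T, f p) * ∏ p ∈ S ∩ T, f p := by
    rw [mul_comm]
    exact (Finset.prod_inter_mul_prod_sdiff S T f).symm
  have h1 : ∏ p ∈ S ∩ T, f p ≤ ∏ p ∈ T, f p :=
    prod_mono_one Finset.inter_subset_right fun p hp => hf1 p (hT p hp)
  have h2 : ∏ p ∈ S \ T, f p ≤ ∏ p ∈ S \ T, tf p :=
    Finset.prod_le_prod (fun p hp => zero_le_one.trans (hf1 p (hS p (Finset.mem_sdiff.1 hp).1)))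
      fun p hp => hf2 p (hS p (Finset.mem_sdiff.1 hp).1)
  have h3 : 0 ≤ ∏ p ∈ S ∩ T, f p := Finset.prod_nonneg fun p hp =>
    zero_le_one.trans (hf1 p (hT p (Finset.mem_inter.1 hp).2))
  have h4 : 0 ≤ ∏ p ∈ S \ T, tf p := Finset.prod_nonneg fun p hp =>
    zero_le_one.trans (one_le_tf (hS p (Finset.mem_sdiff.1 hp).1))
  change ∏ p ∈ S, f p ≤ (∏ p ∈ S \ T, tf p) * ∏ p ∈ T, f p
  rw [e1]
  exact mul_le_mul h2 h1 h3 h4

/-- the constant of `bst_ratio` -/
noncomputable def KR : ℝ := 8 * Real.exp (22 / Real.log 2)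

lemma KR_pos : 0 < KR := by unfold KR; positivity

lemma one_le_KR : 1 ≤ KR := by
  unfold KR
  have hl2 : 0 < Real.log 2 := Real.log_pos (by norm_num)
  have := Real.one_le_exp (x := 22 / Real.log 2) (by positivity)
  linarith

/-- **ratio of the boosts** -/
theorem bst_ratio {Q X : ℕ} (hX : 2 ≤ X) (h : Real.log Q ≤ 8 * Real.log X) (M b c : ℕ) :
    bst (prQ Q) M b c ≤ KR * bst (pr X) M b c := by
  classical
  have hS : ∀ p ∈ prQ Q, p.Prime := fun p hp => (mem_prQ.1 hp).2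
  have hT : ∀ p ∈ pr X, p.Prime := fun p hp => (mem_pr.1 hp).2
  refine (bst_union_le hS hT M b c).trans ?_
  have hb0 : 0 ≤ bst (pr X) M b c := zero_le_one.trans (one_le_bst hT M b c)
  refine mul_le_mul_of_nonneg_right ?_ hb0
  have hXr : (2 : ℝ) ≤ X := by exact_mod_cast hX
  have hl2 : 0 < Real.log 2 := Real.log_pos (by norm_num)
  have hlX : Real.log 2 ≤ Real.log X := Real.log_le_log (by norm_num) hXr
  rcases le_or_gt X Q with hXQ | hXQ
  · have hXQr : (X : ℝ) ≤ Q := by exact_mod_cast hXQ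
    have hlQ : 0 < Real.log Q := Real.log_pos (by linarith)
    have hm := (Lib.Mertens.mertens_three X Q hXr hXQr).1
    have hsub : prQ Q \ pr X ⊆ Lib.Mertens.pr X Q := by
      intro p hp
      rw [Finset.mem_sdiff, mem_prQ, mem_pr] at hp
      rw [Lib.Mertens.mem_pr (by positivity) (by positivity)]
      have h1 : X < p := by
        by_contra hcon
        exact hp.2 ⟨not_lt.1 hcon, hp.1.2⟩
      exact ⟨⟨by exact_mod_cast h1, by exact_mod_cast hp.1.1⟩, hp.1.2⟩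
    have hpr : ∀ p ∈ Lib.Mertens.pr X Q, p.Prime := fun p hp =>
      ((Lib.Mertens.mem_pr (by positivity) (by positivity)).1 hp).2
    have h1 : Bst (prQ Q \ pr X) ≤ ∏ p ∈ Lib.Mertens.pr X Q, tf p := by
      unfold BoostRx398.Bst
      exact prod_mono_one hsub fun p hp => one_le_tf (hpr p hp)
    have hprod : 0 < Real.exp (-(22 / Real.log X)) * (Real.log X / Real.log Q) := by
      have : 0 < Real.log X := by linarith
      positivity
    have h2 : ∏ p ∈ Lib.Mertens.pr X Q, tf p ≤ (Real.exp (-(22 / Real.log X)) *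
        (Real.log X / Real.log Q))⁻¹ := by
      unfold BoostRx398.tf
      rw [Finset.prod_inv_distrib]
      exact inv_anti₀ hprod hm
    refine h1.trans (h2.trans ?_)
    rw [mul_inv, inv_div, Real.exp_neg, inv_inv]
    unfold KR
    have h3 : Real.log Q / Real.log X ≤ 8 := by
      rw [div_le_iff₀ (by linarith)]
      exact h
    have h4 : Real.exp (22 / Real.log X) ≤ Real.exp (22 / Real.log 2) := by
      rw [Real.exp_le_exp]
      exact div_le_div_of_nonneg_left (by norm_num) hl2 hlX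
    calc Real.exp (22 / Real.log X) * (Real.log Q / Real.log X) ≤
        Real.exp (22 / Real.log 2) * 8 :=
          mul_le_mul h4 h3 (div_nonneg hlQ.le (by linarith)) (Real.exp_pos _).le
      _ = _ := by ring
  · have he : prQ Q \ pr X = ∅ := by
      rw [Finset.sdiff_eq_empty_iff_subset]
      intro p hp
      rw [mem_prQ] at hp
      rw [mem_pr]
      exact ⟨by omega, hp.2⟩
    rw [he]
    unfold BoostRx398.Bst
    rw [Finset.prod_empty]
    exact one_le_KR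

/-! ### blocks -/

/-- block index of an integer `q ≥ 2` -/
def bj (q : ℕ) : ℕ := Nat.log 2 (Nat.log 2 q)

lemma bj_spec {q : ℕ} (hq : 2 ≤ q) : Xj (bj q) < q ∧ q < (Xj (bj q) + 1) ^ 2 := by
  have h1 : 1 ≤ Nat.log 2 q := by
    rw [Nat.one_le_iff_ne_zero, Ne, Nat.log_eq_zero_iff]
    omega
  have h2 : 2 ^ Nat.log 2 q ≤ q := Nat.pow_log_le_self 2 (by omega)
  have h3 : q < 2 ^ (Nat.log 2 q + 1) := Nat.lt_pow_succ_log_self (by norm_num) q
  have h4 : 2 ^ bj q ≤ Nat.log 2 q := Nat.pow_log_le_self 2 (by omega)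
  have h5 : Nat.log 2 q < 2 ^ (bj q + 1) := Nat.lt_pow_succ_log_self (by norm_num) _
  have e : Xj (bj q) + 1 = 2 ^ 2 ^ bj q := by
    unfold Xj
    exact Nat.sub_add_cancel Nat.one_le_two_pow
  constructor
  · have : 2 ^ 2 ^ bj q ≤ q := (Nat.pow_le_pow_right (by norm_num) h4).trans h2
    omega
  · rw [e, ← pow_mul]
    refine h3.trans_le (Nat.pow_le_pow_right (by norm_num) ?_)
    rw [pow_succ] at h5
    omega

variable {M : ℕ} {F : FL M}

/-- a deficit prime -/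
lemma exists_deficit {x b : ℕ} (h : F.ell x b ≠ 1) : ∃ p v, p.Prime ∧ x < p ∧
    F.ctr b p = some v ∧ b.factorization p < v := by
  by_contra hcon
  push Not at hcon
  apply h
  unfold FL.ell
  refine Finset.prod_eq_one fun p hp => ?_
  have hpp := Nat.prime_of_mem_primeFactors hp
  have h0 : F.ellE x b p = 0 := by
    unfold FL.ellE
    split_ifs with hx
    · rcases hc : F.ctr b p with _ | v
      · rfl
      · have := hcon p v hpp hx hc
        simp only
        omega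
    · rfl
  rw [h0, pow_zero]

lemma ell_ne_one {x b p v : ℕ} (hb : b ∣ M) (hp : p.Prime) (hx : x < p)
    (hc : F.ctr b p = some v) (hlt : b.factorization p < v) : F.ell x b ≠ 1 := by
  intro h1
  have hv := F.le hb hp hc
  have hpM : p ∈ M.primeFactors := by
    rw [← Nat.support_factorization, Finsupp.mem_support_iff]
    omega
  have h2 : (F.ell x b).factorization p = 0 := by rw [h1]; simp
  rw [FL.fact_ell, if_pos hpM] at h2
  unfold FL.ellE at h2
  rw [if_pos hx, hc] at h2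
  simp only at h2
  omega

/-- **reading a non-pure pair at a block end** -/
theorem cover_block (hM : 0 < M) {b c X : ℕ} (hb : b ∣ M) (hc : c ∣ M) (hX : 2 ≤ X)
    (hgood : F.good X b c) (hnp : ¬ (F.ell X b = 1 ∧ F.ell X c = 1))
    (hsm : (4 * (low X (wd b c).1 * low X (wd b c).2) + 1) ^ 2 ≤ X) :
    ∃ j, X < (Xj j + 1) ^ 2 ∧ low (Xj j) (wd b c).1 = low X (wd b c).1 ∧
      low (Xj j) (wd b c).2 = low X (wd b c).2 ∧
      4 * (low (Xj j) (wd b c).1 * low (Xj j) (wd b c).2) ≤ Xj j ∧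
      ¬ (F.ell (Xj j) b = 1 ∧ F.ell (Xj j) c = 1) := by
  classical
  have hb0 : b ≠ 0 := (Nat.pos_of_dvd_of_pos hb hM).ne'
  have hc0 : c ≠ 0 := (Nat.pos_of_dvd_of_pos hc hM).ne'
  -- the deficit primes
  obtain ⟨p, v, hp, hpX, hd⟩ : ∃ p v, p.Prime ∧ X < p ∧
      ((F.ctr b p = some v ∧ b.factorization p < v) ∨
        (F.ctr c p = some v ∧ c.factorization p < v)) := by
    rw [not_and_or] at hnp
    rcases hnp with h | h
    · obtain ⟨p, v, h1, h2, h3, h4⟩ := exists_deficit h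
      exact ⟨p, v, h1, h2, Or.inl ⟨h3, h4⟩⟩
    · obtain ⟨p, v, h1, h2, h3, h4⟩ := exists_deficit h
      exact ⟨p, v, h1, h2, Or.inr ⟨h3, h4⟩⟩
  have hdiff : b.factorization p ≠ c.factorization p := by
    rcases hd with ⟨h1, h2⟩ | ⟨h1, h2⟩
    · have := hgood.2 p hp hpX v h1
      omega
    · have h3 := (FL.good_symm hb hc hgood).2 p hp hpX v h1
      omega
  -- the smallest differing prime above `X`
  have hex : ∃ q, q.Prime ∧ X < q ∧ b.factorization q ≠ c.factorization q := ⟨p, hp, hpX, hdiff⟩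
  set q := Nat.find hex with hqd
  obtain ⟨hq, hXq, hqdiff⟩ : q.Prime ∧ X < q ∧ b.factorization q ≠ c.factorization q :=
    Nat.find_spec hex
  have hmin : ∀ r, r.Prime → X < r → r < q → b.factorization r = c.factorization r := by
    intro r hr hXr hrq
    by_contra hcon
    exact Nat.find_min hex hrq ⟨hr, hXr, hcon⟩
  have hqp : q ≤ p := Nat.find_min' hex ⟨hp, hpX, hdiff⟩
  obtain ⟨h1, h2⟩ := bj_spec (q := q) (by omega)
  set j := bj q with hj
  set u := low X (wd b c).1 with hu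
  set v' := low X (wd b c).2 with hv'
  have hu0 : 0 < u := low_pos _ _
  have hv0 : 0 < v' := low_pos _ _
  have hw := wd_pos (Nat.pos_of_ne_zero hb0) (Nat.pos_of_ne_zero hc0)
  have hsmall : 4 * (u * v') < Xj j := by
    have h3 : (4 * (u * v') + 1) ^ 2 < (Xj j + 1) ^ 2 := by omega
    have h4 := lt_of_pow_lt_pow_left₀ 2 (Nat.zero_le _) h3
    omega
  -- letters of the words
  have hs1 : ∀ r, r.Prime → b.factorization r = c.factorization r →
      (wd b c).1.factorization r = 0 := by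
    intro r _ he
    unfold wd
    simp only
    rw [Nat.factorization_div (Nat.gcd_dvd_left _ _), Finsupp.tsub_apply,
      Nat.factorization_gcd hb0 hc0, Finsupp.inf_apply, he]
    simp
  have hs2 : ∀ r, r.Prime → b.factorization r = c.factorization r →
      (wd b c).2.factorization r = 0 := by
    intro r _ he
    unfold wd
    simp only
    rw [Nat.factorization_div (Nat.gcd_dvd_right _ _), Finsupp.tsub_apply,
      Nat.factorization_gcd hb0 hc0, Finsupp.inf_apply, he]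
    simp
  have key : ∀ s : ℕ, s ≠ 0 → (∀ r, r.Prime → b.factorization r = c.factorization r →
      s.factorization r = 0) → low X s ≤ u * v' → low (Xj j) s = low X s := by
    intro s hs0 hs hle
    refine Nat.eq_of_factorization_eq (low_pos _ _).ne' (low_pos _ _).ne' fun r => ?_
    rw [fact_low, fact_low]
    by_cases hr : r.Prime
    · by_cases a1 : r ≤ Xj j <;> by_cases a2 : r ≤ X
      · rw [if_pos a1, if_pos a2]
      · rw [if_pos a1, if_neg a2]
        exact hs r hr (hmin r hr (by omega) (by omega))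
      · rw [if_neg a1, if_pos a2]
        by_contra hcon
        have h5 : r ∣ low X s := by
          have h6 : (low X s).factorization r ≠ 0 := by
            rw [fact_low, if_pos a2]
            exact fun h => hcon h.symm
          exact (Nat.Prime.dvd_iff_one_le_factorization hr (low_pos _ _).ne').2
            (Nat.one_le_iff_ne_zero.2 h6)
        have h7 := Nat.le_of_dvd (low_pos _ _) h5
        omega
      · rw [if_neg a1, if_neg a2]
    · rw [Nat.factorization_eq_zero_of_not_prime _ hr]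
      simp
  have hle1 : u ≤ u * v' := Nat.le_mul_of_pos_right _ hv0
  have hle2 : v' ≤ u * v' := Nat.le_mul_of_pos_left _ hu0
  have k1 := key (wd b c).1 hw.1.ne' hs1 hle1
  have k2 := key (wd b c).2 hw.2.ne' hs2 hle2
  refine ⟨j, by omega, k1, k2, ?_, ?_⟩
  · rw [k1, k2]
    exact hsmall.le
  · rintro ⟨e1, e2⟩
    rcases hd with ⟨h3, h4⟩ | ⟨h3, h4⟩
    · exact ell_ne_one hb hp (by omega) h3 h4 e1
    · exact ell_ne_one hc hp (by omega) h3 h4 e2

/-! ### offsets and energies -/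

open Crest.Agent.R4C.Bridgex882 Crest.Agent.R4C.CrCoinx935 Crest.Agent.R4C.CrCountx935
  Crest.Agent.R4C.Rulex945 Crest.Agent.R4C.Splitx945 Crest.Agent.R4C.Spinex946
  Crest.Agent.R4C.FLShx326 Crest.Agent.R4C.NPTotx52

/-- one offset for `2 L ≤ gcd` -/
lemma Lnk_card {γ L : ℝ} {b c : ℕ} (hg : 0 < Nat.gcd b c) (h : 2 * L ≤ (Nat.gcd b c : ℝ)) :
    (Lnk γ L b c).card ≤ 1 := by
  rw [Finset.card_le_one]
  intro x hx y hy
  unfold Lnk at hx hy
  rw [mem_Hf] at hx hy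
  have hgR : (0 : ℝ) < (Nat.gcd b c : ℕ) := by exact_mod_cast hg
  have hle : L / (Nat.gcd b c : ℕ) ≤ 1 / 2 := by
    rw [div_le_iff₀ hgR]; linarith
  have h1 : |((x - y : ℤ) : ℝ)| < 1 := by
    push_cast
    rw [abs_lt] at hx hy ⊢
    constructor <;> linarith [hx.1, hx.2, hy.1, hy.2]
  have h2 : |x - y| < 1 := by
    have : ((|x - y| : ℤ) : ℝ) < 1 := by rw [Int.cast_abs]; exact h1
    exact_mod_cast this
  rw [Int.abs_lt_one_iff] at h2
  omega

/-- the sum over the offsets is at most the bound for one of them -/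
lemma sum_Lnk_le {γ L : ℝ} {M b c : ℕ} {lam : ℕ → ℕ → Option ℤ} {Q : ℤ → Prop} [DecidablePred Q]
    {w : ℝ} (hcard : (Lnk γ L b c).card ≤ 1) (hw : 0 ≤ w)
    (h : ∀ h ∈ Lnk γ L b c, Q h → boostB M lam b c h ≤ w) :
    ∑ h ∈ (Lnk γ L b c).filter Q, boostB M lam b c h ≤ w := by
  rcases Finset.eq_empty_or_nonempty ((Lnk γ L b c).filter Q) with he | ⟨x, hx⟩
  · rw [he, Finset.sum_empty]; exact hw
  · have h1 : (Lnk γ L b c).filter Q = {x} := by
      refine Finset.eq_singleton_iff_unique_mem.2 ⟨hx, fun y hy => ?_⟩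
      exact Finset.card_le_one.1 hcard _ (Finset.mem_filter.1 hy).1 _ (Finset.mem_filter.1 hx).1
    rw [h1, Finset.sum_singleton]
    exact h x (Finset.mem_filter.1 hx).1 (Finset.mem_filter.1 hx).2

section EnR

variable {γ L : ℝ} {B : Finset ℕ} {lam : ℕ → ℕ → Option ℤ}

open Classical in
/-- energy of a union of two classes -/
lemma EnR_or (hL : 0 ≤ L) {R R1 R2 : ℕ → ℕ → ℤ → Prop}
    (h : ∀ b ∈ B, ∀ c ∈ B, b ≠ c → ∀ h ∈ Lnk γ L b c, ¬ killedB lam b c h → R b c h →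
      R1 b c h ∨ R2 b c h) :
    EnR γ L M B lam R ≤ EnR γ L M B lam R1 + EnR γ L M B lam R2 := by
  unfold EnR
  rw [← mul_add, ← Finset.sum_add_distrib]
  refine mul_le_mul_of_nonneg_left (Finset.sum_le_sum fun b hb => ?_) hL
  rw [← Finset.sum_add_distrib]
  refine Finset.sum_le_sum fun c hc => ?_
  rw [← mul_add]
  have hg : 0 ≤ (Nat.gcd b c : ℝ) * nu M b * nu M c :=
    mul_nonneg (mul_nonneg (Nat.cast_nonneg _) (nu_nonneg _ _)) (nu_nonneg _ _)
  refine mul_le_mul_of_nonneg_left ?_ hg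
  have h1 : (Lnk γ L b c).filter (fun h => ¬ killedB lam b c h ∧ R b c h) ⊆
      (Lnk γ L b c).filter (fun h => ¬ killedB lam b c h ∧ R1 b c h) ∪
      (Lnk γ L b c).filter (fun h => ¬ killedB lam b c h ∧ R2 b c h) := by
    intro x hx
    rw [Finset.mem_filter] at hx
    rw [Finset.mem_union, Finset.mem_filter, Finset.mem_filter]
    have hne : b ≠ c := fun hh => (Finset.ne_of_mem_erase hc) hh.symm
    rcases h b hb c (Finset.mem_of_mem_erase hc) hne x hx.1 hx.2.1 hx.2.2 with h2 | h2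
    · exact Or.inl ⟨hx.1, hx.2.1, h2⟩
    · exact Or.inr ⟨hx.1, hx.2.1, h2⟩
  have h0 : ∀ x, 0 ≤ boostB M lam b c x := fun x => Spinex946.boostB_nonneg _ _ _ _ _
  refine (Finset.sum_le_sum_of_subset_of_nonneg h1 fun x _ _ => h0 x).trans ?_
  rw [← Finset.sum_union_inter]
  exact le_add_of_nonneg_right (Finset.sum_nonneg fun x _ => h0 x)

open Classical in
/-- energy of a class with one offset and a pointwise bound of the boost -/
lemma EnR_le_W (hM : 0 < M) (hB : B ⊆ M.divisors) (hL : 0 ≤ L) {R : ℕ → ℕ → ℤ → Prop}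
    {W : ℕ → ℕ → ℝ} (hW0 : ∀ b ∈ B, ∀ c ∈ B, 0 ≤ W b c)
    (h1 : ∀ b ∈ B, ∀ c ∈ B, ∀ h ∈ Lnk γ L b c, R b c h → 2 * L ≤ (Nat.gcd b c : ℝ))
    (hW : ∀ b ∈ B, ∀ c ∈ B, b ≠ c → ∀ h ∈ Lnk γ L b c, ¬ killedB lam b c h → R b c h →
      boostB M lam b c h ≤ W b c) :
    EnR γ L M B lam R ≤ L * ∑ b ∈ B, ∑ c ∈ B, (Nat.gcd b c : ℝ) * nu M b * nu M c * W b c := by
  unfold EnR
  refine mul_le_mul_of_nonneg_left (Finset.sum_le_sum fun b hb => ?_) hL
  have hg : ∀ c, 0 ≤ (Nat.gcd b c : ℝ) * nu M b * nu M c := fun c =>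
    mul_nonneg (mul_nonneg (Nat.cast_nonneg _) (nu_nonneg _ _)) (nu_nonneg _ _)
  refine le_trans (Finset.sum_le_sum fun c hc => ?_)
    (Finset.sum_le_sum_of_subset_of_nonneg (Finset.erase_subset b B)
      fun c hc _ => mul_nonneg (hg c) (hW0 b hb c hc))
  refine mul_le_mul_of_nonneg_left ?_ (hg c)
  have hcB := Finset.mem_of_mem_erase hc
  have hne : b ≠ c := fun hh => (Finset.ne_of_mem_erase hc) hh.symm
  by_cases hex : ∃ h ∈ Lnk γ L b c, R b c h
  · obtain ⟨x, hx, hRx⟩ := hex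
    have hgp : 0 < Nat.gcd b c := Nat.gcd_pos_of_pos_left _
      (Nat.pos_of_dvd_of_pos (Nat.dvd_of_mem_divisors (hB hb)) hM)
    exact sum_Lnk_le (Lnk_card hgp (h1 b hb c hcB x hx hRx)) (hW0 b hb c hcB)
      fun y hy hQ => hW b hb c hcB hne y hy hQ.1 hQ.2
  · have he : (Lnk γ L b c).filter (fun h => ¬ killedB lam b c h ∧ R b c h) = ∅ := by
      rw [Finset.filter_eq_empty_iff]
      intro x hx hh
      exact hex ⟨x, hx, hh.2⟩
    rw [he, Finset.sum_empty]
    exact hW0 b hb c hcB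

end EnR

/-! ### the three subclasses -/

section sub

variable (F) (P : Par)

/-- short word: good at a block end -/
def RG (b c : ℕ) (h : ℤ) : Prop := ∃ i j, FarA F P i b c h ∧
  P.cut i < (Xj j + 1) ^ 2 ∧ NPD F (DomD P.γ) j b c

/-- own scale `2^i`, not good at `P.cut i ^ (1/2)` -/
def RB (x : ℕ → ℕ) (b c : ℕ) (h : ℤ) : Prop := ∃ i, FarA F P i b c h ∧ ¬ F.good (x i) b c

/-- own scale `2^i`, dominant word, long -/
def RL (b c : ℕ) (h : ℤ) : Prop := ∃ i, FarA F P i b c h ∧ DomA P i b c ∧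
  P.cut i < (4 * (low (P.cut i) (wd b c).1 * low (P.cut i) (wd b c).2) + 1) ^ 2

variable {F P}

/-- **the cover** -/
theorem CDomN_cover (hM : 0 < M) (hcut : ∀ i, P.m0 ≤ i → 2 ≤ P.cut i) {x : ℕ → ℕ}
    (hx : ∀ i X, P.cut i < (X + 1) ^ 2 → x i ≤ X) {b c : ℕ} (hb : b ∣ M) (hc : c ∣ M) {h : ℤ}
    (hR : CDomN F P b c h) : RG F P b c h ∨ RB F P x b c h ∨ RL F P b c h := by
  obtain ⟨i, hA, hD, hP⟩ := hR
  by_cases hs : (4 * (low (P.cut i) (wd b c).1 * low (P.cut i) (wd b c).2) + 1) ^ 2 ≤ P.cut i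
  · obtain ⟨j, h1, h2, h3, h4, h5⟩ := cover_block hM hb hc (hcut i hA.m0) hA.good hP hs
    have hw := wd_pos (Nat.pos_of_dvd_of_pos hb hM) (Nat.pos_of_dvd_of_pos hc hM)
    by_cases hg : F.good (Xj j) b c
    · refine Or.inl ⟨i, j, hA, h1, ⟨hg, h5, h4⟩, (2 : ℝ) ^ i, by positivity, ?_⟩
      rw [h2, h3, upp_eq_upp hw.1.ne' h2, upp_eq_upp hw.2.ne' h3]
      exact hD.dom
    · exact Or.inr (Or.inl ⟨i, hA, fun hg' => hg (FL.good_mono (hx i _ h1) hg')⟩)
  · exact Or.inr (Or.inr ⟨i, hA, hD, not_le.1 hs⟩)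

end sub

/-! ### the good part -/


open Classical in
/-- **short words, good at a block end** -/
theorem RG_bound : ∃ C0 : ℝ, 0 < C0 ∧ ∀ (M : ℕ) (F : FL M) (P : Par) (B : Finset ℕ) (A' s : ℝ),
    0 < M → B ⊆ M.divisors → Shares F B A' s → 0 ≤ A' → 3 / 4 ≤ s → 0 < P.L →
    (∀ i, P.Y i = 2 ^ i) →
    (∀ b i, P.thr b i ≤ Real.exp ((P.Y (i - 1) : ℝ) ^ (4 / 5 : ℝ))) →
    (∀ i, P.m0 ≤ i → P.cut i ≤ P.cut (2 * i)) →
    (∀ i, P.m0 ≤ i → P.cut (2 * i) ≤ P.cut i ^ 2) → (∀ i, P.m0 ≤ i → 4 ≤ P.cut i) →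
    1 ≤ P.m0 →
    EnR P.γ P.L M B (lamR F P) (RG F P) ≤ C0 * (1 + A') * (P.L * ∑ b ∈ B, nu M b) := by
  obtain ⟨C, hC, h⟩ := np_total_poly 0
  set K0 : ℝ := Real.exp 1200 * KR with hK0
  have hK0p : 0 < K0 := mul_pos (Real.exp_pos _) KR_pos
  refine ⟨K0 * C, by positivity, ?_⟩
  intro M F P B A' s hM hB hS hA' hs hL hY hthr hcutm hcut2 hcut4 hm0
  set lam := lamR F P with hlam
  -- the sum over the offsets
  set Wt : ℕ → ℕ → ℝ := fun b c => ∑ h ∈ (Lnk P.γ P.L b c).filter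
    (fun h => ¬ killedB lam b c h ∧ RG F P b c h), boostB M lam b c h with hWt
  have hWt0 : ∀ b c, 0 ≤ Wt b c := fun b c =>
    Finset.sum_nonneg fun x _ => Spinex946.boostB_nonneg _ _ _ _ _
  set PP : ℕ → ℕ → ℕ → ℕ → Prop := fun j _ b c => NPD F (DomD P.γ) j b c ∧
    Wt b c / K0 ≤ bst (pr (Xj j)) M b c * PureL2x232.B1 b c with hPP
  have hkey : ∀ b ∈ B, ∀ c ∈ B, Wt b c ≠ 0 → ∃ j, 1 ≤ j ∧ ∃ i, i < 1 ∧ PP j i b c := by
    intro b hb c hc hne
    have hbM := Nat.dvd_of_mem_divisors (hB hb)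
    have hcM := Nat.dvd_of_mem_divisors (hB hc)
    obtain ⟨x, hx, _⟩ := Finset.exists_ne_zero_of_sum_ne_zero hne
    rw [Finset.mem_filter] at hx
    obtain ⟨hx1, hx2, i, j, hA, hij, hNP⟩ := hx
    have hgp : 0 < Nat.gcd b c := Nat.gcd_pos_of_pos_left _ (Nat.pos_of_dvd_of_pos hbM hM)
    have h2i : (2 : ℝ) ≤ 2 ^ i := by
      have : 1 ≤ i := hm0.trans hA.m0
      calc (2 : ℝ) = 2 ^ 1 := by norm_num
        _ ≤ 2 ^ i := pow_le_pow_right₀ (by norm_num) this
    have hg2 : 2 * P.L ≤ (Nat.gcd b c : ℝ) := by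
      have := hA.lo
      nlinarith
    have hj1 : 1 ≤ j := by
      by_contra hcon
      have hj0 : j = 0 := by omega
      have h4 := hcut4 i hA.m0
      rw [hj0] at hij
      have : Xj 0 = 1 := by unfold Xj; norm_num
      rw [this] at hij
      omega
    have hX3 : 3 ≤ Xj j := by
      unfold Xj
      have h5 : 2 ^ 2 ≤ 2 ^ 2 ^ j := Nat.pow_le_pow_right (by norm_num)
        (by calc 2 = 2 ^ 1 := by norm_num
              _ ≤ 2 ^ j := Nat.pow_le_pow_right (by norm_num) hj1)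
      omega
    refine ⟨j, hj1, 0, by norm_num, hNP, ?_⟩
    rw [div_le_iff₀ hK0p]
    have hB1 : 0 ≤ PureL2x232.B1 b c := BoostAlx100.B1_nonneg b c
    have hlogs : Real.log (P.cut (2 * i)) ≤ 8 * Real.log (Xj j) := by
      have h6 : P.cut (2 * i) ≤ (Xj j) ^ 8 := by
        calc P.cut (2 * i) ≤ P.cut i ^ 2 := hcut2 i hA.m0
          _ ≤ ((Xj j + 1) ^ 2) ^ 2 := Nat.pow_le_pow_left hij.le 2
          _ ≤ ((Xj j ^ 2) ^ 2) ^ 2 := by
              refine Nat.pow_le_pow_left (Nat.pow_le_pow_left ?_ 2) 2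
              nlinarith
          _ = (Xj j) ^ 8 := by ring
      have hc0 : 0 < P.cut (2 * i) := by
        have := hcut4 i hA.m0
        have := hcutm i hA.m0
        omega
      calc Real.log (P.cut (2 * i)) ≤ Real.log ((Xj j : ℝ) ^ 8) :=
            Real.log_le_log (by exact_mod_cast hc0) (by exact_mod_cast h6)
        _ = 8 * Real.log (Xj j) := by rw [Real.log_pow]; norm_num
    have hbst := bst_ratio (by omega : 2 ≤ Xj j) hlogs M b c
    have hpt : ∀ y ∈ Lnk P.γ P.L b c, (¬ killedB lam b c y ∧ RG F P b c y) →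
        boostB M lam b c y ≤ bst (pr (Xj j)) M b c * PureL2x232.B1 b c * K0 := by
      intro y hy _
      have hyx : y = x := Finset.card_le_one.1 (Lnk_card hgp hg2) _ hy _ hx1
      subst hyx
      have h7 := BoostAlx100.boost_alQ (F := F) (P := P) hM hbM hcM hL hY hthr
        (Q := P.cut (2 * i)) ((by norm_num : 2 ≤ 4).trans ((hcut4 i hA.m0).trans (hcutm i hA.m0)))
        (FL.good_mono (hcutm i hA.m0) hA.good) hx1 hA.al
        (Or.inr (by linarith))
      refine h7.trans ?_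
      calc Real.exp 1200 * (PureL2x232.B1 b c * bst (prQ (P.cut (2 * i))) M b c)
          ≤ Real.exp 1200 * (PureL2x232.B1 b c * (KR * bst (pr (Xj j)) M b c)) :=
            mul_le_mul_of_nonneg_left (mul_le_mul_of_nonneg_left hbst hB1) (Real.exp_pos _).le
        _ = _ := by rw [hK0]; ring
    refine sum_Lnk_le (Lnk_card hgp hg2) ?_ hpt
    have hb1 : 0 ≤ bst (pr (Xj j)) M b c :=
      zero_le_one.trans (one_le_bst (fun p hp => (mem_pr.1 hp).2) M b c)
    positivity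
  have h1 := h M F B A' s hM hB hS hA' hs 1 le_rfl 1 (fun _ => 1) PP zero_le_one
    (fun j => by norm_num) (fun j _ i _ b c _ _ hp => hp.1.1)
    (fun j _ i _ => uniq_dbl hM (dbl_dom P.γ) (fun b c _ _ hp => ⟨hp.1.2, hp.1.1.size⟩))
    (fun b c => Wt b c / K0) (fun j _ i _ b c _ _ hp => hp.2)
  have hg : ∀ b c, 0 ≤ (Nat.gcd b c : ℝ) * nu M b * nu M c := fun b c =>
    mul_nonneg (mul_nonneg (Nat.cast_nonneg _) (nu_nonneg _ _)) (nu_nonneg _ _)
  have h2 : ∑ b ∈ B, ∑ c ∈ B.erase b, (Nat.gcd b c : ℝ) * nu M b * nu M c * Wt b c ≤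
      K0 * ∑ b ∈ B, ∑ c ∈ B, (if ∃ j, 1 ≤ j ∧ ∃ i, i < 1 ∧ PP j i b c then
        (Nat.gcd b c : ℝ) * nu M b * nu M c * (Wt b c / K0) else 0) := by
    rw [Finset.mul_sum]
    refine Finset.sum_le_sum fun b hb => ?_
    rw [Finset.mul_sum]
    refine le_trans (Finset.sum_le_sum fun c hc => ?_)
      (Finset.sum_le_sum_of_subset_of_nonneg (Finset.erase_subset b B) fun c _ _ => ?_)
    · by_cases hz : Wt b c = 0
      · rw [hz, mul_zero]
        refine mul_nonneg hK0p.le ?_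
        split_ifs
        · simp
        · exact le_rfl
      · rw [if_pos (hkey b hb c (Finset.mem_of_mem_erase hc) hz)]
        refine le_of_eq ?_
        field_simp
    · refine mul_nonneg hK0p.le ?_
      split_ifs
      · exact mul_nonneg (hg b c) (div_nonneg (hWt0 b c) hK0p.le)
      · exact le_rfl
  have hm : 0 ≤ ∑ b ∈ B, nu M b := Finset.sum_nonneg fun b _ => nu_nonneg M b
  have h3 : EnR P.γ P.L M B lam (RG F P) =
      P.L * ∑ b ∈ B, ∑ c ∈ B.erase b, (Nat.gcd b c : ℝ) * nu M b * nu M c * Wt b c := rfl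
  rw [h3]
  calc P.L * ∑ b ∈ B, ∑ c ∈ B.erase b, (Nat.gcd b c : ℝ) * nu M b * nu M c * Wt b c
      ≤ P.L * (K0 * (C * 1 * (1 + A') * (3 / 4 : ℝ) ^ 1 * ∑ b ∈ B, nu M b)) :=
        mul_le_mul_of_nonneg_left (h2.trans (mul_le_mul_of_nonneg_left h1 hK0p.le)) hL.le
    _ ≤ K0 * C * (1 + A') * (P.L * ∑ b ∈ B, nu M b) := by
        have h5 : 0 ≤ K0 * C * (1 + A') * (P.L * ∑ b ∈ B, nu M b) := by positivity
        nlinarith

/-! ### the crude boost at the own scale -/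

/-- the full `B1` is `≤ C log X` times its part above `X` -/
lemma B1_split {X : ℕ} (hX : 2 ≤ X) (b c : ℕ) :
    PureL2x232.B1 b c ≤ CM * Real.log X * B1Levx52.B1 X b c := by
  classical
  unfold PureL2x232.B1 B1Levx52.B1
  set S := (b / Nat.gcd b c * (c / Nat.gcd b c)).primeFactors with hS
  have hSp : ∀ p ∈ S, p.Prime := fun p hp => Nat.prime_of_mem_primeFactors hp
  change ∏ p ∈ S, pf p ≤ CM * Real.log X * ∏ p ∈ S.filter (fun p => X < p), pf p
  rw [← Finset.prod_filter_mul_prod_filter_not S (fun p => X < p), mul_comm]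
  refine mul_le_mul_of_nonneg_right ?_ ?_
  · refine prod_pf_le_mertens (by exact_mod_cast hX) fun p hp => ?_
    rw [Finset.mem_filter] at hp
    exact ⟨hSp p hp.1, by exact_mod_cast not_lt.1 hp.2⟩
  · exact (prod_pf_pos fun p hp => hSp p (Finset.mem_filter.1 hp).1).le

/-- constant of `boost_own` -/
noncomputable def KB : ℝ := Real.exp 1200 * CM ^ 2

lemma KB_nonneg : 0 ≤ KB := by
  have := CM_pos
  unfold KB
  positivity

/-- **the boost of a pair of case A** -/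
theorem boost_own {P : Par} {A : ℕ} (hM : 0 < M) (hL : 0 < P.L) (hcut : ∀ m, P.cut m = 2 ^ (A * m))
    (hA : 1 ≤ A) (hm0 : 1 ≤ P.m0) (hY : ∀ i, P.Y i = 2 ^ i)
    (hthr : ∀ b i, P.thr b i ≤ Real.exp ((P.Y (i - 1) : ℝ) ^ (4 / 5 : ℝ)))
    {b c : ℕ} (hb : b ∣ M) (hc : c ∣ M) {i : ℕ} {h : ℤ} (hF : FarA F P i b c h)
    (hl : h ∈ Lnk P.γ P.L b c) :
    boostB M (lamR F P) b c h ≤ KB * (A : ℝ) ^ 2 * ((i : ℝ) + 1) ^ 2 *
      B1Levx52.B1 (P.cut i) b c := by
  have hi : 1 ≤ i := hm0.trans hF.m0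
  have hc2 : 2 ≤ P.cut i := by
    rw [hcut]
    calc 2 = 2 ^ 1 := by norm_num
      _ ≤ 2 ^ (A * i) := Nat.pow_le_pow_right (by norm_num) (Nat.mul_pos hA hi)
  have hc3 : P.cut i ≤ P.cut (2 * i) := by
    rw [hcut, hcut]
    exact Nat.pow_le_pow_right (by norm_num) (Nat.mul_le_mul_left _ (by omega))
  have h2i : (1 : ℝ) ≤ 2 ^ i := one_le_pow₀ (by norm_num)
  have h1 := BoostAlx100.boost_alQ (F := F) (P := P) hM hb hc hL hY hthr
    (Q := P.cut (2 * i)) (hc2.trans hc3) (FL.good_mono hc3 hF.good) hl hF.al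
    (Or.inr (by have := hF.lo; nlinarith))
  refine h1.trans ?_
  have h2 := BoostAlx100.bst_le_log (hc2.trans hc3) M b c
  have h3 := B1_split hc2 b c
  have hB0 : 0 ≤ B1Levx52.B1 (P.cut i) b c := B1Levx52.B1_nonneg _ _ _
  have hl2 : 0 < Real.log 2 := Real.log_pos (by norm_num)
  have hl2' : Real.log 2 ≤ 7 / 10 := by
    have := Real.log_two_lt_d9
    linarith
  have e1 : Real.log (P.cut i) = (A : ℝ) * i * Real.log 2 := by
    rw [hcut]; push_cast; rw [Real.log_pow]; push_cast; ring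
  have e2 : Real.log (P.cut (2 * i)) = 2 * ((A : ℝ) * i * Real.log 2) := by
    rw [hcut]; push_cast; rw [Real.log_pow]; push_cast; ring
  rw [e1] at h3
  rw [e2] at h2
  have hCM := CM_pos
  have hAi : 0 ≤ (A : ℝ) * i * Real.log 2 := by positivity
  have h4 : PureL2x232.B1 b c * bst (prQ (P.cut (2 * i))) M b c ≤
      (CM * ((A : ℝ) * i * Real.log 2) * B1Levx52.B1 (P.cut i) b c) *
        (CM * (2 * ((A : ℝ) * i * Real.log 2))) :=
    mul_le_mul h3 h2 (BoostAlx100.bst_nonneg _ _ _ _) (by positivity)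
  have h5 : Real.log 2 ^ 2 * 2 ≤ 1 := by nlinarith
  have h6 : (i : ℝ) ^ 2 ≤ ((i : ℝ) + 1) ^ 2 := by
    have : (0 : ℝ) ≤ i := Nat.cast_nonneg i
    nlinarith
  calc Real.exp 1200 * (PureL2x232.B1 b c * bst (prQ (P.cut (2 * i))) M b c)
      ≤ Real.exp 1200 * ((CM * ((A : ℝ) * i * Real.log 2) * B1Levx52.B1 (P.cut i) b c) *
        (CM * (2 * ((A : ℝ) * i * Real.log 2)))) :=
        mul_le_mul_of_nonneg_left h4 (Real.exp_pos _).le
    _ = Real.exp 1200 * CM ^ 2 * (A : ℝ) ^ 2 * (i : ℝ) ^ 2 * B1Levx52.B1 (P.cut i) b c *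
        (Real.log 2 ^ 2 * 2) := by ring
    _ ≤ Real.exp 1200 * CM ^ 2 * (A : ℝ) ^ 2 * (i : ℝ) ^ 2 * B1Levx52.B1 (P.cut i) b c * 1 :=
        mul_le_mul_of_nonneg_left h5 (by positivity)
    _ ≤ KB * (A : ℝ) ^ 2 * ((i : ℝ) + 1) ^ 2 * B1Levx52.B1 (P.cut i) b c := by
        unfold KB
        rw [mul_one]
        exact mul_le_mul_of_nonneg_right (mul_le_mul_of_nonneg_left h6 (by positivity)) hB0

/-! ### the part which is not good at the root of the cut -/

/-- the square root cut -/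
def xh (A i : ℕ) : ℕ := 2 ^ (A * i / 2)

open Classical in
/-- **own scale `2^i`, not good at `2^(A i / 2)`** -/
theorem RB_bound {η c C1 A' : ℝ} {A : ℕ} (hη : 0 < η) (hη1 : η < 1) (hc : 0 < c) (hC1 : 0 ≤ C1)
    (hA' : 0 ≤ A') (hA : 1 ≤ A)
    (ha : η < ((A : ℝ) - 1) / 2 * min c ((1 + η) / 8)) :
    ∃ C0 : ℝ, 0 ≤ C0 ∧ ∀ (M : ℕ) (F : FL M) (P : Par) (B : Finset ℕ) (s : ℝ),
    0 < M → B ⊆ M.divisors → Shares F B A' s → 3 / 4 ≤ s → 0 < P.L →
    (∀ (t : ℝ) (x : ℕ), 0 < t → badEn F B P.L t x ≤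
        C1 * t ^ η * ((x : ℝ) + 1) ^ (-c) * (P.L * ∑ b ∈ B, nu M b) ^ (1 + η)) →
    (∀ i, P.Y i = 2 ^ i) →
    (∀ b i, P.thr b i ≤ Real.exp ((P.Y (i - 1) : ℝ) ^ (4 / 5 : ℝ))) →
    (∀ m, P.cut m = 2 ^ (A * m)) → 1 ≤ P.m0 → (M : ℝ) / P.L ≤ P.N →
    EnR P.γ P.L M B (lamR F P) (RB F P (xh A)) ≤ C0 * (P.L * ∑ b ∈ B, nu M b) ^ (1 + η) := by
  obtain ⟨C, hC, h⟩ := BadWx14.badW_final (η := η) (c := c) (C0 := C1) (A := A')
    (a := ((A : ℝ) - 1) / 2) (β := 0) (K := KB * (A : ℝ) ^ 2) hη hη1 hc hC1 hA'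
    (mul_nonneg KB_nonneg (by positivity)) (by rw [add_zero]; exact ha) 2
  refine ⟨C, hC, ?_⟩
  intro M F P B s hM hB hS hs hL hbad hY hthr hcut hm0 hN
  set S := Finset.range (P.N + 1) with hSd
  set Wt : ℕ → ℕ → ℕ → ℝ := fun σ b c => if (Nat.gcd b c : ℝ) < 2 ^ (σ + 1) * P.L ∧
      ¬ F.good (xh A σ) b c then
    KB * (A : ℝ) ^ 2 * (((σ : ℝ) + 1) ^ 2 * 2 ^ ((0 : ℝ) * (σ : ℝ))) *
      (BadWx14.wB F (xh A σ) b * BadWx14.wB F (xh A σ) c) else 0 with hWt
  have hwB : ∀ x b, 0 ≤ BadWx14.wB F x b := fun x b =>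
    zero_le_one.trans (BadWx14.one_le_wB F x b)
  have hWt0 : ∀ σ b c, 0 ≤ Wt σ b c := by
    intro σ b c
    simp only [hWt]
    split_ifs
    · have := KB_nonneg
      have := hwB (xh A σ) b
      have := hwB (xh A σ) c
      positivity
    · exact le_rfl
  have h1 := h M F B P.L s hM hB hL hs hS hbad (xh A) S Wt ?_ ?_ ?_ ?_
  · refine le_trans ?_ h1
    refine EnR_le_W (W := fun b c => ∑ σ ∈ S, Wt σ b c) hM hB hL.le
      (fun b _ c _ => Finset.sum_nonneg fun σ _ => hWt0 σ b c) ?_ ?_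
    · rintro b _ c _ x _ ⟨i, hF, _⟩
      have h2i : (2 : ℝ) ≤ 2 ^ i := by
        have : 1 ≤ i := hm0.trans hF.m0
        calc (2 : ℝ) = 2 ^ 1 := by norm_num
          _ ≤ 2 ^ i := pow_le_pow_right₀ (by norm_num) this
      have := hF.lo
      nlinarith
    · rintro b hb c hc hne x hx _ ⟨i, hF, hng⟩
      have hbM := Nat.dvd_of_mem_divisors (hB hb)
      have hcM := Nat.dvd_of_mem_divisors (hB hc)
      have h2 := boost_own hM hL hcut hA hm0 hY hthr hbM hcM hF hx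
      have h3 := B1Levx52.B1_le hM hbM hcM hF.good
      have hle : xh A i ≤ P.cut i := by
        rw [hcut]
        exact Nat.pow_le_pow_right (by norm_num) (Nat.div_le_self _ _)
      have h4 : B1Levx52.offW F (P.cut i) b * B1Levx52.offW F (P.cut i) c ≤
          BadWx14.wB F (xh A i) b * BadWx14.wB F (xh A i) c :=
        mul_le_mul (B1Levx52.offW_anti hle b) (B1Levx52.offW_anti hle c)
          (zero_le_one.trans (B1Levx52.one_le_offW _ _)) (hwB _ _)
      have hiN : i ∈ S := by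
        rw [hSd, Finset.mem_range]
        have h5 : (2 : ℝ) ^ i ≤ M / P.L := by
          rw [le_div_iff₀ hL]
          refine hF.lo.trans ?_
          exact_mod_cast Nat.le_of_dvd hM ((Nat.gcd_dvd_left b c).trans hbM)
        have h6 : (i : ℝ) < 2 ^ i := by exact_mod_cast Nat.lt_two_pow_self
        have h7 : (i : ℝ) < P.N := lt_of_lt_of_le h6 (h5.trans hN)
        have : i < P.N := by exact_mod_cast h7
        omega
      refine le_trans ?_ (Finset.single_le_sum (f := fun σ => Wt σ b c)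
        (fun σ _ => hWt0 σ b c) hiN)
      simp only [hWt]
      rw [if_pos ⟨hF.hi, hng⟩, zero_mul, Real.rpow_zero, mul_one]
      refine h2.trans ?_
      refine mul_le_mul_of_nonneg_left (h3.trans h4) ?_
      have := KB_nonneg
      positivity
  · intro σ _
    have e : ((xh A σ : ℕ) : ℝ) = (2 : ℝ) ^ ((A * σ / 2 : ℕ) : ℝ) := by
      unfold xh
      rw [Real.rpow_natCast]
      push_cast
      rfl
    rcases Nat.eq_zero_or_pos σ with h0 | h0
    · rw [h0]
      simp [xh]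
    · have h5 : (1 : ℝ) ≤ σ := by exact_mod_cast h0
      have h6 : ((A : ℝ) * σ - 1) / 2 ≤ ((A * σ / 2 : ℕ) : ℝ) := by
        have h7 : A * σ ≤ 2 * (A * σ / 2) + 1 := by omega
        have h8 : ((A * σ : ℕ) : ℝ) ≤ ((2 * (A * σ / 2) + 1 : ℕ) : ℝ) := by exact_mod_cast h7
        push_cast at h8
        linarith
      have h9 : (2 : ℝ) ^ (((A : ℝ) - 1) / 2 * (σ : ℝ)) ≤ (xh A σ : ℕ) := by
        rw [e]
        refine Real.rpow_le_rpow_of_exponent_le (by norm_num) ?_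
        refine le_trans ?_ h6
        nlinarith
      linarith
  · intro σ _ b _ c' _
    simp only [hWt]
    split_ifs
    · exact le_rfl
    · have := KB_nonneg
      have := hwB (xh A σ) b
      have := hwB (xh A σ) c'
      positivity
  · intro σ _ b _ c' _ hg
    simp only [hWt]
    rw [if_neg (fun hh => hh.2 hg)]
  · intro σ _ b _ c' _ hg
    simp only [hWt]
    rw [if_neg (fun hh => absurd hh.1 (not_lt.2 hg))]

end Crest.Agent.R4C.DomNx52
end

-- ▼ part R4C/ClsDomN_52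

/-!
# Row 4: `ClsOK γ CDomN` (helper52)

**`clsDomN_ok`** : the class of the dominant non-pure words of case A (`CDomN` of `SplitDef_945`, at
the parameters `ParOf` of `SpineDef_946`) has bounded energy.
-/

set_option autoImplicit false

open Finset

namespace Crest.Agent.R4C.ClsDomNx52

open Crest.Agent.R4C.Basex935 Crest.Agent.R4C.Cutx50 Crest.Agent.R4C.FLDefx935
  Crest.Agent.R4C.FixedWordx423 Crest.Agent.R4C.VecNPx50 Crest.Agent.R4C.Rulex945
  Crest.Agent.R4C.Splitx945 Crest.Agent.R4C.Spinex946 Crest.Agent.R4C.DomNx52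
  Crest.Agent.R4C.NonPureBlkx559

/-- the words of the class are short -/
lemma short_word {cp γ L : ℝ} {A m0 M : ℕ} {B : Finset ℕ} (hcp : cp ≤ 1 / 200) (hA : 6 ≤ A)
    {i b c : ℕ} (hi : 1 ≤ i) (hD : DomA (ParOf cp A m0 γ L M B) i b c) :
    (4 * (low ((ParOf cp A m0 γ L M B).cut i) (wd b c).1 *
      low ((ParOf cp A m0 γ L M B).cut i) (wd b c).2) + 1) ^ 2 ≤
      (ParOf cp A m0 γ L M B).cut i := by
  set P := ParOf cp A m0 γ L M B with hP
  have h1 : ((low (P.cut i) (wd b c).1 : ℕ) : ℝ) ≤ (2 : ℝ) ^ (cp * i) := hD.le_b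
  have h2 : ((low (P.cut i) (wd b c).2 : ℕ) : ℝ) ≤ (2 : ℝ) ^ (cp * i) := hD.le_c
  set u := low (P.cut i) (wd b c).1 with hu
  set v := low (P.cut i) (wd b c).2 with hv
  have hir : (1 : ℝ) ≤ i := by exact_mod_cast hi
  have hE : (2 : ℝ) ^ (cp * i) ≤ (2 : ℝ) ^ ((i : ℝ) / 4) :=
    Real.rpow_le_rpow_of_exponent_le (by norm_num) (by nlinarith)
  have hq : (1 : ℝ) ≤ (2 : ℝ) ^ ((i : ℝ) / 4) :=
    Real.one_le_rpow (by norm_num) (by positivity)
  have h3 : (u : ℝ) * v ≤ (2 : ℝ) ^ ((i : ℝ) / 4) * (2 : ℝ) ^ ((i : ℝ) / 4) :=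
    mul_le_mul (h1.trans hE) (h2.trans hE) (by positivity) (by positivity)
  have e1 : (2 : ℝ) ^ ((i : ℝ) / 4) * (2 : ℝ) ^ ((i : ℝ) / 4) = (2 : ℝ) ^ ((i : ℝ) / 2) := by
    rw [← Real.rpow_add (by norm_num)]
    congr 1
    ring
  have hq2 : (1 : ℝ) ≤ (2 : ℝ) ^ ((i : ℝ) / 2) :=
    Real.one_le_rpow (by norm_num) (by positivity)
  rw [e1] at h3
  have h4 : (4 * ((u : ℝ) * v) + 1) ^ 2 ≤ (5 * (2 : ℝ) ^ ((i : ℝ) / 2)) ^ 2 := by
    refine pow_le_pow_left₀ (by positivity) ?_ 2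
    linarith
  have e2 : (5 * (2 : ℝ) ^ ((i : ℝ) / 2)) ^ 2 = 25 * (2 : ℝ) ^ (i : ℝ) := by
    rw [mul_pow, ← Real.rpow_natCast ((2 : ℝ) ^ ((i : ℝ) / 2)) 2, ← Real.rpow_mul (by norm_num)]
    norm_num
  have h5 : 25 * (2 : ℝ) ^ (i : ℝ) ≤ (2 : ℝ) ^ ((A * i : ℕ) : ℝ) := by
    have e3 : (25 : ℝ) ≤ (2 : ℝ) ^ (5 : ℝ) := by norm_num
    calc 25 * (2 : ℝ) ^ (i : ℝ) ≤ (2 : ℝ) ^ (5 : ℝ) * (2 : ℝ) ^ (i : ℝ) :=
          mul_le_mul_of_nonneg_right e3 (by positivity)
      _ = (2 : ℝ) ^ (5 + (i : ℝ)) := by rw [Real.rpow_add (by norm_num)]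
      _ ≤ (2 : ℝ) ^ ((A * i : ℕ) : ℝ) := by
          refine Real.rpow_le_rpow_of_exponent_le (by norm_num) ?_
          have hAr : (6 : ℝ) ≤ A := by exact_mod_cast hA
          push_cast
          nlinarith
  have h6 : (4 * ((u : ℝ) * v) + 1) ^ 2 ≤ (2 : ℝ) ^ ((A * i : ℕ) : ℝ) :=
    h4.trans (e2.le.trans h5)
  rw [Real.rpow_natCast] at h6
  have h7 : (4 * (u * v) + 1) ^ 2 ≤ 2 ^ (A * i) := by exact_mod_cast h6
  exact h7

/-- **class `CDomN`** -/
theorem clsDomN_ok (γ : ℝ) : ClsOK γ (fun cp _ A m0 L M B F b c h =>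
    CDomN F (ParOf cp A m0 γ L M B) b c h) := by
  refine ((Ev.basic.and (Ev.le_A fun _ η => 2 * η / min (bc η) ((1 + η) / 8) + 8)).and
    (Ev.le_m0 fun _ _ _ => 2)).mono ?_
  rintro cp η A m0 ⟨⟨⟨_, hcp, hη, _, hη1, hA1, _⟩, hA⟩, hm0⟩
  obtain ⟨hT, _⟩ := tree_spec hη hη1
  have hm0' : 2 ≤ m0 := by exact_mod_cast hm0
  set μ := min (bc η) ((1 + η) / 8) with hμ
  have hμ0 : 0 < μ := lt_min hT.c_pos (by linarith)
  have hA6 : 6 ≤ A := by
    have h1 : (6 : ℝ) ≤ A := by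
      have : 0 ≤ 2 * η / μ := by positivity
      linarith
    exact_mod_cast h1
  have ha : η < ((A : ℝ) - 1) / 2 * μ := by
    have h1 : 2 * η / μ * μ = 2 * η := div_mul_cancel₀ _ hμ0.ne'
    nlinarith
  obtain ⟨C1, hC1, hRG⟩ := RG_bound
  obtain ⟨C2, hC2, hRB⟩ := RB_bound (A' := sA η) hη hη1 hT.c_pos hT.C_nonneg hT.A_pos.le hA1 ha
  refine ⟨C1 * (1 + sA η) + C2, fun L M B F S => ?_⟩
  set P := ParOf cp A m0 γ L M B with hP
  have hcut : ∀ m, P.cut m = 2 ^ (A * m) := fun m => rfl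
  have hY : ∀ i, P.Y i = 2 ^ i := fun i => rfl
  have hthr : ∀ b i, P.thr b i ≤ Real.exp ((P.Y (i - 1) : ℝ) ^ (4 / 5 : ℝ)) := fun b i =>
    min_le_right _ _
  have hN : (M : ℝ) / P.L ≤ P.N := Nat.le_ceil _
  have hcut4 : ∀ i, P.m0 ≤ i → 4 ≤ P.cut i := by
    intro i hi
    have hi' : 2 ≤ i := hm0'.trans hi
    rw [hcut]
    calc 4 = 2 ^ 2 := by norm_num
      _ ≤ 2 ^ (A * i) := Nat.pow_le_pow_right (by norm_num) (by nlinarith)
  have hmass0 := S.mass_nonneg
  have h1 := hRG M F P B (sA η) (sE η) S.hM S.hB S.shares hT.A_pos.le hT.s_gt.le S.hL hY hthr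
    (fun i _ => by
      rw [hcut, hcut]
      exact Nat.pow_le_pow_right (by norm_num) (Nat.mul_le_mul_left _ (by omega)))
    (fun i _ => by
      rw [hcut, hcut, ← pow_mul]
      exact Nat.pow_le_pow_right (by norm_num) (by nlinarith)) hcut4
    (show 1 ≤ m0 by omega)
  have h2 := hRB M F P B (sE η) S.hM S.hB S.shares hT.s_gt.le S.hL S.bad hY hthr hcut
    (show 1 ≤ m0 by omega) hN
  have hxh : ∀ i X, P.cut i < (X + 1) ^ 2 → xh A i ≤ X := by
    intro i X hX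
    rw [hcut] at hX
    have h5 : (xh A i) ^ 2 < (X + 1) ^ 2 := by
      refine lt_of_le_of_lt ?_ hX
      unfold xh
      rw [← pow_mul]
      exact Nat.pow_le_pow_right (by norm_num) (Nat.div_mul_le_self _ _)
    have h6 := lt_of_pow_lt_pow_left₀ 2 (Nat.zero_le _) h5
    omega
  have h3 : EnR γ L M B (lamOf cp A m0 γ L M B F) (CDomN F P) ≤
      EnR γ L M B (lamOf cp A m0 γ L M B F) (RG F P) +
      EnR γ L M B (lamOf cp A m0 γ L M B F) (RB F P (xh A)) := by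
    refine EnR_or S.hL.le fun b hb c hc _ h _ _ hR => ?_
    rcases CDomN_cover S.hM (fun i hi => by have := hcut4 i hi; omega) hxh (S.dvd hb)
      (S.dvd hc) hR with h4 | h4 | ⟨i, hF, hD, hlong⟩
    · exact Or.inl h4
    · exact Or.inr h4
    · exfalso
      have hi : 1 ≤ i := by
        have : m0 ≤ i := hF.m0
        omega
      exact absurd (short_word hcp hA6 hi hD) (not_le.2 hlong)
  have h4 : C1 * (1 + sA η) * (P.L * ∑ b ∈ B, nu M b) ≤ C1 * (1 + sA η) := by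
    have : 0 ≤ C1 * (1 + sA η) := by
      have := hT.A_pos
      positivity
    calc C1 * (1 + sA η) * (P.L * ∑ b ∈ B, nu M b) ≤ C1 * (1 + sA η) * 1 :=
          mul_le_mul_of_nonneg_left S.mass this
      _ = _ := mul_one _
  have h5 : C2 * (P.L * ∑ b ∈ B, nu M b) ^ (1 + η) ≤ C2 := by
    calc C2 * (P.L * ∑ b ∈ B, nu M b) ^ (1 + η) ≤ C2 * 1 :=
          mul_le_mul_of_nonneg_left (Real.rpow_le_one hmass0 S.mass (by linarith)) hC2
      _ = _ := mul_one _
  exact h3.trans (add_le_add (h1.trans h4) (h2.trans h5))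

end Crest.Agent.R4C.ClsDomNx52
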