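import Crest.Agent.R4C.NHdef_656
import Crest.Agent.R4C.PureCls_863
import Crest.Agent.R4C.Rule_945

/-!
# Row 4, GW section: dictionary A over `Rule_945` (helper20)

Nominal coins of block NH (note 3754, with the dyadic floor of 3875 (i)) are coins of the rule.

General `F : FL M` (no purity): for a word `b ∣ M` and a number `r`
* `on_of_dep` : `r ≤ cut m`, `dep m b f < K` ⟹ `On K (lam r b · γ) (uu r b / L)`;
* `dep_of_on`, `on_cut_iff`, `TC_of_on`, `elig_of_on` : converse at the cut of a live scale;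
* `cut_ge` : a live scale `m` above the scale of the prefix below `r` has `r ≤ cut m`;
* `on_of_elig`, `Fc_none`, `lamR_none`.

Prefix worlds (`PureCls_863`: core `G`, word `w ∣ PM F G`, node `G · low x w`, `D F G ≤ x`,
`upp x w` squarefree, letters `S = (upp x w).primeFactors`, `t = G · low x w / L`):
* `pt_eq`, `sc_eq`, `scm_eq` : `pt γ S r`, `sc t S r`, `t ∏_{p < r} p` in terms of `b = G w`;
* `cutR P τ = cut ⌊log₂ τ⌋`, `lt_two_pow`, `cutR_le`, `le_cutR`;
* `on_letter`, `TC_letter`, `elig_letter` : depth of the rule = depth of block NH;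
* `missing`, `nc_not_mem` : nominal coins are missing primes of `b`;
* `on_near` : another point of the cell; `pt_congr` : no letter in between;
* `nc_coin` : `q ∈ nc (cutR P) δ γ t Q S r`, `thr b (blk q) < 3 q^δ` ⟹ `lamR b q = none`;
* `nc_coin_or_heavy` : threshold of the text: coin or `3 q^δ ≤ ThS^ε`;
* `label_on` : a label at `q` in the gap before `r` ⟹ `On (3 q^δ)` at `r` or heavy.
-/

set_option autoImplicit false

namespace Crest.Agent.R4C.DictAx20

open Finset Crest.Agent.R4C.FLDefx935 Crest.Agent.R4C.Cutx50 Crest.Agent.R4C.Rulex945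
  Crest.Agent.R4C.NHx656 Crest.Agent.R4C.PureClsx863 Crest.Agent.R4C.S7cx14
  Crest.Agent.R4C.CrCoinx935

section general

variable {M : ℕ} {F : FL M} {P : Par}

/-- **depth of the rule = depth of the point seen from any `r ≤ cut m`** -/
theorem on_of_dep (_hL : 0 < P.L) (hM : 0 < M) {b m r : ℕ} (hb : b ∣ M) {f : ℚ} {K : ℝ}
    (hr : r ≤ P.cut m) (hK : dep F P m b f < K) :
    On K ((F.lam r b : ℝ) * P.γ) ((F.uu r b : ℝ) / P.L) := by
  have h1 : IsC F (P.cut m) b (k0 F (P.cut m) b f) f := isC_k0 _ _ _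
  obtain ⟨hk, hd⟩ := h1
  have h2 : f.den ∣ k0 F (P.cut m) b f * F.lam r b :=
    hd.trans (Nat.mul_dvd_mul_left _ (FL.lam_dvd_lam hr))
  obtain ⟨u, hu⟩ := h2
  set k : ℕ := k0 F (P.cut m) b f with hkdef
  refine ⟨f.num * u, k, hk, ?_⟩
  have hk0 : (k : ℝ) ≠ 0 := by exact_mod_cast hk.ne'
  have hden : (f.den : ℝ) ≠ 0 := by exact_mod_cast f.den_pos.ne'
  have hfr : (f : ℝ) = (f.num : ℝ) / f.den := by
    exact_mod_cast (Rat.num_div_den f).symm
  have hu' : (k : ℝ) * F.lam r b = f.den * u := by exact_mod_cast hu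
  have e1 : ((f.num * u : ℤ) : ℝ) / k = F.lam r b * (f : ℝ) := by
    rw [hfr]
    push_cast
    rw [div_eq_iff hk0]
    field_simp
    linear_combination (f.num : ℝ) * (-hu')
  have hb2 : (F.uu r b : ℝ) * F.lam r b = b := by
    exact_mod_cast FL.uu_mul_lam (F := F) (x := r) hM hb
  have e2 : (F.uu r b : ℝ) / P.L * |(F.lam r b : ℝ) * P.γ - ((f.num * u : ℤ) : ℝ) / k| =
      (b : ℝ) * |P.γ - f| / P.L := by
    rw [e1, ← mul_sub, abs_mul, Nat.abs_cast]
    calc (F.uu r b : ℝ) / P.L * ((F.lam r b : ℝ) * |P.γ - f|) =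
        ((F.uu r b : ℝ) * F.lam r b) * |P.γ - f| / P.L := by ring
      _ = _ := by rw [hb2]
  rw [e2]
  exact hK








/-- no centre, no label -/
lemma lamR_none_of {b q : ℕ} (h : Fc F P b q = none) : lamR F P b q = none := by
  unfold lamR BoostCx972.labC
  rw [h]
  rfl




end general

/-! ### change of the point inside a cell -/



/-! ### the floor -/

section floor


lemma lt_two_pow (τ : ℝ) : τ < 2 ^ (Nat.log 2 ⌊τ⌋₊ + 1) := by
  have h1 : ⌊τ⌋₊ < 2 ^ (Nat.log 2 ⌊τ⌋₊ + 1) := Nat.lt_pow_succ_log_self (by norm_num) _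
  have h2 : τ < (⌊τ⌋₊ : ℝ) + 1 := Nat.lt_floor_add_one τ
  have h3 : (⌊τ⌋₊ : ℝ) + 1 ≤ 2 ^ (Nat.log 2 ⌊τ⌋₊ + 1) := by exact_mod_cast h1
  linarith

lemma two_pow_le {τ : ℝ} (h : 1 ≤ τ) : (2 : ℝ) ^ (Nat.log 2 ⌊τ⌋₊) ≤ τ := by
  have h0 : ⌊τ⌋₊ ≠ 0 := (Nat.floor_pos.2 h).ne'
  have h1 : 2 ^ (Nat.log 2 ⌊τ⌋₊) ≤ ⌊τ⌋₊ := Nat.pow_log_le_self 2 h0
  have h2 : (⌊τ⌋₊ : ℝ) ≤ τ := Nat.floor_le (by linarith)
  have h3 : (2 : ℝ) ^ (Nat.log 2 ⌊τ⌋₊) ≤ ⌊τ⌋₊ := by exact_mod_cast h1
  linarith





end floor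

/-! ### letters of a squarefree word -/

section letters

lemma part_sqfree (S : ℕ → Prop) [DecidablePred S] {n : ℕ} (hn : Squarefree n) :
    part S n = ∏ p ∈ n.primeFactors.filter S, p := by
  unfold part
  refine Finset.prod_congr rfl fun p hp => ?_
  have h1 := (Finset.mem_filter.1 hp).1
  have h2 : n.factorization p ≤ 1 := hn.natFactorization_le_one p
  have h3 : 0 < n.factorization p :=
    (Nat.prime_of_mem_primeFactors h1).factorization_pos_of_dvd hn.ne_zero
      (Nat.dvd_of_mem_primeFactors h1)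
  have h4 : n.factorization p = 1 := by omega
  rw [h4, pow_one]

lemma upp_prod {x r w : ℕ} (hsq : Squarefree (upp x w)) (hxr : x ≤ r) :
    upp r w = ∏ p ∈ (upp x w).primeFactors.filter (r < ·), p := by
  rw [← upp_upp hxr]
  unfold upp at hsq ⊢
  rw [part_sqfree _ hsq]
  refine Finset.prod_congr ?_ fun _ _ => rfl
  ext p
  simp only [Finset.mem_filter, not_le]

lemma low_prod {x r w : ℕ} (hsq : Squarefree (upp x w)) (hxr : x ≤ r) :
    low r w = low x w * ∏ p ∈ (upp x w).primeFactors.filter (· ≤ r), p := by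
  have h1 : low r (upp x w) = ∏ p ∈ (upp x w).primeFactors.filter (· ≤ r), p := by
    unfold upp at hsq ⊢
    exact part_sqfree _ hsq
  rw [← h1]
  refine Nat.eq_of_factorization_eq (low_pos _ _).ne'
    (mul_ne_zero (low_pos _ _).ne' (low_pos _ _).ne') fun p => ?_
  rw [Nat.factorization_mul (low_pos _ _).ne' (low_pos _ _).ne', Finsupp.add_apply, fact_low,
    fact_low, fact_low, fact_upp]
  by_cases h2 : p ≤ x
  · have h3 : p ≤ r := by omega
    simp [h2, h3]
  · by_cases h3 : p ≤ r <;> simp [h2, h3]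

end letters

/-! ### prefix worlds -/

section world

variable {M : ℕ} {F : FL M} {P : Par}

/-- scale of the node `G · low x w` -/
noncomputable def tN (P : Par) (x G w : ℕ) : ℝ := ((G * low x w : ℕ) : ℝ) / P.L













end world

/-! ### the threshold of the text -/

section text

variable {M : ℕ} {F : FL M} {P : Par}


lemma Y_lt (hY0 : P.Y 0 ≤ 1) {q : ℕ} (hq : 2 ≤ q) : P.Y (P.blk q - 1) < q := by
  rcases Nat.eq_zero_or_pos (P.blk q) with h | h
  · rw [h]
    exact lt_of_le_of_lt hY0 (by omega)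
  · exact Par.lt_of_lt_blk (by omega)



end text

end Crest.Agent.R4C.DictAx20
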