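import Crest.Agent.R4C.GWdef_982
import Crest.Agent.R4C.Rule_945

/-!
# Row 4, GW section: the prefix world of a core (helper982)

`inst F P G0 σ K1 c` : the world of the core `G0 ∈ cores F`: words `w ∣ PM F G0`, `b = G0 * w`,
cuts, shift and window of `P`, `i0 = max m0 (first index with D F G0 ≤ cut i)`,
`θ i = E i / 16`, `coin w p` = no label of the rule at `(G0 * w, p)`.
-/

set_option autoImplicit false

open Finset
open Crest.Agent.R4C.Basex935 Crest.Agent.R4C.Cutx50 Crest.Agent.R4C.PrefixMx882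
open Crest.Agent.R4C.FLDefx935 Crest.Agent.R4C.Rulex945 Crest.Agent.R4C.PureClsx863
open Crest.Agent.R4C.GWdefx982

namespace Crest.Agent.R4C.GWinstx982

variable {M : ℕ} (F : FL M) (P : Par)

/-- first index with `D F G0 ≤ cut i` -/
noncomputable def iD (G0 : ℕ) : ℕ := sInf {i | D F G0 ≤ P.cut i}

/-- the world of a core -/
noncomputable def inst (G0 : ℕ) (σ K1 c : ℝ) : World where
  N := PM F G0
  G0 := G0
  L := P.L
  cut := P.cut
  γ := P.γ
  i0 := max P.m0 (iD F P G0)
  top := P.N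
  θ := fun i => P.E i / 16
  σ := σ
  coin := fun w p => lamR F P (G0 * w) p = none
  K1 := K1
  c := c

variable {F P}

lemma D_le_cut {G0 i : ℕ} (hcut : Monotone P.cut) (hun : ∀ n, ∃ i, n ≤ P.cut i)
    (h : iD F P G0 ≤ i) : D F G0 ≤ P.cut i := by
  have h1 : ({i | D F G0 ≤ P.cut i} : Set ℕ).Nonempty := hun _
  exact (Nat.sInf_mem h1).trans (hcut h)

lemma iD_le {G0 i : ℕ} (h : D F G0 ≤ P.cut i) : iD F P G0 ≤ i := Nat.sInf_le h





end Crest.Agent.R4C.GWinstx982
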