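import Crest.Agent.R4C.Base_935

/-!
# Row 4: the non-pure part of Theorem C in `L²` form (helper559, note 2977 (3))

`M` : the product of the passive primes (with exponents), `H ∣ M` : the centre word.
A pair `b, c ∣ M` is *level* if at every prime of `M` one of `b, c` has the exponent of `H`.
With `l = H / gcd (H, b)`, `l' = H / gcd (H, c)` : a pair is *pure* if `l = l' = 1`.

Theorem `nonpure` : if every dyadic class `[2^i, 2^(i+1))`, `i ≥ 1`, contains at most `ρ 2^i`
divisors of `M` (e.g. `M` is `x`-rough, `ρ = C / log x`), then for every `X > 0` and all `f, g ≥ 0`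

`Σ_{level, X < gcd(b,c) ≤ 2X, (l,l') ≠ (1,1)} gcd(b,c) ν(b) ν(c) f(b) g(c)
   ≤ 3 √ρ (Σ ν f²)^{1/2} (Σ ν g²)^{1/2}`.

No loss in the scale, no anatomy.
-/

set_option autoImplicit false

open Finset
open Crest.Agent.R4C.Basex935

namespace Crest.Agent.R4C.NonPurex559

/-- one of `b, c` has the exponent of `H`, at every prime of `M` (`= ThmRx19.lvl`) -/
def lvl (M H b c : ℕ) : Prop :=
  ∀ p ∈ M.primeFactors, b.factorization p = H.factorization p ∨ c.factorization p = H.factorization p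

/-- cofactor of the centre word -/
def cf (H b : ℕ) : ℕ := H / Nat.gcd H b

lemma gcd_lvl {M H b c : ℕ} (hM : M ≠ 0) (hH : H ∣ M) (hb : b ∣ M) (hc : c ∣ M)
    (h : lvl M H b c) : Nat.gcd b c * H = Nat.gcd H b * Nat.gcd H c := by
  have hH0 : H ≠ 0 := fun e => hM (Nat.eq_zero_of_zero_dvd (e ▸ hH))
  have hb0 : b ≠ 0 := fun e => hM (Nat.eq_zero_of_zero_dvd (e ▸ hb))
  have hc0 : c ≠ 0 := fun e => hM (Nat.eq_zero_of_zero_dvd (e ▸ hc))
  have h1 : Nat.gcd b c ≠ 0 := Nat.gcd_ne_zero_left hb0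
  have h2 : Nat.gcd H b ≠ 0 := Nat.gcd_ne_zero_left hH0
  have h3 : Nat.gcd H c ≠ 0 := Nat.gcd_ne_zero_left hH0
  apply Nat.eq_of_factorization_eq (mul_ne_zero h1 hH0) (mul_ne_zero h2 h3)
  intro p
  rw [Nat.factorization_mul h1 hH0, Nat.factorization_mul h2 h3, Nat.factorization_gcd hb0 hc0,
    Nat.factorization_gcd hH0 hb0, Nat.factorization_gcd hH0 hc0]
  simp only [Finsupp.add_apply, Finsupp.inf_apply]
  by_cases hp : p ∈ M.primeFactors
  · rcases h p hp with e | e
    · rw [e]; simp only [inf_idem]; omega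
    · rw [e]; simp only [inf_idem]
      rw [inf_comm]
  · have hz : ∀ n, n ∣ M → n.factorization p = 0 := by
      intro n hn
      by_contra hne
      apply hp
      have h4 : p ∈ n.primeFactors := by
        rw [← Nat.support_factorization, Finsupp.mem_support_iff]
        exact hne
      exact Nat.primeFactors_mono hn hM h4
    rw [hz b hb, hz c hc, hz H hH]
    simp

lemma cf_mul {H b : ℕ} : cf H b * Nat.gcd H b = H := Nat.div_mul_cancel (Nat.gcd_dvd_left H b)

lemma cf_pos {H b : ℕ} (hH : 0 < H) : 0 < cf H b :=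
  Nat.div_pos (Nat.le_of_dvd hH (Nat.gcd_dvd_left H b)) (Nat.gcd_pos_of_pos_left b hH)

lemma cf_dvd {H b : ℕ} : cf H b ∣ H := Nat.div_dvd_of_dvd (Nat.gcd_dvd_left H b)

lemma cf_eq_one {H b : ℕ} (hH : 0 < H) : cf H b = 1 ↔ H ∣ b := by
  constructor
  · intro h
    have h1 := cf_mul (H := H) (b := b)
    rw [h, one_mul] at h1
    exact h1 ▸ Nat.gcd_dvd_right H b
  · intro h
    unfold cf
    rw [Nat.gcd_eq_left h, Nat.div_self hH]

/-- mass of the multiples of `h` -/
lemma mass_mult {M : ℕ} (hM : 0 < M) {h : ℕ} (hh : h ∣ M) :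
    ∑ b ∈ M.divisors.filter (fun b => h ∣ b), nu M b = 1 / h := by
  have hh0 : 0 < h := Nat.pos_of_dvd_of_pos hh hM
  have hk : 0 < M / h := Nat.div_pos (Nat.le_of_dvd hM hh) hh0
  have h1 : ∑ b ∈ M.divisors.filter (fun b => h ∣ b), nu M b =
      ∑ b ∈ (M / h).divisors, nu M (h * b) := by
    symm
    refine Finset.sum_bij (fun b _ => h * b) ?_ ?_ ?_ ?_
    · intro b hb
      rw [Finset.mem_filter, Nat.mem_divisors]
      refine ⟨⟨?_, hM.ne'⟩, dvd_mul_right h b⟩
      have := Nat.mul_dvd_mul (dvd_refl h) (Nat.dvd_of_mem_divisors hb)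
      rwa [Nat.mul_div_cancel' hh] at this
    · intro b _ b' _ e
      exact Nat.eq_of_mul_eq_mul_left hh0 e
    · intro b hb
      rw [Finset.mem_filter] at hb
      obtain ⟨k, rfl⟩ := hb.2
      refine ⟨k, ?_, rfl⟩
      rw [Nat.mem_divisors]
      refine ⟨?_, hk.ne'⟩
      exact Nat.dvd_div_of_mul_dvd (Nat.dvd_of_mem_divisors hb.1)
    · intro b _; rfl
  rw [h1]
  have h2 : ∀ b ∈ (M / h).divisors, nu M (h * b) = (1 / (h : ℝ)) * nu (M / h) b := by
    intro b _
    unfold nu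
    rw [← Nat.div_div_eq_div_mul]
    have h3 : (M : ℝ) = h * ((M / h : ℕ) : ℝ) := by
      exact_mod_cast (Nat.mul_div_cancel' hh).symm
    rw [h3]
    have h4 : (h : ℝ) ≠ 0 := by exact_mod_cast hh0.ne'
    have h5 : ((M / h : ℕ) : ℝ) ≠ 0 := by exact_mod_cast hk.ne'
    field_simp
  rw [Finset.sum_congr rfl h2, ← Finset.mul_sum, sum_nu hk, mul_one]

/-- dyadic class of the cofactor -/
def cl (H b : ℕ) : ℕ := Nat.log 2 (cf H b)








end Crest.Agent.R4C.NonPurex559
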