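import Crest.Agent.R4C.Counts_952
import Crest.Agent.R4C.NonPure_559
import Crest.Agent.R4C.FLDef_935

-- ▼ part R4C/Rough_882
section

/-!
# Row 4: two prime number inputs of Theorem C (helper882, for helper817)

* `rough_count` : `#{Y ≤ l < 2Y, l > 1, x`-rough`} ≤ C Y / log x`.
* `sum_prime_log` : `∑_{p ∈ U} 1 / (p (log p)^c) ≤ K (log x)^{-c}` for a finite set `U` of primes `≥ x`.
-/

set_option autoImplicit false

open Finset

namespace Crest.Agent.R4C.Roughx882

open Crest.Agent.R4C.Countsx952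

open Classical in
lemma rough_count : ∃ C : ℝ, 0 < C ∧ ∀ x : ℝ, 2 ≤ x → ∀ Y : ℕ, 1 ≤ Y →
    (((Finset.Ico Y (2 * Y)).filter
      (fun l => 1 < l ∧ ∀ p : ℕ, p.Prime → p ∣ l → x < p)).card : ℝ) ≤ C * Y / Real.log x := by
  refine ⟨2 * C2, by have := C2_pos; positivity, fun x hx Y hY => ?_⟩
  have hlx : 0 < Real.log x := Real.log_pos (by linarith)
  have hC := C2_pos
  have hY0 : (0 : ℝ) < Y := by exact_mod_cast hY
  set F := (Finset.Ico Y (2 * Y)).filter (fun l => 1 < l ∧ ∀ p : ℕ, p.Prime → p ∣ l → x < p) with hF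
  by_cases h : x ≤ ((2 * Y : ℕ) : ℝ)
  · have h1 := card_rough_le hx h
    have h2 : F ⊆ RF x ⌊((2 * Y : ℕ) : ℝ)⌋₊ := by
      intro l hl
      rw [hF, mem_filter, mem_Ico] at hl
      rw [mem_RF, Nat.floor_natCast]
      exact ⟨⟨by omega, by omega⟩, hl.2.2⟩
    have h3 : ((F.card : ℕ) : ℝ) ≤ ((RF x ⌊((2 * Y : ℕ) : ℝ)⌋₊).card : ℝ) := by
      exact_mod_cast card_le_card h2
    refine h3.trans (h1.trans (le_of_eq ?_))
    push_cast
    ring
  · push Not at h
    have h1 : F = ∅ := by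
      rw [eq_empty_iff_forall_notMem]
      intro l hl
      rw [hF, mem_filter, mem_Ico] at hl
      have h2 : (l : ℝ) ≤ x := by
        have : (l : ℝ) < ((2 * Y : ℕ) : ℝ) := by exact_mod_cast hl.1.2
        linarith
      have h3 : l = 1 := Rough.eq_one hx hl.2.2 h2
      omega
    rw [h1, card_empty, Nat.cast_zero]
    positivity

/-- the same for an arbitrary finite set of such integers -/
lemma rough_count' : ∃ C : ℝ, 0 < C ∧ ∀ x : ℝ, 2 ≤ x → ∀ Y : ℕ, 1 ≤ Y → ∀ S : Finset ℕ,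
    (∀ l ∈ S, Y ≤ l ∧ l < 2 * Y ∧ 1 < l ∧ ∀ p : ℕ, p.Prime → p ∣ l → x < p) →
    (S.card : ℝ) ≤ C * Y / Real.log x := by
  classical
  obtain ⟨C, hC, h⟩ := rough_count
  refine ⟨C, hC, fun x hx Y hY S hS => ?_⟩
  refine le_trans ?_ (h x hx Y hY)
  have : S ⊆ (Finset.Ico Y (2 * Y)).filter (fun l => 1 < l ∧ ∀ p : ℕ, p.Prime → p ∣ l → x < p) := by
    intro l hl
    rw [mem_filter, mem_Ico]
    obtain ⟨h1, h2, h3⟩ := hS l hl
    exact ⟨⟨h1, h2⟩, h3⟩
  exact_mod_cast card_le_card this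



end Crest.Agent.R4C.Roughx882
end

-- ▼ part R4C/NonPureFL_559

/-!
# Row 4: non-pure good pairs of an F-Λ structure (helper559, note 2977 (3))

`F : FL M`, cut `x`.  Pairs `b, c ∣ M` with the same letters at all primes `≤ x`, good at `x`, not pure
(`ell x b ≠ 1` or `ell x c ≠ 1`), `X < gcd(b,c) ≤ 2X`:
`Σ gcd ν ν f g ≤ 3 √ρ (Σ ν f²)^{1/2} (Σ ν g²)^{1/2}` whenever every dyadic class `[2^i,2^(i+1))`,
`i ≥ 1`, contains at most `ρ 2^i` `x`-rough integers (`nonpure_fl`), in particular with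
`ρ = C / log x` (`nonpure_fl_log`).  No loss in the scale `X`.
-/

set_option autoImplicit false

open Finset
open Crest.Agent.R4C.Basex935 Crest.Agent.R4C.Cutx50 Crest.Agent.R4C.FLDefx935

namespace Crest.Agent.R4C.NonPureFLx559

open Classical

variable {M : ℕ} (F : FL M)

/-- passive primes above the cut at the node of `b` -/
def Ps (x b p : ℕ) : Prop := x < p ∧ ∃ v, F.ctr b p = some v

/-- word outside the passive primes above the cut -/
noncomputable def wd (x b : ℕ) : ℕ := part (fun p => ¬ Ps F x b p) b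

/-- class label -/
noncomputable def lab (x b : ℕ) : ℕ × (ℕ → Option ℕ × ℕ) :=
  (low x b, fun p => if p ∈ M.primeFactors ∧ x < p then
    (F.ctr b p, if F.ctr b p = none then b.factorization p else 0) else (none, 0))

variable {F}

lemma fact_zero' {b p : ℕ} (hM : M ≠ 0) (hb : b ∣ M) (hp : p ∉ M.primeFactors) :
    b.factorization p = 0 := FL.fact_zero (Nat.pos_of_ne_zero hM) hb hp

lemma lab_eq {x b c : ℕ} (hb : b ∣ M) (hc : c ∣ M) (h1 : low x b = low x c)
    (h2 : F.same x b c) : lab F x b = lab F x c := by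
  unfold lab
  refine Prod.ext h1 (funext fun p => ?_)
  simp only
  by_cases h : p ∈ M.primeFactors ∧ x < p
  · rw [if_pos h, if_pos h]
    have hpp := Nat.prime_of_mem_primeFactors h.1
    have e1 := FL.ctr_eq hb hc h2 hpp h.2.le
    rw [← e1]
    by_cases h3 : F.ctr b p = none
    · rw [if_pos h3, if_pos h3, h2 p hpp h.2 h3]
    · rw [if_neg h3, if_neg h3]
  · rw [if_neg h, if_neg h]

lemma of_lab_eq {x b c : ℕ} (hM : M ≠ 0) (hb : b ∣ M) (hc : c ∣ M) (h : lab F x b = lab F x c) :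
    low x b = low x c ∧ F.same x b c := by
  have h1 := congrArg Prod.fst h
  have h2 := congrArg Prod.snd h
  refine ⟨h1, fun q hq hx hn => ?_⟩
  by_cases hqm : q ∈ M.primeFactors
  · have h3 := congrFun h2 q
    simp only [lab, hqm, hx, and_self, if_true] at h3
    have h4 := congrArg Prod.fst h3
    have h5 := congrArg Prod.snd h3
    simp only at h4 h5
    rw [hn] at h4
    rw [if_pos hn, if_pos h4.symm] at h5
    exact h5
  · rw [fact_zero' hM hb hqm, fact_zero' hM hc hqm]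

lemma not_ps {x b p : ℕ} : ¬ Ps F x b p ↔ (p ≤ x ∨ (x < p ∧ F.ctr b p = none)) := by
  unfold Ps
  constructor
  · intro h
    by_cases hx : x < p
    · right
      refine ⟨hx, ?_⟩
      cases h1 : F.ctr b p with
      | none => rfl
      | some v => exact absurd ⟨hx, v, h1⟩ h
    · left; omega
  · rintro (h | h) ⟨h1, v, hv⟩
    · omega
    · rw [h.2] at hv; cases hv

lemma fact_eq_of_low {x b c p : ℕ} (h : low x b = low x c) (hp : p ≤ x) :
    b.factorization p = c.factorization p := by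
  have h1 := fact_low x b p
  have h2 := fact_low x c p
  rw [if_pos hp] at h1 h2
  rw [← h1, ← h2, h]

/-- the letters outside the passive primes agree -/
lemma fact_np {x b c p : ℕ} (h1 : low x b = low x c) (h2 : F.same x b c)
    (hp : ¬ Ps F x b p) : b.factorization p = c.factorization p := by
  rcases not_ps.1 hp with h | h
  · exact fact_eq_of_low h1 h
  · by_cases hpp : p.Prime
    · exact h2 p hpp h.1 h.2
    · rw [Nat.factorization_eq_zero_of_not_prime _ hpp, Nat.factorization_eq_zero_of_not_prime _ hpp]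

lemma wd_dvd {x b : ℕ} (hM : M ≠ 0) (hb : b ∣ M) : wd F x b ∣ part (fun p => ¬ Ps F x b p) M :=
  part_dvd _ hM hb

/-- the class of `b0` is parametrised by the divisors of the passive part -/
lemma class_mem {x b0 z : ℕ} (hM : M ≠ 0) (hb0 : b0 ∣ M)
    (hz : z ∣ part (Ps F x b0) M) :
    z * wd F x b0 ∣ M ∧ low x b0 = low x (z * wd F x b0) ∧ F.same x b0 (z * wd F x b0) := by
  have hw := wd_dvd (F := F) (x := x) hM hb0
  have hz0 : z ≠ 0 := fun hc => part_ne (Ps F x b0) M (Nat.eq_zero_of_zero_dvd (hc ▸ hz))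
  have hw0 : wd F x b0 ≠ 0 := part_ne _ _
  have hfac : ∀ p, ¬ Ps F x b0 p → (z * wd F x b0).factorization p = b0.factorization p := by
    intro p hp
    rw [Nat.factorization_mul hz0 hw0, Finsupp.add_apply, fact_zero_of_dvd_part _ hz hp]
    unfold wd
    rw [fact_part, if_pos hp, zero_add]
  refine ⟨?_, ?_, ?_⟩
  · calc z * wd F x b0 ∣ part (Ps F x b0) M * part (fun p => ¬ Ps F x b0 p) M :=
          Nat.mul_dvd_mul hz hw
      _ = M := part_mul _ hM
  · refine Nat.eq_of_factorization_eq (low_pos _ _).ne' (low_pos _ _).ne' fun p => ?_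
    rw [fact_low, fact_low]
    by_cases hp : p ≤ x
    · rw [if_pos hp, if_pos hp]
      exact (hfac p (not_ps.2 (Or.inl hp))).symm
    · rw [if_neg hp, if_neg hp]
  · intro q hq hx hn
    exact (hfac q (not_ps.2 (Or.inr ⟨hx, hn⟩))).symm

lemma class_sum {x b0 : ℕ} (hM : M ≠ 0) (hb0 : b0 ∣ M) (G : ℕ → ℝ) :
    ∑ b ∈ M.divisors.filter (fun b => lab F x b = lab F x b0), G b =
      ∑ z ∈ (part (Ps F x b0) M).divisors, G (z * wd F x b0) := by
  refine Finset.sum_bij' (fun b _ => part (Ps F x b0) b) (fun z _ => z * wd F x b0) ?_ ?_ ?_ ?_ ?_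
  · intro b hb
    rw [Finset.mem_filter, Nat.mem_divisors] at hb
    rw [Nat.mem_divisors]
    exact ⟨part_dvd _ hM hb.1.1, part_ne _ _⟩
  · intro z hz
    rw [Nat.mem_divisors] at hz
    obtain ⟨h1, h2, h3⟩ := class_mem (x := x) hM hb0 hz.1
    rw [Finset.mem_filter, Nat.mem_divisors]
    exact ⟨⟨h1, hM⟩, (lab_eq hb0 h1 h2 h3).symm⟩
  · intro b hb
    rw [Finset.mem_filter, Nat.mem_divisors] at hb
    obtain ⟨h1, h2⟩ := of_lab_eq hM hb0 hb.1.1 hb.2.symm
    have hb00 : b ≠ 0 := fun hc => hM (Nat.eq_zero_of_zero_dvd (hc ▸ hb.1.1))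
    have e1 : wd F x b0 = part (fun p => ¬ Ps F x b0 p) b := by
      refine Nat.eq_of_factorization_eq (part_ne _ _) (part_ne _ _) fun p => ?_
      unfold wd
      rw [fact_part, fact_part]
      by_cases hp : Ps F x b0 p
      · rw [if_neg (not_not.2 hp), if_neg (not_not.2 hp)]
      · rw [if_pos hp, if_pos hp]
        exact fact_np h1 h2 hp
    rw [e1]
    exact part_mul _ hb00
  · intro z hz
    rw [Nat.mem_divisors] at hz
    exact part_of_mul _ hz.1 (wd_dvd hM hb0)
  · intro b hb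
    rw [Finset.mem_filter, Nat.mem_divisors] at hb
    obtain ⟨h1, h2⟩ := of_lab_eq hM hb0 hb.1.1 hb.2.symm
    have hb00 : b ≠ 0 := fun hc => hM (Nat.eq_zero_of_zero_dvd (hc ▸ hb.1.1))
    have e1 : wd F x b0 = part (fun p => ¬ Ps F x b0 p) b := by
      refine Nat.eq_of_factorization_eq (part_ne _ _) (part_ne _ _) fun p => ?_
      unfold wd
      rw [fact_part, fact_part]
      by_cases hp : Ps F x b0 p
      · rw [if_neg (not_not.2 hp), if_neg (not_not.2 hp)]
      · rw [if_pos hp, if_pos hp]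
        exact fact_np h1 h2 hp
    rw [e1, part_mul _ hb00]

/-- centre word of the passive part -/
noncomputable def Hc (F : FL M) (x b0 : ℕ) : ℕ := part (Ps F x b0) (F.cen x b0)

lemma fact_Hc {x b0 p v : ℕ} (hp : p ∈ M.primeFactors) (hx : x < p) (hv : F.ctr b0 p = some v) :
    (Hc F x b0).factorization p = v := by
  unfold Hc
  rw [fact_part, if_pos ⟨hx, v, hv⟩, FL.fact_cen, if_pos hp]
  simp only [FL.cenE, hx, if_true, hv]

lemma Hc_dvd {x b0 : ℕ} (hM : M ≠ 0) (hb0 : b0 ∣ M) : Hc F x b0 ∣ part (Ps F x b0) M := by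
  have hH0 : Hc F x b0 ≠ 0 := part_ne _ _
  rw [← Nat.factorization_le_iff_dvd hH0 (part_ne _ _)]
  intro p
  by_cases hp : Ps F x b0 p
  · rw [fact_part (Ps F x b0) M p, if_pos hp]
    by_cases hpm : p ∈ M.primeFactors
    · obtain ⟨hx, v, hv⟩ := hp
      rw [fact_Hc hpm hx hv]
      exact F.le hb0 (Nat.prime_of_mem_primeFactors hpm) hv
    · unfold Hc
      rw [fact_part, if_pos hp, FL.fact_cen, if_neg hpm]
      exact Nat.zero_le _
  · unfold Hc
    rw [fact_part, if_neg hp]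
    exact Nat.zero_le _

/-- `b ν(b) ≤ 1` -/
lemma mul_nu_le {M b : ℕ} (hM : 0 < M) (hb : b ∣ M) : (b : ℝ) * nu M b ≤ 1 := by
  unfold nu
  have h1 : ((M / b).totient : ℝ) ≤ ((M / b : ℕ) : ℝ) := by exact_mod_cast Nat.totient_le _
  have h2 : (b : ℝ) * ((M / b : ℕ) : ℝ) = M := by
    exact_mod_cast Nat.mul_div_cancel' hb
  have hMR : (0:ℝ) < M := by exact_mod_cast hM
  rw [mul_div_assoc', div_le_one hMR]
  calc (b:ℝ) * ((M / b).totient : ℝ) ≤ b * ((M / b : ℕ) : ℝ) :=
        mul_le_mul_of_nonneg_left h1 (by positivity)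
    _ = M := h2

/-- one term of the non-pure energy -/
noncomputable def tm (F : FL M) (x : ℕ) (X : ℝ) (f g : ℕ → ℝ) (b c : ℕ) : ℝ :=
  if X < (Nat.gcd b c : ℝ) ∧ (Nat.gcd b c : ℝ) ≤ 2 * X ∧ low x b = low x c ∧ F.good x b c ∧
      ¬ (F.ell x b = 1 ∧ F.ell x c = 1) then
    (Nat.gcd b c : ℝ) * nu M b * nu M c * (f b * g c) else 0




end Crest.Agent.R4C.NonPureFLx559
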