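import Crest.Agent.R4C.S7c_14
import Crest.Agent.R4C.S2c_284
import Crest.Agent.R4C.Chain_81
import Crest.Agent.R4C.S2b_284

-- ▼ part R4C/S7d_14
section

/-!
# Row 4, block S7: same point, no conflict (helper14, note 3110 (C))

`b = g s`, `c = g s'`, `s, s'` coprime, centres `f` of `b`, `f'` of `c`, `gap f f' s s' h = 0`
(same point).  `al = gnum b f / e`, `al' = gnum c f' / e`, `e = eC = gcd(gnum b f, gnum c f')`.

* `al_dvd_s`, `al_coprime_den` : `al ∣ s`, `al` coprime to `den f'`;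
* `killedL_of_al`, `killedL_of_al'` : if `q'` uses `f'` at a prime of `al`, the pair is killed
  (any exponents, no hypothesis on `f`);
* `al_eq_one_or` : unkilled, no conflict below `X` : `al = 1` or `X < al`;
* `zone_arith`, `zone_min` : `min(t_f, t_{f'}) ≤ t₀` or `t₀ min^(a-1) < 1`;
* `prod_setN_idx` : the non-coincident product with an arbitrary index set (blocks).
-/

set_option autoImplicit false

namespace Crest.Agent.R4C.S7dx14

open Crest.Agent.R4C.FLDefx935 Crest.Agent.R4C.BoostCx972 Crest.Agent.R4C.CrCoinx935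
  Crest.Agent.R4C.S7cx14

/-- quotient of `g_f(b)` by the common part -/
def alC (b c : ℕ) (f f' : ℚ) : ℕ := gnum b f / eC b c f f'

lemma eC_comm (b c : ℕ) (f f' : ℚ) : eC b c f f' = eC c b f' f := Nat.gcd_comm _ _

lemma alC_mul (b c : ℕ) (f f' : ℚ) : alC b c f f' * eC b c f f' = gnum b f :=
  Nat.div_mul_cancel (Nat.gcd_dvd_left _ _)

lemma alC_pos {b c : ℕ} (hb : 0 < b) (f f' : ℚ) : 0 < alC b c f f' := by
  refine Nat.pos_of_ne_zero fun h => ?_
  have h1 := alC_mul b c f f'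
  rw [h, zero_mul] at h1
  exact (gnum_pos hb f).ne h1

lemma alC_coprime {b c : ℕ} (hb : 0 < b) (f f' : ℚ) :
    Nat.Coprime (alC b c f f') (alC c b f' f) := by
  have h1 : alC c b f' f = gnum c f' / eC b c f f' := by
    unfold alC
    rw [eC_comm]
  rw [h1]
  exact Nat.coprime_div_gcd_div_gcd (eC_pos hb c f f')

/-- `gcd (gnum b f) (kden b f) = 1` -/
lemma gnum_kden_coprime {b : ℕ} (f : ℚ) : Nat.Coprime (gnum b f) (kden b f) := by
  have := Nat.coprime_div_gcd_div_gcd (beta_pos b f)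
  exact this

section same

variable {g s s' : ℕ} {h : ℤ} {f f' : ℚ}

/-- shifted numerators: with `h = s n - s' n'` the points are `b (f + n) = c (f' + n')` -/
lemma al_mul_eq (hg : 0 < g) (hs : 0 < s) (hs' : 0 < s') (_hcop : Nat.Coprime s s')
    (h0 : gap f f' s s' h = 0) {n n' : ℤ} (hn : h = s * n - s' * n') :
    (alC (g * s) (g * s') f f' : ℤ) * (f.num + n * f.den) =
      (alC (g * s') (g * s) f' f : ℤ) * (f'.num + n' * f'.den) := by
  set b := g * s with hb
  set c := g * s' with hc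
  have hb0 : 0 < b := Nat.mul_pos hg hs
  have hc0 : 0 < c := Nat.mul_pos hg hs'
  -- the rational equality
  have e1 : (b : ℚ) * (f + n) = c * (f' + n') := by
    have : (g : ℚ) * gap f f' s s' h = 0 := by rw [h0, mul_zero]
    unfold gap at this
    rw [hn] at this
    push_cast at this
    rw [hb, hc]
    push_cast
    linear_combination this
  have hf : (f.num : ℚ) = f * f.den := (Rat.mul_den_eq_num f).symm
  have hf' : (f'.num : ℚ) = f' * f'.den := (Rat.mul_den_eq_num f').symm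
  have hd : (f.den : ℚ) = Nat.gcd b f.den * kden b f := by exact_mod_cast (kden_mul b f).symm
  have hd' : (f'.den : ℚ) = Nat.gcd c f'.den * kden c f' := by
    exact_mod_cast (kden_mul c f').symm
  have hbq : (b : ℚ) = Nat.gcd b f.den * gnum b f := by exact_mod_cast (gnum_mul b f).symm
  have hcq : (c : ℚ) = Nat.gcd c f'.den * gnum c f' := by exact_mod_cast (gnum_mul c f').symm
  have hβ : (Nat.gcd b f.den : ℚ) ≠ 0 := by exact_mod_cast (beta_pos b f).ne'
  have hβ' : (Nat.gcd c f'.den : ℚ) ≠ 0 := by exact_mod_cast (beta_pos c f').ne'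
  have hk : (kden b f : ℚ) ≠ 0 := by exact_mod_cast (kden_pos b f).ne'
  have hk' : (kden c f' : ℚ) ≠ 0 := by exact_mod_cast (kden_pos c f').ne'
  -- `gnum · P̃ · kden' = gnum' · P̃' · kden`
  have e2 : (gnum b f : ℚ) * (f.num + n * f.den) * kden c f' =
      gnum c f' * (f'.num + n' * f'.den) * kden b f := by
    have h1 : (gnum b f : ℚ) * (f.num + n * f.den) = kden b f * (b * (f + n)) := by
      have h2 : (Nat.gcd b f.den : ℚ) * ((gnum b f : ℚ) * (f.num + n * f.den)) =
          Nat.gcd b f.den * (kden b f * (b * (f + n))) := by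
        rw [hf]
        linear_combination (-(f + n) * f.den) * hbq + (b * (f + n)) * hd
      exact mul_left_cancel₀ hβ h2
    have h1' : (gnum c f' : ℚ) * (f'.num + n' * f'.den) = kden c f' * (c * (f' + n')) := by
      have h2 : (Nat.gcd c f'.den : ℚ) * ((gnum c f' : ℚ) * (f'.num + n' * f'.den)) =
          Nat.gcd c f'.den * (kden c f' * (c * (f' + n'))) := by
        rw [hf']
        linear_combination (-(f' + n') * f'.den) * hcq + (c * (f' + n')) * hd'
      exact mul_left_cancel₀ hβ' h2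
    rw [h1, h1', e1]
    ring
  -- integers
  have e3 : (gnum b f : ℤ) * (f.num + n * f.den) * kden c f' =
      gnum c f' * (f'.num + n' * f'.den) * kden b f := by exact_mod_cast e2
  -- coprimality of `gnum P̃` and `kden`
  have hcopP : ∀ (d : ℕ) (u : ℚ) (m : ℤ), IsCoprime ((gnum d u : ℤ) * (u.num + m * u.den))
      (kden d u : ℤ) := by
    intro d u m
    refine IsCoprime.mul_left ?_ ?_
    · rw [Nat.isCoprime_iff_coprime]
      exact gnum_kden_coprime u
    · have h1 : IsCoprime (u.num + m * u.den) (u.den : ℤ) := by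
        have h2 : IsCoprime u.num (u.den : ℤ) := by
          rw [Int.isCoprime_iff_gcd_eq_one]
          exact u.reduced
        exact (IsCoprime.add_mul_left_left h2 m |> fun h => by
          rwa [mul_comm (u.den : ℤ) m] at h)
      exact h1.of_isCoprime_of_dvd_right (Int.natCast_dvd_natCast.2 (kden_dvd d u))
  have hkk : kden b f = kden c f' := by
    have h1 : (kden b f : ℤ) ∣ kden c f' := by
      refine (hcopP b f n).symm.dvd_of_dvd_mul_left ?_
      rw [e3]
      exact dvd_mul_left _ _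
    have h2 : (kden c f' : ℤ) ∣ kden b f := by
      refine (hcopP c f' n').symm.dvd_of_dvd_mul_left ?_
      rw [← e3]
      exact dvd_mul_left _ _
    exact Nat.dvd_antisymm (Int.natCast_dvd_natCast.1 h1) (Int.natCast_dvd_natCast.1 h2)
  have e4 : (gnum b f : ℤ) * (f.num + n * f.den) = gnum c f' * (f'.num + n' * f'.den) := by
    rw [hkk] at e3
    exact mul_right_cancel₀ (by exact_mod_cast (kden_pos c f').ne') e3
  have e5 : (gnum b f : ℤ) = alC b c f f' * eC b c f f' := by exact_mod_cast (alC_mul b c f f').symm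
  have e6 : (gnum c f' : ℤ) = alC c b f' f * eC b c f f' := by
    rw [eC_comm]
    exact_mod_cast (alC_mul c b f' f).symm
  rw [e5, e6] at e4
  have he : (eC b c f f' : ℤ) ≠ 0 := by exact_mod_cast (eC_pos hb0 c f f').ne'
  refine mul_right_cancel₀ he ?_
  linear_combination e4

/-- `al` divides the shifted numerator of `f'` -/
lemma al_dvd_num (hg : 0 < g) (hs : 0 < s) (hs' : 0 < s') (hcop : Nat.Coprime s s')
    (h0 : gap f f' s s' h = 0) {n n' : ℤ} (hn : h = s * n - s' * n') :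
    (alC (g * s) (g * s') f f' : ℤ) ∣ f'.num + n' * f'.den := by
  have h1 := al_mul_eq hg hs hs' hcop h0 hn
  have h2 : IsCoprime (alC (g * s) (g * s') f f' : ℤ) (alC (g * s') (g * s) f' f : ℤ) := by
    rw [Nat.isCoprime_iff_coprime]
    exact alC_coprime (Nat.mul_pos hg hs) f f'
  exact h2.dvd_of_dvd_mul_left ⟨_, h1.symm⟩

lemma exists_shift (hcop : Nat.Coprime s s') (h : ℤ) : ∃ n n' : ℤ, h = s * n - s' * n' := by
  have hb := Nat.gcd_eq_gcd_ab s s'
  rw [hcop.gcd_eq_one] at hb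
  push_cast at hb
  exact ⟨h * Nat.gcdA s s', -(h * Nat.gcdB s s'), by linear_combination h * hb⟩

/-- `al` is coprime to the denominator of `f'` -/
lemma al_coprime_den (hg : 0 < g) (hs : 0 < s) (hs' : 0 < s') (hcop : Nat.Coprime s s')
    (h0 : gap f f' s s' h = 0) : Nat.Coprime (alC (g * s) (g * s') f f') f'.den := by
  obtain ⟨n, n', hn⟩ := exists_shift hcop h
  have h1 := al_dvd_num hg hs hs' hcop h0 hn
  have h2 : IsCoprime (f'.num + n' * f'.den) (f'.den : ℤ) := by
    have h3 : IsCoprime f'.num (f'.den : ℤ) := by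
      rw [Int.isCoprime_iff_gcd_eq_one]
      exact f'.reduced
    have := IsCoprime.add_mul_left_left h3 n'
    rwa [mul_comm (f'.den : ℤ) n'] at this
  rw [← Nat.isCoprime_iff_coprime]
  exact h2.of_isCoprime_of_dvd_left h1

/-- `al ∣ s` -/
lemma al_dvd_s (hg : 0 < g) (hs : 0 < s) (hs' : 0 < s') (hcop : Nat.Coprime s s')
    (h0 : gap f f' s s' h = 0) : alC (g * s) (g * s') f f' ∣ s := by
  set b := g * s with hb
  set c := g * s' with hc
  have hb0 : 0 < b := Nat.mul_pos hg hs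
  have he := eC_pos hb0 c f f'
  have h1 : alC b c f f' * eC b c f f' * Nat.gcd b f.den = g * s := by
    rw [alC_mul, mul_comm, gnum_mul]
  have h2 : alC c b f' f * eC b c f f' * Nat.gcd c f'.den = g * s' := by
    rw [eC_comm, alC_mul, mul_comm, gnum_mul]
  -- `al · β · s' = s · al' · β'`
  have h3 : alC b c f f' * (Nat.gcd b f.den * s') = s * alC c b f' f * Nat.gcd c f'.den := by
    have h4 : (g * eC b c f f') * (alC b c f f' * (Nat.gcd b f.den * s')) =
        (g * eC b c f f') * (s * alC c b f' f * Nat.gcd c f'.den) := by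
      calc (g * eC b c f f') * (alC b c f f' * (Nat.gcd b f.den * s'))
          = (alC b c f f' * eC b c f f' * Nat.gcd b f.den) * (g * s') := by ring
        _ = (g * s) * (alC c b f' f * eC b c f f' * Nat.gcd c f'.den) := by rw [h1, h2]
        _ = _ := by ring
    exact Nat.eq_of_mul_eq_mul_left (Nat.mul_pos hg he) h4
  have h5 : alC b c f f' ∣ s * alC c b f' f * Nat.gcd c f'.den := ⟨_, h3.symm⟩
  have h6 : Nat.Coprime (alC b c f f') (Nat.gcd c f'.den) :=
    (al_coprime_den hg hs hs' hcop h0).coprime_dvd_right (Nat.gcd_dvd_right _ _)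
  exact (alC_coprime hb0 f f').dvd_of_dvd_mul_right (h6.dvd_of_dvd_mul_right h5)

lemma gap_symm (h0 : gap f f' s s' h = 0) : gap f' f s' s (-h) = 0 := by
  unfold gap at h0 ⊢
  push_cast
  linear_combination -h0

/-- **kill, right member**: `q'` uses `f'` at a prime of `al` -/
theorem killedL_of_al {Fc : ℕ → ℕ → Option ℚ} {lam : ℕ → ℕ → Option ℤ} (hF : IsLab Fc lam)
    {q q' p : ℕ} (hg : 0 < g) (hs : 0 < s) (hs' : 0 < s') (hcop : Nat.Coprime s s')
    (h0 : gap f f' s s' h = 0) (hp : p.Prime) (hpa : p ∣ alC (g * s) (g * s') f f')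
    (hFq : Fc q' p = some f') : killedL lam q q' s s' h := by
  have hps : p ∣ s := hpa.trans (al_dvd_s hg hs hs' hcop h0)
  have hden : ¬ p ∣ f'.den := fun hc => by
    have := Nat.dvd_gcd hpa hc
    rw [(al_coprime_den hg hs hs' hcop h0).gcd_eq_one] at this
    exact hp.one_lt.ne' (Nat.dvd_one.1 this)
  obtain ⟨a, ha⟩ := hF.legal hp hFq hden
  obtain ⟨f₁, h1, _, h3⟩ := hF.spec hp ha
  rw [hFq, Option.some.injEq] at h1
  subst h1
  obtain ⟨n, n', hn⟩ := exists_shift hcop h
  have h4 : (p : ℤ) ∣ f'.num + n' * f'.den :=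
    (Int.natCast_dvd_natCast.2 hpa).trans (al_dvd_num hg hs hs' hcop h0 hn)
  refine Or.inr ⟨p, hp, hps, a, ha, ?_⟩
  -- `p ∣ den (a - n')`, hence `a ≡ n'`
  have h5 : (p : ℤ) ∣ f'.den * (a - n') := by
    have : f'.den * (a - n') = (f'.num + f'.den * a) - (f'.num + n' * f'.den) := by ring
    rw [this]
    exact dvd_sub h3 h4
  have h6 : (p : ℤ) ∣ a - n' := by
    refine ((Nat.prime_iff_prime_int.1 hp).dvd_or_dvd h5).resolve_left fun hc => hden ?_
    exact_mod_cast hc
  have h7 : h + s' * a = s * n + s' * (a - n') := by rw [hn]; ring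
  rw [h7]
  exact dvd_add ((Int.natCast_dvd_natCast.2 hps).mul_right _) (h6.mul_left _)

/-- **kill, left member**: `q` uses `f` at a prime of `al'` -/
theorem killedL_of_al' {Fc : ℕ → ℕ → Option ℚ} {lam : ℕ → ℕ → Option ℤ} (hF : IsLab Fc lam)
    {q q' p : ℕ} (hg : 0 < g) (hs : 0 < s) (hs' : 0 < s') (hcop : Nat.Coprime s s')
    (h0 : gap f f' s s' h = 0) (hp : p.Prime) (hpa : p ∣ alC (g * s') (g * s) f' f)
    (hFq : Fc q p = some f) : killedL lam q q' s s' h := by
  have h1 := killedL_of_al (q := q') (q' := q) hF hg hs' hs hcop.symm (gap_symm h0) hp hpa hFq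
  rcases h1 with ⟨r, hr, h2, a, h3, h4⟩ | ⟨r, hr, h2, a, h3, h4⟩
  · refine Or.inr ⟨r, hr, h2, a, h3, ?_⟩
    have : h + s' * a = -(-h - s' * a) := by ring
    rw [this]
    exact (dvd_neg).2 h4
  · refine Or.inl ⟨r, hr, h2, a, h3, ?_⟩
    have : h - s * a = -(-h + s * a) := by ring
    rw [this]
    exact (dvd_neg).2 h4



end same



/-! ### the non-coincident product with an arbitrary index set -/

open Classical in
/-- the charged primes `≥ y` whose two centres are different points; the primes are grouped by an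
index set (pairs of centres, or dyadic blocks): at the primes of group `i` the pair of centres is
`v i`, the primes are `≥ P i`, and `log |D0| ≤ E i` -/
theorem prod_setN_idx {ι : Type*} {Fc : ℕ → ℕ → Option ℚ} {g q q' s s' : ℕ} (hg : 0 < g)
    (hs : 0 < s) (hcop : Nat.Coprime s s') (h : ℤ) (y : ℝ) (I : Finset ι) (v : ι → ℚ × ℚ)
    (P E : ι → ℝ) (hP : ∀ i ∈ I, 1 < P i)
    (hT : ∀ p ∈ (q * q').primeFactors, y ≤ p → ¬ p ∣ s → ¬ p ∣ s' → ∀ f f', Fc q p = some f →
      Fc q' p = some f' → gap f f' s s' h ≠ 0 → ∃ i ∈ I, v i = (f, f') ∧ P i ≤ p)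
    (hE0 : ∀ i ∈ I, 0 ≤ E i)
    (hE : ∀ i ∈ I, gap (v i).1 (v i).2 s s' h ≠ 0 →
      Real.log |(D0 g s s' h (v i).1 (v i).2 : ℝ)| ≤ E i) :
    ∏ p ∈ (setN Fc g q q' s s' h).filter (fun p : ℕ => y ≤ (p : ℝ)), pf p ≤
      Real.exp (∑ i ∈ I, 2 * E i / (P i * Real.log (P i))) := by
  classical
  set S := (setN Fc g q q' s s' h).filter (fun p : ℕ => y ≤ (p : ℝ)) with hS
  set W : ι → Finset ℕ := fun i => S.filter fun p : ℕ => P i ≤ (p : ℝ) ∧
    gap (v i).1 (v i).2 s s' h ≠ 0 ∧ (p : ℤ) ∣ D0 g s s' h (v i).1 (v i).2 with hW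
  have hprime : ∀ p ∈ S, p.Prime := fun p hp => prime_setN (Finset.mem_filter.1 hp).1
  have hcov : S ⊆ I.biUnion W := by
    intro p hp
    have hp' := hp
    rw [hS, Finset.mem_filter] at hp
    obtain ⟨hp1, hp2⟩ := hp
    unfold setN at hp1
    rw [Finset.mem_filter] at hp1
    obtain ⟨h0, h2, h3, f, f', hf1, hf1', _, _, hgap, hDD⟩ := hp1
    obtain ⟨i, hi, hv, h5⟩ := hT p h0 hp2 h2 h3 f f' hf1 hf1' hgap
    rw [Finset.mem_biUnion]
    refine ⟨i, hi, Finset.mem_filter.2 ⟨hp', h5, ?_, ?_⟩⟩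
    · rw [hv]; exact hgap
    · rw [hv]; exact hDD
  have hWp : ∀ i ∈ I, ∀ p ∈ W i, p.Prime := fun i _ p hp => hprime p (Finset.mem_filter.1 hp).1
  calc ∏ p ∈ S, pf p ≤ ∏ p ∈ I.biUnion W, pf p := by
        refine prod_pf_mono hcov fun p hp => ?_
        obtain ⟨i, hi, hpi⟩ := Finset.mem_biUnion.1 hp
        exact hWp i hi p hpi
    _ ≤ ∏ i ∈ I, ∏ p ∈ W i, pf p := prod_pf_biUnion I W hWp
    _ ≤ ∏ i ∈ I, Real.exp (2 * E i / (P i * Real.log (P i))) := by
        refine Finset.prod_le_prod (fun i hi => (prod_pf_pos (hWp i hi)).le) fun i hi => ?_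
        have hPi := hP i hi
        have hP0 : 0 < P i := by linarith
        have hl : 0 < Real.log (P i) := Real.log_pos hPi
        by_cases hgap : gap (v i).1 (v i).2 s s' h = 0
        · have hemp : W i = ∅ := by
            rw [hW]
            refine Finset.filter_eq_empty_iff.2 fun p _ hc => hc.2.1 hgap
          rw [hemp, Finset.prod_empty]
          refine Real.one_le_exp ?_
          have := hE0 i hi
          positivity
        have hD0 : D0 g s s' h (v i).1 (v i).2 ≠ 0 := fun hc =>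
          hgap ((D0_eq_zero hg hs hcop).1 hc)
        refine (prod_pf_dvd_le hD0 hPi (A := W i) fun p hp => ?_).trans (Real.exp_le_exp.2 ?_)
        · obtain ⟨h1, h2, _, h3⟩ := Finset.mem_filter.1 hp
          exact ⟨hprime p h1, h2, h3⟩
        · exact div_le_div_of_nonneg_right (by linarith [hE i hi hgap]) (by positivity)
    _ = _ := by rw [← Real.exp_sum]

open Classical in
/-- the same for a good pair of an F-Λ structure:
`E i = log (k k' (D + D' + L')/g)` -/
theorem prod_setN_idx_good {ι : Type*} {M : ℕ} {F : FL M} {Fc : ℕ → ℕ → Option ℚ}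
    {g q q' s s' : ℕ} {γ : ℝ} (hM : 0 < M) (hb : g * s ∣ M) (hc : g * s' ∣ M) (hs : 0 < s)
    (hcop : Nat.Coprime s s') (h : ℤ) (y : ℝ) (I : Finset ι) (v : ι → ℚ × ℚ)
    (P E : ι → ℝ) (hP : ∀ i ∈ I, 1 < P i)
    (hT : ∀ p ∈ (q * q').primeFactors, y ≤ p → ¬ p ∣ s → ¬ p ∣ s' → ∀ f f', Fc q p = some f →
      Fc q' p = some f' → gap f f' s s' h ≠ 0 → ∃ i ∈ I, v i = (f, f') ∧ P i ≤ p)
    (hE0 : ∀ i ∈ I, 0 ≤ E i)
    (hC : ∀ i ∈ I, ∃ x x' k k' : ℕ, IsC F x (g * s) k (v i).1 ∧ IsC F x' (g * s') k' (v i).2 ∧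
      F.good x (g * s) (g * s') ∧ F.good x' (g * s) (g * s') ∧
      (k : ℝ) * k' * (((g * s : ℕ) : ℝ) * |γ - (v i).1| + ((g * s' : ℕ) : ℝ) * |γ - (v i).2| +
        g * |((s : ℝ) - s') * γ + h|) ≤ g * Real.exp (E i)) :
    ∏ p ∈ (setN Fc g q q' s s' h).filter (fun p : ℕ => y ≤ (p : ℝ)), pf p ≤
      Real.exp (∑ i ∈ I, 2 * E i / (P i * Real.log (P i))) := by
  have hg0 : g * s ≠ 0 := (Nat.pos_of_dvd_of_pos hb hM).ne'
  have hg : 0 < g := Nat.pos_of_ne_zero fun h => hg0 (by rw [h, zero_mul])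
  have hgR : (0 : ℝ) < g := by exact_mod_cast hg
  refine prod_setN_idx hg hs hcop h y I v P E hP hT hE0 fun i hi hgap => ?_
  obtain ⟨x, x', k, k', hf, hf', hx, hx', hle⟩ := hC i hi
  have h1 := (D0_abs_good (γ := γ) hM hb hc hs hcop h hf hf' hx hx').trans hle
  have hD0 : D0 g s s' h (v i).1 (v i).2 ≠ 0 := fun hc => hgap ((D0_eq_zero hg hs hcop).1 hc)
  have h2 : (1 : ℝ) ≤ |(D0 g s s' h (v i).1 (v i).2 : ℝ)| := by
    exact_mod_cast Int.one_le_abs hD0
  have h3 : |(D0 g s s' h (v i).1 (v i).2 : ℝ)| ≤ Real.exp (E i) := by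
    rw [mul_comm (g : ℝ)] at h1
    exact le_of_mul_le_mul_right h1 hgR
  calc Real.log |(D0 g s s' h (v i).1 (v i).2 : ℝ)| ≤ Real.log (Real.exp (E i)) :=
        Real.log_le_log (by linarith) h3
    _ = E i := Real.log_exp _

end Crest.Agent.R4C.S7dx14
end

-- ▼ part R4C/Pair_14

/-!
# Row 4: glue between the classification S2 at the cut `P0` and the tree centres (helper14)

`b = g s`, `c = g s'`, `s, s'` coprime, good at the cut `x` (`= P0`), linked with offset `h` at
the scale `T` (`T L ≤ g ≤ 2 T L`).  Low words `low x s`, `low x s'`; targets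
`upp x s * γ`, `upp x s' * γ`, `upp x s = lam x b * ell x c` (`upp_cof`).

* `TC F γ L E x b a k` : `a/k` is a tree label of `b` at the cut `x`; the centre is
  `fr F x b a k = a / (k lam x b)`; `TC_unique`, `TC.isC`, `TC.disp_le`;
* `UD` : unexplained deficit (literal relation of `LemQ_491`);
* **`pair_glue`** : `Rare`, `Dom`, `UD b c`, `UD c b`, or both members have tree labels whose
  centres are the same point, not short, and some prime `p ≤ x` of `al` or `al'` exists;
* `dvd_al_of_dvd` : a differing prime not dividing the denominator is explained;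
* `dvd_al_of_kill` : a killing prime is explained.
-/

set_option autoImplicit false

namespace Crest.Agent.R4C.Pairx14

open Crest.Agent.R4C.FLDefx935 Crest.Agent.R4C.BoostCx972 Crest.Agent.R4C.CrCoinx935
  Crest.Agent.R4C.S7cx14 Crest.Agent.R4C.S7dx14 Crest.Agent.R4C.Chainx81
  Crest.Agent.R4C.Cutx50 Crest.Agent.R4C.S2bx284 Crest.Agent.R4C.S2x232
  Crest.Agent.R4C.Centx949

variable {M : ℕ} {F : FL M}

/-! ### explained primes -/

section expl

variable {g s s' : ℕ} {h : ℤ} {f f' : ℚ}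

/-- a differing prime (`p ∣ s'`) not dividing the denominator of the centre of `c = g s'` divides
`al'` (any centre of `b`, no hypothesis on the points) -/
lemma dvd_al_of_dvd (hg : 0 < g) (hs : 0 < s) (hcop : Nat.Coprime s s') {p : ℕ} (hp : p.Prime)
    (hps : p ∣ s') (hden : ¬ p ∣ f'.den) : p ∣ alC (g * s') (g * s) f' f := by
  have hb0 : 0 < g * s := Nat.mul_pos hg hs
  have he := eC_pos hb0 (g * s') f f'
  have h1 : alC (g * s') (g * s) f' f * eC (g * s) (g * s') f f' * Nat.gcd (g * s') f'.den =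
      g * s' := by
    rw [eC_comm, alC_mul, mul_comm, gnum_mul]
  obtain ⟨u, hu⟩ := eC_dvd_g (g := g) hcop f f'
  have h2 : alC (g * s') (g * s) f' f * Nat.gcd (g * s') f'.den = u * s' := by
    refine Nat.eq_of_mul_eq_mul_left he ?_
    calc eC (g * s) (g * s') f f' * (alC (g * s') (g * s) f' f * Nat.gcd (g * s') f'.den)
        = alC (g * s') (g * s) f' f * eC (g * s) (g * s') f f' * Nat.gcd (g * s') f'.den := by ring
      _ = g * s' := h1
      _ = (eC (g * s) (g * s') f f' * u) * s' := by rw [← hu]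
      _ = _ := by ring
  have h3 : p ∣ alC (g * s') (g * s) f' f * Nat.gcd (g * s') f'.den := by
    rw [h2]; exact hps.mul_left _
  exact ((hp.dvd_mul).1 h3).resolve_right fun hc => hden (hc.trans (Nat.gcd_dvd_right _ _))


/-- **a killing prime is explained** -/
lemma dvd_al_of_kill (hg : 0 < g) (hs : 0 < s) (hs' : 0 < s') (hcop : Nat.Coprime s s')
    (h0 : gap f f' s s' h = 0) {p : ℕ} (hp : p.Prime) (hps' : p ∣ s') (hps : ¬ p ∣ s)
    (hden : ¬ p ∣ f.den)
    (hk : ∀ c : ℤ, (p : ℤ) ∣ f.num + f.den * c → (p : ℤ) ∣ h - s * c) :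
    p ∣ alC (g * s') (g * s) f' f := by
  have hpz : Prime (p : ℤ) := Nat.prime_iff_prime_int.1 hp
  obtain ⟨n, n', hn⟩ := exists_shift hcop h
  have h1 := al_mul_eq hg hs hs' hcop h0 hn
  have hc := cls_spec hp hden
  have h2 := hk _ hc
  have hps'z : (p : ℤ) ∣ s' := Int.natCast_dvd_natCast.2 hps'
  have h3 : (p : ℤ) ∣ s * (n - cls f p) := by
    have e : (s : ℤ) * (n - cls f p) = (h - s * cls f p) + s' * n' := by rw [hn]; ring
    rw [e]
    exact dvd_add h2 (hps'z.mul_right _)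
  have h4 : (p : ℤ) ∣ n - cls f p :=
    (hpz.dvd_or_dvd h3).resolve_left fun hc => hps (Int.natCast_dvd_natCast.1 hc)
  have h5 : (p : ℤ) ∣ f.num + n * f.den := by
    have e : f.num + n * f.den = (f.num + f.den * cls f p) + f.den * (n - cls f p) := by ring
    rw [e]
    exact dvd_add hc (h4.mul_left _)
  have h6 : (p : ℤ) ∣ (alC (g * s') (g * s) f' f : ℤ) * (f'.num + n' * f'.den) := by
    rw [← h1]
    exact h5.mul_left _
  by_contra hcon
  have h7 : (p : ℤ) ∣ f'.num + n' * f'.den :=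
    (hpz.dvd_or_dvd h6).resolve_left fun hc => hcon (Int.natCast_dvd_natCast.1 hc)
  have hden' : ¬ p ∣ f'.den := by
    intro hd
    have h8 : (p : ℤ) ∣ f'.den := Int.natCast_dvd_natCast.2 hd
    have h9 : (p : ℤ) ∣ f'.num := by
      have e : f'.num = (f'.num + n' * f'.den) - n' * f'.den := by ring
      rw [e]
      exact dvd_sub h7 (h8.mul_left _)
    have h10 : p ∣ Nat.gcd f'.num.natAbs f'.den := Nat.dvd_gcd (Int.natCast_dvd.1 h9) hd
    rw [f'.reduced] at h10
    exact hp.one_lt.ne' (Nat.dvd_one.1 h10)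
  exact hcon (dvd_al_of_dvd hg hs hcop hp hps' hden')

lemma dvd_al_of_kill' (hg : 0 < g) (hs : 0 < s) (hs' : 0 < s') (hcop : Nat.Coprime s s')
    (h0 : gap f f' s s' h = 0) {p : ℕ} (hp : p.Prime) (hps : p ∣ s) (hps' : ¬ p ∣ s')
    (hden : ¬ p ∣ f'.den)
    (hk : ∀ c : ℤ, (p : ℤ) ∣ f'.num + f'.den * c → (p : ℤ) ∣ h + s' * c) :
    p ∣ alC (g * s) (g * s') f f' := by
  refine dvd_al_of_kill hg hs' hs hcop.symm (gap_symm h0) hp hps hps' hden fun c hc => ?_
  have e : -h - (s' : ℤ) * c = -(h + s' * c) := by ring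
  rw [e]
  exact (dvd_neg).2 (hk c hc)

end expl

/-! ### tree labels -/

/-- `a/k` is a tree label of `b` at the cut `x` (depth parameter `E`) -/
structure TC (F : FL M) (γ L E : ℝ) (x b : ℕ) (a : ℤ) (k : ℕ) : Prop where
  pos : 0 < k
  cop : IsCoprime a (k : ℤ)
  le : (k : ℝ) ≤ E
  near : (F.uu x b : ℝ) * |(F.lam x b : ℝ) * γ - a / k| ≤ E * L

lemma TC.mono {γ L E E' : ℝ} {x b : ℕ} {a : ℤ} {k : ℕ} (hL : 0 ≤ L) (hE : E ≤ E')
    (h : TC F γ L E x b a k) : TC F γ L E' x b a k :=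
  ⟨h.pos, h.cop, h.le.trans hE, h.near.trans (mul_le_mul_of_nonneg_right hE hL)⟩

/-- the denominator of the centre -/
lemma fr_den_dvd {x b : ℕ} (a : ℤ) (k : ℕ) : (fr F x b a k).den ∣ k * F.lam x b := by
  have h := Rat.den_dvd a ((k * F.lam x b : ℕ) : ℤ)
  rw [Rat.divInt_eq_div] at h
  have e : (fr F x b a k) = (a : ℚ) / (((k * F.lam x b : ℕ) : ℤ) : ℚ) := by
    unfold fr; push_cast; rfl
  rw [e]
  exact_mod_cast h

lemma TC.isC {γ L E : ℝ} {x b : ℕ} {a : ℤ} {k : ℕ} (h : TC F γ L E x b a k) :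
    IsC F x b k (fr F x b a k) := ⟨h.pos, fr_den_dvd a k⟩

lemma TC.disp_le {γ L E : ℝ} {x b : ℕ} {a : ℤ} {k : ℕ} (hM : 0 < M) (hb : b ∣ M)
    (h : TC F γ L E x b a k) : disp γ b (fr F x b a k) ≤ E * L := by
  rw [disp_fr hM hb a h.pos γ]; exact h.near


/-- `uu ≥ g` for a good pair -/
lemma uu_ge {x : ℕ} {g s s' : ℕ} (hM : 0 < M) (hb : g * s ∣ M) (hc : g * s' ∣ M)
    (hcop : Nat.Coprime s s') (hx : F.good x (g * s) (g * s')) : g ≤ F.uu x (g * s) := by
  have h1 := gcd_le_uu hM hb hc hx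
  rwa [Nat.gcd_mul_left, hcop.gcd_eq_one, mul_one] at h1

/-- the rough part of the cofactor -/
lemma upp_cof {x g s s' : ℕ} (hM : 0 < M) (hb : g * s ∣ M) (hc : g * s' ∣ M)
    (hcop : Nat.Coprime s s') (hx : F.good x (g * s) (g * s')) :
    upp x s = F.lam x (g * s) * F.ell x (g * s') := by
  have hg0 : g * s ≠ 0 := (Nat.pos_of_dvd_of_pos hb hM).ne'
  have hg : 0 < g := Nat.pos_of_ne_zero fun h => hg0 (by rw [h, zero_mul])
  have hs : 0 < s := Nat.pos_of_ne_zero fun h => hg0 (by rw [h, mul_zero])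
  have h1 := div_gcd hM hb hc hx
  have e1 : Nat.gcd (g * s) (g * s') = g := by
    rw [Nat.gcd_mul_left, hcop.gcd_eq_one, mul_one]
  rw [e1, Nat.mul_div_cancel_left _ hg] at h1
  have hl := FL.lam_pos (F := F) x (g * s)
  have he := FL.ell_pos (F := F) x (g * s')
  have hsig : 0 < sig x (g * s) (g * s') := by
    refine Nat.pos_of_ne_zero fun h => ?_
    rw [h, zero_mul] at h1
    omega
  refine Nat.eq_of_factorization_eq (upp_pos x s).ne' (Nat.mul_pos hl he).ne' fun p => ?_
  rw [fact_upp, Nat.factorization_mul hl.ne' he.ne', Finsupp.add_apply]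
  by_cases hxp : p ≤ x
  · have hx' : ¬ x < p := by omega
    rw [FL.fact_lam hM hb, FL.fact_ell]
    simp [hxp, FL.lamE, FL.ellE, hx']
  · simp only [hxp, not_false_eq_true, if_true]
    have h2 : (sig x (g * s) (g * s')).factorization p = 0 := by
      have hd : sig x (g * s) (g * s') ∣ low x (g * s) :=
        Nat.div_dvd_of_dvd (Nat.gcd_dvd_left _ _)
      have h3 := (Nat.factorization_le_iff_dvd hsig.ne' (low_pos x (g * s)).ne').2 hd p
      rw [fact_low, if_neg hxp] at h3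
      omega
    have h3 : s.factorization p = (sig x (g * s) (g * s') *
        (F.ell x (g * s') * F.lam x (g * s))).factorization p := by rw [← h1]
    rw [h3, Nat.factorization_mul hsig.ne' (Nat.mul_pos he hl).ne',
      Nat.factorization_mul he.ne' hl.ne', Finsupp.add_apply, Finsupp.add_apply, h2]
    omega

/-- **unexplained deficit**: the literal relation of `LemQ_491` between `θ = lam x b * γ` and
`l = ell x c` -/
def UD (F : FL M) (γ T E : ℝ) (x b c : ℕ) : Prop :=
  ∃ (k : ℕ) (a : ℤ), 1 ≤ k ∧ (k : ℝ) ≤ E ∧ IsCoprime a (k : ℤ) ∧ ¬ ((F.ell x c : ℕ) : ℤ) ∣ a ∧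
    |(F.lam x b : ℝ) * γ - (a : ℝ) / (k * (F.ell x c : ℕ))| ≤ E / (T * (F.ell x c : ℕ))

/-- one side of the glue -/
lemma side {γ T E L : ℝ} {x g s s' : ℕ} (hM : 0 < M) (hb : g * s ∣ M) (hc : g * s' ∣ M)
    (hcop : Nat.Coprime s s') (hx : F.good x (g * s) (g * s')) (hT : 0 < T) (hE : 0 ≤ E)
    (hgT : (g : ℝ) ≤ 2 * (T * L)) {a : ℤ} {k : ℕ}
    (hL : Lab (upp x s * γ) E (E / (T * low x s)) a k) :
    UD F γ T E x (g * s) (g * s') ∨ ∃ a₁ : ℤ, a = (F.ell x (g * s') : ℕ) * a₁ ∧
      TC F γ L (2 * E) x (g * s) a₁ k ∧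
      (s : ℚ) * fr F x (g * s) a₁ k = (low x s : ℚ) * a / k := by
  obtain ⟨hk, hcopa, hkE, hd⟩ := hL
  have hg0 : g * s ≠ 0 := (Nat.pos_of_dvd_of_pos hb hM).ne'
  have hs : 0 < s := Nat.pos_of_ne_zero fun h => hg0 (by rw [h, mul_zero])
  have hup := upp_cof hM hb hc hcop hx
  set lam := F.lam x (g * s) with hlam
  set ell := F.ell x (g * s') with hell
  have hl : 0 < lam := FL.lam_pos x _
  have he : 0 < ell := FL.ell_pos x _
  have hlR : (0 : ℝ) < lam := by exact_mod_cast hl
  have heR : (0 : ℝ) < ell := by exact_mod_cast he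
  have hkR : (0 : ℝ) < k := by exact_mod_cast hk
  have hS0 : 0 < low x s := low_pos x s
  have hS0R : (0 : ℝ) < low x s := by exact_mod_cast hS0
  have hupR : (upp x s : ℝ) = lam * ell := by exact_mod_cast hup
  have key : |(lam : ℝ) * γ - (a : ℝ) / (k * ell)| ≤ E / (T * low x s) / ell := by
    rw [le_div_iff₀ heR]
    nth_rewrite 2 [← abs_of_pos heR]
    rw [← abs_mul]
    have e : ((lam : ℝ) * γ - (a : ℝ) / (k * ell)) * ell = upp x s * γ - a / k := by
      rw [hupR]; field_simp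
    rw [e]
    exact hd
  by_cases hdiv : ((ell : ℕ) : ℤ) ∣ a
  · right
    obtain ⟨a₁, ha₁⟩ := hdiv
    refine ⟨a₁, ha₁, ⟨hk, ?_, ?_, ?_⟩, ?_⟩
    · rw [ha₁] at hcopa
      exact hcopa.of_mul_left_right
    · linarith
    · have e1 : (a : ℝ) / (k * ell) = a₁ / k := by
        rw [ha₁]; push_cast; field_simp
      rw [e1] at key
      -- `uu = g low ell`
      have h2 : F.uu x (g * s) * lam = g * s := FL.uu_mul_lam hM hb
      have h3 : low x s * upp x s = s := low_mul_upp x hs.ne'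
      have h4 : F.uu x (g * s) = g * (low x s * ell) := by
        refine Nat.eq_of_mul_eq_mul_right hl ?_
        rw [h2]
        nth_rewrite 1 [← h3]
        rw [hup]; ring
      have h4R : (F.uu x (g * s) : ℝ) = g * (low x s * ell) := by exact_mod_cast h4
      rw [h4R]
      calc (g : ℝ) * (low x s * ell) * |(lam : ℝ) * γ - a₁ / k|
          ≤ (g : ℝ) * (low x s * ell) * (E / (T * low x s) / ell) :=
            mul_le_mul_of_nonneg_left key (by positivity)
        _ = g * (E / T) := by field_simp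
        _ ≤ (2 * (T * L)) * (E / T) := mul_le_mul_of_nonneg_right hgT (by positivity)
        _ = 2 * E * L := by field_simp
    · have h3 : (low x s : ℚ) * upp x s = s := by exact_mod_cast low_mul_upp x hs.ne'
      have hupQ : (upp x s : ℚ) = lam * ell := by exact_mod_cast hup
      have hlQ : (lam : ℚ) ≠ 0 := by exact_mod_cast hl.ne'
      have hkQ : (k : ℚ) ≠ 0 := by
        have : k ≠ 0 := by omega
        exact_mod_cast this
      rw [← h3, hupQ, ha₁]
      unfold fr
      rw [← hlam]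
      push_cast
      field_simp
  · left
    refine ⟨k, a, hk, hkE, hcopa, hdiv, key.trans ?_⟩
    rw [div_div, ← hell]
    refine div_le_div_of_nonneg_left hE (by positivity) ?_
    have h1 : (1 : ℝ) ≤ low x s := by exact_mod_cast hS0
    calc T * (ell : ℝ) = T * 1 * ell := by ring
      _ ≤ T * low x s * ell := by gcongr



/-- differing primes `≤ x` not dividing `k'` are explained by the tree centre of `c` -/
lemma expl_of_not_dvd {x g s s' k' : ℕ} {f f' : ℚ} (hM : 0 < M) (hc : g * s' ∣ M) (hg : 0 < g)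
    (hs : 0 < s) (hcop : Nat.Coprime s s') (hf' : IsC F x (g * s') k' f') {p : ℕ}
    (hp : p.Prime) (hpx : p ≤ x) (hps : p ∣ s') (hpk : ¬ p ∣ k') :
    p ∣ alC (g * s') (g * s) f' f := by
  refine dvd_al_of_dvd hg hs hcop hp hps fun hd => ?_
  rcases (hp.dvd_mul).1 (hd.trans hf'.2) with h1 | h1
  · exact hpk h1
  · have := (FL.prime_dvd_lam hM hc hp h1).1
    omega

/-- the common centre kills at every explained prime: an unkilled pair does not use it there -/
theorem unkilled_ne {Fc : ℕ → ℕ → Option ℚ} {lam : ℕ → ℕ → Option ℤ} (hF : IsLab Fc lam)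
    {q q' g s s' p : ℕ} {h : ℤ} {f f' : ℚ} (hg : 0 < g) (hs : 0 < s) (hs' : 0 < s')
    (hcop : Nat.Coprime s s') (h0 : gap f f' s s' h = 0) (hk : ¬ killedL lam q q' s s' h)
    (hp : p.Prime) (hpa : p ∣ alC (g * s') (g * s) f' f) : Fc q p ≠ some f :=
  fun hc => hk (killedL_of_al' hF hg hs hs' hcop h0 hp hpa hc)

theorem unkilled_ne' {Fc : ℕ → ℕ → Option ℚ} {lam : ℕ → ℕ → Option ℤ} (hF : IsLab Fc lam)
    {q q' g s s' p : ℕ} {h : ℤ} {f f' : ℚ} (hg : 0 < g) (hs : 0 < s) (hs' : 0 < s')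
    (hcop : Nat.Coprime s s') (h0 : gap f f' s s' h = 0) (hk : ¬ killedL lam q q' s s' h)
    (hp : p.Prime) (hpa : p ∣ alC (g * s) (g * s') f f') : Fc q' p ≠ some f' :=
  fun hc => hk (killedL_of_al hF hg hs hs' hcop h0 hp hpa hc)

end Crest.Agent.R4C.Pairx14
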