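import Crest.Agent.R4C.Base_935
import Crest.Agent.Lib.Mertens
import Crest.Agent.R4C.LowTau_808
import Crest.Agent.R4C.ThmR_19
import Crest.Agent.R4C.MXlowB_808
import Crest.Agent.R4C.RelTail_808
import Crest.Agent.R4C.HVWt_19

-- ▼ part R4C/RareCor_590
section

/-!
# Row 4: "RARE AS A STATEMENT" (note 3174) from 442's THEOREM RARE (helper590)

`RareThm κ A C` = the literal statement of 442's `rare_thm` (hypothesis here).

* `rare_gen`  : low relation of natural density `≤ B (log Y)^b T^{-c}` for all fixed high words,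
  `log Y ≤ A₁ log T`: `(log Y)^{C₀} L ∑_{TL ≤ gcd < 2TL} gcd ν ν f f' K
    ≤ C T^{-c/100} ((L ν f)(L ν f'))^κ`, `κ = 1/2 + c/256`;
* `rare_box`  : 284's / 808's rare boxes (`KRare`, `D ≥ T^{c}`);
* `rare_word` : one word `(u,v)` with `u v ≥ T^{c}` for every pair of high words;
* `rare_deep` : labelled, not short, depth `≥ T^{c}` (`KDeep`).
-/

set_option autoImplicit false

open Finset

namespace Crest.Agent.R4C.RareCorx590

open Basex935 Cutx50 MXlowx808 RelTailx808 RelRarex808 LowTaux808 S2x232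

/-- 442's THEOREM RARE as a statement -/
def RareThm (κ A C : ℝ) : Prop :=
  ∀ (M Y : ℕ) (f f' : ℕ → ℝ) (K : ℕ → ℕ → ℝ) (k : ℕ → ℕ → ℕ → ℕ → ℝ) (τ X : ℝ),
    0 < M → 8 ≤ Y → (∀ b, 0 ≤ f b) → (∀ b, f b ≤ 1) → (∀ b, 0 ≤ f' b) → (∀ b, f' b ≤ 1) →
    (∀ b c, 0 ≤ K b c) → (∀ T T' s t, 0 ≤ k T T' s t) → (∀ T T' s t, k T T' s t ≤ 1) →
    (∀ T T', T ∣ upp Y M → T' ∣ upp Y M → MXlowx808.dens (low Y M) (k T T') ≤ τ) →
    (∀ T T' n n', T ∣ upp Y M → T' ∣ upp Y M → n ∣ low Y M → n' ∣ low Y M →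
      K (n * T) (n' * T') ≤ k T T' (n / Nat.gcd n n') (n' / Nat.gcd n n')) →
    τ ≤ 1 → 0 < X →
    ∑ b ∈ M.divisors, ∑ c ∈ M.divisors,
        (if X ≤ (Nat.gcd b c : ℝ) ∧ (Nat.gcd b c : ℝ) < 2 * X then
          (Nat.gcd b c : ℝ) * nu M b * nu M c * (f b * f' c * K b c) else 0) ≤
      C * Real.log Y ^ A * τ ^ ((1 - κ) / 8) * X ^ (2 * κ - 1) * ((Ex M f) ^ κ * (Ex M f') ^ κ)

lemma dens_le_one {N : ℕ} (hN : 0 < N) {K : ℕ → ℕ → ℝ}
    (hK : ∀ s t, K s t ≤ 1) : MXlowx808.dens N K ≤ 1 := by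
  unfold MXlowx808.dens
  calc _ ≤ ∑ s ∈ N.divisors, ∑ t ∈ N.divisors, nu N s * nu N t := by
        refine sum_le_sum fun s _ => sum_le_sum fun t _ => ?_
        have hn : 0 ≤ nu N s * nu N t := mul_nonneg (nu_nonneg _ _) (nu_nonneg _ _)
        split_ifs
        · calc nu N s * nu N t * K s t ≤ nu N s * nu N t * 1 :=
                mul_le_mul_of_nonneg_left (hK s t) hn
            _ = _ := mul_one _
        · exact hn
    _ = 1 := by
        rw [← Finset.sum_mul_sum, sum_nu hN, one_mul]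

/-- a power of the logarithm against a small power -/
lemma log_pow_le {A₁ p ε : ℝ} (hA : 0 ≤ A₁) (hp : 0 ≤ p) (hε : 0 < ε) :
    ∃ C : ℝ, 0 < C ∧ ∀ l T : ℝ, 1 ≤ l → 1 ≤ T → l ≤ A₁ * Real.log T → l ^ p ≤ C * T ^ ε := by
  set q : ℝ := p + 1 with hq
  have hq0 : 0 < q := by linarith
  refine ⟨(A₁ * (q / ε)) ^ q + 1, by positivity, ?_⟩
  intro l T hl hT hlT
  have h1 : Real.log T ≤ T ^ (ε / q) / (ε / q) :=
    Real.log_le_rpow_div (by linarith) (by positivity)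
  have h2 : l ≤ A₁ * (q / ε) * T ^ (ε / q) := by
    calc l ≤ A₁ * Real.log T := hlT
      _ ≤ A₁ * (T ^ (ε / q) / (ε / q)) := mul_le_mul_of_nonneg_left h1 hA
      _ = _ := by field_simp
  have hT0 : 0 ≤ T := by linarith
  calc l ^ p ≤ l ^ q := Real.rpow_le_rpow_of_exponent_le hl (by linarith)
    _ ≤ (A₁ * (q / ε) * T ^ (ε / q)) ^ q := Real.rpow_le_rpow (by linarith) h2 hq0.le
    _ = (A₁ * (q / ε)) ^ q * T ^ ε := by
        rw [Real.mul_rpow (by positivity) (by positivity), ← Real.rpow_mul hT0]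
        congr 2; field_simp
    _ ≤ ((A₁ * (q / ε)) ^ q + 1) * T ^ ε := by
        refine mul_le_mul_of_nonneg_right (by linarith) (Real.rpow_nonneg hT0 _)

lemma log_ge_one {Y : ℕ} (hY : 8 ≤ Y) : 1 ≤ Real.log Y := by
  have hy8 : (8 : ℝ) ≤ Y := by exact_mod_cast hY
  have : 2 ≤ Real.log Y := log_eight.trans (Real.log_le_log (by norm_num) hy8)
  linarith

/-- **generic form**: low relation of natural density `≤ B (log Y)^b T^{-c}` -/
theorem rare_gen {c A C : ℝ} (hc : 0 < c) (hc1 : c ≤ 1) (hA : 0 ≤ A) (hC : 0 ≤ C)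
    (hR : RareThm (1 / 2 + c / 256) A C) {A₁ B b C₀ : ℝ} (hA₁ : 0 ≤ A₁) (hB : 1 ≤ B) (hb : 0 ≤ b)
    (hC₀ : 0 ≤ C₀) :
    ∃ C' : ℝ, 0 < C' ∧ ∀ (M Y : ℕ) (f f' : ℕ → ℝ) (K : ℕ → ℕ → ℝ) (k : ℕ → ℕ → ℕ → ℕ → ℝ)
      (T L : ℝ), 0 < M → 8 ≤ Y → 1 ≤ T → 0 < L → Real.log Y ≤ A₁ * Real.log T →
      (∀ b, 0 ≤ f b) → (∀ b, f b ≤ 1) → (∀ b, 0 ≤ f' b) → (∀ b, f' b ≤ 1) →
      (∀ b c, 0 ≤ K b c) → (∀ U U' s t, 0 ≤ k U U' s t) → (∀ U U' s t, k U U' s t ≤ 1) →
      (∀ U U', U ∣ upp Y M → U' ∣ upp Y M →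
        MXlowx808.dens (low Y M) (k U U') ≤ B * Real.log Y ^ b * T ^ (-c)) →
      (∀ U U' n n', U ∣ upp Y M → U' ∣ upp Y M → n ∣ low Y M → n' ∣ low Y M →
        K (n * U) (n' * U') ≤ k U U' (n / Nat.gcd n n') (n' / Nat.gcd n n')) →
      Real.log Y ^ C₀ * (L * ∑ b ∈ M.divisors, ∑ c ∈ M.divisors,
        (if T * L ≤ (Nat.gcd b c : ℝ) ∧ (Nat.gcd b c : ℝ) < 2 * (T * L) then
          (Nat.gcd b c : ℝ) * nu M b * nu M c * (f b * f' c * K b c) else 0)) ≤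
      C' * T ^ (-(c / 100)) * ((L * Ex M f) * (L * Ex M f')) ^ (1 / 2 + c / 256) := by
  set κ : ℝ := 1 / 2 + c / 256 with hκ
  have hκ0 : 0 < κ := by rw [hκ]; linarith
  have hκ1 : κ < 1 := by rw [hκ]; linarith
  set e : ℝ := (1 - κ) / 8 with he
  have he0 : 0 < e := by rw [he]; linarith
  obtain ⟨C1, hC1, hlog⟩ := log_pow_le (A₁ := A₁) (p := A + b * e + C₀) (ε := c / 50) hA₁
    (by positivity) (by linarith)
  refine ⟨C * B ^ e * C1 + 1, by positivity, ?_⟩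
  intro M Y f f' K k T L hM hY hT hL hYT hf hf1 hf' hf1' hK hk hk1 hdens hKk
  have hl1 := log_ge_one hY
  have hl0 : 0 < Real.log Y := by linarith
  have hT0 : 0 < T := by linarith
  set τ : ℝ := min 1 (B * Real.log Y ^ b * T ^ (-c)) with hτ
  have hτ0 : 0 ≤ τ := le_min zero_le_one (by positivity)
  have hd : ∀ U U', U ∣ upp Y M → U' ∣ upp Y M → MXlowx808.dens (low Y M) (k U U') ≤ τ :=
    fun U U' h1 h2 => le_min (dens_le_one (low_pos Y M) (hk1 U U')) (hdens U U' h1 h2)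
  have hmain := hR M Y f f' K k τ (T * L) hM hY hf hf1 hf' hf1' hK hk hk1 hd hKk (min_le_left _ _)
    (by positivity)
  have hE : 0 ≤ Ex M f := Ex_nonneg M hf
  have hE' : 0 ≤ Ex M f' := Ex_nonneg M hf'
  -- the power of τ
  have hτe : τ ^ e ≤ B ^ e * Real.log Y ^ (b * e) * T ^ (-(c * e)) := by
    calc τ ^ e ≤ (B * Real.log Y ^ b * T ^ (-c)) ^ e :=
          Real.rpow_le_rpow hτ0 (min_le_right _ _) he0.le
      _ = B ^ e * Real.log Y ^ (b * e) * T ^ (-(c * e)) := by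
          rw [Real.mul_rpow (by positivity) (by positivity), Real.mul_rpow (by linarith)
            (by positivity), ← Real.rpow_mul hl0.le, ← Real.rpow_mul hT0.le]
          congr 2; ring
  -- masses
  have hmass : L * ((T * L) ^ (2 * κ - 1) * ((Ex M f) ^ κ * (Ex M f') ^ κ)) =
      T ^ (2 * κ - 1) * ((L * Ex M f) * (L * Ex M f')) ^ κ := by
    have h1 : ((L * Ex M f) * (L * Ex M f')) ^ κ = L ^ (2 * κ) * ((Ex M f) ^ κ * (Ex M f') ^ κ) := by
      rw [Real.mul_rpow (by positivity) (by positivity), Real.mul_rpow hL.le hE,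
        Real.mul_rpow hL.le hE', show 2 * κ = κ + κ by ring, Real.rpow_add hL κ κ]
      ring
    rw [h1, Real.mul_rpow hT0.le hL.le]
    have h2 : L * L ^ (2 * κ - 1) = L ^ (2 * κ) := by
      calc L * L ^ (2 * κ - 1) = L ^ (1 : ℝ) * L ^ (2 * κ - 1) := by rw [Real.rpow_one]
        _ = L ^ (2 * κ) := by rw [← Real.rpow_add hL]; congr 1; ring
    calc L * (T ^ (2 * κ - 1) * L ^ (2 * κ - 1) * ((Ex M f) ^ κ * (Ex M f') ^ κ))
        = T ^ (2 * κ - 1) * ((L * L ^ (2 * κ - 1)) * ((Ex M f) ^ κ * (Ex M f') ^ κ)) := by ring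
      _ = _ := by rw [h2]
  set mm : ℝ := ((L * Ex M f) * (L * Ex M f')) ^ κ with hmm
  have hmm0 : 0 ≤ mm := Real.rpow_nonneg (by positivity) _
  have hlp := hlog (Real.log Y) T hl1 hT hYT
  -- combine
  have hX : 0 ≤ (T * L) ^ (2 * κ - 1) * ((Ex M f) ^ κ * (Ex M f') ^ κ) := by positivity
  calc Real.log Y ^ C₀ * (L * ∑ b ∈ M.divisors, ∑ c ∈ M.divisors,
        (if T * L ≤ (Nat.gcd b c : ℝ) ∧ (Nat.gcd b c : ℝ) < 2 * (T * L) then
          (Nat.gcd b c : ℝ) * nu M b * nu M c * (f b * f' c * K b c) else 0))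
      ≤ Real.log Y ^ C₀ * (L * (C * Real.log Y ^ A * τ ^ e * (T * L) ^ (2 * κ - 1) *
          ((Ex M f) ^ κ * (Ex M f') ^ κ))) := by
        refine mul_le_mul_of_nonneg_left (mul_le_mul_of_nonneg_left hmain hL.le) (by positivity)
    _ = C * Real.log Y ^ C₀ * Real.log Y ^ A * τ ^ e *
          (L * ((T * L) ^ (2 * κ - 1) * ((Ex M f) ^ κ * (Ex M f') ^ κ))) := by ring
    _ = C * Real.log Y ^ C₀ * Real.log Y ^ A * τ ^ e * (T ^ (2 * κ - 1) * mm) := by rw [hmass]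
    _ ≤ C * Real.log Y ^ C₀ * Real.log Y ^ A *
          (B ^ e * Real.log Y ^ (b * e) * T ^ (-(c * e))) * (T ^ (2 * κ - 1) * mm) := by
        refine mul_le_mul_of_nonneg_right (mul_le_mul_of_nonneg_left hτe (by positivity))
          (by positivity)
    _ = C * B ^ e * Real.log Y ^ (A + b * e + C₀) * (T ^ (-(c * e)) * T ^ (2 * κ - 1)) * mm := by
        rw [Real.rpow_add hl0, Real.rpow_add hl0]; ring
    _ ≤ C * B ^ e * (C1 * T ^ (c / 50)) * (T ^ (-(c * e)) * T ^ (2 * κ - 1)) * mm := by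
        refine mul_le_mul_of_nonneg_right (mul_le_mul_of_nonneg_right
          (mul_le_mul_of_nonneg_left hlp (by positivity)) (by positivity)) hmm0
    _ = C * B ^ e * C1 * (T ^ (c / 50 + -(c * e) + (2 * κ - 1))) * mm := by
        rw [Real.rpow_add hT0, Real.rpow_add hT0]; ring
    _ ≤ C * B ^ e * C1 * T ^ (-(c / 100)) * mm := by
        refine mul_le_mul_of_nonneg_right (mul_le_mul_of_nonneg_left ?_ (by positivity)) hmm0
        refine Real.rpow_le_rpow_of_exponent_le hT ?_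
        rw [he, hκ]
        nlinarith
    _ ≤ (C * B ^ e * C1 + 1) * T ^ (-(c / 100)) * mm := by
        refine mul_le_mul_of_nonneg_right (mul_le_mul_of_nonneg_right (by linarith)
          (by positivity)) hmm0

/-! ### cofactors of `n U`, `n' U'` -/

lemma cof_cut {M Y U U' n n' : ℕ} (hU : U ∣ upp Y M) (hU' : U' ∣ upp Y M)
    (hn : n ∣ low Y M) (hn' : n' ∣ low Y M) :
    (n * U) / Nat.gcd (n * U) (n' * U') = (n / Nat.gcd n n') * (U / Nat.gcd U U') := by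
  have hco : Nat.Coprime (low Y M) (upp Y M) := by
    rw [Nat.coprime_iff_gcd_eq_one]
    by_contra h
    obtain ⟨p, hp, hpd⟩ := Nat.exists_prime_and_dvd h
    have h1 := hpd.trans (Nat.gcd_dvd_left _ _)
    have h2 := hpd.trans (Nat.gcd_dvd_right _ _)
    have h3 := prime_low hp h1
    have h4 : ¬ p ≤ Y := prime_dvd_part (fun p => ¬ p ≤ Y) hp h2
    exact h4 h3
  have c1 : Nat.Coprime n' U' := Nat.Coprime.coprime_dvd_left hn'
    (Nat.Coprime.coprime_dvd_right hU' hco)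
  have c2 : Nat.Coprime U n' := (Nat.Coprime.coprime_dvd_left hn'
    (Nat.Coprime.coprime_dvd_right hU hco)).symm
  have c3 : Nat.Coprime n U' := Nat.Coprime.coprime_dvd_left hn
    (Nat.Coprime.coprime_dvd_right hU' hco)
  have e : Nat.gcd (n * U) (n' * U') = Nat.gcd n n' * Nat.gcd U U' := by
    rw [Nat.Coprime.gcd_mul _ c1, Nat.Coprime.gcd_mul_right_cancel n c2,
      Nat.Coprime.gcd_mul_left_cancel U c3]
  rw [e]
  exact Nat.mul_div_mul_comm (Nat.gcd_dvd_left n n') (Nat.gcd_dvd_left U U')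

lemma low_cof {M Y U U' n n' : ℕ} (hU : U ∣ upp Y M) (hU' : U' ∣ upp Y M)
    (hn : n ∣ low Y M) (hn' : n' ∣ low Y M) :
    low Y ((n * U) / Nat.gcd (n * U) (n' * U')) = n / Nat.gcd n n' ∧
      upp Y ((n * U) / Nat.gcd (n * U) (n' * U')) = U / Nat.gcd U U' := by
  rw [cof_cut hU hU' hn hn']
  have h1 : n / Nat.gcd n n' ∣ low Y M := (Nat.div_dvd_of_dvd (Nat.gcd_dvd_left _ _)).trans hn
  have h2 : U / Nat.gcd U U' ∣ upp Y M := (Nat.div_dvd_of_dvd (Nat.gcd_dvd_left _ _)).trans hU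
  exact ⟨low_of_mul h1 h2, upp_of_mul h1 h2⟩

/-! ### rare boxes -/

open Classical in
/-- rare boxes for fixed targets -/
noncomputable def KRx (ξ ξ' t D : ℝ) (u v : ℕ) : ℝ :=
  if near (u * ξ - v * ξ') (1 / t) ∧ S2bx284.Rare ξ ξ' t D u v then 1 else 0

lemma KRx_nonneg (ξ ξ' t D : ℝ) (u v : ℕ) : 0 ≤ KRx ξ ξ' t D u v := by
  unfold KRx; split_ifs <;> norm_num

lemma KRx_le_one (ξ ξ' t D : ℝ) (u v : ℕ) : KRx ξ ξ' t D u v ≤ 1 := by
  unfold KRx; split_ifs <;> norm_num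

theorem dens_KRx (M : ℕ) {y : ℕ} (hy : 8 ≤ y) {ξ ξ' t D : ℝ} (hD : 1 ≤ D) :
    MXlowx808.dens (low y M) (KRx ξ ξ' t D) ≤
      (2 * Real.exp 14 + 8) * ((1 + 2 * Real.log y * Real.log D) ^ 2 / D) := by
  classical
  have hD0 : 0 < D := by linarith
  have hl : 0 ≤ Real.log D := Real.log_nonneg hD
  obtain ⟨hz, hZ, htail, hlog⟩ := choice hy hl
  set z := Real.exp (Real.log y * Real.log D) with hzdef
  set W := (1 + 2 * Real.log y * Real.log D) ^ 2 with hW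
  have hly := log_ge_one hy
  have hW1 : 1 ≤ W := by
    rw [hW]
    apply one_le_pow₀
    have : 0 ≤ 2 * Real.log y * Real.log D := by positivity
    linarith
  have h := dens_low (M := M) (Z := ⌊z⌋₊) hy hz hZ
    (fun u v => near ((u : ℝ) * ξ - v * ξ') (1 / t) ∧ S2bx284.Rare ξ ξ' t D u v)
    (KRx ξ ξ' t D) (β := 8 * W / D)
    (by
      refine (@Class2x992.rare_mass D t ξ ξ' hD0 ⌊z⌋₊ _
        (fun _ _ => Classical.propDecidable _) fun u v huv => huv).trans ?_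
      exact div_le_div_of_nonneg_right (mul_le_mul_of_nonneg_left hlog (by norm_num)) hD0.le)
    (fun u v _ _ _ => by
      unfold KRx
      split_ifs with h1
      · exact le_rfl
      · exact le_rfl)
  refine h.trans ?_
  rw [htail, Real.exp_neg, Real.exp_log hD0]
  have h1 : D⁻¹ ≤ W / D := by
    rw [div_eq_mul_inv]
    exact le_mul_of_one_le_left (by positivity) hW1
  have h2 : 0 < Real.exp 14 := Real.exp_pos _
  calc 2 * (Real.exp 14 * D⁻¹) + 8 * W / D = 2 * Real.exp 14 * D⁻¹ + 8 * (W / D) := by ring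
    _ ≤ 2 * Real.exp 14 * (W / D) + 8 * (W / D) := by
        have := mul_le_mul_of_nonneg_left h1 (by positivity : 0 ≤ 2 * Real.exp 14)
        linarith
    _ = _ := by ring

/-- `(1 + 2 l log D)² D^{-α} ≤ C l² D^{-α/2}` -/
lemma log_D_le {l D α : ℝ} (hl : 1 ≤ l) (hD : 1 ≤ D) (hα : 0 < α) :
    (1 + 2 * l * Real.log D) ^ 2 * D ^ (-α) ≤ (1 + 8 / α) ^ 2 * l ^ (2 : ℝ) * D ^ (-(α / 2)) := by
  have hD0 : 0 < D := by linarith
  have h1 : Real.log D ≤ D ^ (α / 4) / (α / 4) := Real.log_le_rpow_div hD0.le (by linarith)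
  have h2 : 1 ≤ D ^ (α / 4) := Real.one_le_rpow hD (by linarith)
  have h3 : 1 + 2 * l * Real.log D ≤ (1 + 8 / α) * l * D ^ (α / 4) := by
    have h4 : 2 * l * Real.log D ≤ 2 * l * (D ^ (α / 4) / (α / 4)) :=
      mul_le_mul_of_nonneg_left h1 (by linarith)
    have h5 : 2 * l * (D ^ (α / 4) / (α / 4)) = 8 / α * l * D ^ (α / 4) := by
      field_simp; norm_num
    have h6 : 1 ≤ l * D ^ (α / 4) := by nlinarith
    calc 1 + 2 * l * Real.log D ≤ l * D ^ (α / 4) + 8 / α * l * D ^ (α / 4) := by linarith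
      _ = _ := by ring
  have h0 : 0 ≤ 1 + 2 * l * Real.log D := by
    have : 0 ≤ Real.log D := Real.log_nonneg hD
    positivity
  have h7 := pow_le_pow_left₀ h0 h3 2
  calc (1 + 2 * l * Real.log D) ^ 2 * D ^ (-α)
      ≤ ((1 + 8 / α) * l * D ^ (α / 4)) ^ 2 * D ^ (-α) :=
        mul_le_mul_of_nonneg_right h7 (by positivity)
    _ = (1 + 8 / α) ^ 2 * l ^ 2 * (D ^ (α / 4 * 2) * D ^ (-α)) := by
        rw [mul_pow, mul_pow, Real.rpow_mul hD0.le (α / 4) 2, Real.rpow_two]; ring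
    _ = (1 + 8 / α) ^ 2 * l ^ (2 : ℝ) * D ^ (-(α / 2)) := by
        rw [← Real.rpow_add hD0, Real.rpow_two]
        congr 2; ring

/-- **RARE (boxes)** -/
theorem rare_box {c A C : ℝ} (hc : 0 < c) (hc1 : c ≤ 1) (hA : 0 ≤ A) (hC : 0 ≤ C)
    (hR : RareThm (1 / 2 + c / 2 / 256) A C) {A₁ C₀ : ℝ} (hA₁ : 0 ≤ A₁) (hC₀ : 0 ≤ C₀) :
    ∃ C' : ℝ, 0 < C' ∧ ∀ (M Y : ℕ) (f f' : ℕ → ℝ) (γ t D T L : ℝ), 0 < M → 8 ≤ Y → 1 ≤ T → 0 < L →
      Real.log Y ≤ A₁ * Real.log T → T ^ c ≤ D →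
      (∀ b, 0 ≤ f b) → (∀ b, f b ≤ 1) → (∀ b, 0 ≤ f' b) → (∀ b, f' b ≤ 1) →
      Real.log Y ^ C₀ * (L * ∑ b ∈ M.divisors, ∑ c ∈ M.divisors,
        (if T * L ≤ (Nat.gcd b c : ℝ) ∧ (Nat.gcd b c : ℝ) < 2 * (T * L) then
          (Nat.gcd b c : ℝ) * nu M b * nu M c *
            (f b * f' c * KRare γ t D Y (b / Nat.gcd b c) (c / Nat.gcd b c)) else 0)) ≤
      C' * T ^ (-(c / 200)) * ((L * Ex M f) * (L * Ex M f')) ^ (1 / 2 + c / 2 / 256) := by
  have hc2 : 0 < c / 2 := by linarith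
  set B : ℝ := (2 * Real.exp 14 + 8) * (1 + 8 / 1) ^ 2 with hB
  have hB1 : 1 ≤ B := by
    rw [hB]
    have := Real.exp_pos 14
    nlinarith
  obtain ⟨C', hC', H⟩ := rare_gen (c := c / 2) hc2 (by linarith) hA hC hR (A₁ := A₁) (B := B)
    (b := 2) (C₀ := C₀) hA₁ hB1 (by norm_num) hC₀
  refine ⟨C', hC', ?_⟩
  intro M Y f f' γ t D T L hM hY hT hL hYT hDT hf hf1 hf' hf1'
  have hT0 : 0 < T := by linarith
  have hD1 : 1 ≤ D := (Real.one_le_rpow hT hc.le).trans hDT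
  have hD0 : 0 < D := by linarith
  have hl1 := log_ge_one hY
  have h := H M Y f f' (fun b c => KRare γ t D Y (b / Nat.gcd b c) (c / Nat.gcd b c))
    (fun U U' => KRx ((U / Nat.gcd U U' : ℕ) * γ) ((U' / Nat.gcd U U' : ℕ) * γ) t D) T L hM hY hT hL
    hYT hf hf1 hf' hf1' (fun _ _ => KRare_nonneg _ _ _ _ _ _) (fun _ _ _ _ => KRx_nonneg _ _ _ _ _ _)
    (fun _ _ _ _ => KRx_le_one _ _ _ _ _ _) ?_ ?_
  · rw [show c / 200 = c / 2 / 100 by ring]
    exact h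
  · intro U U' _ _
    refine (dens_KRx M hY hD1).trans ?_
    have h1 := log_D_le hl1 hD1 one_pos
    have e1 : (1 + 2 * Real.log Y * Real.log D) ^ 2 / D =
        (1 + 2 * Real.log Y * Real.log D) ^ 2 * D ^ (-(1 : ℝ)) := by
      rw [Real.rpow_neg_one, div_eq_mul_inv]
    rw [e1]
    have h2 : D ^ (-((1 : ℝ) / 2)) ≤ T ^ (-(c / 2)) := by
      calc D ^ (-((1 : ℝ) / 2)) ≤ (T ^ c) ^ (-((1 : ℝ) / 2)) :=
            Real.rpow_le_rpow_of_nonpos (by positivity) hDT (by norm_num)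
        _ = T ^ (-(c / 2)) := by rw [← Real.rpow_mul hT0.le]; congr 1; ring
    calc (2 * Real.exp 14 + 8) * ((1 + 2 * Real.log Y * Real.log D) ^ 2 * D ^ (-(1 : ℝ)))
        ≤ (2 * Real.exp 14 + 8) * ((1 + 8 / 1) ^ 2 * Real.log Y ^ (2 : ℝ) * D ^ (-((1 : ℝ) / 2))) :=
          mul_le_mul_of_nonneg_left h1 (by positivity)
      _ ≤ (2 * Real.exp 14 + 8) * ((1 + 8 / 1) ^ 2 * Real.log Y ^ (2 : ℝ) * T ^ (-(c / 2))) :=
          mul_le_mul_of_nonneg_left (mul_le_mul_of_nonneg_left h2 (by positivity)) (by positivity)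
      _ = B * Real.log Y ^ (2 : ℝ) * T ^ (-(c / 2)) := by rw [hB]; ring
  · intro U U' n n' hU hU' hn hn'
    obtain ⟨l1, u1⟩ := low_cof hU hU' hn hn'
    obtain ⟨l2, u2⟩ := low_cof hU' hU hn' hn
    rw [Nat.gcd_comm (n' * U') (n * U), Nat.gcd_comm n' n] at l2
    rw [Nat.gcd_comm (n' * U') (n * U), Nat.gcd_comm U' U] at u2
    have hn0 : 0 < n := Nat.pos_of_dvd_of_pos hn (low_pos Y M)
    have hn0' : 0 < n' := Nat.pos_of_dvd_of_pos hn' (low_pos Y M)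
    have hU0 : 0 < U := Nat.pos_of_dvd_of_pos hU (upp_pos Y M)
    have hU0' : 0 < U' := Nat.pos_of_dvd_of_pos hU' (upp_pos Y M)
    have hs : (n * U) / Nat.gcd (n * U) (n' * U') ≠ 0 :=
      (Nat.div_pos (Nat.le_of_dvd (Nat.mul_pos hn0 hU0) (Nat.gcd_dvd_left _ _))
        (Nat.gcd_pos_of_pos_left _ (Nat.mul_pos hn0 hU0))).ne'
    have hs' : (n' * U') / Nat.gcd (n * U) (n' * U') ≠ 0 :=
      (Nat.div_pos (Nat.le_of_dvd (Nat.mul_pos hn0' hU0') (Nat.gcd_dvd_right _ _))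
        (Nat.gcd_pos_of_pos_left _ (Nat.mul_pos hn0 hU0))).ne'
    unfold KRare KRx
    split_ifs with h1 h2
    · exact le_rfl
    · exfalso
      apply h2
      obtain ⟨h3, h4⟩ := h1
      have h5 := near_split (y := Y) hs hs' h3
      rw [l1, u1, l2, u2] at h5
      rw [l1, u1, l2, u2] at h4
      exact ⟨h5, h4⟩
    · norm_num
    · exact le_rfl

/-! ### one word -/





/-! ### deep labelled words -/


end Crest.Agent.R4C.RareCorx590
end

-- ▼ part R4C/TauMom_590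
section

/-!
# Row 4: second moment of the divisor function on `Y`-smooth words, Rankin weight (helper590)

`∑_{n ∣ M} τ(n)² n^{-(1 - 1/log Y)} ≤ C (log Y)^4` if all primes of `M` are `≤ Y`, `Y ≥ 16`.
-/

set_option autoImplicit false

namespace Crest.Agent.R4C.TauMomx590

open Finset Crest.Agent.R4C.Basex935 Crest.Agent.R4C.ThmRx19






lemma sum_inv_le {Y : ℝ} (hY : 2 ≤ Y) {s : Finset ℕ} (hs : ∀ p ∈ s, p.Prime ∧ (p : ℝ) ≤ Y) :
    ∑ p ∈ s, 1 / (p : ℝ) ≤ Real.log (Real.log Y) + 28 := by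
  have hm := Lib.Mertens.mertens_two 2 Y le_rfl hY
  have hl2 : 0.6931471803 < Real.log 2 := Real.log_two_gt_d9
  have h1 : ∑ p ∈ s, 1 / (p : ℝ) ≤ 1 / 2 + ∑ p ∈ Lib.Mertens.pr 2 Y, 1 / (p : ℝ) := by
    have hsub : s ⊆ insert 2 (Lib.Mertens.pr 2 Y) := by
      intro p hp
      obtain ⟨h3, h4⟩ := hs p hp
      rw [Finset.mem_insert]
      by_cases h : p = 2
      · exact Or.inl h
      · right
        rw [Lib.Mertens.mem_pr (by norm_num) (by linarith)]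
        refine ⟨⟨?_, h4⟩, h3⟩
        have : 2 < p := lt_of_le_of_ne h3.two_le (Ne.symm h)
        exact_mod_cast this
    refine (Finset.sum_le_sum_of_subset_of_nonneg hsub fun _ _ _ => by positivity).trans ?_
    by_cases h2 : (2 : ℕ) ∈ Lib.Mertens.pr 2 Y
    · rw [Finset.insert_eq_of_mem h2]; linarith
    · rw [Finset.sum_insert h2]; norm_num
  have h2 := (abs_le.1 hm).2
  have h3 : 18 / Real.log 2 ≤ 26 := by
    rw [div_le_iff₀ (by linarith)]; linarith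
  have h4 : -(Real.log (Real.log 2)) ≤ 1 / 2 := by
    have hlog : Real.log (1 / Real.log 2) ≤ 1 / Real.log 2 - 1 :=
      Real.log_le_sub_one_of_pos (by positivity)
    rw [one_div, Real.log_inv] at hlog
    have : (Real.log 2)⁻¹ ≤ 3 / 2 := by
      rw [inv_le_comm₀ (by linarith) (by norm_num)]; linarith
    linarith
  linarith




end Crest.Agent.R4C.TauMomx590
end

-- ▼ part R4C/RareLow_442
section

/-!
# Row 4: low words with a relation, exact (weight free) masses, decay in both masses (helper442)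

All primes of `N` are `≤ Y`.  `low_bound`: for every `1/2 < κ < 1`

`ER N G g g' K ≤ C (log Y)^A τ^((1-κ)/8) G⁻¹ (x y)^κ exp (-(θ₀/log Y) (|log x| + |log y|))`

if `G Ex g ≤ x`, `G Ex g' ≤ y`, `K ∈ [0,1]` has natural density `≤ τ`.  Inputs: THEOREM (T) for
arbitrary `M` (590/808) at two exponents, Rankin (808), the row bound.
-/

set_option autoImplicit false

open Finset

namespace Crest.Agent.R4C.RareLowx442

open Basex935 Cutx50 MXlowx808 MXlowBx808 Lawx69 RelTailx808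

/-! ### elementary inequalities -/

/-- Hölder, two factors -/
lemma holder2 {ι : Type*} (s : Finset ι) (a b : ι → ℝ) (ha : ∀ i ∈ s, 0 ≤ a i)
    (hb : ∀ i ∈ s, 0 ≤ b i) {θ : ℝ} (h0 : 0 < θ) (h1 : θ < 1) :
    ∑ i ∈ s, a i ^ θ * b i ^ (1 - θ) ≤ (∑ i ∈ s, a i) ^ θ * (∑ i ∈ s, b i) ^ (1 - θ) := by
  have hθ' : 0 < 1 - θ := by linarith
  have hpq : (1 / θ).HolderConjugate (1 / (1 - θ)) := by
    rw [Real.holderConjugate_iff]
    refine ⟨?_, ?_⟩
    · rw [lt_div_iff₀ h0]; linarith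
    · simp
  have h := Real.inner_le_Lp_mul_Lq_of_nonneg s hpq (f := fun i => a i ^ θ)
    (g := fun i => b i ^ (1 - θ)) (fun i hi => Real.rpow_nonneg (ha i hi) _)
    (fun i hi => Real.rpow_nonneg (hb i hi) _)
  have e1 : ∑ i ∈ s, (a i ^ θ) ^ (1 / θ) = ∑ i ∈ s, a i := by
    refine sum_congr rfl fun i hi => ?_
    rw [← Real.rpow_mul (ha i hi), mul_one_div_cancel h0.ne', Real.rpow_one]
  have e2 : ∑ i ∈ s, (b i ^ (1 - θ)) ^ (1 / (1 - θ)) = ∑ i ∈ s, b i := by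
    refine sum_congr rfl fun i hi => ?_
    rw [← Real.rpow_mul (hb i hi), mul_one_div_cancel hθ'.ne', Real.rpow_one]
  rw [e1, e2, one_div_one_div, one_div_one_div] at h
  exact h

/-- `σ(u)/u ≤ ∏ (1 + 2/p)` -/
lemma sum_inv_divisors_le : ∀ u : ℕ, 0 < u → ∑ d ∈ u.divisors, 1 / (d : ℝ) ≤ aw 2 u := by
  refine ind_min ?_ ?_
  · simp [aw]
  · intro p a M1 hp ha hM h _ ih
    have hp2 : (2 : ℝ) ≤ p := by exact_mod_cast hp.two_le
    have hp0 : (0 : ℝ) < p := by linarith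
    rw [sum_split hp a hM h]
    have e1 : ∀ v ∈ range (a + 1), ∑ b1 ∈ M1.divisors, 1 / ((p ^ v * b1 : ℕ) : ℝ) =
        (1 / (p : ℝ)) ^ v * ∑ b1 ∈ M1.divisors, 1 / (b1 : ℝ) := by
      intro v _
      rw [mul_sum]
      refine sum_congr rfl fun b _ => ?_
      push_cast
      rw [one_div_pow]
      rw [one_div_mul_one_div]
    rw [sum_congr rfl e1, ← sum_mul]
    have haw : aw 2 (p ^ a * M1) = (1 + 2 / (p : ℝ)) * aw 2 M1 := by
      unfold aw
      rw [Nat.primeFactors_mul (pow_ne_zero _ hp.ne_zero) hM.ne',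
        Nat.primeFactors_prime_pow ha.ne' hp, ← insert_eq, prod_insert]
      intro hc
      exact h (Nat.dvd_of_mem_primeFactors hc)
    rw [haw]
    have hq : (1 : ℝ) / p ≤ 1 / 2 := one_div_le_one_div_of_le (by norm_num) hp2
    have hq0 : (0 : ℝ) ≤ 1 / p := by positivity
    have hg := geom_le hq0 hq (by norm_num : (1 : ℝ) / 2 < 1) a
    have hs : ∑ v ∈ range (a + 1), (1 / (p : ℝ)) ^ v ≤ 1 + 2 / (p : ℝ) := by
      rw [Finset.sum_range_succ']
      simp only [pow_succ, pow_zero]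
      rw [← sum_mul]
      have h2 : (∑ i ∈ range a, (1 / (p : ℝ)) ^ i) * (1 / (p : ℝ)) ≤ 2 * (1 / (p : ℝ)) := by
        refine mul_le_mul_of_nonneg_right ?_ hq0
        norm_num at hg ⊢
        exact hg
      have e : 2 * (1 / (p : ℝ)) = 2 / p := by ring
      linarith
    refine mul_le_mul hs ih (sum_nonneg fun _ _ => by positivity) ?_
    positivity

/-- anatomy weight of a `Y`-smooth word -/
lemma aw_le {Λ : ℝ} (hΛ : 0 ≤ Λ) {N Y u : ℕ} (hN : 0 < N) (hY : 8 ≤ Y)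
    (hNY : ∀ p ∈ N.primeFactors, p ≤ Y) (hu : u ∣ N) :
    aw Λ u ≤ Real.exp (28 * Λ) * (Real.log Y) ^ Λ := by
  have hY8 : (8 : ℝ) ≤ Y := by exact_mod_cast hY
  have hly : 2 ≤ Real.log Y := log_eight.trans (Real.log_le_log (by norm_num) hY8)
  have h1 : aw Λ u ≤ Real.exp (∑ p ∈ u.primeFactors, Λ / (p : ℝ)) := by
    unfold aw
    rw [Real.exp_sum]
    refine Finset.prod_le_prod (fun p _ => by positivity) fun p _ => ?_
    rw [add_comm]
    exact Real.add_one_le_exp _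
  refine h1.trans ?_
  have h2 := TauMomx590.sum_inv_le (Y := (Y : ℝ)) (by linarith) (s := u.primeFactors)
    (fun p hp => ⟨Nat.prime_of_mem_primeFactors hp, by
      exact_mod_cast hNY p (Nat.primeFactors_mono hu hN.ne' hp)⟩)
  have e : ∑ p ∈ u.primeFactors, Λ / (p : ℝ) = Λ * ∑ p ∈ u.primeFactors, 1 / (p : ℝ) := by
    rw [mul_sum]
    exact sum_congr rfl fun p _ => by ring
  rw [e, Real.rpow_def_of_pos (by linarith), ← Real.exp_add]
  refine Real.exp_le_exp.2 ?_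
  nlinarith


lemma DD_le {Λ : ℝ} {N : ℕ} {W : ℝ} (hW : ∀ u, u ∣ N → aw Λ u ≤ W) {g : ℕ → ℝ}
    (hg : ∀ b, 0 ≤ g b) : DD Λ N g ≤ W * Ex N g :=
  DD_le_plain hg fun b hb _ => hW b (Nat.dvd_of_mem_divisors hb)

/-! ### the window form of THEOREM (T) for unbounded kernels -/

lemma er_nonneg (N : ℕ) (G : ℝ) {g g' : ℕ → ℝ} {K : ℕ → ℕ → ℝ} (hg : ∀ b, 0 ≤ g b)
    (hg' : ∀ b, 0 ≤ g' b) (hK : ∀ s t, 0 ≤ K s t) : 0 ≤ ER N G g g' K := by
  unfold ER
  refine sum_nonneg fun b _ => sum_nonneg fun c _ => ?_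
  split_ifs
  · exact mul_nonneg (mul_nonneg (mul_nonneg (Nat.cast_nonneg _) (nu_nonneg _ _)) (nu_nonneg _ _))
      (mul_nonneg (mul_nonneg (hg _) (hg' _)) (hK _ _))
  · exact le_rfl

lemma er_mono (N : ℕ) (G : ℝ) {g g' : ℕ → ℝ} {K K' : ℕ → ℕ → ℝ} (hg : ∀ b, 0 ≤ g b)
    (hg' : ∀ b, 0 ≤ g' b) (h : ∀ s t, 0 < s → 0 < t → K s t ≤ K' s t) :
    ER N G g g' K ≤ ER N G g g' K' := by
  unfold ER
  refine sum_le_sum fun b hb => sum_le_sum fun c hc => ?_
  have hb0 : 0 < b := Nat.pos_of_mem_divisors hb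
  have hc0 : 0 < c := Nat.pos_of_mem_divisors hc
  split_ifs
  · refine mul_le_mul_of_nonneg_left ?_ (mul_nonneg (mul_nonneg (Nat.cast_nonneg _)
      (nu_nonneg _ _)) (nu_nonneg _ _))
    refine mul_le_mul_of_nonneg_left (h _ _ ?_ ?_) (mul_nonneg (hg _) (hg' _))
    · exact Nat.div_pos (Nat.le_of_dvd hb0 (Nat.gcd_dvd_left b c)) (Nat.gcd_pos_of_pos_left c hb0)
    · exact Nat.div_pos (Nat.le_of_dvd hc0 (Nat.gcd_dvd_right b c)) (Nat.gcd_pos_of_pos_left c hb0)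
  · exact le_rfl

lemma er_T {κ r Λ C : ℝ} (hκ0 : 0 < κ) (hκ1 : κ < 1) (hΛ : 0 ≤ Λ) (hC : 0 ≤ C)
    (hT : TGen κ r Λ C) {M : ℕ} (hM : M ≠ 0) {f f' : ℕ → ℝ}
    (hf : ∀ b, 0 ≤ f b) (hf1 : ∀ b, f b ≤ 1) (hf' : ∀ b, 0 ≤ f' b) (hf1' : ∀ b, f' b ≤ 1)
    {K : ℕ → ℕ → ℝ} (hK : ∀ s t, 0 ≤ K s t) {G : ℝ} (hG : 0 < G) :
    ER M G f f' K ≤ 2 * C * (dens M fun s t => K s t ^ r) ^ (1 / r) * G ^ κ *
        ((DD Λ M f) ^ ((1 + κ) / 2) * (DD Λ M f') ^ ((1 + κ) / 2)) := by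
  have hρ : 0 < (1 + κ) / 2 := by linarith
  have hbase := hT M f f' K hM hf hf' hK
  have hstep : ER M G f f' K
      ≤ (2 * G) ^ κ * ∑ b ∈ M.divisors, ∑ c ∈ M.divisors, nu M b * nu M c *
        (Nat.gcd b c : ℝ) ^ (1 - κ) * (f b * f' c * K (b / Nat.gcd b c) (c / Nat.gcd b c)) := by
    unfold ER
    rw [Finset.mul_sum]
    refine Finset.sum_le_sum fun b _ => ?_
    rw [Finset.mul_sum]
    refine Finset.sum_le_sum fun c _ => ?_
    have hk : 0 ≤ f b * f' c * K (b / Nat.gcd b c) (c / Nat.gcd b c) :=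
      mul_nonneg (mul_nonneg (hf b) (hf' c)) (hK _ _)
    have hn : 0 ≤ nu M b * nu M c := mul_nonneg (nu_nonneg M b) (nu_nonneg M c)
    split_ifs with h
    · have hg : 0 < (Nat.gcd b c : ℝ) := lt_trans hG h.1
      have h1 : (Nat.gcd b c : ℝ) ≤ (2 * G) ^ κ * (Nat.gcd b c : ℝ) ^ (1 - κ) := by
        calc (Nat.gcd b c : ℝ) = (Nat.gcd b c : ℝ) ^ κ * (Nat.gcd b c : ℝ) ^ (1 - κ) := by
              rw [← Real.rpow_add hg]
              norm_num
          _ ≤ (2 * G) ^ κ * (Nat.gcd b c : ℝ) ^ (1 - κ) :=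
              mul_le_mul_of_nonneg_right (Real.rpow_le_rpow hg.le h.2 hκ0.le)
                (Real.rpow_nonneg hg.le _)
      calc (Nat.gcd b c : ℝ) * nu M b * nu M c *
              (f b * f' c * K (b / Nat.gcd b c) (c / Nat.gcd b c))
          = (Nat.gcd b c : ℝ) * ((nu M b * nu M c) *
              (f b * f' c * K (b / Nat.gcd b c) (c / Nat.gcd b c))) := by ring
        _ ≤ ((2 * G) ^ κ * (Nat.gcd b c : ℝ) ^ (1 - κ)) * ((nu M b * nu M c) *
              (f b * f' c * K (b / Nat.gcd b c) (c / Nat.gcd b c))) :=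
            mul_le_mul_of_nonneg_right h1 (mul_nonneg hn hk)
        _ = _ := by ring
    · exact mul_nonneg (Real.rpow_nonneg (by linarith) _)
        (mul_nonneg (mul_nonneg hn (Real.rpow_nonneg (Nat.cast_nonneg _) _)) hk)
  refine hstep.trans ?_
  have hD1 : (DD Λ M fun b => f b ^ (2 / (1 + κ))) ^ ((1 + κ) / 2) ≤ (DD Λ M f) ^ ((1 + κ) / 2) :=
    Real.rpow_le_rpow (DD_nonneg hΛ M fun b => Real.rpow_nonneg (hf b) _)
      (DD_pow_le hΛ hκ0 hκ1 M hf hf1) hρ.le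
  have hD2 : (DD Λ M fun b => f' b ^ (2 / (1 + κ))) ^ ((1 + κ) / 2) ≤
      (DD Λ M f') ^ ((1 + κ) / 2) :=
    Real.rpow_le_rpow (DD_nonneg hΛ M fun b => Real.rpow_nonneg (hf' b) _)
      (DD_pow_le hΛ hκ0 hκ1 M hf' hf1') hρ.le
  set δ := (dens M fun s t => K s t ^ r) ^ (1 / r) with hδ
  have hdens0 : 0 ≤ dens M fun s t => K s t ^ r :=
    dens_nonneg M fun s t => Real.rpow_nonneg (hK s t) _
  have hδ0 : 0 ≤ δ := Real.rpow_nonneg hdens0 _
  have h2 : (2 : ℝ) ^ κ ≤ 2 := by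
    calc (2 : ℝ) ^ κ ≤ (2 : ℝ) ^ (1 : ℝ) :=
          Real.rpow_le_rpow_of_exponent_le (by norm_num) hκ1.le
      _ = 2 := Real.rpow_one _
  have hGk : (2 * G) ^ κ = 2 ^ κ * G ^ κ := Real.mul_rpow (by norm_num) hG.le
  have hG0 : 0 ≤ G ^ κ := Real.rpow_nonneg hG.le _
  have hDf : 0 ≤ (DD Λ M f) ^ ((1 + κ) / 2) := Real.rpow_nonneg (DD_nonneg hΛ M hf) _
  have hDf' : 0 ≤ (DD Λ M f') ^ ((1 + κ) / 2) := Real.rpow_nonneg (DD_nonneg hΛ M hf') _
  calc (2 * G) ^ κ * ∑ b ∈ M.divisors, ∑ c ∈ M.divisors, nu M b * nu M c *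
        (Nat.gcd b c : ℝ) ^ (1 - κ) * (f b * f' c * K (b / Nat.gcd b c) (c / Nat.gcd b c))
      ≤ (2 * G) ^ κ * (C * ((DD Λ M fun b => f b ^ (2 / (1 + κ))) ^ ((1 + κ) / 2) *
          (DD Λ M fun b => f' b ^ (2 / (1 + κ))) ^ ((1 + κ) / 2)) * δ) :=
        mul_le_mul_of_nonneg_left hbase (Real.rpow_nonneg (by linarith) _)
    _ ≤ (2 * G) ^ κ * (C * ((DD Λ M f) ^ ((1 + κ) / 2) * (DD Λ M f') ^ ((1 + κ) / 2)) * δ) := by
        refine mul_le_mul_of_nonneg_left ?_ (Real.rpow_nonneg (by linarith) _)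
        refine mul_le_mul_of_nonneg_right ?_ hδ0
        refine mul_le_mul_of_nonneg_left ?_ hC
        exact mul_le_mul hD1 hD2 (Real.rpow_nonneg (DD_nonneg hΛ M fun b =>
          Real.rpow_nonneg (hf' b) _) _) hDf
    _ = 2 ^ κ * (C * δ * G ^ κ *
        ((DD Λ M f) ^ ((1 + κ) / 2) * (DD Λ M f') ^ ((1 + κ) / 2))) := by
        rw [hGk]; ring
    _ ≤ 2 * (C * δ * G ^ κ *
        ((DD Λ M f) ^ ((1 + κ) / 2) * (DD Λ M f') ^ ((1 + κ) / 2))) :=
        mul_le_mul_of_nonneg_right h2 (by positivity)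
    _ = _ := by ring

/-! ### Rankin weight -/

lemma dens_eq (N : ℕ) (K : ℕ → ℕ → ℝ) : dens N K =
    ∑ x ∈ N.divisors ×ˢ N.divisors,
      (if Nat.Coprime x.1 x.2 then nu N x.1 * nu N x.2 else 0) * K x.1 x.2 := by
  unfold MXlowx808.dens
  rw [sum_product]
  refine sum_congr rfl fun s _ => sum_congr rfl fun t _ => ?_
  dsimp only
  split_ifs
  · rfl
  · rw [zero_mul]

lemma low_eq_self {N Y b : ℕ} (hN : 0 < N) (hNY : ∀ p ∈ N.primeFactors, p ≤ Y) (hb : b ∣ N) :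
    low Y b = b := by
  have hb0 : b ≠ 0 := (Nat.pos_of_dvd_of_pos hb hN).ne'
  refine Nat.eq_of_factorization_eq (low_pos _ _).ne' hb0 fun p => ?_
  rw [fact_low]
  split_ifs with h
  · rfl
  · symm
    by_contra hc
    apply h
    refine hNY p (Nat.primeFactors_mono hb hN.ne' ?_)
    rw [← Nat.support_factorization]
    exact Finsupp.mem_support_iff.2 hc

/-- Rankin: `E s^σ ≤ e^14` for `σ ≤ 1/log Y` -/
lemma dens_rankin {N Y : ℕ} (hN : 0 < N) (hY : 8 ≤ Y) (hNY : ∀ p ∈ N.primeFactors, p ≤ Y)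
    {σ : ℝ} (hσ : σ ≤ 1 / Real.log Y) :
    dens N (fun s _ => (s : ℝ) ^ σ) ≤ Real.exp 14 := by
  have h := Ex_low_rpow hN hY
  have h1 : Ex N (fun b => (b : ℝ) ^ σ) ≤ Real.exp 14 := by
    refine le_trans ?_ h
    refine Ex_mono N fun b hb => ?_
    rw [low_eq_self hN hNY hb]
    refine Real.rpow_le_rpow_of_exponent_le ?_ hσ
    exact_mod_cast Nat.pos_of_dvd_of_pos hb hN
  refine le_trans ?_ h1
  unfold MXlowx808.dens Ex
  refine sum_le_sum fun s _ => ?_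
  have hs : 0 ≤ nu N s * (s : ℝ) ^ σ := mul_nonneg (nu_nonneg _ _) (by positivity)
  calc ∑ t ∈ N.divisors, (if Nat.Coprime s t then nu N s * nu N t * (s : ℝ) ^ σ else 0)
      ≤ ∑ t ∈ N.divisors, nu N t * (nu N s * (s : ℝ) ^ σ) := by
        refine sum_le_sum fun t _ => ?_
        split_ifs
        · exact le_of_eq (by ring)
        · exact mul_nonneg (nu_nonneg _ _) hs
    _ = nu N s * (s : ℝ) ^ σ := by rw [← sum_mul, sum_nu hN, one_mul]

/-- the density of `(K s^θ)^r` -/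
lemma dens_weight {N Y : ℕ} (hN : 0 < N) (hY : 8 ≤ Y) (hNY : ∀ p ∈ N.primeFactors, p ≤ Y)
    {K : ℕ → ℕ → ℝ} (hK : ∀ s t, 0 ≤ K s t) (hK1 : ∀ s t, K s t ≤ 1) {τ r θ : ℝ} (hr : 1 ≤ r)
    (hτ : dens N K ≤ τ) (hθ : 2 * (r * θ) ≤ 1 / Real.log Y) :
    dens N (fun s t => (K s t * (s : ℝ) ^ θ) ^ r) ≤ Real.exp 7 * τ ^ ((1 : ℝ) / 2) := by
  have hr0 : 0 < r := by linarith
  have hτ0 : 0 ≤ τ := (dens_nonneg N hK).trans hτ
  set w : ℕ × ℕ → ℝ := fun x => if Nat.Coprime x.1 x.2 then nu N x.1 * nu N x.2 else 0 with hw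
  have hw0 : ∀ x, 0 ≤ w x := by
    intro x
    simp only [hw]
    split_ifs
    · exact mul_nonneg (nu_nonneg _ _) (nu_nonneg _ _)
    · exact le_rfl
  have h := holder2 (N.divisors ×ˢ N.divisors) (fun x => w x * K x.1 x.2)
    (fun x => w x * (x.1 : ℝ) ^ (2 * (r * θ))) (fun x _ => mul_nonneg (hw0 x) (hK _ _))
    (fun x _ => mul_nonneg (hw0 x) (by positivity)) (θ := 1 / 2) (by norm_num) (by norm_num)
  have e1 : ∑ x ∈ N.divisors ×ˢ N.divisors, w x * K x.1 x.2 = dens N K := (dens_eq N K).symm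
  have e2 : ∑ x ∈ N.divisors ×ˢ N.divisors, w x * (x.1 : ℝ) ^ (2 * (r * θ)) =
      dens N (fun s _ => (s : ℝ) ^ (2 * (r * θ))) :=
    (dens_eq N (fun s _ => (s : ℝ) ^ (2 * (r * θ)))).symm
  rw [e1, e2] at h
  have h3 : dens N (fun s t => (K s t * (s : ℝ) ^ θ) ^ r) ≤
      ∑ i ∈ N.divisors ×ˢ N.divisors, (w i * K i.1 i.2) ^ ((1 : ℝ) / 2) *
        (w i * (i.1 : ℝ) ^ (2 * (r * θ))) ^ (1 - (1 : ℝ) / 2) := by
    rw [dens_eq]
    refine sum_le_sum fun x _ => ?_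
    have hx : (0 : ℝ) ≤ (x.1 : ℝ) := Nat.cast_nonneg _
    have hk := hK x.1 x.2
    have a1 : (K x.1 x.2 * (x.1 : ℝ) ^ θ) ^ r = K x.1 x.2 ^ r * (x.1 : ℝ) ^ (r * θ) := by
      rw [Real.mul_rpow hk (by positivity), ← Real.rpow_mul hx, mul_comm θ r]
    have a2 : (w x * K x.1 x.2) ^ ((1 : ℝ) / 2) * (w x * (x.1 : ℝ) ^ (2 * (r * θ))) ^ (1 - (1 : ℝ) / 2)
        = w x * (K x.1 x.2 ^ ((1 : ℝ) / 2) * (x.1 : ℝ) ^ (r * θ)) := by
      have e3 : (1 : ℝ) - 1 / 2 = 1 / 2 := by norm_num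
      rw [e3, Real.mul_rpow (hw0 x) hk, Real.mul_rpow (hw0 x) (by positivity),
        ← Real.rpow_mul hx]
      have e4 : 2 * (r * θ) * (1 / 2) = r * θ := by ring
      have e5 : w x ^ ((1 : ℝ) / 2) * w x ^ ((1 : ℝ) / 2) = w x := by
        rw [← Real.mul_rpow (hw0 x) (hw0 x), ← sq, ← Real.rpow_natCast, ← Real.rpow_mul (hw0 x)]
        norm_num
      rw [e4]
      calc _ = (w x ^ ((1 : ℝ) / 2) * w x ^ ((1 : ℝ) / 2)) *
            (K x.1 x.2 ^ ((1 : ℝ) / 2) * (x.1 : ℝ) ^ (r * θ)) := by ring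
        _ = _ := by rw [e5]
    rw [a2]
    show w x * (K x.1 x.2 * (x.1 : ℝ) ^ θ) ^ r ≤ _
    rw [a1]
    refine mul_le_mul_of_nonneg_left ?_ (hw0 x)
    refine mul_le_mul_of_nonneg_right ?_ (by positivity)
    rcases eq_or_lt_of_le hk with h0 | h0
    · rw [← h0, Real.zero_rpow hr0.ne', Real.zero_rpow (by norm_num)]
    · exact Real.rpow_le_rpow_of_exponent_ge h0 (hK1 _ _) (by linarith)
  refine h3.trans (h.trans ?_)
  have e3 : (1 : ℝ) - 1 / 2 = 1 / 2 := by norm_num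
  rw [e3]
  have h4 : (dens N fun s _ => (s : ℝ) ^ (2 * (r * θ))) ^ ((1 : ℝ) / 2) ≤ Real.exp 7 := by
    have h5 := dens_rankin hN hY hNY hθ
    calc (dens N fun s _ => (s : ℝ) ^ (2 * (r * θ))) ^ ((1 : ℝ) / 2) ≤
          (Real.exp 14) ^ ((1 : ℝ) / 2) :=
          Real.rpow_le_rpow (dens_nonneg N fun _ _ => by positivity) h5 (by norm_num)
      _ = Real.exp 7 := by
          rw [← Real.exp_mul]; norm_num
  rw [mul_comm (Real.exp 7)]
  exact mul_le_mul (Real.rpow_le_rpow (dens_nonneg N hK) hτ (by norm_num)) h4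
    (Real.rpow_nonneg (dens_nonneg N fun _ _ => by positivity) _) (Real.rpow_nonneg hτ0 _)

/-! ### row bound -/

lemma row_le {N : ℕ} (hN : 0 < N) {W : ℝ} (hW : ∀ u, u ∣ N → aw 2 u ≤ W)
    {g g' : ℕ → ℝ} (hg : ∀ b, 0 ≤ g b) (hg1' : ∀ b, g' b ≤ 1) (G : ℝ) :
    ER N G g g' (fun s _ => 1 / (s : ℝ)) ≤ W * Ex N g := by
  unfold ER Ex
  rw [mul_sum]
  refine sum_le_sum fun b hb => ?_
  have hb0 : 0 < b := Nat.pos_of_mem_divisors hb
  have hbN : b ∣ N := Nat.dvd_of_mem_divisors hb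
  have hb0' : (0 : ℝ) < b := by exact_mod_cast hb0
  calc ∑ c ∈ N.divisors, (if G < (Nat.gcd b c : ℝ) ∧ (Nat.gcd b c : ℝ) ≤ 2 * G then
          (Nat.gcd b c : ℝ) * nu N b * nu N c *
            (g b * g' c * (1 / ((b / Nat.gcd b c : ℕ) : ℝ))) else 0)
      ≤ ∑ c ∈ N.divisors, (nu N b * g b) * ∑ d ∈ b.divisors,
          (if d ∣ c then nu N c * ((d : ℝ) * (d / b)) else 0) := by
        refine sum_le_sum fun c hc => ?_
        have hg0 : 0 < Nat.gcd b c := Nat.gcd_pos_of_pos_left c hb0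
        have hgr : (0 : ℝ) < (Nat.gcd b c : ℕ) := by exact_mod_cast hg0
        have hn : 0 ≤ nu N b * g b := mul_nonneg (nu_nonneg _ _) (hg b)
        have hs : ∀ d ∈ b.divisors, 0 ≤ (if d ∣ c then nu N c * ((d : ℝ) * (d / b)) else 0) := by
          intro d _
          split_ifs
          · exact mul_nonneg (nu_nonneg _ _) (by positivity)
          · exact le_rfl
        have h1 : nu N c * ((Nat.gcd b c : ℝ) * (Nat.gcd b c / b)) ≤ ∑ d ∈ b.divisors,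
            (if d ∣ c then nu N c * ((d : ℝ) * (d / b)) else 0) := by
          have := single_le_sum hs (Nat.mem_divisors.2 ⟨Nat.gcd_dvd_left b c, hb0.ne'⟩)
          rw [if_pos (Nat.gcd_dvd_right b c)] at this
          exact this
        split_ifs
        · have e1 : (1 : ℝ) / ((b / Nat.gcd b c : ℕ) : ℝ) = (Nat.gcd b c : ℝ) / b := by
            rw [Nat.cast_div (Nat.gcd_dvd_left b c) hgr.ne']
            rw [one_div_div]
          rw [e1]
          calc (Nat.gcd b c : ℝ) * nu N b * nu N c * (g b * g' c * ((Nat.gcd b c : ℝ) / b))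
              = (nu N b * g b) * (g' c * (nu N c * ((Nat.gcd b c : ℝ) * (Nat.gcd b c / b)))) := by
                ring
            _ ≤ (nu N b * g b) * (1 * (nu N c * ((Nat.gcd b c : ℝ) * (Nat.gcd b c / b)))) := by
                refine mul_le_mul_of_nonneg_left ?_ hn
                refine mul_le_mul_of_nonneg_right (hg1' c) ?_
                exact mul_nonneg (nu_nonneg _ _) (by positivity)
            _ ≤ _ := by
                rw [one_mul]
                exact mul_le_mul_of_nonneg_left h1 hn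
        · exact mul_nonneg hn (sum_nonneg hs)
    _ = (nu N b * g b) * ∑ d ∈ b.divisors, ∑ c ∈ N.divisors,
          (if d ∣ c then nu N c * ((d : ℝ) * (d / b)) else 0) := by
        rw [← mul_sum, sum_comm]
    _ ≤ (nu N b * g b) * ∑ d ∈ b.divisors, (d : ℝ) / b := by
        refine mul_le_mul_of_nonneg_left ?_ (mul_nonneg (nu_nonneg _ _) (hg b))
        refine sum_le_sum fun d hd => ?_
        have hd0 : (0 : ℝ) < d := by exact_mod_cast Nat.pos_of_mem_divisors hd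
        have h2 := prob_dvd_le hN d
        rw [← sum_filter, ← sum_mul]
        calc (∑ c ∈ N.divisors with d ∣ c, nu N c) * ((d : ℝ) * (d / b)) ≤
              1 / (d : ℝ) * ((d : ℝ) * (d / b)) :=
              mul_le_mul_of_nonneg_right h2 (by positivity)
          _ = (d : ℝ) / b := by field_simp
    _ = (nu N b * g b) * ∑ d ∈ b.divisors, 1 / (d : ℝ) := by
        congr 1
        rw [← Nat.sum_div_divisors b (fun d => 1 / (d : ℝ))]
        refine sum_congr rfl fun d hd => ?_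
        have hdb := Nat.dvd_of_mem_divisors hd
        have hd0 : (d : ℝ) ≠ 0 := by exact_mod_cast (Nat.pos_of_mem_divisors hd).ne'
        rw [Nat.cast_div hdb hd0, one_div_div]
    _ ≤ (nu N b * g b) * W :=
        mul_le_mul_of_nonneg_left ((sum_inv_divisors_le b hb0).trans (hW b hbN))
          (mul_nonneg (nu_nonneg _ _) (hg b))
    _ = _ := by ring

/-! ### Hölder between the row bound and (T) -/

lemma er_eq (N : ℕ) (G : ℝ) (g g' : ℕ → ℝ) (K : ℕ → ℕ → ℝ) : ER N G g g' K =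
    ∑ x ∈ (N.divisors ×ˢ N.divisors).filter (fun x : ℕ × ℕ =>
        G < (Nat.gcd x.1 x.2 : ℝ) ∧ (Nat.gcd x.1 x.2 : ℝ) ≤ 2 * G),
      ((Nat.gcd x.1 x.2 : ℝ) * nu N x.1 * nu N x.2 * (g x.1 * g' x.2)) *
        K (x.1 / Nat.gcd x.1 x.2) (x.2 / Nat.gcd x.1 x.2) := by
  unfold ER
  rw [sum_filter, sum_product]
  refine sum_congr rfl fun s _ => sum_congr rfl fun t _ => ?_
  dsimp only
  split_ifs
  · ring
  · rfl

lemma er_swap (N : ℕ) (G : ℝ) (g g' : ℕ → ℝ) (K : ℕ → ℕ → ℝ) :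
    ER N G g g' K = ER N G g' g (fun s t => K t s) := by
  unfold ER
  rw [sum_comm]
  refine sum_congr rfl fun c _ => sum_congr rfl fun b _ => ?_
  rw [Nat.gcd_comm c b]
  split_ifs
  · ring
  · rfl

lemma dens_swap (N : ℕ) (K : ℕ → ℕ → ℝ) : dens N (fun s t => K t s) = dens N K := by
  unfold MXlowx808.dens
  rw [sum_comm]
  refine sum_congr rfl fun c _ => sum_congr rfl fun b _ => ?_
  by_cases h : Nat.Coprime b c
  · rw [if_pos h, if_pos h.symm]; ring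
  · rw [if_neg h, if_neg (fun hc => h (Nat.Coprime.symm hc))]

lemma er_holder {N : ℕ} {G : ℝ} {g g' : ℕ → ℝ} {K : ℕ → ℕ → ℝ} (hg : ∀ b, 0 ≤ g b)
    (hg' : ∀ b, 0 ≤ g' b) (hK : ∀ s t, 0 ≤ K s t) (hK1 : ∀ s t, K s t ≤ 1) {θ : ℝ} (h0 : 0 < θ)
    (h1 : θ < 1) :
    ER N G g g' K ≤ (ER N G g g' (fun s _ => 1 / (s : ℝ))) ^ θ *
      (ER N G g g' (fun s t => K s t * (s : ℝ) ^ (θ / (1 - θ)))) ^ (1 - θ) := by
  have hθ' : 0 < 1 - θ := by linarith
  rw [er_eq N G g g' K, er_eq N G g g' (fun s _ => 1 / (s : ℝ)),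
    er_eq N G g g' (fun s t => K s t * (s : ℝ) ^ (θ / (1 - θ)))]
  have hw : ∀ x : ℕ × ℕ, 0 ≤ (Nat.gcd x.1 x.2 : ℝ) * nu N x.1 * nu N x.2 * (g x.1 * g' x.2) :=
    fun x => mul_nonneg (mul_nonneg (mul_nonneg (Nat.cast_nonneg _) (nu_nonneg _ _))
      (nu_nonneg _ _)) (mul_nonneg (hg _) (hg' _))
  refine le_trans ?_ (holder2 _ _ _ (fun x _ => mul_nonneg (hw x) (by positivity))
    (fun x _ => mul_nonneg (hw x) (mul_nonneg (hK _ _) (by positivity))) h0 h1)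
  refine sum_le_sum fun x hx => ?_
  rw [mem_filter, mem_product] at hx
  have hb0 : 0 < x.1 := Nat.pos_of_mem_divisors hx.1.1
  have hs0 : 0 < x.1 / Nat.gcd x.1 x.2 :=
    Nat.div_pos (Nat.le_of_dvd hb0 (Nat.gcd_dvd_left _ _)) (Nat.gcd_pos_of_pos_left _ hb0)
  set s := x.1 / Nat.gcd x.1 x.2 with hs
  set t := x.2 / Nat.gcd x.1 x.2 with ht
  set w := (Nat.gcd x.1 x.2 : ℝ) * nu N x.1 * nu N x.2 * (g x.1 * g' x.2) with hwdef
  have hw0 : 0 ≤ w := hw x
  have hsr : (0 : ℝ) < s := by exact_mod_cast hs0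
  have hk := hK s t
  have e1 : (w * (1 / (s : ℝ))) ^ θ * (w * (K s t * (s : ℝ) ^ (θ / (1 - θ)))) ^ (1 - θ) =
      w * K s t ^ (1 - θ) := by
    rw [Real.mul_rpow hw0 (by positivity), Real.mul_rpow hw0 (mul_nonneg hk (by positivity)),
      Real.mul_rpow hk (by positivity), ← Real.rpow_mul hsr.le, div_mul_cancel₀ _ hθ'.ne',
      one_div, Real.inv_rpow hsr.le]
    have e2 : w ^ θ * w ^ (1 - θ) = w := by
      rcases eq_or_lt_of_le hw0 with h | h
      · rw [← h, Real.zero_rpow h0.ne', zero_mul]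
      · rw [← Real.rpow_add h]; simp
    have e3 : ((s : ℝ) ^ θ)⁻¹ * (s : ℝ) ^ θ = 1 := inv_mul_cancel₀ (by positivity)
    calc w ^ θ * ((s : ℝ) ^ θ)⁻¹ * (w ^ (1 - θ) * (K s t ^ (1 - θ) * (s : ℝ) ^ θ))
        = (w ^ θ * w ^ (1 - θ)) * K s t ^ (1 - θ) * (((s : ℝ) ^ θ)⁻¹ * (s : ℝ) ^ θ) := by ring
      _ = w * K s t ^ (1 - θ) := by rw [e2, e3, mul_one]
  show w * K s t ≤ (w * (1 / (s : ℝ))) ^ θ * (w * (K s t * (s : ℝ) ^ (θ / (1 - θ)))) ^ (1 - θ)
  rw [e1]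
  refine mul_le_mul_of_nonneg_left ?_ hw0
  rcases eq_or_lt_of_le hk with h | h
  · rw [← h, Real.zero_rpow hθ'.ne']
  · calc K s t = K s t ^ (1 : ℝ) := (Real.rpow_one _).symm
      _ ≤ K s t ^ (1 - θ) := Real.rpow_le_rpow_of_exponent_ge h (hK1 s t) (by linarith)

/-- one exponent, Rankin weight -/
lemma s2_bound {κ r Λ C : ℝ} (hκ0 : 0 < κ) (hκ1 : κ < 1) (hr : 1 ≤ r) (hΛ : 0 ≤ Λ) (hC : 0 ≤ C)
    (hT : TGen κ r Λ C) {N Y : ℕ} (hN : 0 < N) (hY : 8 ≤ Y) (hNY : ∀ p ∈ N.primeFactors, p ≤ Y)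
    {W : ℝ} (hW1 : 1 ≤ W) (hW : ∀ u, u ∣ N → aw Λ u ≤ W)
    {g g' : ℕ → ℝ} (hg : ∀ b, 0 ≤ g b) (hg1 : ∀ b, g b ≤ 1) (hg' : ∀ b, 0 ≤ g' b)
    (hg1' : ∀ b, g' b ≤ 1) {K : ℕ → ℕ → ℝ} (hK : ∀ s t, 0 ≤ K s t) (hK1 : ∀ s t, K s t ≤ 1)
    {τ θ G x y : ℝ} (hτ : dens N K ≤ τ) (hθ : 2 * (r * θ) ≤ 1 / Real.log Y) (hG : 0 < G)
    (hx0 : 0 < x) (hy0 : 0 < y) (hx : G * Ex N g ≤ x) (hy : G * Ex N g' ≤ y) :
    ER N G g g' (fun s t => K s t * (s : ℝ) ^ θ) ≤
      2 * C * Real.exp 7 * W ^ 2 * τ ^ (1 / (2 * r)) * G⁻¹ * (x * y) ^ ((1 + κ) / 2) := by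
  have hr0 : 0 < r := by linarith
  have hτ0 : 0 ≤ τ := (dens_nonneg N hK).trans hτ
  have hρ : 0 < (1 + κ) / 2 := by linarith
  have hW0 : 0 < W := by linarith
  have h := er_T hκ0 hκ1 hΛ hC hT hN.ne' hg hg1 hg' hg1'
    (K := fun s t => K s t * (s : ℝ) ^ θ) (fun s t => mul_nonneg (hK s t) (by positivity)) hG
  refine h.trans ?_
  set ρ := (1 + κ) / 2 with hρdef
  have hd := dens_weight hN hY hNY hK hK1 hr hτ hθ
  have hd0 : 0 ≤ dens N (fun s t => (K s t * (s : ℝ) ^ θ) ^ r) :=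
    dens_nonneg N fun s t => Real.rpow_nonneg (mul_nonneg (hK s t) (by positivity)) _
  have h1 : (dens N (fun s t => (K s t * (s : ℝ) ^ θ) ^ r)) ^ (1 / r) ≤
      Real.exp 7 * τ ^ (1 / (2 * r)) := by
    calc (dens N (fun s t => (K s t * (s : ℝ) ^ θ) ^ r)) ^ (1 / r)
        ≤ (Real.exp 7 * τ ^ ((1 : ℝ) / 2)) ^ (1 / r) :=
          Real.rpow_le_rpow hd0 hd (by positivity)
      _ = (Real.exp 7) ^ (1 / r) * τ ^ (1 / (2 * r)) := by
          rw [Real.mul_rpow (Real.exp_pos _).le (Real.rpow_nonneg hτ0 _), ← Real.rpow_mul hτ0]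
          congr 2
          field_simp
      _ ≤ Real.exp 7 * τ ^ (1 / (2 * r)) := by
          refine mul_le_mul_of_nonneg_right ?_ (Real.rpow_nonneg hτ0 _)
          calc (Real.exp 7) ^ (1 / r) ≤ (Real.exp 7) ^ (1 : ℝ) := by
                refine Real.rpow_le_rpow_of_exponent_le ?_ ?_
                · exact Real.one_le_exp (by norm_num)
                · rw [div_le_one hr0]; exact hr
            _ = Real.exp 7 := Real.rpow_one _
  have hEx0 : 0 ≤ Ex N g := Ex_nonneg N hg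
  have hEx0' : 0 ≤ Ex N g' := Ex_nonneg N hg'
  have hD1 : DD Λ N g ≤ W * (x / G) := by
    refine (DD_le hW hg).trans (mul_le_mul_of_nonneg_left ?_ hW0.le)
    rw [le_div_iff₀ hG]; linarith
  have hD2 : DD Λ N g' ≤ W * (y / G) := by
    refine (DD_le hW hg').trans (mul_le_mul_of_nonneg_left ?_ hW0.le)
    rw [le_div_iff₀ hG]; linarith
  have h2 : (DD Λ N g) ^ ρ * (DD Λ N g') ^ ρ ≤ W ^ 2 * ((G ^ ρ)⁻¹ * (G ^ ρ)⁻¹) * (x * y) ^ ρ := by
    calc (DD Λ N g) ^ ρ * (DD Λ N g') ^ ρ ≤ (W * (x / G)) ^ ρ * (W * (y / G)) ^ ρ := by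
          refine mul_le_mul (Real.rpow_le_rpow (DD_nonneg hΛ N hg) hD1 hρ.le)
            (Real.rpow_le_rpow (DD_nonneg hΛ N hg') hD2 hρ.le)
            (Real.rpow_nonneg (DD_nonneg hΛ N hg') _) (by positivity)
      _ = (W ^ ρ * W ^ ρ) * ((G ^ ρ)⁻¹ * (G ^ ρ)⁻¹) * (x * y) ^ ρ := by
          rw [Real.mul_rpow hW0.le (by positivity), Real.mul_rpow hW0.le (by positivity),
            Real.div_rpow hx0.le hG.le, Real.div_rpow hy0.le hG.le, Real.mul_rpow hx0.le hy0.le]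
          ring
      _ ≤ W ^ 2 * ((G ^ ρ)⁻¹ * (G ^ ρ)⁻¹) * (x * y) ^ ρ := by
          have h3 : W ^ ρ ≤ W := by
            calc W ^ ρ ≤ W ^ (1 : ℝ) := Real.rpow_le_rpow_of_exponent_le hW1 (by linarith)
              _ = W := Real.rpow_one _
          have h4 : W ^ ρ * W ^ ρ ≤ W ^ 2 := by
            rw [sq]
            exact mul_le_mul h3 h3 (by positivity) hW0.le
          refine mul_le_mul_of_nonneg_right ?_ (by positivity)
          exact mul_le_mul_of_nonneg_right h4 (by positivity)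
  have h5 : G ^ κ * ((G ^ ρ)⁻¹ * (G ^ ρ)⁻¹) = G⁻¹ := by
    rw [← mul_inv, ← Real.rpow_add hG, ← Real.rpow_neg hG.le, ← Real.rpow_add hG]
    have : κ + -(ρ + ρ) = -1 := by rw [hρdef]; ring
    rw [this, Real.rpow_neg_one]
  have hDD0 : 0 ≤ (DD Λ N g) ^ ρ * (DD Λ N g') ^ ρ :=
    mul_nonneg (Real.rpow_nonneg (DD_nonneg hΛ N hg) _) (Real.rpow_nonneg (DD_nonneg hΛ N hg') _)
  calc 2 * C * (dens N (fun s t => (K s t * (s : ℝ) ^ θ) ^ r)) ^ (1 / r) * G ^ κ *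
        ((DD Λ N g) ^ ρ * (DD Λ N g') ^ ρ)
      ≤ 2 * C * (Real.exp 7 * τ ^ (1 / (2 * r))) * G ^ κ *
        ((DD Λ N g) ^ ρ * (DD Λ N g') ^ ρ) := by
        refine mul_le_mul_of_nonneg_right ?_ hDD0
        refine mul_le_mul_of_nonneg_right ?_ (by positivity)
        exact mul_le_mul_of_nonneg_left h1 (by positivity)
    _ ≤ 2 * C * (Real.exp 7 * τ ^ (1 / (2 * r))) * G ^ κ *
        (W ^ 2 * ((G ^ ρ)⁻¹ * (G ^ ρ)⁻¹) * (x * y) ^ ρ) :=
        mul_le_mul_of_nonneg_left h2 (by positivity)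
    _ = 2 * C * Real.exp 7 * W ^ 2 * τ ^ (1 / (2 * r)) * (G ^ κ * ((G ^ ρ)⁻¹ * (G ^ ρ)⁻¹)) *
        (x * y) ^ ρ := by ring
    _ = _ := by rw [h5]

/-! ### the low bound -/

lemma aw_mono {Λ Λ' : ℝ} (hΛ : 0 ≤ Λ) (h : Λ ≤ Λ') (b : ℕ) : aw Λ b ≤ aw Λ' b := by
  unfold aw
  refine Finset.prod_le_prod (fun p _ => by positivity) fun p _ => ?_
  have : Λ / (p : ℝ) ≤ Λ' / p := div_le_div_of_nonneg_right h (Nat.cast_nonneg p)
  linarith

/-- one direction: Hölder with the row bound of the first variable -/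
lemma one_dir {κ ε θ W P S R E G x y τ a : ℝ} (hκ : 1 / 2 < κ) (hκ1 : κ < 1) (hθ0 : 0 < θ)
    (hθ : θ ≤ 1 / 2) (hθε : 2 * θ ≤ ε) (hW : 1 ≤ W) (hP : 1 ≤ P) (hG : 0 < G) (hx : 0 < x)
    (hτ0 : 0 ≤ τ) (hτ1 : τ ≤ 1) (ha : 0 < a) (hS0 : 0 ≤ S) (hR0 : 0 ≤ R)
    (hS : S ≤ P * τ ^ (2 * a) * G⁻¹ * Real.exp (κ * (Real.log x + Real.log y) -
      ε * |Real.log x + Real.log y|))
    (hR : R ≤ W * (x / G)) (hE : E ≤ R ^ θ * S ^ (1 - θ)) :
    E ≤ W * P * τ ^ a * G⁻¹ * Real.exp (κ * (Real.log x + Real.log y) +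
      θ / 2 * (Real.log x - Real.log y)) := by
  have hθ1 : 0 < 1 - θ := by linarith
  have hW0 : 0 < W := by linarith
  have hP0 : 0 < P := by linarith
  set lx := Real.log x with hlx
  set ly := Real.log y with hly
  have hxe : x = Real.exp lx := (Real.exp_log hx).symm
  have h1 : R ^ θ ≤ W * (G ^ θ)⁻¹ * Real.exp (θ * lx) := by
    calc R ^ θ ≤ (W * (x / G)) ^ θ := Real.rpow_le_rpow hR0 hR hθ0.le
      _ = W ^ θ * (G ^ θ)⁻¹ * Real.exp (θ * lx) := by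
          rw [Real.mul_rpow hW0.le (by positivity), Real.div_rpow hx.le hG.le, hxe,
            ← Real.exp_mul, mul_comm lx θ]
          ring
      _ ≤ W * (G ^ θ)⁻¹ * Real.exp (θ * lx) := by
          refine mul_le_mul_of_nonneg_right ?_ (Real.exp_pos _).le
          refine mul_le_mul_of_nonneg_right ?_ (by positivity)
          calc W ^ θ ≤ W ^ (1 : ℝ) := Real.rpow_le_rpow_of_exponent_le hW (by linarith)
            _ = W := Real.rpow_one _
  have h2 : S ^ (1 - θ) ≤ P * τ ^ a * (G ^ (1 - θ))⁻¹ *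
      Real.exp ((1 - θ) * (κ * (lx + ly) - ε * |lx + ly|)) := by
    calc S ^ (1 - θ) ≤ (P * τ ^ (2 * a) * G⁻¹ * Real.exp (κ * (lx + ly) - ε * |lx + ly|)) ^ (1 - θ) :=
          Real.rpow_le_rpow hS0 hS hθ1.le
      _ = P ^ (1 - θ) * τ ^ (2 * a * (1 - θ)) * (G ^ (1 - θ))⁻¹ *
          Real.exp ((1 - θ) * (κ * (lx + ly) - ε * |lx + ly|)) := by
          have p1 : 0 ≤ τ ^ (2 * a) := Real.rpow_nonneg hτ0 _
          rw [Real.mul_rpow (by positivity) (Real.exp_pos _).le,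
            Real.mul_rpow (by positivity) (by positivity), Real.mul_rpow hP0.le p1,
            ← Real.rpow_mul hτ0, Real.inv_rpow hG.le, ← Real.exp_mul]
          congr 2
          ring
      _ ≤ _ := by
          refine mul_le_mul_of_nonneg_right ?_ (Real.exp_pos _).le
          refine mul_le_mul_of_nonneg_right ?_ (by positivity)
          refine mul_le_mul ?_ ?_ (Real.rpow_nonneg hτ0 _) hP0.le
          · calc P ^ (1 - θ) ≤ P ^ (1 : ℝ) := Real.rpow_le_rpow_of_exponent_le hP (by linarith)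
              _ = P := Real.rpow_one _
          · rcases eq_or_lt_of_le hτ0 with h | h
            · rw [← h, Real.zero_rpow (by positivity), Real.zero_rpow ha.ne']
            · refine Real.rpow_le_rpow_of_exponent_ge h hτ1 ?_
              nlinarith
  refine hE.trans ((mul_le_mul h1 h2 (Real.rpow_nonneg hS0 _) (by positivity)).trans ?_)
  have e1 : W * (G ^ θ)⁻¹ * Real.exp (θ * lx) * (P * τ ^ a * (G ^ (1 - θ))⁻¹ *
      Real.exp ((1 - θ) * (κ * (lx + ly) - ε * |lx + ly|))) =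
      W * P * τ ^ a * ((G ^ θ)⁻¹ * (G ^ (1 - θ))⁻¹) *
        Real.exp (θ * lx + (1 - θ) * (κ * (lx + ly) - ε * |lx + ly|)) := by
    rw [Real.exp_add]; ring
  have e2 : (G ^ θ)⁻¹ * (G ^ (1 - θ))⁻¹ = G⁻¹ := by
    rw [← mul_inv, ← Real.rpow_add hG]
    simp
  rw [e1, e2]
  refine mul_le_mul_of_nonneg_left (Real.exp_le_exp.2 ?_) (by positivity)
  have ha1 := le_abs_self (lx + ly)
  have ha2 := neg_abs_le (lx + ly)
  have ha3 := abs_nonneg (lx + ly)
  have hd : θ * (1 / 2 - κ) * (lx + ly) ≤ θ * (κ - 1 / 2) * |lx + ly| := by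
    have : 0 ≤ θ * (κ - 1 / 2) := by
      apply mul_nonneg hθ0.le; linarith
    nlinarith
  have hc : θ * (κ - 1 / 2) ≤ (1 - θ) * ε := by
    nlinarith
  have hc' : θ * (κ - 1 / 2) * |lx + ly| ≤ (1 - θ) * ε * |lx + ly| :=
    mul_le_mul_of_nonneg_right hc ha3
  nlinarith

set_option maxHeartbeats 1600000 in
/-- **LOW BOUND**: relation of natural density `τ` between `Y`-smooth words, exact masses,
decay in both masses. -/
theorem low_bound {κ : ℝ} (hκ : 1 / 2 < κ) (hκ1 : κ < 1) :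
    ∃ A C θ0 : ℝ, 0 ≤ A ∧ 1 ≤ C ∧ 0 < θ0 ∧ ∀ (N Y : ℕ) (g g' : ℕ → ℝ) (K : ℕ → ℕ → ℝ)
      (τ G x y : ℝ), 0 < N → 8 ≤ Y → (∀ p ∈ N.primeFactors, p ≤ Y) →
      (∀ b, 0 ≤ g b) → (∀ b, g b ≤ 1) → (∀ b, 0 ≤ g' b) → (∀ b, g' b ≤ 1) →
      (∀ s t, 0 ≤ K s t) → (∀ s t, K s t ≤ 1) → dens N K ≤ τ → τ ≤ 1 → 0 < G →
      0 < x → 0 < y → G * Ex N g ≤ x → G * Ex N g' ≤ y →
      ER N G g g' K ≤ C * Real.log Y ^ A * τ ^ ((1 - κ) / 8) * G⁻¹ * (x * y) ^ κ *
        Real.exp (-(θ0 / Real.log Y) * (|Real.log x| + |Real.log y|)) := by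
  set ε := min ((κ - 1 / 2) / 2) ((1 - κ) / 4) with hε
  have hε0 : 0 < ε := lt_min (by linarith) (by linarith)
  have hε1 : ε ≤ (κ - 1 / 2) / 2 := min_le_left _ _
  have hε2 : ε ≤ (1 - κ) / 4 := min_le_right _ _
  set r := 2 / (1 - κ) with hr
  have h1κ : 0 < 1 - κ := by linarith
  have hr0 : 0 < r := by positivity
  have hr1 : 1 ≤ r := by rw [hr, le_div_iff₀ h1κ]; linarith
  have hrr : 1 / (2 * r) = 2 * ((1 - κ) / 8) := by rw [hr]; field_simp; norm_num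
  obtain ⟨Λ1, C1, hΛ1, hC1, T1⟩ := tgen (κ := 2 * (κ + ε) - 1) (r := r) (by linarith) (by linarith)
    (by
      rw [hr]
      apply div_lt_div_of_pos_left (by norm_num) (by linarith) (by linarith))
  obtain ⟨Λ2, C2, hΛ2, hC2, T2⟩ := tgen (κ := 2 * (κ - ε) - 1) (r := r) (by linarith) (by linarith)
    (by
      rw [hr]
      apply div_lt_div_of_pos_left (by norm_num) (by linarith) (by linarith))
  set Λ := max (max Λ1 Λ2) 2 with hΛ
  have hΛ1' : Λ1 ≤ Λ := (le_max_left _ _).trans (le_max_left _ _)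
  have hΛ2' : Λ2 ≤ Λ := (le_max_right _ _).trans (le_max_left _ _)
  have hΛ3' : 2 ≤ Λ := le_max_right _ _
  have hΛ0 : 0 ≤ Λ := by linarith
  set C0 := max C1 C2 with hC0
  have hC0' : 1 ≤ C0 := hC1.trans (le_max_left _ _)
  have T1' := TGen.mono (by linarith) hΛ1 hΛ1' (by linarith) (le_max_left C1 C2) T1
  have T2' := TGen.mono (by linarith) hΛ2 hΛ2' (by linarith) (le_max_right C1 C2) T2
  rw [← hC0] at T1' T2'
  set θ2 := min ((1 - κ) / 8) ε with hθ2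
  have hθ20 : 0 < θ2 := lt_min (by linarith) hε0
  have hθ21 : θ2 ≤ (1 - κ) / 8 := min_le_left _ _
  have hθ22 : θ2 ≤ ε := min_le_right _ _
  refine ⟨3 * Λ, 2 * C0 * Real.exp 7 * Real.exp (84 * Λ), θ2 / 2, by positivity, ?_, by positivity,
    ?_⟩
  · have e1 : (1 : ℝ) ≤ Real.exp 7 := Real.one_le_exp (by norm_num)
    have e2 : (1 : ℝ) ≤ Real.exp (84 * Λ) := Real.one_le_exp (by positivity)
    have e3 : (1 : ℝ) ≤ 2 * C0 := by linarith
    exact one_le_mul_of_one_le_of_one_le (one_le_mul_of_one_le_of_one_le e3 e1) e2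
  intro N Y g g' K τ G x y hN hY hNY hg hg1 hg' hg1' hK hK1 hτ hτ1 hG hx0 hy0 hx hy
  have hY8 : (8 : ℝ) ≤ Y := by exact_mod_cast hY
  have hly : 2 ≤ Real.log Y := log_eight.trans (Real.log_le_log (by norm_num) hY8)
  have hly0 : 0 < Real.log Y := by linarith
  have hτ0 : 0 ≤ τ := (dens_nonneg N hK).trans hτ
  set W := Real.exp (28 * Λ) * Real.log Y ^ Λ with hWdef
  have hW1 : 1 ≤ W := by
    rw [hWdef]
    exact one_le_mul_of_one_le_of_one_le (Real.one_le_exp (by positivity))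
      (Real.one_le_rpow (by linarith) hΛ0)
  have hW : ∀ u, u ∣ N → aw Λ u ≤ W := fun u hu => aw_le hΛ0 hN hY hNY hu
  have hW2 : ∀ u, u ∣ N → aw 2 u ≤ W := fun u hu => (aw_mono (by norm_num) hΛ3' u).trans (hW u hu)
  set θ := θ2 / Real.log Y with hθ
  have hθ0 : 0 < θ := by positivity
  have hθle : θ ≤ θ2 / 2 := div_le_div_of_nonneg_left hθ20.le (by norm_num) hly
  have hθh : θ ≤ 1 / 2 := by linarith
  have hθ1 : 0 < 1 - θ := by linarith
  have hθε : 2 * θ ≤ ε := by linarith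
  -- the Rankin exponent
  have hRk : 2 * (r * (θ / (1 - θ))) ≤ 1 / Real.log Y := by
    have h1 : θ / (1 - θ) ≤ 2 * θ := by
      rw [div_le_iff₀ hθ1]; nlinarith
    have h2 : 2 * (r * (θ / (1 - θ))) ≤ 4 * r * θ := by nlinarith
    refine h2.trans ?_
    have h3 : 4 * r * θ2 ≤ 1 := by
      calc 4 * r * θ2 ≤ 4 * r * ((1 - κ) / 8) := mul_le_mul_of_nonneg_left hθ21 (by positivity)
        _ = 1 := by rw [hr]; field_simp; norm_num
    rw [hθ]
    calc 4 * r * (θ2 / Real.log Y) = (4 * r * θ2) / Real.log Y := by ring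
      _ ≤ 1 / Real.log Y := div_le_div_of_nonneg_right h3 hly0.le
  set P := 2 * C0 * Real.exp 7 * W ^ 2 with hP
  have hP1 : 1 ≤ P := by
    have e1 : (1 : ℝ) ≤ Real.exp 7 := Real.one_le_exp (by norm_num)
    have e3 : (1 : ℝ) ≤ 2 * C0 := by linarith
    exact one_le_mul_of_one_le_of_one_le (one_le_mul_of_one_le_of_one_le e3 e1) (one_le_pow₀ hW1)
  -- the bound for the weighted form, both directions
  have key : ∀ (g g' : ℕ → ℝ) (K : ℕ → ℕ → ℝ) (x y : ℝ), (∀ b, 0 ≤ g b) → (∀ b, g b ≤ 1) →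
      (∀ b, 0 ≤ g' b) → (∀ b, g' b ≤ 1) → (∀ s t, 0 ≤ K s t) → (∀ s t, K s t ≤ 1) →
      dens N K ≤ τ → 0 < x → 0 < y → G * Ex N g ≤ x → G * Ex N g' ≤ y →
      ER N G g g' (fun s t => K s t * (s : ℝ) ^ (θ / (1 - θ))) ≤
        P * τ ^ (2 * ((1 - κ) / 8)) * G⁻¹ * Real.exp (κ * (Real.log x + Real.log y) -
          ε * |Real.log x + Real.log y|) := by
    intro g g' K x y hg hg1 hg' hg1' hK hK1 hτ hx0 hy0 hx hy
    have b1 := s2_bound (κ := 2 * (κ + ε) - 1) (by linarith) (by linarith) hr1 hΛ0 (by linarith)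
      T1' hN hY hNY hW1 hW hg hg1 hg' hg1' hK hK1 hτ hRk hG hx0 hy0 hx hy
    have b2 := s2_bound (κ := 2 * (κ - ε) - 1) (by linarith) (by linarith) hr1 hΛ0 (by linarith)
      T2' hN hY hNY hW1 hW hg hg1 hg' hg1' hK hK1 hτ hRk hG hx0 hy0 hx hy
    rw [hrr, ← hP] at b1 b2
    have e1 : (1 + (2 * (κ + ε) - 1)) / 2 = κ + ε := by ring
    have e2 : (1 + (2 * (κ - ε) - 1)) / 2 = κ - ε := by ring
    rw [e1] at b1
    rw [e2] at b2
    have e3 : ∀ s : ℝ, (x * y) ^ s = Real.exp (s * (Real.log x + Real.log y)) := by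
      intro s
      rw [Real.rpow_def_of_pos (mul_pos hx0 hy0), Real.log_mul hx0.ne' hy0.ne', mul_comm]
    rw [e3] at b1 b2
    rcases le_total 0 (Real.log x + Real.log y) with hs | hs
    · refine b2.trans (le_of_eq ?_)
      rw [abs_of_nonneg hs]; ring_nf
    · refine b1.trans (le_of_eq ?_)
      rw [abs_of_nonpos hs]; ring_nf
  have hS1 := key g g' K x y hg hg1 hg' hg1' hK hK1 hτ hx0 hy0 hx hy
  have hS2 := key g' g (fun s t => K t s) y x hg' hg1' hg hg1 (fun s t => hK t s)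
    (fun s t => hK1 t s) (by rw [dens_swap]; exact hτ) hy0 hx0 hy hx
  have hrow : ∀ (g g' : ℕ → ℝ) (x : ℝ), (∀ b, 0 ≤ g b) → (∀ b, g' b ≤ 1) →
      G * Ex N g ≤ x → ER N G g g' (fun s _ => 1 / (s : ℝ)) ≤ W * (x / G) := by
    intro g g' x hg hg1' hx
    refine (row_le hN hW2 hg hg1' G).trans (mul_le_mul_of_nonneg_left ?_ (by linarith))
    rw [le_div_iff₀ hG]; linarith
  have hE1 : ER N G g g' K ≤ W * P * τ ^ ((1 - κ) / 8) * G⁻¹ *
      Real.exp (κ * (Real.log x + Real.log y) + θ / 2 * (Real.log x - Real.log y)) :=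
    one_dir hκ hκ1 hθ0 hθh hθε hW1 hP1 hG hx0 hτ0 hτ1 (by linarith)
      (er_nonneg N G hg hg' fun s t => mul_nonneg (hK s t) (by positivity))
      (er_nonneg N G hg hg' fun s t => by positivity) hS1 (hrow g g' x hg hg1' hx)
      (er_holder hg hg' hK hK1 hθ0 (by linarith))
  have hE2 : ER N G g g' K ≤ W * P * τ ^ ((1 - κ) / 8) * G⁻¹ *
      Real.exp (κ * (Real.log y + Real.log x) + θ / 2 * (Real.log y - Real.log x)) := by
    rw [er_swap]
    exact one_dir hκ hκ1 hθ0 hθh hθε hW1 hP1 hG hy0 hτ0 hτ1 (by linarith)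
      (er_nonneg N G hg' hg fun s t => mul_nonneg (hK t s) (by positivity))
      (er_nonneg N G hg' hg fun s t => by positivity) hS2 (hrow g' g y hg' hg1 hy)
      (er_holder hg' hg (fun s t => hK t s) (fun s t => hK1 t s) hθ0 (by linarith))
  have hE3 : ER N G g g' K ≤ W * P * τ ^ ((1 - κ) / 8) * G⁻¹ *
      Real.exp (κ * (Real.log x + Real.log y) - θ / 2 * |Real.log x + Real.log y|) := by
    have h1 : ER N G g g' K ≤ ER N G g g' (fun s t => K s t * (s : ℝ) ^ (θ / (1 - θ))) := by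
      refine er_mono N G hg hg' fun s t hs _ => ?_
      refine le_mul_of_one_le_right (hK s t) (Real.one_le_rpow ?_ (by positivity))
      exact_mod_cast hs
    refine h1.trans (hS1.trans ?_)
    have hτa : τ ^ (2 * ((1 - κ) / 8)) ≤ τ ^ ((1 - κ) / 8) := by
      rcases eq_or_lt_of_le hτ0 with h | h
      · rw [← h, Real.zero_rpow (by positivity), Real.zero_rpow (by positivity)]
      · exact Real.rpow_le_rpow_of_exponent_ge h hτ1 (by linarith)
    have hexp : Real.exp (κ * (Real.log x + Real.log y) - ε * |Real.log x + Real.log y|) ≤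
        Real.exp (κ * (Real.log x + Real.log y) - θ / 2 * |Real.log x + Real.log y|) := by
      apply Real.exp_le_exp.2
      have := abs_nonneg (Real.log x + Real.log y)
      nlinarith
    refine mul_le_mul ?_ hexp (Real.exp_pos _).le (by positivity)
    refine mul_le_mul_of_nonneg_right ?_ (by positivity)
    refine mul_le_mul ?_ hτa (Real.rpow_nonneg hτ0 _) (by positivity)
    exact le_mul_of_one_le_left (by linarith) hW1
  -- combine
  have hpre : W * P * τ ^ ((1 - κ) / 8) * G⁻¹ =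
      2 * C0 * Real.exp 7 * Real.exp (84 * Λ) * Real.log Y ^ (3 * Λ) * τ ^ ((1 - κ) / 8) * G⁻¹ := by
    have e1 : W ^ 3 = Real.exp (84 * Λ) * Real.log Y ^ (3 * Λ) := by
      rw [hWdef, mul_pow, ← Real.exp_nat_mul, ← Real.rpow_natCast, ← Real.rpow_mul hly0.le]
      push_cast
      congr 2
      · ring
      · ring
    calc W * P * τ ^ ((1 - κ) / 8) * G⁻¹ = 2 * C0 * Real.exp 7 * W ^ 3 * τ ^ ((1 - κ) / 8) * G⁻¹ := by
          rw [hP]; ring
      _ = _ := by rw [e1]; ring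
  have hQ0 : 0 ≤ W * P * τ ^ ((1 - κ) / 8) * G⁻¹ := by positivity
  have hxy : (x * y) ^ κ = Real.exp (κ * (Real.log x + Real.log y)) := by
    rw [Real.rpow_def_of_pos (mul_pos hx0 hy0), Real.log_mul hx0.ne' hy0.ne', mul_comm]
  have hfin : ER N G g g' K ≤ W * P * τ ^ ((1 - κ) / 8) * G⁻¹ *
      Real.exp (κ * (Real.log x + Real.log y) - θ / 2 * (|Real.log x| + |Real.log y|)) := by
    rcases le_total 0 (Real.log x) with h1 | h1 <;> rcases le_total 0 (Real.log y) with h2 | h2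
    · refine hE3.trans (le_of_eq ?_)
      rw [abs_of_nonneg h1, abs_of_nonneg h2, abs_of_nonneg (add_nonneg h1 h2)]
    · refine hE2.trans (le_of_eq ?_)
      rw [abs_of_nonneg h1, abs_of_nonpos h2]; ring_nf
    · refine hE1.trans (le_of_eq ?_)
      rw [abs_of_nonpos h1, abs_of_nonneg h2]; ring_nf
    · refine hE3.trans (le_of_eq ?_)
      rw [abs_of_nonpos h1, abs_of_nonpos h2, abs_of_nonpos (add_nonpos h1 h2)]; ring_nf
  refine hfin.trans (le_of_eq ?_)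
  have e5 : Real.exp (κ * (Real.log x + Real.log y) - θ / 2 * (|Real.log x| + |Real.log y|)) =
      Real.exp (κ * (Real.log x + Real.log y)) *
        Real.exp (-(θ2 / 2 / Real.log Y) * (|Real.log x| + |Real.log y|)) := by
    rw [← Real.exp_add]
    congr 1
    rw [hθ]; ring
  rw [hpre, hxy, e5]
  ring

end Crest.Agent.R4C.RareLowx442
end

-- ▼ part R4C/RareEn_442

/-!
# Row 4: THEOREM RARE — energy of a relation of small natural density in the smooth words,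
exact masses, arbitrary dependence on the rough words (helper442)

`rare_thm`: `1/2 < κ < 1`; if for every pair `T, T'` of rough words (primes `> Y`) the kernel is
dominated by a function `k T T'` of the coprime smooth cofactors of natural density `≤ τ ≤ 1`, then

`∑_{X ≤ gcd < 2X} gcd ν ν f f' K ≤ C (log Y)^A τ^((1-κ)/8) X^(2κ-1) (ν f)^κ (ν f')^κ`.

Proof: `low_bound` for the smooth words (decay in both masses), `hvw_b` (exact-scale HVW of
helper19) for the level sets of the rough words, Cauchy–Schwarz over the smooth gcd.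
-/

set_option autoImplicit false

open Finset

namespace Crest.Agent.R4C.RareEnx442

open Basex935 Cutx50 MXlowx808 RareLowx442

/-! ### levels -/

/-- dyadic level of a number in `(0,1]` -/
noncomputable def lv (v : ℝ) : ℕ := Nat.log 2 ⌊1 / v⌋₊

lemma lv_le {v : ℝ} (h0 : 0 < v) (h1 : v ≤ 1) : v * 2 ^ lv v ≤ 1 := by
  have h2 : (1 : ℝ) ≤ 1 / v := by rw [le_div_iff₀ h0]; linarith
  have h3 : ⌊1 / v⌋₊ ≠ 0 := by
    rw [← Nat.one_le_iff_ne_zero, Nat.one_le_floor_iff]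
    exact h2
  have h4 : 2 ^ lv v ≤ ⌊1 / v⌋₊ := Nat.pow_log_le_self 2 h3
  have h5 : ((2 ^ lv v : ℕ) : ℝ) ≤ 1 / v :=
    (by exact_mod_cast h4 : ((2 ^ lv v : ℕ) : ℝ) ≤ (⌊1 / v⌋₊ : ℝ)).trans
      (Nat.floor_le (by positivity))
  push_cast at h5
  rw [le_div_iff₀ h0] at h5
  linarith

lemma lt_lv {v : ℝ} (h0 : 0 < v) : 1 < v * 2 ^ (lv v + 1) := by
  have h4 : ⌊1 / v⌋₊ < 2 ^ (lv v + 1) := Nat.lt_pow_succ_log_self (by norm_num) _
  have h5 : 1 / v < ((2 ^ (lv v + 1) : ℕ) : ℝ) := by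
    have h6 : 1 / v < (⌊1 / v⌋₊ : ℝ) + 1 := Nat.lt_floor_add_one _
    have h7 : ((⌊1 / v⌋₊ + 1 : ℕ) : ℝ) ≤ ((2 ^ (lv v + 1) : ℕ) : ℝ) := by
      exact_mod_cast h4
    push_cast at h7 ⊢
    linarith
  push_cast at h5
  rw [div_lt_iff₀ h0] at h5
  linarith

open Classical in
/-- indicator of the level `a` of `V` -/
noncomputable def hl (V : ℕ → ℝ) (a T : ℕ) : ℝ := if 0 < V T ∧ lv (V T) = a then 1 else 0

lemma hl_nonneg (V : ℕ → ℝ) (a T : ℕ) : 0 ≤ hl V a T := by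
  unfold hl; split_ifs <;> norm_num

lemma hl_le_one (V : ℕ → ℝ) (a T : ℕ) : hl V a T ≤ 1 := by
  unfold hl; split_ifs <;> norm_num

lemma hl_self {V : ℕ → ℝ} {T : ℕ} (h : 0 < V T) : hl V (lv (V T)) T = 1 := by
  unfold hl; rw [if_pos ⟨h, rfl⟩]

lemma hl_mul_le (V : ℕ → ℝ) (a T : ℕ) : hl V a T ≤ 2 ^ (a + 1) * (hl V a T * V T) := by
  unfold hl
  split_ifs with h
  · have := lt_lv h.1
    rw [h.2] at this
    linarith
  · simp

lemma sum_hl_le {V : ℕ → ℝ} (hV : ∀ T, 0 ≤ V T) (L T : ℕ) :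
    ∑ a ∈ range L, hl V a T * V T ≤ V T := by
  rw [← sum_mul]
  refine mul_le_of_le_one_left (hV T) ?_
  unfold hl
  by_cases h : 0 < V T
  · calc ∑ a ∈ range L, (if 0 < V T ∧ lv (V T) = a then (1 : ℝ) else 0)
        = ∑ a ∈ range L, (if lv (V T) = a then (1 : ℝ) else 0) := by
          refine sum_congr rfl fun a _ => ?_
          simp [h]
      _ ≤ 1 := by
          rw [sum_ite_eq]
          split_ifs <;> norm_num
  · have : ∀ a ∈ range L, (if 0 < V T ∧ lv (V T) = a then (1 : ℝ) else 0) = 0 := by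
      intro a _
      rw [if_neg]
      exact fun hc => h hc.1
    rw [sum_congr rfl this, sum_const_zero]
    norm_num

/-! ### convolution over the levels -/

lemma conv1 {κ q : ℝ} (hκ : 1 / 2 ≤ κ) (hq0 : 0 ≤ q) (hq1 : q < 1) (R L : ℕ) {m : ℕ → ℝ}
    (hm : ∀ a, 0 ≤ m a) {Z : ℝ} (hZ0 : 0 ≤ Z) (hZ : ∑ a ∈ range L, m a ≤ Z) :
    ∑ k ∈ range R, (∑ a ∈ range L, m a ^ κ * q ^ (Nat.dist k a)) ^ 2 ≤
      (2 / (1 - q)) ^ 2 * Z ^ (2 * κ) := by
  set Q := 2 / (1 - q) with hQ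
  have hQ0 : 0 ≤ Q := div_nonneg two_pos.le (by linarith)
  have h1 : ∀ k ∈ range R, (∑ a ∈ range L, m a ^ κ * q ^ (Nat.dist k a)) ^ 2 ≤
      Q * ∑ a ∈ range L, m a ^ (2 * κ) * q ^ (Nat.dist k a) := by
    intro k _
    have h := sum_sq_le_sum_mul_sum_of_sq_le_mul (range L)
      (r := fun a => m a ^ κ * q ^ (Nat.dist k a)) (f := fun a => q ^ (Nat.dist k a))
      (g := fun a => m a ^ (2 * κ) * q ^ (Nat.dist k a)) (fun a _ => by positivity)
      (fun a _ => mul_nonneg (Real.rpow_nonneg (hm a) _) (by positivity))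
      (fun a _ => by
        have e : m a ^ (2 * κ) = m a ^ κ * m a ^ κ := by
          rw [two_mul, Real.rpow_add_of_nonneg (hm a) (by linarith) (by linarith)]
        simp only [e]
        exact le_of_eq (by ring))
    refine h.trans (mul_le_mul_of_nonneg_right (MStTx590.geomS hq0 hq1 (range L) k) ?_)
    exact sum_nonneg fun a _ => mul_nonneg (Real.rpow_nonneg (hm a) _) (by positivity)
  calc ∑ k ∈ range R, (∑ a ∈ range L, m a ^ κ * q ^ (Nat.dist k a)) ^ 2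
      ≤ ∑ k ∈ range R, Q * ∑ a ∈ range L, m a ^ (2 * κ) * q ^ (Nat.dist k a) := sum_le_sum h1
    _ = Q * ∑ a ∈ range L, m a ^ (2 * κ) * ∑ k ∈ range R, q ^ (Nat.dist a k) := by
        rw [← mul_sum, sum_comm]
        congr 1
        refine sum_congr rfl fun a _ => ?_
        rw [mul_sum]
        refine sum_congr rfl fun k _ => ?_
        rw [Nat.dist_comm]
    _ ≤ Q * ∑ a ∈ range L, m a ^ (2 * κ) * Q := by
        refine mul_le_mul_of_nonneg_left (sum_le_sum fun a _ => ?_) hQ0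
        exact mul_le_mul_of_nonneg_left (MStTx590.geomS hq0 hq1 (range R) a)
          (Real.rpow_nonneg (hm a) _)
    _ = Q ^ 2 * ∑ a ∈ range L, m a ^ (2 * κ) := by
        rw [← sum_mul]; ring
    _ ≤ Q ^ 2 * Z ^ (2 * κ) :=
        mul_le_mul_of_nonneg_left (Multix251.pow_sum_le' hκ hZ0 _ _ hm hZ) (by positivity)

lemma conv2 {κ q : ℝ} (hκ : 1 / 2 ≤ κ) (hq0 : 0 ≤ q) (hq1 : q < 1) (R L : ℕ) {m m' : ℕ → ℝ}
    (hm : ∀ a, 0 ≤ m a) (hm' : ∀ a, 0 ≤ m' a) {Z Z' : ℝ} (hZ0 : 0 ≤ Z) (hZ0' : 0 ≤ Z')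
    (hZ : ∑ a ∈ range L, m a ≤ Z) (hZ' : ∑ a ∈ range L, m' a ≤ Z') :
    ∑ k ∈ range R, (∑ a ∈ range L, m a ^ κ * q ^ (Nat.dist k a)) *
      (∑ a ∈ range L, m' a ^ κ * q ^ (Nat.dist k a)) ≤
      (2 / (1 - q)) ^ 2 * (Z ^ κ * Z' ^ κ) := by
  set Q := 2 / (1 - q) with hQ
  have hQ0 : 0 ≤ Q := div_nonneg two_pos.le (by linarith)
  have h1 := conv1 hκ hq0 hq1 R L hm hZ0 hZ
  have h2 := conv1 hκ hq0 hq1 R L hm' hZ0' hZ'
  have h3 := sum_mul_sq_le_sq_mul_sq (range R)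
    (fun k => ∑ a ∈ range L, m a ^ κ * q ^ (Nat.dist k a))
    (fun k => ∑ a ∈ range L, m' a ^ κ * q ^ (Nat.dist k a))
  have hr : 0 ≤ Q ^ 2 * (Z ^ κ * Z' ^ κ) :=
    mul_nonneg (by positivity) (mul_nonneg (Real.rpow_nonneg hZ0 _) (Real.rpow_nonneg hZ0' _))
  have hl0 : 0 ≤ ∑ k ∈ range R, (∑ a ∈ range L, m a ^ κ * q ^ (Nat.dist k a)) *
      (∑ a ∈ range L, m' a ^ κ * q ^ (Nat.dist k a)) :=
    sum_nonneg fun k _ => mul_nonneg
      (sum_nonneg fun a _ => mul_nonneg (Real.rpow_nonneg (hm a) _) (by positivity))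
      (sum_nonneg fun a _ => mul_nonneg (Real.rpow_nonneg (hm' a) _) (by positivity))
  refine (pow_le_pow_iff_left₀ hl0 hr two_ne_zero).1 ?_
  refine h3.trans ?_
  have e : (Q ^ 2 * (Z ^ κ * Z' ^ κ)) ^ 2 = (Q ^ 2 * Z ^ (2 * κ)) * (Q ^ 2 * Z' ^ (2 * κ)) := by
    have e1 : Z ^ (2 * κ) = Z ^ κ * Z ^ κ := by
      rw [two_mul, Real.rpow_add_of_nonneg hZ0 (by linarith) (by linarith)]
    have e2 : Z' ^ (2 * κ) = Z' ^ κ * Z' ^ κ := by
      rw [two_mul, Real.rpow_add_of_nonneg hZ0' (by linarith) (by linarith)]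
    rw [e1, e2]; ring
  rw [e]
  exact mul_le_mul h1 h2 (sum_nonneg fun _ _ => sq_nonneg _)
    (mul_nonneg (by positivity) (Real.rpow_nonneg hZ0 _))

/-! ### windows -/

lemma win_split {N g : ℕ} (hg : 0 < g) (hgN : g ≤ N) {X h t : ℝ} (hh : 0 < h) (ht : 0 ≤ t) :
    (if X ≤ (g : ℝ) * h ∧ (g : ℝ) * h < 2 * X then t else 0) ≤
      ∑ k ∈ range (N + 1), (if X / 2 ^ k ≤ h ∧ h < 4 * (X / 2 ^ k) then
        (if (2 : ℝ) ^ k / 2 < g ∧ (g : ℝ) ≤ 2 * (2 ^ k / 2) then t else 0) else 0) := by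
  have hn : ∀ k ∈ range (N + 1), 0 ≤ (if X / 2 ^ k ≤ h ∧ h < 4 * (X / 2 ^ k) then
        (if (2 : ℝ) ^ k / 2 < g ∧ (g : ℝ) ≤ 2 * (2 ^ k / 2) then t else 0) else (0 : ℝ)) := by
    intro k _
    split_ifs
    · exact ht
    · exact le_rfl
    · exact le_rfl
  split_ifs with hc
  · set k0 := Nat.clog 2 g with hk0
    have h1 : g ≤ 2 ^ k0 := Nat.le_pow_clog (by norm_num) g
    have h1' : (g : ℝ) ≤ 2 ^ k0 := by exact_mod_cast h1
    have h2 : (2 : ℝ) ^ k0 / 2 < g := by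
      rcases Nat.lt_or_ge 1 g with h | h
      · have h3 : 2 ^ (k0 - 1) < g := Nat.pow_pred_clog_lt_self (b := 2) (by norm_num) h
        have h4 : 0 < k0 := Nat.clog_pos (by norm_num) h
        have h5 : (2 : ℝ) ^ k0 = 2 ^ (k0 - 1) * 2 := by
          rw [← pow_succ]; congr 1; omega
        have h6 : ((2 ^ (k0 - 1) : ℕ) : ℝ) < g := by exact_mod_cast h3
        push_cast at h6
        rw [h5]; linarith
      · have h1g : g = 1 := by omega
        have hk : k0 = 0 := by rw [hk0, h1g]; simp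
        rw [hk, h1g]; norm_num
    have hkN : k0 ∈ range (N + 1) := by
      rw [mem_range]
      have : k0 ≤ g := Nat.clog_le_of_le_pow (Nat.lt_two_pow_self.le)
      omega
    have h3 := single_le_sum hn hkN
    have hg0 : (0 : ℝ) < g := by exact_mod_cast hg
    have hp : (0 : ℝ) < 2 ^ k0 := by positivity
    rw [if_pos, if_pos ⟨h2, by linarith⟩] at h3
    · exact h3
    · constructor
      · rw [div_le_iff₀ hp]
        calc X ≤ g * h := hc.1
          _ ≤ 2 ^ k0 * h := mul_le_mul_of_nonneg_right h1' hh.le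
          _ = h * 2 ^ k0 := mul_comm _ _
      · rw [← mul_div_assoc, lt_div_iff₀ hp]
        have h7 : (2 : ℝ) ^ k0 < 2 * g := by linarith
        calc h * 2 ^ k0 < h * (2 * g) := mul_lt_mul_of_pos_left h7 hh
          _ = 2 * (g * h) := by ring
          _ < 2 * (2 * X) := by linarith [hc.2]
          _ = 4 * X := by ring
  · exact sum_nonneg hn

lemma er_zero {N : ℕ} {G : ℝ} {g g' : ℕ → ℝ} {K : ℕ → ℕ → ℝ} (hg : ∀ b, 0 ≤ g b)
    (h : Ex N g = 0) : ER N G g g' K = 0 := by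
  unfold Ex at h
  rw [sum_eq_zero_iff_of_nonneg fun b _ => mul_nonneg (nu_nonneg _ _) (hg b)] at h
  unfold ER
  refine sum_eq_zero fun b hb => sum_eq_zero fun c _ => ?_
  split_ifs
  · calc _ = (nu N b * g b) * ((Nat.gcd b c : ℝ) * nu N c *
        (g' c * K (b / Nat.gcd b c) (c / Nat.gcd b c))) := by ring
      _ = 0 := by rw [h b hb, zero_mul]
  · rfl

lemma abs_log_two (j a : ℕ) : |Real.log ((2 : ℝ) ^ j / 2 ^ a)| = (Nat.dist j a : ℝ) * Real.log 2 := by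
  have hl : 0 ≤ Real.log 2 := Real.log_nonneg (by norm_num)
  rw [Real.log_div (by positivity) (by positivity), Real.log_pow, Real.log_pow, ← sub_mul,
    abs_mul, abs_of_nonneg hl]
  congr 1
  rcases le_total j a with h | h
  · rw [Nat.dist_eq_sub_of_le h, Nat.cast_sub h, abs_of_nonpos, neg_sub]
    have : (j : ℝ) ≤ a := by exact_mod_cast h
    linarith
  · rw [Nat.dist_eq_sub_of_le_right h, Nat.cast_sub h, abs_of_nonneg]
    have : (a : ℝ) ≤ j := by exact_mod_cast h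
    linarith

lemma two_win {κ Ch : ℝ} (hκ1 : κ < 1) (hCh : 0 < Ch)
    (hh : ∀ (M : ℕ) (X : ℝ) (f f' : ℕ → ℝ), M ≠ 0 → 0 < X →
      (∀ x, 0 ≤ f x) → (∀ x, f x ≤ 1) → (∀ x, 0 ≤ f' x) → (∀ x, f' x ≤ 1) →
      ∑ b ∈ M.divisors, ∑ c ∈ M.divisors,
        (if X ≤ (Nat.gcd b c : ℝ) ∧ (Nat.gcd b c : ℝ) < 2 * X then
          (Nat.gcd b c : ℝ) * nu M b * nu M c * (f b * f' c)
        else 0) ≤ Ch * X ^ (2 * κ - 1) *
          ((∑ b ∈ M.divisors, nu M b * f b) ^ κ * (∑ b ∈ M.divisors, nu M b * f' b) ^ κ))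
    {D : ℕ} (hD : D ≠ 0) {X : ℝ} (hX : 0 < X) {f f' : ℕ → ℝ} (hf : ∀ x, 0 ≤ f x)
    (hf1 : ∀ x, f x ≤ 1) (hf' : ∀ x, 0 ≤ f' x) (hf1' : ∀ x, f' x ≤ 1) :
    ∑ b ∈ D.divisors, ∑ c ∈ D.divisors,
        (if X ≤ (Nat.gcd b c : ℝ) ∧ (Nat.gcd b c : ℝ) < 4 * X then
          (Nat.gcd b c : ℝ) * nu D b * nu D c * (f b * f' c)
        else 0) ≤ 3 * Ch * X ^ (2 * κ - 1) *
          ((∑ b ∈ D.divisors, nu D b * f b) ^ κ * (∑ b ∈ D.divisors, nu D b * f' b) ^ κ) := by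
  have h1 := hh D X f f' hD hX hf hf1 hf' hf1'
  have h2 := hh D (2 * X) f f' hD (by linarith) hf hf1 hf' hf1'
  set A := (∑ b ∈ D.divisors, nu D b * f b) ^ κ * (∑ b ∈ D.divisors, nu D b * f' b) ^ κ with hA
  have hA0 : 0 ≤ A := mul_nonneg
    (Real.rpow_nonneg (sum_nonneg fun b _ => mul_nonneg (nu_nonneg _ _) (hf b)) _)
    (Real.rpow_nonneg (sum_nonneg fun b _ => mul_nonneg (nu_nonneg _ _) (hf' b)) _)
  have h3 : (2 * X) ^ (2 * κ - 1) ≤ 2 * X ^ (2 * κ - 1) := by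
    rw [Real.mul_rpow (by norm_num) hX.le]
    refine mul_le_mul_of_nonneg_right ?_ (by positivity)
    calc (2 : ℝ) ^ (2 * κ - 1) ≤ 2 ^ (1 : ℝ) :=
          Real.rpow_le_rpow_of_exponent_le (by norm_num) (by linarith)
      _ = 2 := Real.rpow_one _
  calc _ ≤ ∑ b ∈ D.divisors, ∑ c ∈ D.divisors,
        (if X ≤ (Nat.gcd b c : ℝ) ∧ (Nat.gcd b c : ℝ) < 2 * X then
          (Nat.gcd b c : ℝ) * nu D b * nu D c * (f b * f' c) else 0) +
      ∑ b ∈ D.divisors, ∑ c ∈ D.divisors,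
        (if 2 * X ≤ (Nat.gcd b c : ℝ) ∧ (Nat.gcd b c : ℝ) < 2 * (2 * X) then
          (Nat.gcd b c : ℝ) * nu D b * nu D c * (f b * f' c) else 0) := by
        rw [← sum_add_distrib]
        refine sum_le_sum fun b _ => ?_
        rw [← sum_add_distrib]
        refine sum_le_sum fun c _ => ?_
        have h0 : 0 ≤ (Nat.gcd b c : ℝ) * nu D b * nu D c * (f b * f' c) :=
          mul_nonneg (mul_nonneg (mul_nonneg (Nat.cast_nonneg _) (nu_nonneg _ _)) (nu_nonneg _ _))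
            (mul_nonneg (hf b) (hf' c))
        by_cases hc : X ≤ (Nat.gcd b c : ℝ) ∧ (Nat.gcd b c : ℝ) < 4 * X
        · rw [if_pos hc]
          by_cases hc2 : (Nat.gcd b c : ℝ) < 2 * X
          · rw [if_pos ⟨hc.1, hc2⟩]
            have : 0 ≤ (if 2 * X ≤ (Nat.gcd b c : ℝ) ∧ (Nat.gcd b c : ℝ) < 2 * (2 * X) then
              (Nat.gcd b c : ℝ) * nu D b * nu D c * (f b * f' c) else 0) := by
              split_ifs
              · exact h0
              · exact le_rfl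
            linarith
          · rw [if_neg (fun h => hc2 h.2), if_pos ⟨not_lt.1 hc2, by linarith [hc.2]⟩, zero_add]
        · rw [if_neg hc]
          refine add_nonneg ?_ ?_
          · split_ifs
            · exact h0
            · exact le_rfl
          · split_ifs
            · exact h0
            · exact le_rfl
    _ ≤ Ch * X ^ (2 * κ - 1) * A + Ch * (2 * X) ^ (2 * κ - 1) * A := add_le_add h1 h2
    _ ≤ Ch * X ^ (2 * κ - 1) * A + Ch * (2 * X ^ (2 * κ - 1)) * A := by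
        have := mul_le_mul_of_nonneg_right (mul_le_mul_of_nonneg_left h3 hCh.le) hA0
        linarith
    _ = 3 * Ch * X ^ (2 * κ - 1) * A := by ring

lemma bb_H {κ B0 Ch X qa qa' na na' m m' : ℝ} (hκ : 1 / 2 < κ) (hκ1 : κ < 1) (j a a' : ℕ)
    (hB : 0 ≤ B0) (hCh : 0 ≤ Ch) (hX : 0 < X) (hqa : 0 ≤ qa) (hqa' : 0 ≤ qa') (hna : 0 ≤ na)
    (hna' : 0 ≤ na') (hm : 0 ≤ m) (hm' : 0 ≤ m') (h1 : na ≤ 2 ^ (a + 1) * m)
    (h2 : na' ≤ 2 ^ (a' + 1) * m') :
    B0 * (2 / 2 ^ j) * (((2 : ℝ) ^ j / 2 ^ a) * ((2 : ℝ) ^ j / 2 ^ a')) ^ κ * (qa * qa') *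
      (3 * Ch * (X / 2 ^ j) ^ (2 * κ - 1) * (na ^ κ * na' ^ κ)) ≤
    24 * B0 * Ch * X ^ (2 * κ - 1) * ((m ^ κ * qa) * (m' ^ κ * qa')) := by
  set J : ℝ := (2 : ℝ) ^ j with hJ
  have hJ0 : 0 < J := by positivity
  have hκ0 : 0 ≤ κ := by linarith
  have e1 : ((J / 2 ^ a) * (J / 2 ^ a')) ^ κ * (na ^ κ * na' ^ κ) ≤ 4 * J ^ (2 * κ) * (m ^ κ * m' ^ κ) := by
    have i1 : J / 2 ^ a * na ≤ J * (2 * m) := by
      calc J / 2 ^ a * na ≤ J / 2 ^ a * (2 ^ (a + 1) * m) :=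
            mul_le_mul_of_nonneg_left h1 (by positivity)
        _ = J * (2 * m) := by rw [pow_succ]; field_simp
    have i2 : J / 2 ^ a' * na' ≤ J * (2 * m') := by
      calc J / 2 ^ a' * na' ≤ J / 2 ^ a' * (2 ^ (a' + 1) * m') :=
            mul_le_mul_of_nonneg_left h2 (by positivity)
        _ = J * (2 * m') := by rw [pow_succ]; field_simp
    calc ((J / 2 ^ a) * (J / 2 ^ a')) ^ κ * (na ^ κ * na' ^ κ)
        = (J / 2 ^ a * na) ^ κ * (J / 2 ^ a' * na') ^ κ := by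
          rw [Real.mul_rpow (by positivity) (by positivity),
            Real.mul_rpow (by positivity) hna, Real.mul_rpow (by positivity) hna']
          ring
      _ ≤ (J * (2 * m)) ^ κ * (J * (2 * m')) ^ κ :=
          mul_le_mul (Real.rpow_le_rpow (by positivity) i1 hκ0)
            (Real.rpow_le_rpow (by positivity) i2 hκ0) (by positivity) (by positivity)
      _ = (2 ^ κ * 2 ^ κ) * (J ^ κ * J ^ κ) * (m ^ κ * m' ^ κ) := by
          rw [Real.mul_rpow hJ0.le (by positivity), Real.mul_rpow hJ0.le (by positivity),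
            Real.mul_rpow (by norm_num) hm, Real.mul_rpow (by norm_num) hm']
          ring
      _ ≤ 4 * J ^ (2 * κ) * (m ^ κ * m' ^ κ) := by
          refine mul_le_mul_of_nonneg_right ?_ (by positivity)
          rw [← Real.rpow_add hJ0, ← two_mul]
          refine mul_le_mul_of_nonneg_right ?_ (by positivity)
          have : (2 : ℝ) ^ κ ≤ 2 := by
            calc (2 : ℝ) ^ κ ≤ 2 ^ (1 : ℝ) :=
                  Real.rpow_le_rpow_of_exponent_le (by norm_num) hκ1.le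
              _ = 2 := Real.rpow_one _
          nlinarith [Real.rpow_nonneg (show (0 : ℝ) ≤ 2 by norm_num) κ]
  have e2 : (X / J) ^ (2 * κ - 1) * J ^ (2 * κ) = X ^ (2 * κ - 1) * J := by
    rw [Real.div_rpow hX.le hJ0.le, div_mul_eq_mul_div, mul_div_assoc, ← Real.rpow_sub hJ0]
    have : 2 * κ - (2 * κ - 1) = 1 := by ring
    rw [this, Real.rpow_one]
  calc B0 * (2 / J) * ((J / 2 ^ a) * (J / 2 ^ a')) ^ κ * (qa * qa') *
      (3 * Ch * (X / J) ^ (2 * κ - 1) * (na ^ κ * na' ^ κ))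
      = (6 * B0 * Ch / J * (X / J) ^ (2 * κ - 1) * (qa * qa')) *
        (((J / 2 ^ a) * (J / 2 ^ a')) ^ κ * (na ^ κ * na' ^ κ)) := by ring
    _ ≤ (6 * B0 * Ch / J * (X / J) ^ (2 * κ - 1) * (qa * qa')) *
        (4 * J ^ (2 * κ) * (m ^ κ * m' ^ κ)) :=
        mul_le_mul_of_nonneg_left e1 (by positivity)
    _ = 24 * B0 * Ch / J * ((X / J) ^ (2 * κ - 1) * J ^ (2 * κ)) * (qa * qa') * (m ^ κ * m' ^ κ) := by
        ring
    _ = _ := by
        rw [e2]
        field_simp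

/-! ### the theorem -/

set_option maxHeartbeats 1600000 in
/-- **THEOREM RARE** -/
theorem rare_thm {κ : ℝ} (hκ : 1 / 2 < κ) (hκ1 : κ < 1) :
    ∃ A C : ℝ, 0 ≤ A ∧ 1 ≤ C ∧ ∀ (M Y : ℕ) (f f' : ℕ → ℝ) (K : ℕ → ℕ → ℝ)
      (k : ℕ → ℕ → ℕ → ℕ → ℝ) (τ X : ℝ), 0 < M → 8 ≤ Y →
      (∀ b, 0 ≤ f b) → (∀ b, f b ≤ 1) → (∀ b, 0 ≤ f' b) → (∀ b, f' b ≤ 1) →
      (∀ T T' s t, 0 ≤ k T T' s t) → (∀ T T' s t, k T T' s t ≤ 1) →
      (∀ T T', T ∣ upp Y M → T' ∣ upp Y M → dens (low Y M) (k T T') ≤ τ) →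
      (∀ T T' n n', T ∣ upp Y M → T' ∣ upp Y M → n ∣ low Y M → n' ∣ low Y M →
        K (n * T) (n' * T') ≤ k T T' (n / Nat.gcd n n') (n' / Nat.gcd n n')) →
      τ ≤ 1 → 0 < X →
      ∑ b ∈ M.divisors, ∑ c ∈ M.divisors,
        (if X ≤ (Nat.gcd b c : ℝ) ∧ (Nat.gcd b c : ℝ) < 2 * X then
          (Nat.gcd b c : ℝ) * nu M b * nu M c * (f b * f' c * K b c) else 0) ≤
      C * Real.log Y ^ A * τ ^ ((1 - κ) / 8) * X ^ (2 * κ - 1) *
        ((Ex M f) ^ κ * (Ex M f') ^ κ) := by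
  obtain ⟨A, C, θ0, hA, hC, hθ0, hlow⟩ := low_bound hκ hκ1
  obtain ⟨Ch, hCh, hh⟩ := ThmRx19.hvw_b hκ hκ1
  have hl2 : 0 < Real.log 2 := Real.log_pos (by norm_num)
  set c1 := 1 + 2 / (θ0 * Real.log 2) with hc1
  have hc11 : 1 ≤ c1 := by
    have : 0 ≤ 2 / (θ0 * Real.log 2) := by positivity
    linarith
  refine ⟨A + 2, 24 * C * (Ch + 1) * c1 ^ 2, by linarith, ?_, ?_⟩
  · have h1 : (1 : ℝ) ≤ 24 * C := by linarith
    have h2 : (1 : ℝ) ≤ Ch + 1 := by linarith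
    exact one_le_mul_of_one_le_of_one_le (one_le_mul_of_one_le_of_one_le h1 h2)
      (one_le_pow₀ hc11)
  intro M Y f f' K k τ X hM hY hf hf1 hf' hf1' hk hk1 hdens hK hτ1 hX
  have hY8 : (8 : ℝ) ≤ Y := by exact_mod_cast hY
  have hly : 2 ≤ Real.log Y :=
    RelTailx808.log_eight.trans (Real.log_le_log (by norm_num) hY8)
  have hly0 : 0 < Real.log Y := by linarith
  set D := upp Y M with hDdef
  set N := low Y M with hNdef
  have hD : 0 < D := upp_pos _ _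
  have hN : 0 < N := low_pos _ _
  have hNY : ∀ p ∈ N.primeFactors, p ≤ Y := fun p hp =>
    prime_dvd_part (fun p => p ≤ Y) (Nat.prime_of_mem_primeFactors hp)
      (Nat.dvd_of_mem_primeFactors hp)
  have hτ0 : 0 ≤ τ := (dens_nonneg N (hk 1 1)).trans (hdens 1 1 (one_dvd _) (one_dvd _))
  set V : ℕ → ℝ := fun T => Ex N (fun n => f (n * T)) with hV
  set V' : ℕ → ℝ := fun T => Ex N (fun n => f' (n * T)) with hV'
  have hV0 : ∀ T, 0 ≤ V T := fun T => Ex_nonneg _ fun _ => hf _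
  have hV0' : ∀ T, 0 ≤ V' T := fun T => Ex_nonneg _ fun _ => hf' _
  have hV1 : ∀ T, V T ≤ 1 := fun T =>
    (Ex_mono N fun b _ => hf1 (b * T)).trans (le_of_eq (Ex_const hN 1))
  have hV1' : ∀ T, V' T ≤ 1 := fun T =>
    (Ex_mono N fun b _ => hf1' (b * T)).trans (le_of_eq (Ex_const hN 1))
  set L := max (D.divisors.sup fun T => lv (V T)) (D.divisors.sup fun T => lv (V' T)) + 1 with hL
  have hLV : ∀ T ∈ D.divisors, lv (V T) ∈ range L := by
    intro T hT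
    rw [mem_range, hL, Nat.lt_succ_iff]
    exact (le_sup (f := fun T => lv (V T)) hT).trans (le_max_left _ _)
  have hLV' : ∀ T ∈ D.divisors, lv (V' T) ∈ range L := by
    intro T hT
    rw [mem_range, hL, Nat.lt_succ_iff]
    exact (le_sup (f := fun T => lv (V' T)) hT).trans (le_max_right _ _)
  -- the decay
  set u := θ0 * Real.log 2 / Real.log Y with hu
  have hu0 : 0 < u := by positivity
  set q := Real.exp (-u) with hq
  have hq0 : 0 < q := Real.exp_pos _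
  have hq1 : q < 1 := by
    rw [hq, Real.exp_neg]
    exact inv_lt_one_of_one_lt₀ (Real.one_lt_exp_iff.2 hu0)
  set B0 := C * Real.log Y ^ A * τ ^ ((1 - κ) / 8) with hB0
  have hB00 : 0 ≤ B0 := by positivity
  set bb : ℕ → ℕ → ℕ → ℝ := fun j a a' => B0 * (2 / 2 ^ j) *
    (((2 : ℝ) ^ j / 2 ^ a) * ((2 : ℝ) ^ j / 2 ^ a')) ^ κ *
      (q ^ (Nat.dist j a) * q ^ (Nat.dist j a')) with hbb
  have hbb0 : ∀ j a a', 0 ≤ bb j a a' := fun j a a' => by
    simp only [hbb]; positivity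
  have stepA : ∀ j T T', T ∈ D.divisors → T' ∈ D.divisors →
      ER N (2 ^ j / 2) (fun n => f (n * T)) (fun n => f' (n * T')) (k T T') ≤
      ∑ a ∈ range L, ∑ a' ∈ range L, hl V a T * hl V' a' T' * bb j a a' := by
    intro j T T' hT hT'
    have hnn : ∀ a a', 0 ≤ hl V a T * hl V' a' T' * bb j a a' := fun a a' =>
      mul_nonneg (mul_nonneg (hl_nonneg _ _ _) (hl_nonneg _ _ _)) (hbb0 _ _ _)
    rcases eq_or_lt_of_le (hV0 T) with h0 | h0
    · rw [er_zero (fun n => hf _) h0.symm]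
      exact sum_nonneg fun a _ => sum_nonneg fun a' _ => hnn a a'
    rcases eq_or_lt_of_le (hV0' T') with h0' | h0'
    · rw [er_swap, er_zero (fun n => hf' _) h0'.symm]
      exact sum_nonneg fun a _ => sum_nonneg fun a' _ => hnn a a'
    have hx := lv_le h0 (hV1 T)
    have hy := lv_le h0' (hV1' T')
    have hTD := Nat.dvd_of_mem_divisors hT
    have hTD' := Nat.dvd_of_mem_divisors hT'
    have hG : (0 : ℝ) < 2 ^ j / 2 := by positivity
    have h1 := hlow N Y (fun n => f (n * T)) (fun n => f' (n * T')) (k T T') τ (2 ^ j / 2)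
      (2 ^ j / 2 ^ lv (V T)) (2 ^ j / 2 ^ lv (V' T')) hN hY hNY (fun _ => hf _) (fun _ => hf1 _)
      (fun _ => hf' _) (fun _ => hf1' _) (hk T T') (hk1 T T') (hdens T T' hTD hTD') hτ1 hG
      (by positivity) (by positivity)
      (by
        have e : (2 : ℝ) ^ j / 2 * V T ≤ 2 ^ j / 2 ^ lv (V T) := by
          rw [le_div_iff₀ (by positivity)]
          calc (2 : ℝ) ^ j / 2 * V T * 2 ^ lv (V T) = 2 ^ j / 2 * (V T * 2 ^ lv (V T)) := by ring
            _ ≤ 2 ^ j / 2 * 1 := mul_le_mul_of_nonneg_left hx (by positivity)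
            _ ≤ 2 ^ j := by linarith [show (0 : ℝ) < 2 ^ j by positivity]
        exact e)
      (by
        have e : (2 : ℝ) ^ j / 2 * V' T' ≤ 2 ^ j / 2 ^ lv (V' T') := by
          rw [le_div_iff₀ (by positivity)]
          calc (2 : ℝ) ^ j / 2 * V' T' * 2 ^ lv (V' T') =
                2 ^ j / 2 * (V' T' * 2 ^ lv (V' T')) := by ring
            _ ≤ 2 ^ j / 2 * 1 := mul_le_mul_of_nonneg_left hy (by positivity)
            _ ≤ 2 ^ j := by linarith [show (0 : ℝ) < 2 ^ j by positivity]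
        exact e)
    have e2 : Real.exp (-(θ0 / Real.log Y) * (|Real.log ((2 : ℝ) ^ j / 2 ^ lv (V T))| +
        |Real.log ((2 : ℝ) ^ j / 2 ^ lv (V' T'))|)) =
        q ^ (Nat.dist j (lv (V T))) * q ^ (Nat.dist j (lv (V' T'))) := by
      rw [abs_log_two, abs_log_two, hq, ← Real.exp_nat_mul, ← Real.exp_nat_mul, ← Real.exp_add]
      congr 1
      rw [hu]; ring
    have e3 : ((2 : ℝ) ^ j / 2)⁻¹ = 2 / 2 ^ j := by rw [inv_div]
    rw [e2, e3] at h1
    have h2 : hl V (lv (V T)) T * hl V' (lv (V' T')) T' * bb j (lv (V T)) (lv (V' T')) ≤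
        ∑ a ∈ range L, ∑ a' ∈ range L, hl V a T * hl V' a' T' * bb j a a' := by
      refine le_trans ?_ (single_le_sum (f := fun a => ∑ a' ∈ range L,
        hl V a T * hl V' a' T' * bb j a a') (fun a _ => sum_nonneg fun a' _ => hnn a a')
        (hLV T hT))
      exact single_le_sum (f := fun a' => hl V (lv (V T)) T * hl V' a' T' * bb j (lv (V T)) a')
        (fun a' _ => hnn _ a') (hLV' T' hT')
    rw [hl_self h0, hl_self h0', one_mul, one_mul] at h2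
    exact h1.trans h2
  -- splitting at the cut
  have hLHS : ∑ b ∈ M.divisors, ∑ c ∈ M.divisors,
        (if X ≤ (Nat.gcd b c : ℝ) ∧ (Nat.gcd b c : ℝ) < 2 * X then
          (Nat.gcd b c : ℝ) * nu M b * nu M c * (f b * f' c * K b c) else 0) =
      frm M (fun b c => if X ≤ (Nat.gcd b c : ℝ) ∧ (Nat.gcd b c : ℝ) < 2 * X then
        f b * f' c * K b c else 0) := by
    unfold frm
    refine sum_congr rfl fun b _ => sum_congr rfl fun c _ => ?_
    dsimp only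
    split_ifs
    · rfl
    · rw [mul_zero]
  have stepB : ∀ T T', T ∈ D.divisors → T' ∈ D.divisors →
      frm N (fun n n' => if X ≤ (Nat.gcd (n * T) (n' * T') : ℝ) ∧
        (Nat.gcd (n * T) (n' * T') : ℝ) < 2 * X then
        f (n * T) * f' (n' * T') * K (n * T) (n' * T') else 0) ≤
      ∑ j ∈ range (N + 1), (if X / 2 ^ j ≤ (Nat.gcd T T' : ℝ) ∧
          (Nat.gcd T T' : ℝ) < 4 * (X / 2 ^ j) then
        ER N (2 ^ j / 2) (fun n => f (n * T)) (fun n => f' (n * T')) (k T T') else 0) := by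
    intro T T' hT hT'
    have hTD := Nat.dvd_of_mem_divisors hT
    have hTD' := Nat.dvd_of_mem_divisors hT'
    have hgT : 0 < Nat.gcd T T' := Nat.gcd_pos_of_pos_left _ (Nat.pos_of_mem_divisors hT)
    have hgT' : (0 : ℝ) < (Nat.gcd T T' : ℕ) := by exact_mod_cast hgT
    have hpt : ∀ n ∈ N.divisors, ∀ n' ∈ N.divisors,
        (Nat.gcd n n' : ℝ) * nu N n * nu N n' * (if X ≤ (Nat.gcd (n * T) (n' * T') : ℝ) ∧
        (Nat.gcd (n * T) (n' * T') : ℝ) < 2 * X then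
        f (n * T) * f' (n' * T') * K (n * T) (n' * T') else 0) ≤
        ∑ j ∈ range (N + 1), (if X / 2 ^ j ≤ (Nat.gcd T T' : ℝ) ∧
          (Nat.gcd T T' : ℝ) < 4 * (X / 2 ^ j) then
          (if (2 : ℝ) ^ j / 2 < (Nat.gcd n n' : ℝ) ∧ (Nat.gcd n n' : ℝ) ≤ 2 * (2 ^ j / 2) then
            (Nat.gcd n n' : ℝ) * nu N n * nu N n' * (f (n * T) * f' (n' * T') *
              k T T' (n / Nat.gcd n n') (n' / Nat.gcd n n')) else 0) else 0) := by
      intro n hn n' hn'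
      have hnN := Nat.dvd_of_mem_divisors hn
      have hnN' := Nat.dvd_of_mem_divisors hn'
      have hg0 : 0 < Nat.gcd n n' := Nat.gcd_pos_of_pos_left _ (Nat.pos_of_mem_divisors hn)
      have hgN : Nat.gcd n n' ≤ N := Nat.le_of_dvd hN ((Nat.gcd_dvd_left _ _).trans hnN)
      have ht : 0 ≤ (Nat.gcd n n' : ℝ) * nu N n * nu N n' * (f (n * T) * f' (n' * T') *
              k T T' (n / Nat.gcd n n') (n' / Nat.gcd n n')) :=
        mul_nonneg (mul_nonneg (mul_nonneg (Nat.cast_nonneg _) (nu_nonneg _ _)) (nu_nonneg _ _))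
          (mul_nonneg (mul_nonneg (hf _) (hf' _)) (hk _ _ _ _))
      refine le_trans ?_ (win_split hg0 hgN hgT' ht (X := X))
      have hgc : Nat.gcd (n * T) (n' * T') = Nat.gcd n n' * Nat.gcd T T' :=
        gcd_cut (fun p => p ≤ Y) hnN hTD hnN' hTD'
      rw [hgc]
      push_cast
      split_ifs
      · refine mul_le_mul_of_nonneg_left ?_
          (mul_nonneg (mul_nonneg (Nat.cast_nonneg _) (nu_nonneg _ _)) (nu_nonneg _ _))
        exact mul_le_mul_of_nonneg_left (hK T T' n n' hTD hTD' hnN hnN')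
          (mul_nonneg (hf _) (hf' _))
      · rw [mul_zero]
    unfold frm
    calc _ ≤ ∑ n ∈ N.divisors, ∑ n' ∈ N.divisors, ∑ j ∈ range (N + 1),
          (if X / 2 ^ j ≤ (Nat.gcd T T' : ℝ) ∧ (Nat.gcd T T' : ℝ) < 4 * (X / 2 ^ j) then
          (if (2 : ℝ) ^ j / 2 < (Nat.gcd n n' : ℝ) ∧ (Nat.gcd n n' : ℝ) ≤ 2 * (2 ^ j / 2) then
            (Nat.gcd n n' : ℝ) * nu N n * nu N n' * (f (n * T) * f' (n' * T') *
              k T T' (n / Nat.gcd n n') (n' / Nat.gcd n n')) else 0) else 0) :=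
          sum_le_sum fun n hn => sum_le_sum fun n' hn' => hpt n hn n' hn'
      _ = ∑ j ∈ range (N + 1), ∑ n ∈ N.divisors, ∑ n' ∈ N.divisors,
          (if X / 2 ^ j ≤ (Nat.gcd T T' : ℝ) ∧ (Nat.gcd T T' : ℝ) < 4 * (X / 2 ^ j) then
          (if (2 : ℝ) ^ j / 2 < (Nat.gcd n n' : ℝ) ∧ (Nat.gcd n n' : ℝ) ≤ 2 * (2 ^ j / 2) then
            (Nat.gcd n n' : ℝ) * nu N n * nu N n' * (f (n * T) * f' (n' * T') *
              k T T' (n / Nat.gcd n n') (n' / Nat.gcd n n')) else 0) else 0) := by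
          rw [sum_congr rfl fun n _ => sum_comm, sum_comm]
      _ = _ := by
          refine sum_congr rfl fun j _ => ?_
          split_ifs
          · rfl
          · simp
  -- masses
  set m : ℕ → ℝ := fun a => ∑ T ∈ D.divisors, nu D T * (hl V a T * V T) with hm
  set m' : ℕ → ℝ := fun a => ∑ T ∈ D.divisors, nu D T * (hl V' a T * V' T) with hm'
  have hm0 : ∀ a, 0 ≤ m a := fun a =>
    sum_nonneg fun T _ => mul_nonneg (nu_nonneg _ _) (mul_nonneg (hl_nonneg _ _ _) (hV0 _))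
  have hm0' : ∀ a, 0 ≤ m' a := fun a =>
    sum_nonneg fun T _ => mul_nonneg (nu_nonneg _ _) (mul_nonneg (hl_nonneg _ _ _) (hV0' _))
  have hEx : Ex M f = Ex D V := Ex_cut hM Y f
  have hEx' : Ex M f' = Ex D V' := Ex_cut hM Y f'
  have hmZ : ∑ a ∈ range L, m a ≤ Ex M f := by
    rw [hEx]
    simp only [hm]
    rw [sum_comm]
    unfold Ex
    refine sum_le_sum fun T _ => ?_
    rw [← mul_sum]
    exact mul_le_mul_of_nonneg_left (sum_hl_le hV0 L T) (nu_nonneg _ _)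
  have hmZ' : ∑ a ∈ range L, m' a ≤ Ex M f' := by
    rw [hEx']
    simp only [hm']
    rw [sum_comm]
    unfold Ex
    refine sum_le_sum fun T _ => ?_
    rw [← mul_sum]
    exact mul_le_mul_of_nonneg_left (sum_hl_le hV0' L T) (nu_nonneg _ _)
  have hna : ∀ a, ∑ T ∈ D.divisors, nu D T * hl V a T ≤ 2 ^ (a + 1) * m a := by
    intro a
    simp only [hm]
    rw [mul_sum]
    refine sum_le_sum fun T _ => ?_
    calc nu D T * hl V a T ≤ nu D T * (2 ^ (a + 1) * (hl V a T * V T)) :=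
          mul_le_mul_of_nonneg_left (hl_mul_le V a T) (nu_nonneg _ _)
      _ = _ := by ring
  have hna' : ∀ a, ∑ T ∈ D.divisors, nu D T * hl V' a T ≤ 2 ^ (a + 1) * m' a := by
    intro a
    simp only [hm']
    rw [mul_sum]
    refine sum_le_sum fun T _ => ?_
    calc nu D T * hl V' a T ≤ nu D T * (2 ^ (a + 1) * (hl V' a T * V' T)) :=
          mul_le_mul_of_nonneg_left (hl_mul_le V' a T) (nu_nonneg _ _)
      _ = _ := by ring
  have hZ0 : 0 ≤ Ex M f := Ex_nonneg _ hf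
  have hZ0' : 0 ≤ Ex M f' := Ex_nonneg _ hf'
  have main1 : frm M (fun b c => if X ≤ (Nat.gcd b c : ℝ) ∧ (Nat.gcd b c : ℝ) < 2 * X then
        f b * f' c * K b c else 0) ≤
      ∑ j ∈ range (N + 1), ∑ a ∈ range L, ∑ a' ∈ range L, bb j a a' *
        ∑ T ∈ D.divisors, ∑ T' ∈ D.divisors,
          (if X / 2 ^ j ≤ (Nat.gcd T T' : ℝ) ∧ (Nat.gcd T T' : ℝ) < 4 * (X / 2 ^ j) then
            (Nat.gcd T T' : ℝ) * nu D T * nu D T' * (hl V a T * hl V' a' T') else 0) := by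
    rw [frm_low_upp hM Y]
    have hpt : ∀ T ∈ D.divisors, ∀ T' ∈ D.divisors,
        (Nat.gcd T T' : ℝ) * nu D T * nu D T' *
          frm N (fun n n' => if X ≤ (Nat.gcd (n * T) (n' * T') : ℝ) ∧
            (Nat.gcd (n * T) (n' * T') : ℝ) < 2 * X then
            f (n * T) * f' (n' * T') * K (n * T) (n' * T') else 0) ≤
        ∑ j ∈ range (N + 1), ∑ a ∈ range L, ∑ a' ∈ range L, bb j a a' *
          (if X / 2 ^ j ≤ (Nat.gcd T T' : ℝ) ∧ (Nat.gcd T T' : ℝ) < 4 * (X / 2 ^ j) then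
            (Nat.gcd T T' : ℝ) * nu D T * nu D T' * (hl V a T * hl V' a' T') else 0) := by
      intro T hT T' hT'
      have hw : 0 ≤ (Nat.gcd T T' : ℝ) * nu D T * nu D T' :=
        mul_nonneg (mul_nonneg (Nat.cast_nonneg _) (nu_nonneg _ _)) (nu_nonneg _ _)
      refine (mul_le_mul_of_nonneg_left (stepB T T' hT hT') hw).trans ?_
      rw [mul_sum]
      refine sum_le_sum fun j _ => ?_
      split_ifs with hc
      · refine (mul_le_mul_of_nonneg_left (stepA j T T' hT hT') hw).trans (le_of_eq ?_)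
        rw [mul_sum]
        refine sum_congr rfl fun a _ => ?_
        rw [mul_sum]
        refine sum_congr rfl fun a' _ => ?_
        ring
      · simp
    refine (sum_le_sum fun T hT => sum_le_sum fun T' hT' => hpt T hT T' hT').trans (le_of_eq ?_)
    calc ∑ T ∈ D.divisors, ∑ T' ∈ D.divisors,
        ∑ j ∈ range (N + 1), ∑ a ∈ range L, ∑ a' ∈ range L, bb j a a' *
          (if X / 2 ^ j ≤ (Nat.gcd T T' : ℝ) ∧ (Nat.gcd T T' : ℝ) < 4 * (X / 2 ^ j) then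
            (Nat.gcd T T' : ℝ) * nu D T * nu D T' * (hl V a T * hl V' a' T') else 0)
        = ∑ j ∈ range (N + 1), ∑ T ∈ D.divisors, ∑ T' ∈ D.divisors,
          ∑ a ∈ range L, ∑ a' ∈ range L, bb j a a' *
          (if X / 2 ^ j ≤ (Nat.gcd T T' : ℝ) ∧ (Nat.gcd T T' : ℝ) < 4 * (X / 2 ^ j) then
            (Nat.gcd T T' : ℝ) * nu D T * nu D T' * (hl V a T * hl V' a' T') else 0) := by
          rw [sum_congr rfl fun T _ => sum_comm, sum_comm]
      _ = ∑ j ∈ range (N + 1), ∑ a ∈ range L, ∑ T ∈ D.divisors, ∑ T' ∈ D.divisors,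
          ∑ a' ∈ range L, bb j a a' *
          (if X / 2 ^ j ≤ (Nat.gcd T T' : ℝ) ∧ (Nat.gcd T T' : ℝ) < 4 * (X / 2 ^ j) then
            (Nat.gcd T T' : ℝ) * nu D T * nu D T' * (hl V a T * hl V' a' T') else 0) := by
          refine sum_congr rfl fun j _ => ?_
          rw [sum_congr rfl fun T _ => sum_comm, sum_comm]
      _ = ∑ j ∈ range (N + 1), ∑ a ∈ range L, ∑ a' ∈ range L, ∑ T ∈ D.divisors,
          ∑ T' ∈ D.divisors, bb j a a' *
          (if X / 2 ^ j ≤ (Nat.gcd T T' : ℝ) ∧ (Nat.gcd T T' : ℝ) < 4 * (X / 2 ^ j) then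
            (Nat.gcd T T' : ℝ) * nu D T * nu D T' * (hl V a T * hl V' a' T') else 0) := by
          refine sum_congr rfl fun j _ => sum_congr rfl fun a _ => ?_
          rw [sum_congr rfl fun T _ => sum_comm, sum_comm]
      _ = _ := by
          refine sum_congr rfl fun j _ => sum_congr rfl fun a _ => sum_congr rfl fun a' _ => ?_
          rw [mul_sum]
          refine sum_congr rfl fun T _ => ?_
          rw [mul_sum]
  have main2 : ∑ j ∈ range (N + 1), ∑ a ∈ range L, ∑ a' ∈ range L, bb j a a' *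
        ∑ T ∈ D.divisors, ∑ T' ∈ D.divisors,
          (if X / 2 ^ j ≤ (Nat.gcd T T' : ℝ) ∧ (Nat.gcd T T' : ℝ) < 4 * (X / 2 ^ j) then
            (Nat.gcd T T' : ℝ) * nu D T * nu D T' * (hl V a T * hl V' a' T') else 0) ≤
      ∑ j ∈ range (N + 1), ∑ a ∈ range L, ∑ a' ∈ range L,
        24 * B0 * Ch * X ^ (2 * κ - 1) *
          ((m a ^ κ * q ^ (Nat.dist j a)) * (m' a' ^ κ * q ^ (Nat.dist j a'))) := by
    refine sum_le_sum fun j _ => sum_le_sum fun a _ => sum_le_sum fun a' _ => ?_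
    have h1 := two_win hκ1 hCh hh hD.ne' (X := X / 2 ^ j) (by positivity)
      (hl_nonneg V a) (hl_le_one V a) (hl_nonneg V' a') (hl_le_one V' a')
    refine (mul_le_mul_of_nonneg_left h1 (hbb0 j a a')).trans ?_
    simp only [hbb]
    exact bb_H hκ hκ1 j a a' hB00 hCh.le hX (by positivity) (by positivity)
      (sum_nonneg fun T _ => mul_nonneg (nu_nonneg _ _) (hl_nonneg _ _ _))
      (sum_nonneg fun T _ => mul_nonneg (nu_nonneg _ _) (hl_nonneg _ _ _)) (hm0 a) (hm0' a')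
      (hna a) (hna' a')
  have main3 : ∑ j ∈ range (N + 1), ∑ a ∈ range L, ∑ a' ∈ range L,
        24 * B0 * Ch * X ^ (2 * κ - 1) *
          ((m a ^ κ * q ^ (Nat.dist j a)) * (m' a' ^ κ * q ^ (Nat.dist j a'))) ≤
      24 * B0 * Ch * X ^ (2 * κ - 1) * ((2 / (1 - q)) ^ 2 * ((Ex M f) ^ κ * (Ex M f') ^ κ)) := by
    have h1 := conv2 hκ.le hq0.le hq1 (N + 1) L hm0 hm0' hZ0 hZ0' hmZ hmZ'
    refine le_trans (le_of_eq ?_) (mul_le_mul_of_nonneg_left h1 (by positivity))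
    rw [mul_sum]
    refine sum_congr rfl fun j _ => ?_
    rw [sum_mul_sum, mul_sum]
    refine sum_congr rfl fun a _ => ?_
    rw [mul_sum]
  have hQ : 2 / (1 - q) ≤ c1 * Real.log Y := by
    have h1q : 0 < 1 - q := by linarith
    have h2 : q ≤ 1 / (1 + u) := by
      rw [hq, Real.exp_neg, ← one_div]
      exact one_div_le_one_div_of_le (by linarith) (by linarith [Real.add_one_le_exp u])
    have h3 : u / (1 + u) ≤ 1 - q := by
      have : u / (1 + u) = 1 - 1 / (1 + u) := by field_simp; ring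
      linarith
    calc 2 / (1 - q) ≤ 2 / (u / (1 + u)) :=
          div_le_div_of_nonneg_left (by norm_num) (by positivity) h3
      _ = 2 + 2 / u := by field_simp; ring
      _ = 2 + 2 / (θ0 * Real.log 2) * Real.log Y := by
          rw [hu]; field_simp
      _ ≤ c1 * Real.log Y := by
          rw [hc1, add_mul, one_mul]
          linarith
  have hQ2 : (2 / (1 - q)) ^ 2 ≤ c1 ^ 2 * Real.log Y ^ (2 : ℝ) := by
    have h0 : 0 ≤ 2 / (1 - q) := div_nonneg two_pos.le (by linarith)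
    calc (2 / (1 - q)) ^ 2 ≤ (c1 * Real.log Y) ^ 2 := pow_le_pow_left₀ h0 hQ 2
      _ = c1 ^ 2 * Real.log Y ^ (2 : ℝ) := by
          rw [mul_pow, ← Real.rpow_natCast (Real.log Y) 2]
          norm_num
  rw [hLHS]
  refine main1.trans (main2.trans (main3.trans ?_))
  have hEE : 0 ≤ (Ex M f) ^ κ * (Ex M f') ^ κ :=
    mul_nonneg (Real.rpow_nonneg hZ0 _) (Real.rpow_nonneg hZ0' _)
  calc 24 * B0 * Ch * X ^ (2 * κ - 1) * ((2 / (1 - q)) ^ 2 * ((Ex M f) ^ κ * (Ex M f') ^ κ))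
      ≤ 24 * B0 * (Ch + 1) * X ^ (2 * κ - 1) * ((c1 ^ 2 * Real.log Y ^ (2 : ℝ)) *
        ((Ex M f) ^ κ * (Ex M f') ^ κ)) := by
        refine mul_le_mul ?_ (mul_le_mul_of_nonneg_right hQ2 hEE)
          (mul_nonneg (sq_nonneg _) hEE) (by positivity)
        refine mul_le_mul_of_nonneg_right ?_ (by positivity)
        exact mul_le_mul_of_nonneg_left (by linarith) (by positivity)
    _ = _ := by
        rw [Real.rpow_add hly0, hB0]
        ring

end Crest.Agent.R4C.RareEnx442
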