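import Crest.Agent.R4C.Twist_662
import Crest.Agent.R4C.HVWt_19
import Crest.Agent.R4C.TwistKK_863
import Crest.Agent.R4C.Rule_945
import Crest.Agent.R4C.BoostAl_100

-- ▼ part R4C/BigTwist_22
section

/-!
# Row 4: LEMMA TW (big twist), abstract part (helper22)

`BT KK b c` : `b = k * b0` with `k ∈ KK b0` and `gcd b c ∣ b0`, i.e. `b` contains a factor `k` which
is not common with `c` and which is determined, up to few choices, by the rest `b0 = b / k`.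

`big_twist` : the energy of such pairs at gcd `~ X` is at most
`C X^{2κ-1} (N / P0)^{1-κ} (ω N' E f)^κ (E f')^κ`
if every `k ∈ KK z` has `φ k ≥ P0`, `k ≤ ω φ k`, `#KK z ≤ N`, and every `b` has at most `N'`
divisors `k` with `k ∈ KK (b / k)`.  Nothing is asked of the partner `c`.
-/

set_option autoImplicit false

open Finset
open Crest.Agent.R4C.Basex935 Crest.Agent.R4C.Twistx662

namespace Crest.Agent.R4C.BigTwistx22

/-- big twist pairs -/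
def BT (KK : ℕ → Finset ℕ) (b c : ℕ) : Prop :=
  ∃ k b0 : ℕ, b = k * b0 ∧ k ∈ KK b0 ∧ Nat.gcd b c ∣ b0

/-- the exact law of the twisted function -/
lemma sum_nu_G_le {M : ℕ} (hM : 0 < M) (KK : ℕ → Finset ℕ) (f : ℕ → ℝ) (hf : ∀ b, 0 ≤ f b)
    {N' ω : ℝ} (hω0 : 0 ≤ ω)
    (hN' : ∀ b, b ∣ M → ((b.divisors.filter (fun k => k ∈ KK (b / k))).card : ℝ) ≤ N')
    (hω : ∀ z, ∀ k ∈ KK z, (k : ℝ) ≤ ω * k.totient) :
    ∑ z ∈ M.divisors, nu M z * G M KK f z ≤ ω * N' * ∑ b ∈ M.divisors, nu M b * f b := by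
  have h1 : ∀ z ∈ M.divisors, nu M z * G M KK f z ≤
      ∑ k ∈ KK z, (if k * z ∣ M then ω * (nu M (k * z) * f (k * z)) else 0) := by
    intro z hz
    unfold G
    rw [Finset.mul_sum]
    refine Finset.sum_le_sum fun k hk => ?_
    by_cases hd : k * z ∣ M
    · rw [if_pos hd, if_pos hd]
      have hkz : 0 < k * z := Nat.pos_of_dvd_of_pos hd hM
      have hk0 : 0 < k := Nat.pos_of_mul_pos_right hkz
      have hφ : (0 : ℝ) < (k.totient : ℝ) := by exact_mod_cast Nat.totient_pos.2 hk0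
      have a1 := nu_le_mul hM hd
      have a2 := hω z k hk
      have a3 := nu_nonneg M (k * z)
      have a4 := hf (k * z)
      rw [← mul_div_assoc, div_le_iff₀ hφ]
      calc nu M z * f (k * z) ≤ ((k : ℝ) * nu M (k * z)) * f (k * z) :=
            mul_le_mul_of_nonneg_right a1 a4
        _ = (k : ℝ) * (nu M (k * z) * f (k * z)) := by ring
        _ ≤ (ω * k.totient) * (nu M (k * z) * f (k * z)) :=
            mul_le_mul_of_nonneg_right a2 (mul_nonneg a3 a4)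
        _ = _ := by ring
    · rw [if_neg hd, if_neg hd, mul_zero]
  refine (Finset.sum_le_sum h1).trans ?_
  rw [sum_swap_dvd hM KK (fun _ b => ω * (nu M b * f b)), Finset.mul_sum]
  refine Finset.sum_le_sum fun b hb => ?_
  rw [Finset.sum_const, nsmul_eq_mul]
  have h2 := hN' b (Nat.dvd_of_mem_divisors hb)
  have h3 : 0 ≤ ω * (nu M b * f b) := mul_nonneg hω0 (mul_nonneg (nu_nonneg _ _) (hf b))
  calc _ ≤ N' * (ω * (nu M b * f b)) := mul_le_mul_of_nonneg_right h2 h3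
    _ = _ := by ring

lemma G_le {M : ℕ} (KK : ℕ → Finset ℕ) (f : ℕ → ℝ) (hf1 : ∀ b, f b ≤ 1)
    {N P0 : ℝ} (hP0 : 0 < P0) {z : ℕ} (hN : ((KK z).card : ℝ) ≤ N)
    (hφ : ∀ k ∈ KK z, P0 ≤ (k.totient : ℝ)) : G M KK f z ≤ N / P0 := by
  unfold G
  have h1 : ∀ k ∈ KK z, (if k * z ∣ M then f (k * z) / (k.totient : ℝ) else 0) ≤ 1 / P0 := by
    intro k hk
    have h2 := hφ k hk
    split_ifs
    · exact div_le_div₀ zero_le_one (hf1 _) hP0 h2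
    · positivity
  refine (Finset.sum_le_sum h1).trans ?_
  rw [Finset.sum_const, nsmul_eq_mul, mul_one_div]
  exact div_le_div_of_nonneg_right hN hP0.le

lemma G_one {M : ℕ} (f : ℕ → ℝ) {z : ℕ} (hz : z ∣ M) : G M (fun _ => {1}) f z = f z := by
  unfold G
  rw [Finset.sum_singleton, one_mul, if_pos hz]
  simp

open Classical in
/-- **LEMMA TW (big twist)** -/
theorem big_twist {κ : ℝ} (hκ : 1 / 2 < κ) (hκ1 : κ < 1) : ∃ C : ℝ, 0 < C ∧
    ∀ (M : ℕ) (X N N' P0 ω : ℝ) (KK : ℕ → Finset ℕ) (f f' : ℕ → ℝ), 0 < M → 0 < X →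
      (∀ x, 0 ≤ f x) → (∀ x, f x ≤ 1) → (∀ x, 0 ≤ f' x) → (∀ x, f' x ≤ 1) →
      0 < N → 0 < P0 → 0 ≤ ω → 0 ≤ N' →
      (∀ z, z ∣ M → ((KK z).card : ℝ) ≤ N) →
      (∀ z, ∀ k ∈ KK z, P0 ≤ (k.totient : ℝ)) →
      (∀ z, ∀ k ∈ KK z, (k : ℝ) ≤ ω * k.totient) →
      (∀ b, b ∣ M → ((b.divisors.filter (fun k => k ∈ KK (b / k))).card : ℝ) ≤ N') →
      ∑ b ∈ M.divisors, ∑ c ∈ M.divisors,
        (if X ≤ (Nat.gcd b c : ℝ) ∧ (Nat.gcd b c : ℝ) < 2 * X ∧ BT KK b c then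
          (Nat.gcd b c : ℝ) * nu M b * nu M c * (f b * f' c) else 0) ≤
      C * X ^ (2 * κ - 1) * ((N / P0) ^ (1 - κ) * ((ω * N' * ∑ b ∈ M.divisors, nu M b * f b) ^ κ *
          (∑ b ∈ M.divisors, nu M b * f' b) ^ κ)) := by
  obtain ⟨C, hC, hhvw⟩ := Crest.Agent.R4C.ThmRx19.hvw_b hκ hκ1
  refine ⟨C, hC, ?_⟩
  intro M X N N' P0 ω KK f f' hM hX hf hf1 hf' hf1' hN0 hP0 hω0 hN'0 hN hφ hω hN'
  set gi : ℝ := N / P0 with hg
  have hg0 : 0 < gi := div_pos hN0 hP0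
  -- step 1 : untwist
  have hG0 : ∀ z, 0 ≤ G M KK f z := fun z => G_nonneg hf z
  have s1 : ∑ b ∈ M.divisors, ∑ c ∈ M.divisors,
        (if X ≤ (Nat.gcd b c : ℝ) ∧ (Nat.gcd b c : ℝ) < 2 * X ∧ BT KK b c then
          (Nat.gcd b c : ℝ) * nu M b * nu M c * (f b * f' c) else 0) ≤
      ∑ b ∈ M.divisors, ∑ c ∈ M.divisors,
        (if Tw KK (fun _ => {1}) (fun b c => X ≤ (Nat.gcd b c : ℝ) ∧ (Nat.gcd b c : ℝ) < 2 * X) b c
          then (Nat.gcd b c : ℝ) * nu M b * nu M c * (f b * f' c) else 0) := by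
    refine Finset.sum_le_sum fun b hb => Finset.sum_le_sum fun c hc => ?_
    have h0 : 0 ≤ (Nat.gcd b c : ℝ) * nu M b * nu M c * (f b * f' c) := by
      have a1 := nu_nonneg M b
      have a2 := nu_nonneg M c
      have a3 := hf b
      have a4 := hf' c
      positivity
    by_cases h : X ≤ (Nat.gcd b c : ℝ) ∧ (Nat.gcd b c : ℝ) < 2 * X ∧ BT KK b c
    · rw [if_pos h, if_pos]
      obtain ⟨h1, h2, k, b0, e, hk, hd⟩ := h
      have hgcd : Nat.gcd b0 c = Nat.gcd b c := by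
        refine Nat.dvd_antisymm ?_ ?_
        · refine Nat.gcd_dvd_gcd_of_dvd_left _ ?_
          rw [e]; exact dvd_mul_left _ _
        · exact Nat.dvd_gcd hd (Nat.gcd_dvd_right _ _)
      refine ⟨k, 1, b0, c, e, (one_mul c).symm, hk, Finset.mem_singleton_self 1, hgcd.ge, ?_, ?_⟩
      · rw [hgcd]; exact h1
      · rw [hgcd]; exact h2
    · rw [if_neg h]
      split_ifs
      · exact h0
      · exact le_rfl
  have s2 := twist_sum hM KK (fun _ => {1})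
    (fun b c => X ≤ (Nat.gcd b c : ℝ) ∧ (Nat.gcd b c : ℝ) < 2 * X) f f' hf hf'
  -- step 2 : normalise
  set F : ℕ → ℝ := fun z => if z ∣ M then G M KK f z / gi else 0 with hF
  have hF0 : ∀ z, 0 ≤ F z := by
    intro z
    simp only [hF]
    split_ifs
    · exact div_nonneg (hG0 z) hg0.le
    · exact le_rfl
  have hF1 : ∀ z, F z ≤ 1 := by
    intro z
    simp only [hF]
    split_ifs with hz
    · rw [div_le_one hg0]
      exact G_le KK f hf1 hP0 (hN z hz) (hφ z)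
    · exact zero_le_one
  have s3 := hhvw M X F f' hM.ne' hX hF0 hF1 hf' hf1'
  have s4 : ∑ b ∈ M.divisors, ∑ c ∈ M.divisors,
      (if X ≤ (Nat.gcd b c : ℝ) ∧ (Nat.gcd b c : ℝ) < 2 * X then
        (Nat.gcd b c : ℝ) * nu M b * nu M c * (G M KK f b * G M (fun _ => {1}) f' c) else 0) =
      gi * ∑ b ∈ M.divisors, ∑ c ∈ M.divisors,
        (if X ≤ (Nat.gcd b c : ℝ) ∧ (Nat.gcd b c : ℝ) < 2 * X then
          (Nat.gcd b c : ℝ) * nu M b * nu M c * (F b * f' c) else 0) := by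
    rw [Finset.mul_sum]
    refine Finset.sum_congr rfl fun b hb => ?_
    rw [Finset.mul_sum]
    refine Finset.sum_congr rfl fun c hc => ?_
    rw [G_one f' (Nat.dvd_of_mem_divisors hc)]
    split_ifs
    · simp only [hF]
      rw [if_pos (Nat.dvd_of_mem_divisors hb)]
      field_simp
    · rw [mul_zero]
  have hEf' : 0 ≤ ∑ b ∈ M.divisors, nu M b * f' b :=
    Finset.sum_nonneg fun b _ => mul_nonneg (nu_nonneg _ _) (hf' b)
  have hEf : 0 ≤ ∑ b ∈ M.divisors, nu M b * f b :=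
    Finset.sum_nonneg fun b _ => mul_nonneg (nu_nonneg _ _) (hf b)
  have hEF0 : 0 ≤ ∑ b ∈ M.divisors, nu M b * F b :=
    Finset.sum_nonneg fun b _ => mul_nonneg (nu_nonneg _ _) (hF0 b)
  have hEF : ∑ b ∈ M.divisors, nu M b * F b ≤
      (ω * N' * ∑ b ∈ M.divisors, nu M b * f b) / gi := by
    have e : ∑ b ∈ M.divisors, nu M b * F b = (∑ b ∈ M.divisors, nu M b * G M KK f b) / gi := by
      rw [Finset.sum_div]
      refine Finset.sum_congr rfl fun b hb => ?_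
      simp only [hF]
      rw [if_pos (Nat.dvd_of_mem_divisors hb), mul_div_assoc]
    rw [e]
    exact div_le_div_of_nonneg_right (sum_nu_G_le hM KK f hf hω0 hN' hω) hg0.le
  have hκ0 : 0 ≤ κ := by linarith
  refine s1.trans (s2.trans ?_)
  refine (le_of_eq ?_ : _ ≤ gi * ∑ b ∈ M.divisors, ∑ c ∈ M.divisors,
        (if X ≤ (Nat.gcd b c : ℝ) ∧ (Nat.gcd b c : ℝ) < 2 * X then
          (Nat.gcd b c : ℝ) * nu M b * nu M c * (F b * f' c) else 0)).trans ?_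
  · rw [← s4]
    refine Finset.sum_congr rfl fun b _ => Finset.sum_congr rfl fun c _ => ?_
    by_cases h : X ≤ (Nat.gcd b c : ℝ) ∧ (Nat.gcd b c : ℝ) < 2 * X
    · rw [if_pos h, if_pos h]
    · rw [if_neg h, if_neg h]
  refine (mul_le_mul_of_nonneg_left s3 hg0.le).trans ?_
  have h5 : (∑ b ∈ M.divisors, nu M b * F b) ^ κ ≤
      (ω * N' * ∑ b ∈ M.divisors, nu M b * f b) ^ κ / gi ^ κ := by
    rw [← Real.div_rpow (mul_nonneg (mul_nonneg hω0 hN'0) hEf) hg0.le]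
    exact Real.rpow_le_rpow hEF0 hEF hκ0
  have h6 : gi / gi ^ κ = gi ^ (1 - κ) := by
    rw [Real.rpow_sub hg0, Real.rpow_one]
  have hXp : 0 ≤ C * X ^ (2 * κ - 1) := by positivity
  have hB0 : 0 ≤ (∑ b ∈ M.divisors, nu M b * f' b) ^ κ := Real.rpow_nonneg hEf' _
  calc gi * (C * X ^ (2 * κ - 1) * ((∑ b ∈ M.divisors, nu M b * F b) ^ κ *
        (∑ b ∈ M.divisors, nu M b * f' b) ^ κ))
      ≤ gi * (C * X ^ (2 * κ - 1) * (((ω * N' * ∑ b ∈ M.divisors, nu M b * f b) ^ κ / gi ^ κ) *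
        (∑ b ∈ M.divisors, nu M b * f' b) ^ κ)) := by
        refine mul_le_mul_of_nonneg_left ?_ hg0.le
        exact mul_le_mul_of_nonneg_left (mul_le_mul_of_nonneg_right h5 hB0) hXp
    _ = C * X ^ (2 * κ - 1) * ((gi / gi ^ κ) * ((ω * N' * ∑ b ∈ M.divisors, nu M b * f b) ^ κ *
        (∑ b ∈ M.divisors, nu M b * f' b) ^ κ)) := by ring
    _ = _ := by rw [h6]

end Crest.Agent.R4C.BigTwistx22
end

-- ▼ part R4C/BigTwistR_22
section

/-!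
# Row 4: LEMMA TW (big twist), literal form over the label rule (helper22)

`Cen F P K k b` : the item `b` has a tree centre `f` at some scale `2^m`, `m ≥ m0`, with depth in
`[K, 2K)`, and `k ∣ k0(b, f)`.

`key` : all such centres over one base word are equal and the denominators `k0` form a divisibility
chain; hence few twists (`card_KR`, `card_KR'`).

`big_twistR` : the energy at gcd `~ X` of the pairs `(b, c)` such that `b = k b0`, `k ≥ K0`,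
`gcd b c ∣ b0`, `Cen F P K k b`, is `≤ C X^{2t-1} K^ε K0^{-(1-t)} (E f)^t (E f')^t`.
Nothing is asked of the partner `c`.
-/

set_option autoImplicit false

open Finset
open Crest.Agent.R4C.Basex935 Crest.Agent.R4C.FLDefx935 Crest.Agent.R4C.Rulex945
  Crest.Agent.R4C.TwistKKx863 Crest.Agent.R4C.Twistx662 Crest.Agent.R4C.BigTwistx22

namespace Crest.Agent.R4C.BigTwistRx22

variable {M : ℕ} (F : FL M) (P : Par)

/-- `b` carries the twist `k` at depth `~ K` -/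
def Cen (K : ℝ) (k b : ℕ) : Prop :=
  ∃ (m : ℕ) (f : ℚ), P.m0 ≤ m ∧ TC F P m b f ∧ K ≤ dep F P m b f ∧ dep F P m b f < 2 * K ∧
    k ∣ k0 F (P.cut m) b f

open Classical in
/-- the twists over the base word `z` -/
noncomputable def KR (K K0 : ℝ) (z : ℕ) : Finset ℕ :=
  (Finset.range (⌈2 * K⌉₊ + 1)).filter
    (fun k => K0 ≤ (k : ℝ) ∧ 0 < k ∧ k * z ∣ M ∧ Cen F P K k (k * z))

variable {F P}

lemma mem_KR {K K0 : ℝ} {z k : ℕ} : k ∈ KR F P K K0 z ↔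
    K0 ≤ (k : ℝ) ∧ 0 < k ∧ k * z ∣ M ∧ Cen F P K k (k * z) := by
  classical
  unfold KR
  rw [Finset.mem_filter]
  refine ⟨fun h => h.2, fun h => ⟨?_, h⟩⟩
  obtain ⟨_, _, _, m, f, _, _, _, h5, h6⟩ := h
  rw [Finset.mem_range]
  have h7 : (k : ℝ) ≤ k0 F (P.cut m) (k * z) f := by
    exact_mod_cast Nat.le_of_dvd (k0_pos _ _ _) h6
  have h8 := k0_le_dep (F := F) (P := P) m (k * z) f
  have h9 : (k : ℝ) ≤ ⌈2 * K⌉₊ := (by linarith : (k : ℝ) ≤ 2 * K).trans (Nat.le_ceil _)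
  have h10 : k ≤ ⌈2 * K⌉₊ := by exact_mod_cast h9
  omega

lemma Cen.lt {K : ℝ} {k b : ℕ} (h : Cen F P K k b) : (k : ℝ) < 2 * K := by
  obtain ⟨m, f, _, _, _, h5, h6⟩ := h
  have h7 : (k : ℝ) ≤ k0 F (P.cut m) b f := by
    exact_mod_cast Nat.le_of_dvd (k0_pos _ _ _) h6
  have h8 := k0_le_dep (F := F) (P := P) m b f
  linarith

/-- **all centres over one base word are equal, the denominators form a chain** -/
theorem key (hL : 0 < P.L) (hM : 0 < M) (hcut : Monotone P.cut)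
    (hE6 : ∀ m, P.m0 ≤ m → 16 * P.E m ^ 6 < 2 ^ m)
    (hEc : ∀ m, P.m0 ≤ m → 2 * P.E m ^ 2 ≤ P.cut m) {K : ℝ} {z κ₁ κ₂ m₁ m₂ : ℕ} {f₁ f₂ : ℚ}
    (hκ₁ : (κ₁ : ℝ) < 2 * K) (hκ₂ : (κ₂ : ℝ) < 2 * K)
    (hb₁ : κ₁ * z ∣ M) (hb₂ : κ₂ * z ∣ M) (h12 : m₁ ≤ m₂) (hm₁ : P.m0 ≤ m₁)
    (hT₁ : TC F P m₁ (κ₁ * z) f₁) (hK₁ : K ≤ dep F P m₁ (κ₁ * z) f₁)
    (hK₁' : dep F P m₁ (κ₁ * z) f₁ < 2 * K) (hK₂' : dep F P m₂ (κ₂ * z) f₂ < 2 * K) :
    f₁ = f₂ ∧ k0 F (P.cut m₁) (κ₁ * z) f₁ ∣ k0 F (P.cut m₂) (κ₂ * z) f₂ := by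
  have hz : z ∣ M := (Dvd.intro_left _ rfl).trans hb₁
  have h01 : κ₁ * z ≠ 0 := (Nat.pos_of_dvd_of_pos hb₁ hM).ne'
  have h02 : κ₂ * z ≠ 0 := (Nat.pos_of_dvd_of_pos hb₂ hM).ne'
  have hz0 : z ≠ 0 := right_ne_zero_of_mul h01
  have hκ10 : κ₁ ≠ 0 := left_ne_zero_of_mul h01
  have hκ20 : κ₂ ≠ 0 := left_ne_zero_of_mul h02
  have hd1 := hT₁.dep_le hL
  have hKc : 2 * K ≤ (P.cut m₁ : ℝ) := by
    have := hEc m₁ hm₁
    linarith
  have hp1 : ∀ p, p.Prime → p ∣ κ₁ → p ≤ P.cut m₁ := by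
    intro p _ hp
    have h1 : p ≤ κ₁ := Nat.le_of_dvd (Nat.pos_of_ne_zero hκ10) hp
    have h2 : (p : ℝ) ≤ κ₁ := by exact_mod_cast h1
    exact_mod_cast (by linarith : (p : ℝ) ≤ P.cut m₁)
  have hp2 : ∀ p, p.Prime → p ∣ κ₂ → p ≤ P.cut m₂ := by
    intro p _ hp
    have h1 : p ≤ κ₂ := Nat.le_of_dvd (Nat.pos_of_ne_zero hκ20) hp
    have h2 : (p : ℝ) ≤ κ₂ := by exact_mod_cast h1
    have h3 : p ≤ P.cut m₁ := by exact_mod_cast (by linarith : (p : ℝ) ≤ P.cut m₁)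
    exact h3.trans (hcut h12)
  have hl1 : F.lam (P.cut m₁) (κ₁ * z) = F.lam (P.cut m₁) z :=
    lam_congr hb₁ hz (fact_mul_low hκ10 hz0 hp1)
  have hl2 : F.lam (P.cut m₂) (κ₂ * z) = F.lam (P.cut m₂) z :=
    lam_congr hb₂ hz (fact_mul_low hκ20 hz0 hp2)
  have hk1 : k0 F (P.cut m₁) (κ₁ * z) f₁ = k0 F (P.cut m₁) z f₁ := by
    unfold k0; rw [hl1]
  have hk2 : k0 F (P.cut m₂) (κ₂ * z) f₂ = k0 F (P.cut m₂) z f₂ := by
    unfold k0; rw [hl2]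
  have hdz : ∀ {κ m : ℕ} {f : ℚ}, κ ≠ 0 → k0 F (P.cut m) (κ * z) f = k0 F (P.cut m) z f →
      dep F P m z f ≤ dep F P m (κ * z) f := by
    intro κ m f hκ hk
    unfold dep
    rw [hk]
    refine mul_le_mul_of_nonneg_left ?_ (Nat.cast_nonneg _)
    refine max_le_max le_rfl ?_
    refine div_le_div_of_nonneg_right ?_ hL.le
    refine mul_le_mul_of_nonneg_right ?_ (abs_nonneg _)
    push_cast
    have h1 : (1 : ℝ) ≤ κ := by exact_mod_cast Nat.pos_of_ne_zero hκ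
    have h2 : (0 : ℝ) ≤ z := Nat.cast_nonneg _
    nlinarith
  have he : f₁ = f₂ := by
    by_contra hne
    have hc := conflict_uu (F := F) (P := P) hL hM hcut hz h12 hne
    have e1 := hdz hκ10 hk1
    have e2 := hdz hκ20 hk2
    have e3 : (1 : ℝ) ≤ dep F P m₁ z f₁ := one_le_dep _ _ _
    have e4 : (1 : ℝ) ≤ dep F P m₂ z f₂ := one_le_dep _ _ _
    have hK1 : 1 < 2 * K := by linarith
    have e5 : dep F P m₁ z f₁ * dep F P m₂ z f₂ ≤ (2 * K) * (2 * K) :=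
      mul_le_mul (by linarith) (by linarith) (by linarith) (by linarith)
    have hu := uu_mul (F := F) hM hb₁ hp1
    have hs := hT₁.scl
    rw [hu] at hs
    push_cast at hs
    have hu0 : (0 : ℝ) ≤ F.uu (P.cut m₁) z := Nat.cast_nonneg _
    have e6 : (F.uu (P.cut m₁) z : ℝ) ≤ 8 * K ^ 2 * P.L := by
      refine hc.trans ?_
      have : 2 * dep F P m₁ z f₁ * dep F P m₂ z f₂ ≤ 8 * K ^ 2 := by nlinarith
      exact mul_le_mul_of_nonneg_right this hL.le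
    have e7 : (2 : ℝ) ^ m₁ * P.L ≤ 16 * K ^ 3 * P.L := by
      refine hs.trans ?_
      calc (κ₁ : ℝ) * F.uu (P.cut m₁) z ≤ (2 * K) * (8 * K ^ 2 * P.L) :=
            mul_le_mul hκ₁.le e6 hu0 (by linarith)
        _ = 16 * K ^ 3 * P.L := by ring
    have e8 : (2 : ℝ) ^ m₁ ≤ 16 * K ^ 3 := le_of_mul_le_mul_right e7 hL
    have e9 : K ≤ P.E m₁ ^ 2 := hK₁.trans hd1
    have e10 : K ^ 3 ≤ P.E m₁ ^ 6 := by
      calc K ^ 3 ≤ (P.E m₁ ^ 2) ^ 3 := pow_le_pow_left₀ (by linarith) e9 3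
        _ = P.E m₁ ^ 6 := by ring
    have e11 := hE6 m₁ hm₁
    linarith
  refine ⟨he, ?_⟩
  rw [hk1, hk2, he]
  exact k0_mono (hcut h12) f₂

/-- counting with a divisibility chain -/
lemma card_chain {S : Finset ℕ} {B D : ℝ} (n : ℕ → ℕ)
    (hn : ∀ κ ∈ S, κ ∣ n κ ∧ 0 < n κ ∧ (n κ : ℝ) < B)
    (hch : ∀ κ ∈ S, ∀ κ' ∈ S, n κ ∣ n κ' ∨ n κ' ∣ n κ) (hD0 : 0 ≤ D)
    (hD : ∀ k : ℕ, 0 < k → (k : ℝ) < B → (k.divisors.card : ℝ) ≤ D) : (S.card : ℝ) ≤ D := by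
  rcases S.eq_empty_or_nonempty with h0 | h0
  · rw [h0]; simpa using hD0
  · obtain ⟨κ, hκ, hmax⟩ := Finset.exists_max_image S n h0
    have hsub : S ⊆ (n κ).divisors := by
      intro κ' hκ'
      rw [Nat.mem_divisors]
      refine ⟨?_, (hn κ hκ).2.1.ne'⟩
      rcases hch κ hκ κ' hκ' with h | h
      · have h1 := Nat.le_of_dvd (hn κ' hκ').2.1 h
        have h2 : n κ = n κ' := le_antisymm h1 (hmax κ' hκ')
        rw [h2]
        exact (hn κ' hκ').1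
      · exact (hn κ' hκ').1.trans h
    refine le_trans ?_ (hD (n κ) (hn κ hκ).2.1 (hn κ hκ).2.2)
    exact_mod_cast Finset.card_le_card hsub

/-- **few twists over a base word** -/
theorem card_KR (hL : 0 < P.L) (hM : 0 < M) (hcut : Monotone P.cut)
    (hE6 : ∀ m, P.m0 ≤ m → 16 * P.E m ^ 6 < 2 ^ m)
    (hEc : ∀ m, P.m0 ≤ m → 2 * P.E m ^ 2 ≤ P.cut m) {K K0 D : ℝ} {z : ℕ} (hD0 : 0 ≤ D)
    (hD : ∀ k : ℕ, 0 < k → (k : ℝ) < 2 * K → (k.divisors.card : ℝ) ≤ D) :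
    ((KR F P K K0 z).card : ℝ) ≤ D := by
  classical
  have hex : ∀ κ, ∃ d : ℕ × ℚ, κ ∈ KR F P K K0 z → P.m0 ≤ d.1 ∧ TC F P d.1 (κ * z) d.2 ∧
      K ≤ dep F P d.1 (κ * z) d.2 ∧ dep F P d.1 (κ * z) d.2 < 2 * K ∧
      κ ∣ k0 F (P.cut d.1) (κ * z) d.2 := by
    intro κ
    by_cases h : κ ∈ KR F P K K0 z
    · obtain ⟨_, _, _, m, f, h1⟩ := mem_KR.1 h
      exact ⟨(m, f), fun _ => h1⟩
    · exact ⟨(0, 0), fun h' => absurd h' h⟩
  choose d hd using hex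
  refine card_chain (B := 2 * K) (fun κ => k0 F (P.cut (d κ).1) (κ * z) (d κ).2) ?_ ?_ hD0 hD
  · intro κ hκ
    obtain ⟨_, _, _, h4, h5⟩ := hd κ hκ
    exact ⟨h5, k0_pos _ _ _, (k0_le_dep (F := F) (P := P) _ _ _).trans_lt h4⟩
  · intro κ hκ κ' hκ'
    obtain ⟨h1, h2, h3, h4, h5⟩ := hd κ hκ
    obtain ⟨h1', h2', h3', h4', h5'⟩ := hd κ' hκ'
    obtain ⟨_, _, hb, hc⟩ := mem_KR.1 hκ
    obtain ⟨_, _, hb', hc'⟩ := mem_KR.1 hκ'
    rcases le_total (d κ).1 (d κ').1 with h | h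
    · exact Or.inl (key hL hM hcut hE6 hEc hc.lt hc'.lt hb hb' h h1 h2 h3 h4 h4').2
    · exact Or.inr (key hL hM hcut hE6 hEc hc'.lt hc.lt hb' hb h h1' h2' h3' h4' h4).2

/-- **few twists of one item** -/
theorem card_KR' (hL : 0 < P.L) (hM : 0 < M) (hcut : Monotone P.cut)
    (hE6 : ∀ m, P.m0 ≤ m → 16 * P.E m ^ 6 < 2 ^ m)
    (hEc : ∀ m, P.m0 ≤ m → 2 * P.E m ^ 2 ≤ P.cut m) {K K0 D : ℝ} {b : ℕ} (hb : b ∣ M)
    (hD0 : 0 ≤ D) (hD : ∀ k : ℕ, 0 < k → (k : ℝ) < 2 * K → (k.divisors.card : ℝ) ≤ D) :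
    ((b.divisors.filter (fun k => k ∈ KR F P K K0 (b / k))).card : ℝ) ≤ D := by
  classical
  have hmem : ∀ κ, κ ∈ b.divisors.filter (fun k => k ∈ KR F P K K0 (b / k)) → Cen F P K κ b := by
    intro κ h
    rw [Finset.mem_filter, Nat.mem_divisors] at h
    obtain ⟨_, _, _, h1⟩ := mem_KR.1 h.2
    rwa [Nat.mul_div_cancel' h.1.1] at h1
  have hex : ∀ κ, ∃ d : ℕ × ℚ, κ ∈ b.divisors.filter (fun k => k ∈ KR F P K K0 (b / k)) →
      P.m0 ≤ d.1 ∧ TC F P d.1 b d.2 ∧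
      K ≤ dep F P d.1 b d.2 ∧ dep F P d.1 b d.2 < 2 * K ∧
      κ ∣ k0 F (P.cut d.1) b d.2 := by
    intro κ
    by_cases h : κ ∈ b.divisors.filter (fun k => k ∈ KR F P K K0 (b / k))
    · obtain ⟨m, f, h1⟩ := hmem κ h
      exact ⟨(m, f), fun _ => h1⟩
    · exact ⟨(0, 0), fun h' => absurd h' h⟩
  choose d hd using hex
  refine card_chain (B := 2 * K) (fun κ => k0 F (P.cut (d κ).1) b (d κ).2) ?_ ?_ hD0 hD
  · intro κ hκ
    obtain ⟨_, _, _, h4, h5⟩ := hd κ hκ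
    exact ⟨h5, k0_pos _ _ _, (k0_le_dep (F := F) (P := P) _ _ _).trans_lt h4⟩
  · intro κ hκ κ' hκ'
    obtain ⟨h1, h2, h3, h4, h5⟩ := hd κ hκ
    obtain ⟨h1', h2', h3', h4', h5'⟩ := hd κ' hκ'
    have h1K : ((1 : ℕ) : ℝ) < 2 * K := by
      push_cast
      exact (one_le_dep (F := F) (P := P) _ _ _).trans_lt h4
    rw [← one_mul b] at hb h2 h3 h4 h2' h3' h4'
    rcases le_total (d κ).1 (d κ').1 with h | h
    · have := (key hL hM hcut hE6 hEc h1K h1K hb hb h h1 h2 h3 h4 h4').2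
      rw [one_mul] at this
      exact Or.inl this
    · have := (key hL hM hcut hE6 hEc h1K h1K hb hb h h1' h2' h3' h4' h4).2
      rw [one_mul] at this
      exact Or.inr this

/-- pairs with a big twist -/
def BTR (F : FL M) (P : Par) (K K0 : ℝ) (b c : ℕ) : Prop :=
  ∃ k b0 : ℕ, b = k * b0 ∧ K0 ≤ (k : ℝ) ∧ Nat.gcd b c ∣ b0 ∧ Cen F P K k b

/-- the twist `gcd(k0(b,f), b / gcd(b,c))` -/
lemma BTR_of_gcd (hM : 0 < M) {K K0 : ℝ} {b c m : ℕ} {f : ℚ} (hb : b ∣ M) (hm : P.m0 ≤ m)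
    (hT : TC F P m b f) (hK : K ≤ dep F P m b f) (hK' : dep F P m b f < 2 * K)
    (h : K0 ≤ (Nat.gcd (k0 F (P.cut m) b f) (b / Nat.gcd b c) : ℕ)) : BTR F P K K0 b c := by
  have hb0 : 0 < b := Nat.pos_of_dvd_of_pos hb hM
  have hg : Nat.gcd b c ∣ b := Nat.gcd_dvd_left _ _
  have h1 : Nat.gcd (k0 F (P.cut m) b f) (b / Nat.gcd b c) ∣ b / Nat.gcd b c :=
    Nat.gcd_dvd_right _ _
  have h2 : Nat.gcd (k0 F (P.cut m) b f) (b / Nat.gcd b c) * Nat.gcd b c ∣ b := by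
    have h3 := Nat.mul_dvd_mul_right h1 (Nat.gcd b c)
    rwa [Nat.div_mul_cancel hg] at h3
  obtain ⟨r, hr⟩ := h2
  refine ⟨Nat.gcd (k0 F (P.cut m) b f) (b / Nat.gcd b c), Nat.gcd b c * r, ?_, h,
    Dvd.intro _ rfl, m, f, hm, hT, hK, hK', Nat.gcd_dvd_left _ _⟩
  rw [← mul_assoc]
  exact hr

/-- `ω = log2 (2K) + 1` is `≤ C K^ε` -/
lemma log_le {ε : ℝ} (hε : 0 < ε) : ∃ C : ℝ, 1 ≤ C ∧ ∀ K : ℝ, 1 ≤ 2 * K →
    ((Nat.log 2 ⌊2 * K⌋₊ : ℕ) : ℝ) + 1 ≤ C * (2 * K) ^ ε := by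
  refine ⟨max 1 (1 / (ε * Real.log 2)), le_max_left _ _, fun K hK => ?_⟩
  refine (succ_le_small hε 2 _ le_rfl).trans ?_
  have h1 : (1 : ℝ) ≤ max 1 (1 / (ε * Real.log 2)) := le_max_left _ _
  refine mul_le_mul_of_nonneg_left ?_ (by linarith)
  refine Real.rpow_le_rpow (by positivity) ?_ hε.le
  have h2 : 0 < ⌊2 * K⌋₊ := Nat.floor_pos.2 hK
  have h3 := Nat.pow_log_le_self 2 h2.ne'
  have h4 : ((2 ^ Nat.log 2 ⌊2 * K⌋₊ : ℕ) : ℝ) ≤ ⌊2 * K⌋₊ := by exact_mod_cast h3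
  push_cast at h4 ⊢
  exact h4.trans (Nat.floor_le (by linarith))

open Classical in
/-- **LEMMA TW over the rule** -/
theorem big_twistR {t ε : ℝ} (ht : 1 / 2 < t) (ht1 : t < 1) (hε : 0 < ε) : ∃ C : ℝ, 0 < C ∧
    ∀ (M : ℕ) (F : FL M) (P : Par) (X K K0 : ℝ) (f f' : ℕ → ℝ), 0 < M → 0 < X → 1 ≤ K → 0 < K0 →
      0 < P.L → Monotone P.cut → (∀ m, P.m0 ≤ m → 16 * P.E m ^ 6 < 2 ^ m) →
      (∀ m, P.m0 ≤ m → 2 * P.E m ^ 2 ≤ P.cut m) →
      (∀ x, 0 ≤ f x) → (∀ x, f x ≤ 1) → (∀ x, 0 ≤ f' x) → (∀ x, f' x ≤ 1) →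
      ∑ b ∈ M.divisors, ∑ c ∈ M.divisors,
        (if X ≤ (Nat.gcd b c : ℝ) ∧ (Nat.gcd b c : ℝ) < 2 * X ∧ BTR F P K K0 b c then
          (Nat.gcd b c : ℝ) * nu M b * nu M c * (f b * f' c) else 0) ≤
      C * X ^ (2 * t - 1) * (K ^ ε * (1 / K0) ^ (1 - t) *
        ((∑ b ∈ M.divisors, nu M b * f b) ^ t * (∑ b ∈ M.divisors, nu M b * f' b) ^ t)) := by
  have hδ : 0 < ε / 2 := by positivity
  obtain ⟨C, hC, hbt⟩ := big_twist ht ht1
  obtain ⟨C1, hC1, hdiv⟩ := divisor_bound hδ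
  obtain ⟨C2, hC2, hlog⟩ := log_le hδ
  refine ⟨C * (C1 * C2 * (2 : ℝ) ^ ε), by positivity, ?_⟩
  intro M F P X K K0 f f' hM hX hK hK0 hL hcut hE6 hEc hf hf1 hf' hf1'
  set E1 : ℝ := ∑ b ∈ M.divisors, nu M b * f b with hE1
  set E2 : ℝ := ∑ b ∈ M.divisors, nu M b * f' b with hE2
  have hEf : 0 ≤ E1 := Finset.sum_nonneg fun b _ => mul_nonneg (nu_nonneg _ _) (hf b)
  have hEf' : 0 ≤ E2 := Finset.sum_nonneg fun b _ => mul_nonneg (nu_nonneg _ _) (hf' b)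
  have hKp : 0 < K := by linarith
  set ω : ℝ := ((Nat.log 2 ⌊2 * K⌋₊ : ℕ) : ℝ) + 1 with hω
  have hω1 : 1 ≤ ω := by
    have : (0 : ℝ) ≤ ((Nat.log 2 ⌊2 * K⌋₊ : ℕ) : ℝ) := Nat.cast_nonneg _
    linarith
  have hω0 : 0 < ω := by linarith
  set N : ℝ := C1 * (2 * K) ^ (ε / 2) with hN
  have hN0 : 0 < N := by positivity
  have hD : ∀ k : ℕ, 0 < k → (k : ℝ) < 2 * K → (k.divisors.card : ℝ) ≤ N := by
    intro k hk hk2
    refine (hdiv k hk).trans ?_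
    refine mul_le_mul_of_nonneg_left ?_ (by linarith)
    exact Real.rpow_le_rpow (Nat.cast_nonneg _) hk2.le hδ.le
  have hkω : ∀ z, ∀ k ∈ KR F P K K0 z, (k : ℝ) ≤ ω * k.totient := by
    intro z k hk
    obtain ⟨_, _, _, h4⟩ := mem_KR.1 hk
    have h1 := le_totient_mul k
    have h2 : k ≤ ⌊2 * K⌋₊ := Nat.le_floor h4.lt.le
    have h3 : Nat.log 2 k ≤ Nat.log 2 ⌊2 * K⌋₊ := Nat.log_mono_right h2
    have h5 : k ≤ k.totient * (Nat.log 2 ⌊2 * K⌋₊ + 1) :=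
      h1.trans (Nat.mul_le_mul_left _ (by omega))
    have h6 : (k : ℝ) ≤ (k.totient : ℝ) * (((Nat.log 2 ⌊2 * K⌋₊ : ℕ) : ℝ) + 1) := by
      exact_mod_cast h5
    rw [mul_comm]
    exact h6
  have hφ : ∀ z, ∀ k ∈ KR F P K K0 z, K0 / ω ≤ (k.totient : ℝ) := by
    intro z k hk
    rw [div_le_iff₀ hω0, mul_comm]
    exact (mem_KR.1 hk).1.trans (hkω z k hk)
  have hmain := hbt M X N N (K0 / ω) ω (KR F P K K0) f f' hM hX hf hf1 hf' hf1' hN0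
    (by positivity) hω0.le hN0.le
    (fun z _ => card_KR hL hM hcut hE6 hEc hN0.le hD) hφ hkω
    (fun b hb => by
      have := card_KR' (F := F) (K0 := K0) hL hM hcut hE6 hEc hb hN0.le hD
      convert this)
  refine le_trans ?_ (hmain.trans ?_)
  · refine Finset.sum_le_sum fun b hb => Finset.sum_le_sum fun c hc => ?_
    have h0 : 0 ≤ (Nat.gcd b c : ℝ) * nu M b * nu M c * (f b * f' c) := by
      have a1 := nu_nonneg M b
      have a2 := nu_nonneg M c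
      have a3 := hf b
      have a4 := hf' c
      positivity
    by_cases h : X ≤ (Nat.gcd b c : ℝ) ∧ (Nat.gcd b c : ℝ) < 2 * X ∧ BTR F P K K0 b c
    · rw [if_pos h, if_pos]
      obtain ⟨h1, h2, k, b0, e, h3, h4, h5⟩ := h
      refine ⟨h1, h2, k, b0, e, mem_KR.2 ⟨h3, ?_, ?_, ?_⟩, h4⟩
      · have hb0 : 0 < b := Nat.pos_of_mem_divisors hb
        rw [e] at hb0
        exact Nat.pos_of_mul_pos_right hb0
      · rw [← e]; exact Nat.dvd_of_mem_divisors hb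
      · rw [← e]; exact h5
    · rw [if_neg h]
      split_ifs
      · exact h0
      · exact le_rfl
  · have hNω : N * ω ≤ C1 * C2 * 2 ^ ε * K ^ ε := by
      have h1 := hlog K (by linarith)
      have h2 : (2 * K) ^ (ε / 2) * (2 * K) ^ (ε / 2) = 2 ^ ε * K ^ ε := by
        rw [← Real.rpow_add (by linarith), add_halves, Real.mul_rpow (by norm_num) hKp.le]
      calc N * ω ≤ (C1 * (2 * K) ^ (ε / 2)) * (C2 * (2 * K) ^ (ε / 2)) :=
            mul_le_mul_of_nonneg_left h1 hN0.le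
        _ = C1 * C2 * ((2 * K) ^ (ε / 2) * (2 * K) ^ (ε / 2)) := by ring
        _ = C1 * C2 * 2 ^ ε * K ^ ε := by rw [h2]; ring
    have h3 : N / (K0 / ω) = (N * ω) * (1 / K0) := by
      field_simp
    have hNω0 : 0 < N * ω := by positivity
    have h4 : (N / (K0 / ω)) ^ (1 - t) = (N * ω) ^ (1 - t) * (1 / K0) ^ (1 - t) := by
      rw [h3, Real.mul_rpow hNω0.le (by positivity)]
    have h5 : (ω * N * E1) ^ t = (N * ω) ^ t * E1 ^ t := by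
      rw [mul_comm ω N, Real.mul_rpow hNω0.le hEf]
    have h6 : (N * ω) ^ (1 - t) * (N * ω) ^ t = N * ω := by
      rw [← Real.rpow_add hNω0]
      simp
    rw [h4, h5]
    have hB0 : 0 ≤ E1 ^ t * E2 ^ t := mul_nonneg (Real.rpow_nonneg hEf _) (Real.rpow_nonneg hEf' _)
    calc C * X ^ (2 * t - 1) * ((N * ω) ^ (1 - t) * (1 / K0) ^ (1 - t) *
          ((N * ω) ^ t * E1 ^ t * E2 ^ t))
        = C * X ^ (2 * t - 1) * (((N * ω) ^ (1 - t) * (N * ω) ^ t) * (1 / K0) ^ (1 - t) *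
          (E1 ^ t * E2 ^ t)) := by ring
      _ = C * X ^ (2 * t - 1) * ((N * ω) * (1 / K0) ^ (1 - t) * (E1 ^ t * E2 ^ t)) := by rw [h6]
      _ ≤ C * X ^ (2 * t - 1) * ((C1 * C2 * 2 ^ ε * K ^ ε) * (1 / K0) ^ (1 - t) *
          (E1 ^ t * E2 ^ t)) := by
          refine mul_le_mul_of_nonneg_left ?_ (by positivity)
          refine mul_le_mul_of_nonneg_right ?_ hB0
          exact mul_le_mul_of_nonneg_right hNω (by positivity)
      _ = _ := by ring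

end Crest.Agent.R4C.BigTwistRx22
end

-- ▼ part R4C/TwSets_100

/-!
# Row 4: the class CTw at one level, plain energy of two sets (helper100)

`TwLev F P t b c` : some offset `h` of the pair is in the class `CTw` at the level `t` and linked.
**`tw_sets`** : for `S, S' ⊆ divisors M` with `L ν(S), L ν(S') ≤ 1`
`Σ_{b ∈ S} Σ_{c ∈ S'} [TwLev t b c] gcd ν ν ≤ C (2^((t+1)/2))^η (E t ^ 4)^(-((1-η)/4 - ε)) sqrt(ν S ν S')`,
all scales of the gcd and all depths together (over 22's `big_twistR`).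
-/

set_option autoImplicit false

namespace Crest.Agent.R4C.TwSetsx100

open Finset Crest.Agent.R4C.Basex935 Crest.Agent.R4C.FLDefx935 Crest.Agent.R4C.BoostCx972
  Crest.Agent.R4C.CrCoinx935 Crest.Agent.R4C.CrCountx935 Crest.Agent.R4C.Bridgex882
  Crest.Agent.R4C.PrefixMx882 Crest.Agent.R4C.Rulex945 Crest.Agent.R4C.Sharedx11
  Crest.Agent.R4C.Splitx945 Crest.Agent.R4C.TwPairx100 Crest.Agent.R4C.MismAx100
  Crest.Agent.R4C.BigTwistRx22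

variable {M : ℕ} {F : FL M} {P : Par}

/-! ### the pair side -/

/-- linked offset -/
def Lk (γ L : ℝ) (b c : ℕ) (h : ℤ) : Prop :=
  (Nat.gcd b c : ℝ) * |(((b / Nat.gcd b c : ℕ) : ℝ) - (c / Nat.gcd b c : ℕ)) * γ + h| ≤ L

lemma Lk.symm {γ L : ℝ} {b c : ℕ} {h : ℤ} (hl : Lk γ L b c h) : Lk γ L c b (-h) := by
  unfold Lk at hl ⊢
  rw [Nat.gcd_comm c b]
  have e : (((c / Nat.gcd b c : ℕ) : ℝ) - (b / Nat.gcd b c : ℕ)) * γ + ((-h : ℤ) : ℝ) =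
      -((((b / Nat.gcd b c : ℕ) : ℝ) - (c / Nat.gcd b c : ℕ)) * γ + h) := by
    push_cast; ring
  rw [e, abs_neg]
  exact hl

lemma lk_of_mem {γ L : ℝ} {b c : ℕ} {h : ℤ} (hb : 0 < b) (hl : h ∈ Lnk γ L b c) :
    Lk γ L b c h := by
  unfold Lnk at hl
  rw [mem_Hf] at hl
  have hg : (0 : ℝ) < (Nat.gcd b c : ℕ) := by
    exact_mod_cast Nat.gcd_pos_of_pos_left _ hb
  unfold Lk
  calc (Nat.gcd b c : ℝ) * |(((b / Nat.gcd b c : ℕ) : ℝ) - (c / Nat.gcd b c : ℕ)) * γ + h|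
      ≤ (Nat.gcd b c : ℝ) * (L / (Nat.gcd b c : ℕ)) := mul_le_mul_of_nonneg_left hl.le hg.le
    _ = L := by field_simp

/-- one side of the class at the level `t` -/
def TwOne (F : FL M) (P : Par) (t b c : ℕ) : Prop :=
  ∃ (h : ℤ) (m : ℕ) (f f' : ℚ), F.good (P.cut t) b c ∧
    gap f f' (b / Nat.gcd b c) (c / Nat.gcd b c) h = 0 ∧ Lk P.γ P.L b c h ∧ t ≤ m ∧ P.m0 ≤ t ∧
    TC F P m b f ∧ TC F P t c f' ∧ P.E t ^ 4 < dep F P m b f ∧
    (Nat.gcd b c : ℝ) ^ 2 ≤ 2 ^ (t + 1) * P.L ^ 2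

/-- **the class CTw at the level `t`** -/
def TwLev (F : FL M) (P : Par) (t b c : ℕ) : Prop :=
  ∃ h ∈ Lnk P.γ P.L b c, ∃ m f f', BP F P t b c h f f' ∧ t ≤ m ∧
    ((TC F P m b f ∧ TC F P t c f' ∧ P.E t ^ 4 < dep F P m b f) ∨
      (TC F P m c f' ∧ TC F P t b f ∧ P.E t ^ 4 < dep F P m c f'))

lemma TwLev.split {t b c : ℕ} (hM : 0 < M) (hb : b ∣ M) (hc : c ∣ M) (h : TwLev F P t b c) :
    TwOne F P t b c ∨ TwOne F P t c b := by
  obtain ⟨h, hl, m, f, f', hB, htm, h1⟩ := h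
  have hb0 := Nat.pos_of_dvd_of_pos hb hM
  have hl' := lk_of_mem hb0 hl
  have hm0 : P.m0 ≤ t := by have := hB.m0; omega
  rcases h1 with ⟨h1, h2, h3⟩ | ⟨h1, h2, h3⟩
  · exact Or.inl ⟨h, m, f, f', hB.good, hB.pt, hl', htm, hm0, h1, h2, h3, hB.scl⟩
  · refine Or.inr ⟨-h, m, f', f, FL.good_symm hb hc hB.good, ?_, hl'.symm, htm, hm0, h1, h2, h3, ?_⟩
    · rw [Nat.gcd_comm c b]
      exact MismAx100.gap_symm hB.pt
    · rw [Nat.gcd_comm c b]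
      exact hB.scl

/-- the big twist of a pair of the class -/
lemma btr_of_one {t b c : ℕ} (hM : 0 < M) (hL : 0 < P.L) (hcut : Monotone P.cut)
    (hb : b ∣ M) (hc : c ∣ M) (h : TwOne F P t b c) :
    ∃ j : ℕ, P.E t ^ 4 < 2 ^ (j + 1) ∧
      BTR F P (2 ^ j) (((2 : ℝ) ^ j) ^ (1 / 2 : ℝ) / 2) b c := by
  obtain ⟨h, m, f, f', hg, hpt, hl, htm, hm0, h1, h2, h3, _⟩ := h
  have hb0 := Nat.pos_of_dvd_of_pos hb hM
  have hc0 := Nat.pos_of_dvd_of_pos hc hM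
  have hgp : 0 < Nat.gcd b c := Nat.gcd_pos_of_pos_left _ hb0
  have eb : Nat.gcd b c * (b / Nat.gcd b c) = b := Nat.mul_div_cancel' (Nat.gcd_dvd_left _ _)
  have ec : Nat.gcd b c * (c / Nat.gcd b c) = c := Nat.mul_div_cancel' (Nat.gcd_dvd_right _ _)
  have hcop : Nat.Coprime (b / Nat.gcd b c) (c / Nat.gcd b c) := Nat.coprime_div_gcd_div_gcd hgp
  have hK1 : 1 ≤ dep F P m b f := one_le_dep m b f
  obtain ⟨j, hj1, hj2⟩ := exists_nat_pow_near hK1 (one_lt_two (α := ℝ))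
  refine ⟨j, h3.trans hj2, ?_⟩
  refine BTR_of_gcd hM hb (hm0.trans htm) h1 hj1 (by rw [pow_succ] at hj2; linarith) ?_
  -- the twist
  have hd2 : dep F P t c f' ≤ P.E t ^ 2 := h2.dep_le hL
  have hd1 : 1 ≤ dep F P t c f' := one_le_dep t c f'
  have hbig : dep F P t c f' ^ 2 ≤ dep F P m b f := by
    calc dep F P t c f' ^ 2 ≤ (P.E t ^ 2) ^ 2 := pow_le_pow_left₀ (by linarith) hd2 2
      _ = P.E t ^ 4 := by ring
      _ ≤ _ := h3.le
  have h5 := twist_big (F := F) (P := P) (g := Nat.gcd b c) (s := b / Nat.gcd b c)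
    (s' := c / Nat.gcd b c) (h := h) (f := f) (f' := f') hM hL hcut (by rw [eb]; exact hb)
    (by rw [ec]; exact hc) hcop htm (by rw [eb, ec]; exact hg) hpt hl
    (by rw [eb, ec]; exact hbig)
  rw [eb] at h5
  refine le_trans ?_ h5
  have h6 : ((2 : ℝ) ^ j) ^ (1 / 2 : ℝ) ≤ dep F P m b f ^ (1 / 2 : ℝ) :=
    Real.rpow_le_rpow (by positivity) hj1 (by norm_num)
  linarith

/-! ### the sums -/

/-- a scale below `G` -/
lemma exists_scale {G g : ℝ} (hg : 0 < g) (hG : 0 < G) (h : g ≤ G) :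
    ∃ i : ℕ, G / 2 ^ i ≤ g ∧ g < 2 * (G / 2 ^ i) := by
  classical
  have hex : ∃ i : ℕ, G ≤ 2 ^ i * g := by
    obtain ⟨n, hn⟩ := pow_unbounded_of_one_lt (G / g) (one_lt_two (α := ℝ))
    exact ⟨n, by rw [div_lt_iff₀ hg] at hn; exact hn.le⟩
  obtain ⟨n, hn, hmin⟩ : ∃ n : ℕ, G ≤ 2 ^ n * g ∧ ∀ k < n, ¬ G ≤ 2 ^ k * g :=
    ⟨Nat.find hex, Nat.find_spec hex, fun k hk => Nat.find_min hex hk⟩
  refine ⟨n, ?_, ?_⟩
  · rw [div_le_iff₀ (by positivity)]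
    linarith
  · rcases Nat.eq_zero_or_pos n with h0 | h0
    · rw [h0, pow_zero, div_one]; linarith
    · obtain ⟨k, rfl⟩ : ∃ k, n = k + 1 := ⟨n - 1, by omega⟩
      have h1 := hmin k (Nat.lt_succ_self k)
      rw [not_le] at h1
      have h2 : 2 * (G / 2 ^ (k + 1)) = G / 2 ^ k := by
        rw [pow_succ]
        field_simp
      rw [h2, lt_div_iff₀ (by positivity)]
      linarith

/-- geometric sum of the depths -/
lemma sum_depth {a Y : ℝ} (ha : 0 < a) (hY : 0 < Y) (J : ℕ) :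
    ∑ j ∈ (range J).filter (fun j => Y < (2 : ℝ) ^ (j + 1)), ((2 : ℝ) ^ j) ^ (-a) ≤
      (2 : ℝ) ^ a * (1 - (2 : ℝ) ^ (-a))⁻¹ * Y ^ (-a) := by
  have h2a : (2 : ℝ) ^ (-a) < 1 := Real.rpow_lt_one_of_one_lt_of_neg (by norm_num) (by linarith)
  have h2a0 : (0 : ℝ) < (2 : ℝ) ^ (-a) := Real.rpow_pos_of_pos (by norm_num) _
  have hinv : 0 < (1 - (2 : ℝ) ^ (-a))⁻¹ := inv_pos.2 (by linarith)
  classical
  set T := (range J).filter (fun j => Y < (2 : ℝ) ^ (j + 1)) with hT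
  rcases T.eq_empty_or_nonempty with he | hne
  · rw [he, sum_empty]
    have : 0 < Y ^ (-a) := Real.rpow_pos_of_pos hY _
    positivity
  set j0 := T.min' hne with hj0
  have hj0T := T.min'_mem hne
  have hj0Y : Y < (2 : ℝ) ^ (j0 + 1) := (mem_filter.1 hj0T).2
  have hpw : ∀ j : ℕ, ((2 : ℝ) ^ j) ^ (-a) = ((2 : ℝ) ^ (-a)) ^ j := by
    intro j
    rw [← Real.rpow_natCast, ← Real.rpow_mul (by norm_num), ← Real.rpow_natCast,
      ← Real.rpow_mul (by norm_num)]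
    congr 1
    ring
  have h1 : ∑ j ∈ T, ((2 : ℝ) ^ j) ^ (-a) ≤ ∑ i ∈ range J, ((2 : ℝ) ^ (-a)) ^ (j0 + i) := by
    have h2 : ∑ j ∈ T, ((2 : ℝ) ^ j) ^ (-a) =
        ∑ i ∈ T.image (fun j => j - j0), ((2 : ℝ) ^ (-a)) ^ (j0 + i) := by
      rw [sum_image]
      · refine sum_congr rfl fun j hj => ?_
        rw [hpw]
        congr 1
        have := T.min'_le j hj
        omega
      · intro a' ha' b' hb' hab
        have h3 := T.min'_le a' ha'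
        have h4 := T.min'_le b' hb'
        simp only at hab
        omega
    rw [h2]
    refine sum_le_sum_of_subset_of_nonneg ?_ fun i _ _ => by positivity
    intro i hi
    rw [mem_image] at hi
    obtain ⟨j, hj, rfl⟩ := hi
    have := mem_range.1 (mem_filter.1 hj).1
    rw [mem_range]
    omega
  have h2 : ∑ i ∈ range J, ((2 : ℝ) ^ (-a)) ^ (j0 + i) =
      ((2 : ℝ) ^ (-a)) ^ j0 * ∑ i ∈ range J, ((2 : ℝ) ^ (-a)) ^ i := by
    rw [mul_sum]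
    exact sum_congr rfl fun i _ => pow_add _ _ _
  have h3 : ∑ i ∈ range J, ((2 : ℝ) ^ (-a)) ^ i ≤ (1 - (2 : ℝ) ^ (-a))⁻¹ := by
    have := Summable.sum_le_tsum (range J) (fun j _ => pow_nonneg h2a0.le j)
      (summable_geometric_of_lt_one h2a0.le h2a)
    rwa [tsum_geometric_of_lt_one h2a0.le h2a] at this
  have h4 : ((2 : ℝ) ^ (-a)) ^ j0 ≤ (2 : ℝ) ^ a * Y ^ (-a) := by
    rw [← hpw]
    have h5 : Y / 2 ≤ (2 : ℝ) ^ j0 := by rw [pow_succ] at hj0Y; linarith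
    calc ((2 : ℝ) ^ j0) ^ (-a) ≤ (Y / 2) ^ (-a) :=
          Real.rpow_le_rpow_of_nonpos (by positivity) h5 (by linarith)
      _ = _ := by
          rw [Real.div_rpow hY.le (by norm_num), Real.rpow_neg (by norm_num : (0:ℝ) ≤ 2),
            div_inv_eq_mul, mul_comm]
  rw [h2] at h1
  refine h1.trans ?_
  calc ((2 : ℝ) ^ (-a)) ^ j0 * ∑ i ∈ range J, ((2 : ℝ) ^ (-a)) ^ i
      ≤ ((2 : ℝ) ^ a * Y ^ (-a)) * (1 - (2 : ℝ) ^ (-a))⁻¹ :=
        mul_le_mul h4 h3 (sum_nonneg fun i _ => by positivity)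
          (by have : 0 < Y ^ (-a) := Real.rpow_pos_of_pos hY _
              positivity)
    _ = _ := by ring

/-- geometric sum of the scales -/
lemma sum_scale {G η : ℝ} (hη : 0 < η) (hG : 0 < G) (I : ℕ) :
    ∑ i ∈ range I, (G / 2 ^ i) ^ η ≤ (1 - (2 : ℝ) ^ (-η))⁻¹ * G ^ η := by
  have h2a : (2 : ℝ) ^ (-η) < 1 := Real.rpow_lt_one_of_one_lt_of_neg (by norm_num) (by linarith)
  have h2a0 : (0 : ℝ) < (2 : ℝ) ^ (-η) := Real.rpow_pos_of_pos (by norm_num) _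
  have h1 : ∀ i : ℕ, (G / 2 ^ i) ^ η = G ^ η * ((2 : ℝ) ^ (-η)) ^ i := by
    intro i
    rw [Real.div_rpow hG.le (by positivity), div_eq_mul_inv, ← Real.rpow_neg (by positivity)]
    congr 1
    rw [← Real.rpow_natCast, ← Real.rpow_mul (by norm_num), ← Real.rpow_natCast,
      ← Real.rpow_mul (by norm_num)]
    congr 1
    ring
  rw [sum_congr rfl fun i _ => h1 i, ← mul_sum, mul_comm]
  refine mul_le_mul_of_nonneg_right ?_ (by positivity)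
  have := Summable.sum_le_tsum (range I) (fun j _ => pow_nonneg h2a0.le j)
    (summable_geometric_of_lt_one h2a0.le h2a)
  rwa [tsum_geometric_of_lt_one h2a0.le h2a] at this

/-- indicator -/
noncomputable def ind (S : Finset ℕ) (b : ℕ) : ℝ := if b ∈ S then 1 else 0

lemma ind_nonneg (S : Finset ℕ) (b : ℕ) : 0 ≤ ind S b := by
  unfold ind; split_ifs <;> norm_num

lemma ind_le_one (S : Finset ℕ) (b : ℕ) : ind S b ≤ 1 := by
  unfold ind; split_ifs <;> norm_num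

lemma sum_ind {S : Finset ℕ} (hS : S ⊆ M.divisors) (w : ℕ → ℝ) :
    ∑ b ∈ M.divisors, w b * ind S b = ∑ b ∈ S, w b := by
  classical
  rw [← sum_subset hS]
  · exact sum_congr rfl fun b hb => by unfold ind; rw [if_pos hb, mul_one]
  · intro b _ hb
    unfold ind
    rw [if_neg hb, mul_zero]

open Classical in
/-- one side, two sets -/
theorem tw_one {η ε : ℝ} (hη : 0 < η) (_hη1 : η < 1) (hε : 0 < ε) (hε1 : ε < (1 - η) / 4) :
    ∃ C : ℝ, 0 < C ∧ ∀ (M : ℕ) (F : FL M) (P : Par) (S S' : Finset ℕ) (t : ℕ), 0 < M →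
      S ⊆ M.divisors → S' ⊆ M.divisors → 0 < P.L → P.L * ∑ b ∈ S, nu M b ≤ 1 →
      P.L * ∑ b ∈ S', nu M b ≤ 1 → Monotone P.cut → (∀ m, P.m0 ≤ m → 16 * P.E m ^ 6 < 2 ^ m) →
      (∀ m, P.m0 ≤ m → 2 * P.E m ^ 2 ≤ P.cut m) → 0 < P.E t →
      ∑ b ∈ S, ∑ c ∈ S', (if TwOne F P t b c then
        (Nat.gcd b c : ℝ) * nu M b * nu M c else 0) ≤
        C * ((2 : ℝ) ^ ((t + 1 : ℝ) / 2)) ^ η * (P.E t ^ 4) ^ (-((1 - η) / 4 - ε)) *
          Real.sqrt ((∑ b ∈ S, nu M b) * ∑ b ∈ S', nu M b) := by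
  have ht : 1 / 2 < (1 + η) / 2 := by linarith
  have ht1 : (1 + η) / 2 < 1 := by linarith
  obtain ⟨C, hC, hbt⟩ := big_twistR ht ht1 hε
  set a : ℝ := (1 - η) / 4 - ε with ha
  have ha0 : 0 < a := by linarith
  have h2a : (2 : ℝ) ^ (-a) < 1 := Real.rpow_lt_one_of_one_lt_of_neg (by norm_num) (by linarith)
  have h2η : (2 : ℝ) ^ (-η) < 1 := Real.rpow_lt_one_of_one_lt_of_neg (by norm_num) (by linarith)
  have hi1 : 0 < (1 - (2 : ℝ) ^ (-a))⁻¹ := inv_pos.2 (by linarith)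
  have hi2 : 0 < (1 - (2 : ℝ) ^ (-η))⁻¹ := inv_pos.2 (by linarith)
  set C1 : ℝ := C * (1 - (2 : ℝ) ^ (-η))⁻¹ * ((2 : ℝ) ^ ((1 - η) / 2) *
    ((2 : ℝ) ^ a * (1 - (2 : ℝ) ^ (-a))⁻¹)) with hC1
  refine ⟨C1, by positivity, ?_⟩
  intro M F P S S' t hM hS hS' hL hm hm' hcut hE6 hEc hEt
  set G : ℝ := (2 : ℝ) ^ ((t + 1 : ℝ) / 2) * P.L with hG
  have hG0 : 0 < G := by positivity
  set E1 : ℝ := ∑ b ∈ S, nu M b with hE1
  set E2 : ℝ := ∑ b ∈ S', nu M b with hE2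
  have hE1n : 0 ≤ E1 := sum_nonneg fun b _ => nu_nonneg M b
  have hE2n : 0 ≤ E2 := sum_nonneg fun b _ => nu_nonneg M b
  -- indices of a pair
  have hex : ∀ b c : ℕ, ∃ ij : ℕ × ℕ, b ∣ M → c ∣ M → TwOne F P t b c →
      G / 2 ^ ij.1 ≤ (Nat.gcd b c : ℝ) ∧ (Nat.gcd b c : ℝ) < 2 * (G / 2 ^ ij.1) ∧
      P.E t ^ 4 < 2 ^ (ij.2 + 1) ∧
      BTR F P (2 ^ ij.2) (((2 : ℝ) ^ ij.2) ^ (1 / 2 : ℝ) / 2) b c := by
    intro b c
    by_cases h0 : b ∣ M ∧ c ∣ M ∧ TwOne F P t b c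
    · obtain ⟨hb, hc, h1⟩ := h0
      obtain ⟨j, hj1, hj2⟩ := btr_of_one hM hL hcut hb hc h1
      have hgp : (0 : ℝ) < (Nat.gcd b c : ℕ) := by
        exact_mod_cast Nat.gcd_pos_of_pos_left _ (Nat.pos_of_dvd_of_pos hb hM)
      have hgG : (Nat.gcd b c : ℝ) ≤ G := by
        obtain ⟨_, _, _, _, _, _, _, _, _, _, _, _, h2⟩ := h1
        have h3 : G ^ 2 = 2 ^ (t + 1) * P.L ^ 2 := by
          rw [hG, mul_pow, ← Real.rpow_natCast, ← Real.rpow_mul (by norm_num)]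
          congr 1
          rw [show ((t : ℝ) + 1) / 2 * ((2 : ℕ) : ℝ) = ((t + 1 : ℕ) : ℝ) by push_cast; ring,
            Real.rpow_natCast]
        rw [← h3] at h2
        exact le_of_sq_le_sq h2 hG0.le
      obtain ⟨i, hi1, hi2⟩ := exists_scale hgp hG0 hgG
      exact ⟨(i, j), fun _ _ _ => ⟨hi1, hi2, hj1, hj2⟩⟩
    · exact ⟨(0, 0), fun hb hc h => absurd ⟨hb, hc, h⟩ h0⟩
  choose ij hij using hex
  set I : ℕ := (S ×ˢ S').sup (fun p => (ij p.1 p.2).1) + 1 with hI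
  set J : ℕ := (S ×ˢ S').sup (fun p => (ij p.1 p.2).2) + 1 with hJ
  set TJ := (range J).filter (fun j => P.E t ^ 4 < (2 : ℝ) ^ (j + 1)) with hTJ
  -- the big twist form
  set W : ℕ → ℕ → ℝ := fun i j => ∑ b ∈ M.divisors, ∑ c ∈ M.divisors,
        (if G / 2 ^ i ≤ (Nat.gcd b c : ℝ) ∧ (Nat.gcd b c : ℝ) < 2 * (G / 2 ^ i) ∧
          BTR F P (2 ^ j) (((2 : ℝ) ^ j) ^ (1 / 2 : ℝ) / 2) b c then
          (Nat.gcd b c : ℝ) * nu M b * nu M c * (ind S b * ind S' c) else 0) with hW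
  have hg0 : ∀ b c, 0 ≤ (Nat.gcd b c : ℝ) * nu M b * nu M c := fun b c =>
    mul_nonneg (mul_nonneg (Nat.cast_nonneg _) (nu_nonneg _ _)) (nu_nonneg _ _)
  have hii : ∀ b c, 0 ≤ ind S b * ind S' c := fun b c =>
    mul_nonneg (ind_nonneg _ _) (ind_nonneg _ _)
  have hterm : ∀ i j b c, 0 ≤ (if G / 2 ^ i ≤ (Nat.gcd b c : ℝ) ∧
      (Nat.gcd b c : ℝ) < 2 * (G / 2 ^ i) ∧
          BTR F P (2 ^ j) (((2 : ℝ) ^ j) ^ (1 / 2 : ℝ) / 2) b c then
          (Nat.gcd b c : ℝ) * nu M b * nu M c * (ind S b * ind S' c) else (0 : ℝ)) := by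
    intro i j b c
    split_ifs
    · exact mul_nonneg (hg0 b c) (hii b c)
    · exact le_rfl
  -- step 1
  have s1 : ∑ b ∈ S, ∑ c ∈ S', (if TwOne F P t b c then
        (Nat.gcd b c : ℝ) * nu M b * nu M c else 0) ≤ ∑ i ∈ range I, ∑ j ∈ TJ, W i j := by
    have e1 : ∑ i ∈ range I, ∑ j ∈ TJ, W i j = ∑ b ∈ M.divisors, ∑ c ∈ M.divisors,
        ∑ i ∈ range I, ∑ j ∈ TJ, (if G / 2 ^ i ≤ (Nat.gcd b c : ℝ) ∧
          (Nat.gcd b c : ℝ) < 2 * (G / 2 ^ i) ∧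
          BTR F P (2 ^ j) (((2 : ℝ) ^ j) ^ (1 / 2 : ℝ) / 2) b c then
          (Nat.gcd b c : ℝ) * nu M b * nu M c * (ind S b * ind S' c) else (0 : ℝ)) := by
      rw [hW]
      calc ∑ i ∈ range I, ∑ j ∈ TJ, ∑ b ∈ M.divisors, ∑ c ∈ M.divisors, _ 
          = ∑ i ∈ range I, ∑ b ∈ M.divisors, ∑ j ∈ TJ, ∑ c ∈ M.divisors, _ :=
            sum_congr rfl fun i _ => sum_comm
        _ = ∑ b ∈ M.divisors, ∑ i ∈ range I, ∑ j ∈ TJ, ∑ c ∈ M.divisors, _ := sum_comm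
        _ = ∑ b ∈ M.divisors, ∑ i ∈ range I, ∑ c ∈ M.divisors, ∑ j ∈ TJ, _ :=
            sum_congr rfl fun b _ => sum_congr rfl fun i _ => sum_comm
        _ = ∑ b ∈ M.divisors, ∑ c ∈ M.divisors, ∑ i ∈ range I, ∑ j ∈ TJ, _ :=
            sum_congr rfl fun b _ => sum_comm
    rw [e1]
    have hnn : ∀ b c, 0 ≤ ∑ i ∈ range I, ∑ j ∈ TJ, (if G / 2 ^ i ≤ (Nat.gcd b c : ℝ) ∧
          (Nat.gcd b c : ℝ) < 2 * (G / 2 ^ i) ∧
          BTR F P (2 ^ j) (((2 : ℝ) ^ j) ^ (1 / 2 : ℝ) / 2) b c then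
          (Nat.gcd b c : ℝ) * nu M b * nu M c * (ind S b * ind S' c) else (0 : ℝ)) := fun b c =>
      sum_nonneg fun i _ => sum_nonneg fun j _ => hterm i j b c
    refine le_trans (sum_le_sum fun b hb => ?_)
      (sum_le_sum_of_subset_of_nonneg hS fun b _ _ => sum_nonneg fun c _ => hnn b c)
    refine le_trans (sum_le_sum fun c hc => ?_)
      (sum_le_sum_of_subset_of_nonneg hS' fun c _ _ => hnn b c)
    by_cases h1 : TwOne F P t b c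
    · rw [if_pos h1]
      obtain ⟨h2, h3, h4, h5⟩ := hij b c (Nat.dvd_of_mem_divisors (hS hb))
        (Nat.dvd_of_mem_divisors (hS' hc)) h1
      have hi : (ij b c).1 ∈ range I := by
        rw [mem_range, hI, Nat.lt_succ_iff]
        exact Finset.le_sup (f := fun p : ℕ × ℕ => (ij p.1 p.2).1)
          (mem_product.2 ⟨hb, hc⟩ : (b, c) ∈ S ×ˢ S')
      have hj : (ij b c).2 ∈ TJ := by
        rw [hTJ, mem_filter, mem_range, hJ, Nat.lt_succ_iff]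
        exact ⟨Finset.le_sup (f := fun p : ℕ × ℕ => (ij p.1 p.2).2)
          (mem_product.2 ⟨hb, hc⟩ : (b, c) ∈ S ×ˢ S'), h4⟩
      refine le_trans ?_ (single_le_sum (f := fun i => ∑ j ∈ TJ, (if G / 2 ^ i ≤
          (Nat.gcd b c : ℝ) ∧ (Nat.gcd b c : ℝ) < 2 * (G / 2 ^ i) ∧
          BTR F P (2 ^ j) (((2 : ℝ) ^ j) ^ (1 / 2 : ℝ) / 2) b c then
          (Nat.gcd b c : ℝ) * nu M b * nu M c * (ind S b * ind S' c) else (0 : ℝ)))
        (fun i _ => sum_nonneg fun j _ => hterm i j b c) hi)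
      refine le_trans ?_ (single_le_sum (f := fun j => (if G / 2 ^ (ij b c).1 ≤
          (Nat.gcd b c : ℝ) ∧ (Nat.gcd b c : ℝ) < 2 * (G / 2 ^ (ij b c).1) ∧
          BTR F P (2 ^ j) (((2 : ℝ) ^ j) ^ (1 / 2 : ℝ) / 2) b c then
          (Nat.gcd b c : ℝ) * nu M b * nu M c * (ind S b * ind S' c) else (0 : ℝ)))
        (fun j _ => hterm _ j b c) hj)
      rw [if_pos ⟨h2, h3, h5⟩]
      unfold ind
      rw [if_pos hb, if_pos hc]
      linarith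
    · rw [if_neg h1]
      exact hnn b c
  -- step 2 : the bound of one box
  have s2 : ∀ i j : ℕ, W i j ≤ (C * (2 : ℝ) ^ ((1 - η) / 2) *
      (E1 ^ ((1 + η) / 2) * E2 ^ ((1 + η) / 2))) *
      ((G / 2 ^ i) ^ η * ((2 : ℝ) ^ j) ^ (-a)) := by
    intro i j
    have h1 := hbt M F P (G / 2 ^ i) (2 ^ j) (((2 : ℝ) ^ j) ^ (1 / 2 : ℝ) / 2) (ind S) (ind S')
      hM (by positivity) (one_le_pow₀ (by norm_num)) (by positivity) hL hcut hE6 hEc
      (ind_nonneg S) (ind_le_one S) (ind_nonneg S') (ind_le_one S')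
    rw [sum_ind hS, sum_ind hS'] at h1
    refine h1.trans (le_of_eq ?_)
    have e1 : 2 * ((1 + η) / 2) - 1 = η := by ring
    have e2 : 1 - (1 + η) / 2 = (1 - η) / 2 := by ring
    rw [e1, e2]
    have hx : (0 : ℝ) < (2 : ℝ) ^ j := by positivity
    have e3 : (1 / (((2 : ℝ) ^ j) ^ (1 / 2 : ℝ) / 2)) ^ ((1 - η) / 2) =
        (2 : ℝ) ^ ((1 - η) / 2) * ((2 : ℝ) ^ j) ^ (-((1 - η) / 4)) := by
      have e4 : 1 / (((2 : ℝ) ^ j) ^ (1 / 2 : ℝ) / 2) = 2 * ((2 : ℝ) ^ j) ^ (-(1 / 2) : ℝ) := by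
        rw [Real.rpow_neg hx.le]
        have : ((2 : ℝ) ^ j) ^ (1 / 2 : ℝ) ≠ 0 := (Real.rpow_pos_of_pos hx _).ne'
        field_simp
      rw [e4, Real.mul_rpow (by norm_num) (by positivity), ← Real.rpow_mul hx.le]
      congr 2
      ring
    have e5 : ((2 : ℝ) ^ j) ^ ε * ((2 : ℝ) ^ j) ^ (-((1 - η) / 4)) = ((2 : ℝ) ^ j) ^ (-a) := by
      rw [← Real.rpow_add hx]
      congr 1
      rw [ha]; ring
    rw [e3, ← e5]
    ring
  -- step 3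
  have s3 : ∑ i ∈ range I, ∑ j ∈ TJ, W i j ≤ (C * (2 : ℝ) ^ ((1 - η) / 2) *
      (E1 ^ ((1 + η) / 2) * E2 ^ ((1 + η) / 2))) *
      (((1 - (2 : ℝ) ^ (-η))⁻¹ * G ^ η) *
        ((2 : ℝ) ^ a * (1 - (2 : ℝ) ^ (-a))⁻¹ * (P.E t ^ 4) ^ (-a))) := by
    refine (sum_le_sum fun i _ => sum_le_sum fun j _ => s2 i j).trans ?_
    simp_rw [← mul_sum]
    refine mul_le_mul_of_nonneg_left ?_ (by positivity)
    rw [← sum_mul]
    refine mul_le_mul (sum_scale hη hG0 I) (sum_depth ha0 (by positivity) J)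
      (sum_nonneg fun j _ => by positivity) (by positivity)
  -- step 4 : the masses
  have s4 : G ^ η * (E1 ^ ((1 + η) / 2) * E2 ^ ((1 + η) / 2)) ≤
      ((2 : ℝ) ^ ((t + 1 : ℝ) / 2)) ^ η * Real.sqrt (E1 * E2) := by
    rw [hG, Real.mul_rpow (by positivity) hL.le, mul_assoc]
    refine mul_le_mul_of_nonneg_left ?_ (by positivity)
    have e1 : E1 ^ ((1 + η) / 2) * E2 ^ ((1 + η) / 2) =
        (E1 * E2) ^ (η / 2) * (E1 * E2) ^ (1 / 2 : ℝ) := by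
      rw [← Real.mul_rpow hE1n hE2n, ← Real.rpow_add_of_nonneg (mul_nonneg hE1n hE2n)
        (by positivity) (by norm_num)]
      congr 1
      ring
    rw [e1, Real.sqrt_eq_rpow, ← mul_assoc]
    refine mul_le_of_le_one_left (by positivity) ?_
    have e2 : P.L ^ η = (P.L * P.L) ^ (η / 2) := by
      rw [← sq, ← Real.rpow_natCast, ← Real.rpow_mul hL.le]
      congr 1
      push_cast
      ring
    rw [e2, ← Real.mul_rpow (by positivity) (mul_nonneg hE1n hE2n)]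
    refine Real.rpow_le_one (by positivity) ?_ (by positivity)
    calc P.L * P.L * (E1 * E2) = (P.L * E1) * (P.L * E2) := by ring
      _ ≤ 1 * 1 := mul_le_mul hm hm' (mul_nonneg hL.le hE2n) (by norm_num)
      _ = 1 := by norm_num
  refine s1.trans (s3.trans ?_)
  have hEa : 0 ≤ (P.E t ^ 4) ^ (-a) := by positivity
  calc (C * (2 : ℝ) ^ ((1 - η) / 2) *
      (E1 ^ ((1 + η) / 2) * E2 ^ ((1 + η) / 2))) *
      (((1 - (2 : ℝ) ^ (-η))⁻¹ * G ^ η) *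
        ((2 : ℝ) ^ a * (1 - (2 : ℝ) ^ (-a))⁻¹ * (P.E t ^ 4) ^ (-a)))
      = (C1 * (P.E t ^ 4) ^ (-a)) * (G ^ η * (E1 ^ ((1 + η) / 2) * E2 ^ ((1 + η) / 2))) := by
        rw [hC1]; ring
    _ ≤ (C1 * (P.E t ^ 4) ^ (-a)) * (((2 : ℝ) ^ ((t + 1 : ℝ) / 2)) ^ η * Real.sqrt (E1 * E2)) :=
        mul_le_mul_of_nonneg_left s4 (by positivity)
    _ = _ := by ring

open Classical in
/-- **CLASS CTw AT ONE LEVEL, TWO SETS** -/
theorem tw_sets {η ε : ℝ} (hη : 0 < η) (hη1 : η < 1) (hε : 0 < ε) (hε1 : ε < (1 - η) / 4) :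
    ∃ C : ℝ, 0 < C ∧ ∀ (M : ℕ) (F : FL M) (P : Par) (S S' : Finset ℕ) (t : ℕ), 0 < M →
      S ⊆ M.divisors → S' ⊆ M.divisors → 0 < P.L → P.L * ∑ b ∈ S, nu M b ≤ 1 →
      P.L * ∑ b ∈ S', nu M b ≤ 1 → Monotone P.cut → (∀ m, P.m0 ≤ m → 16 * P.E m ^ 6 < 2 ^ m) →
      (∀ m, P.m0 ≤ m → 2 * P.E m ^ 2 ≤ P.cut m) → 0 < P.E t →
      ∑ b ∈ S, ∑ c ∈ S', (if TwLev F P t b c then
        (Nat.gcd b c : ℝ) * nu M b * nu M c else 0) ≤
        C * ((2 : ℝ) ^ ((t + 1 : ℝ) / 2)) ^ η * (P.E t ^ 4) ^ (-((1 - η) / 4 - ε)) *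
          Real.sqrt ((∑ b ∈ S, nu M b) * ∑ b ∈ S', nu M b) := by
  obtain ⟨C, hC, h⟩ := tw_one hη hη1 hε hε1
  refine ⟨2 * C, by positivity, ?_⟩
  intro M F P S S' t hM hS hS' hL hm hm' hcut hE6 hEc hEt
  have h1 := h M F P S S' t hM hS hS' hL hm hm' hcut hE6 hEc hEt
  have h2 := h M F P S' S t hM hS' hS hL hm' hm hcut hE6 hEc hEt
  have hg0 : ∀ b c, 0 ≤ (Nat.gcd b c : ℝ) * nu M b * nu M c := fun b c =>
    mul_nonneg (mul_nonneg (Nat.cast_nonneg _) (nu_nonneg _ _)) (nu_nonneg _ _)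
  have h3 : ∑ b ∈ S, ∑ c ∈ S', (if TwLev F P t b c then
        (Nat.gcd b c : ℝ) * nu M b * nu M c else 0) ≤
      ∑ b ∈ S, ∑ c ∈ S', (if TwOne F P t b c then (Nat.gcd b c : ℝ) * nu M b * nu M c else 0) +
      ∑ c ∈ S', ∑ b ∈ S, (if TwOne F P t c b then
        (Nat.gcd c b : ℝ) * nu M c * nu M b else 0) := by
    rw [sum_comm (s := S') (t := S), ← sum_add_distrib]
    refine sum_le_sum fun b hb => ?_
    rw [← sum_add_distrib]
    refine sum_le_sum fun c hc => ?_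
    by_cases h4 : TwLev F P t b c
    · rw [if_pos h4]
      rcases h4.split hM (Nat.dvd_of_mem_divisors (hS hb)) (Nat.dvd_of_mem_divisors (hS' hc)) with
        h5 | h5
      · rw [if_pos h5]
        have : (0 : ℝ) ≤ (if TwOne F P t c b then (Nat.gcd c b : ℝ) * nu M c * nu M b else 0) := by
          split_ifs
          · exact hg0 c b
          · exact le_rfl
        linarith
      · rw [if_pos h5, Nat.gcd_comm c b]
        have h6 : (0 : ℝ) ≤ (if TwOne F P t b c then (Nat.gcd b c : ℝ) * nu M b * nu M c else 0) := by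
          split_ifs
          · exact hg0 b c
          · exact le_rfl
        have h7 : (Nat.gcd b c : ℝ) * nu M b * nu M c = (Nat.gcd b c : ℝ) * nu M c * nu M b := by
          ring
        linarith
    · rw [if_neg h4]
      refine add_nonneg ?_ ?_
      · split_ifs
        · exact hg0 b c
        · exact le_rfl
      · split_ifs
        · exact hg0 c b
        · exact le_rfl
  refine h3.trans ((add_le_add h1 h2).trans (le_of_eq ?_))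
  rw [mul_comm (∑ b ∈ S', nu M b) (∑ b ∈ S, nu M b)]
  ring

end Crest.Agent.R4C.TwSetsx100
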