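import Crest.Agent.R4C.FarKit_179
import Crest.Agent.R4C.RareEn_442_Mg
import Crest.Agent.R4C.TwSets_100
import Crest.Agent.R4C.HyOf_281
import Crest.Agent.R4C.NonPure_559
import Crest.Agent.R4C.HVWt_19
import Crest.Agent.R4C.NonPureFL_559
import Mathlib
import Crest.Agent.R4C.Pair_14
import Crest.Agent.R4C.Base_935
import Crest.Agent.R4C.FLDef_935
import Crest.Agent.Lib.Mertens
import Crest.Agent.R4C.SpineDef_946

-- ▼ part R4C/EnRareA_179
section

/-!
# Row 4: the class `CRareA` (rare box at the own scale) is bounded (helper179)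

* `sum_ker_le`, `Ex_ind`, `pow_le_sqrt`, `sub_mass` : conversion from bilinear bounds for functions
  `f, f' ∈ [0,1]` on a window to the set bounds of `FarKit_179.clsOK_of_sets`;
* `rareThm` : `RareCorx590.RareThm` from `RareEnx442.rare_thm`;
* `clsOK_rareA` : `ClsOK γ CRareA` for every `D m ≥ 2^(c m)`.
-/

set_option autoImplicit false

open Finset

namespace Crest.Agent.R4C.EnRareAx179

open Crest.Agent.R4C.Basex935 Crest.Agent.R4C.CrCoinx935 Crest.Agent.R4C.CrCountx935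
  Crest.Agent.R4C.Bridgex882 Crest.Agent.R4C.FLDefx935 Crest.Agent.R4C.Cutx50
  Crest.Agent.R4C.Rulex945 Crest.Agent.R4C.Splitx945 Crest.Agent.R4C.Spinex946
  Crest.Agent.R4C.FarKitx179
open Crest.Agent.R4C.FLExx326 (ind ind_nonneg)
open Crest.Agent.R4C.RelRarex808 (KRare KRare_nonneg)
open Crest.Agent.R4C.S2x232 (near)

/-! ### conversions -/

lemma ind_le_one (S : Finset ℕ) (b : ℕ) : ind S b ≤ 1 := by
  unfold ind
  split_ifs <;> norm_num

lemma Ex_ind {M : ℕ} {S : Finset ℕ} (hS : S ⊆ M.divisors) :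
    Cutx50.Ex M (ind S) = ∑ b ∈ S, nu M b := by
  classical
  unfold Cutx50.Ex ind
  simp only [mul_ite, mul_one, mul_zero]
  rw [← Finset.sum_filter]
  congr 1
  ext b
  rw [Finset.mem_filter]
  exact ⟨fun h => h.2, fun h => ⟨hS h, h⟩⟩

/-- kernel over sets `≤` windowed form of indicators -/
lemma sum_ker_le {M : ℕ} {S S' : Finset ℕ} (hS : S ⊆ M.divisors) (hS' : S' ⊆ M.divisors)
    {q W : ℕ → ℕ → Prop} [∀ b c, Decidable (W b c)] {K : ℕ → ℕ → ℝ} (hK0 : ∀ b c, 0 ≤ K b c)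
    (h : ∀ b ∈ S, ∀ c ∈ S', q b c → W b c ∧ 1 ≤ K b c) :
    ∑ b ∈ S, ∑ c ∈ S', ker M q b c ≤ ∑ b ∈ M.divisors, ∑ c ∈ M.divisors,
      (if W b c then (Nat.gcd b c : ℝ) * nu M b * nu M c * (ind S b * ind S' c * K b c) else 0) := by
  have hn : ∀ b c, (0 : ℝ) ≤ (Nat.gcd b c : ℝ) * nu M b * nu M c := fun b c =>
    mul_nonneg (mul_nonneg (Nat.cast_nonneg _) (nu_nonneg _ _)) (nu_nonneg _ _)
  have h0 : ∀ b c, 0 ≤ (if W b c then (Nat.gcd b c : ℝ) * nu M b * nu M c *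
      (ind S b * ind S' c * K b c) else 0) := by
    intro b c
    split_ifs
    · exact mul_nonneg (hn b c) (mul_nonneg (mul_nonneg (ind_nonneg _ _) (ind_nonneg _ _))
        (hK0 b c))
    · exact le_rfl
  refine le_trans ?_ (Finset.sum_le_sum_of_subset_of_nonneg hS fun b _ _ =>
    Finset.sum_nonneg fun c _ => h0 b c)
  refine Finset.sum_le_sum fun b hb => ?_
  refine le_trans ?_ (Finset.sum_le_sum_of_subset_of_nonneg hS' fun c _ _ => h0 b c)
  refine Finset.sum_le_sum fun c hc => ?_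
  unfold ker
  by_cases hq : q b c
  · obtain ⟨h1, h2⟩ := h b hb c hc hq
    rw [if_pos hq, if_pos h1]
    have e1 : ind S b = 1 := if_pos hb
    have e2 : ind S' c = 1 := if_pos hc
    rw [e1, e2, one_mul, one_mul]
    exact le_mul_of_one_le_right (hn b c) h2
  · rw [if_neg hq]
    exact h0 b c

/-- `x^e ≤ √x` for `x ∈ [0,1]`, `e ≥ 1/2` -/
lemma pow_le_sqrt {x e : ℝ} (h0 : 0 ≤ x) (h1 : x ≤ 1) (he : 1 / 2 ≤ e) : x ^ e ≤ √x := by
  rw [Real.sqrt_eq_rpow]
  rcases h0.eq_or_lt with h | h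
  · rw [← h, Real.zero_rpow (by linarith), Real.zero_rpow (by norm_num)]
  · exact Real.rpow_le_rpow_of_exponent_ge h h1 he

/-- mass of a subset -/
lemma sub_mass {η L : ℝ} {M : ℕ} {B : Finset ℕ} {F : FL M} (H : Setup η L M B F) {S : Finset ℕ}
    (hS : S ⊆ B) : 0 ≤ L * ∑ b ∈ S, nu M b ∧ L * ∑ b ∈ S, nu M b ≤ 1 := by
  have h0 := H.hL.le
  refine ⟨mul_nonneg h0 (Finset.sum_nonneg fun b _ => nu_nonneg M b), ?_⟩
  refine le_trans (mul_le_mul_of_nonneg_left ?_ h0) H.mass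
  exact Finset.sum_le_sum_of_subset_of_nonneg hS fun b _ _ => nu_nonneg M b

/-- a linked offset gives `near` -/
lemma near_of_Lnk {γ L t : ℝ} {b c : ℕ} {h : ℤ} (hh : h ∈ Lnk γ L b c) (ht : 0 < t)
    (hg : 0 < Nat.gcd b c) (hL : t * L ≤ (Nat.gcd b c : ℕ)) :
    near ((((b / Nat.gcd b c : ℕ) : ℝ) - ((c / Nat.gcd b c : ℕ) : ℝ)) * γ) (1 / t) := by
  have h1 := mem_Hf.1 hh
  have hgR : (0 : ℝ) < (Nat.gcd b c : ℕ) := by exact_mod_cast hg
  refine ⟨-h, ?_⟩
  have h2 : L / (Nat.gcd b c : ℕ) ≤ 1 / t := by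
    rw [div_le_div_iff₀ hgR ht]
    linarith
  push_cast
  rw [sub_neg_eq_add]
  exact h1.trans_le h2

/-- 442's theorem in 590's form -/
theorem rareThm {κ : ℝ} (hκ : 1 / 2 < κ) (hκ1 : κ < 1) :
    ∃ A C : ℝ, 0 ≤ A ∧ 1 ≤ C ∧ RareCorx590.RareThm κ A C := by
  obtain ⟨A, C, hA, hC, h⟩ := RareEnx442.rare_thm hκ hκ1
  refine ⟨A, C, hA, hC, ?_⟩
  intro M Y f f' K k τ X hM hY hf hf1 hf' hf1' _ hk hk1 hdens hK hτ hX
  exact h M Y f f' K k τ X hM hY hf hf1 hf' hf1' hk hk1 hdens hK hτ hX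

/-- **the class `CRareA`** -/
theorem clsOK_rareA {γ : ℝ} {c : ℝ → ℝ} (hc : ∀ cp, 0 < cp → 0 < c cp ∧ c cp ≤ 1)
    {D : ℝ → ℕ → ℝ} (hD : ∀ cp, 0 < cp → ∀ m : ℕ, (2 : ℝ) ^ (c cp * m) ≤ D cp m) :
    ClsOK γ (fun cp _ A m0 L M B F => CRareA F (ParOf cp A m0 γ L M B) (D cp)) := by
  refine clsOK_of_sets ((Ev.basic.and (Ev.le_m0 fun _ _ _ => 3)).mono ?_)
  rintro cp η A m0 ⟨⟨hcp, _, _, _, _, hA, _⟩, hm0⟩
  have hm3 : 3 ≤ m0 := by exact_mod_cast hm0
  obtain ⟨hc0, hc1⟩ := hc cp hcp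
  set c' := c cp with hc'
  have hκ : (1 : ℝ) / 2 < 1 / 2 + c' / 2 / 256 := by linarith
  have hκ1 : 1 / 2 + c' / 2 / 256 < 1 := by linarith
  obtain ⟨A1, C1, hA1, hC1, hR⟩ := rareThm hκ hκ1
  obtain ⟨C', hC', H⟩ := RareCorx590.rare_box hc0 hc1 hA1 (by linarith) hR (A₁ := (A : ℝ))
    (C₀ := 0) (Nat.cast_nonneg A) le_rfl
  refine ⟨c' / 200, by positivity, C', hC'.le, 0, ?_⟩
  intro L M B F hS
  set P := ParOf cp A m0 γ L M B with hP
  have eL : P.L = L := rfl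
  have eγ : P.γ = γ := rfl
  have ecut : ∀ m, P.cut m = 2 ^ (A * m) := fun m => rfl
  have hAR : (1 : ℝ) ≤ A := by exact_mod_cast hA
  refine ⟨fun t b c => ((2 : ℝ) ^ t * L ≤ (Nat.gcd b c : ℝ) ∧
    (Nat.gcd b c : ℝ) < 2 * (2 ^ t * L)) ∧
    near ((((b / Nat.gcd b c : ℕ) : ℝ) - ((c / Nat.gcd b c : ℕ) : ℝ)) * γ) (1 / 2 ^ t) ∧
    S2bx284.Rare (upp (P.cut t) (b / Nat.gcd b c) * γ) (upp (P.cut t) (c / Nat.gcd b c) * γ)
      (2 ^ t) (D cp t) (low (P.cut t) (b / Nat.gcd b c)) (low (P.cut t) (c / Nat.gcd b c)),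
    ?_, ?_⟩
  · intro b hb c hcB hne h hh hk hRr
    obtain ⟨i, hF, hr⟩ := hRr
    have hg : 0 < Nat.gcd b c := Nat.gcd_pos_of_pos_left _ (hS.pos hb)
    have h2i : (1 : ℝ) ≤ 2 ^ i := one_le_pow₀ (by norm_num)
    have hlo : (2 : ℝ) ^ i * L ≤ (Nat.gcd b c : ℕ) := hF.lo
    refine ⟨i, hF.m0, ⟨⟨hlo, ?_⟩, near_of_Lnk hh (by positivity) hg hlo, hr⟩, ?_, ?_, ?_⟩
    · have := hF.hi
      rw [pow_succ, eL] at this
      linarith
    · refine FL.good_mono ?_ hF.good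
      rw [ecut]
      exact Nat.pow_le_pow_right (by norm_num) (Nat.mul_le_mul_left _ (by omega))
    · intro p hp
      refine (hF.al p hp).trans ?_
      rw [ecut]
      exact Nat.pow_le_pow_right (by norm_num) (Nat.mul_le_mul_left _ (by omega))
    · -- `X1 ≤ e ≤ 8 ≤ cut`
      have hgR : (0 : ℝ) < (Nat.gcd b c : ℕ) := by exact_mod_cast hg
      have h1 : L / (Nat.gcd b c : ℕ) ≤ 1 := by
        rw [div_le_one hgR]
        have := hS.hL
        nlinarith
      unfold X1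
      rw [eL, max_eq_left h1, Real.one_rpow]
      have h2 : Real.exp 1 ≤ 8 := by
        have := Real.exp_one_lt_d9
        linarith
      have h3 : (8 : ℕ) ≤ 2 ^ (A * (2 * i + 1)) := by
        calc (8 : ℕ) = 2 ^ 3 := by norm_num
          _ ≤ 2 ^ (A * (2 * i + 1)) := Nat.pow_le_pow_right (by norm_num) (by
              have : 3 ≤ i := hm3.trans hF.m0
              nlinarith)
      exact h2.trans (by exact_mod_cast h3)
  · intro t ht S S' hSB hSB'
    have hSd := hSB.trans hS.hB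
    have hSd' := hSB'.trans hS.hB
    have hY8 : 8 ≤ 2 ^ (A * t) := by
      calc (8 : ℕ) = 2 ^ 3 := by norm_num
        _ ≤ 2 ^ (A * t) := Nat.pow_le_pow_right (by norm_num) (by
            have : 3 ≤ t := hm3.trans ht
            nlinarith)
    have hT1 : (1 : ℝ) ≤ 2 ^ t := one_le_pow₀ (by norm_num)
    have hlog : Real.log ((2 ^ (A * t) : ℕ) : ℝ) ≤ A * Real.log ((2 : ℝ) ^ t) := by
      rw [Nat.cast_pow, Nat.cast_ofNat, Real.log_pow, Real.log_pow]
      push_cast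
      exact le_of_eq (by ring)
    have hTD : ((2 : ℝ) ^ t) ^ c' ≤ D cp t := by
      have := hD cp hcp t
      rwa [mul_comm, Real.rpow_mul (by norm_num), Real.rpow_natCast] at this
    have h1 := H M (2 ^ (A * t)) (ind S) (ind S') γ (2 ^ t) (D cp t) (2 ^ t) L hS.hM hY8 hT1 hS.hL
      hlog hTD (ind_nonneg S) (ind_le_one S) (ind_nonneg S') (ind_le_one S')
    rw [Real.rpow_zero, one_mul] at h1
    have h2 := sum_ker_le (M := M) hSd hSd'
      (q := fun b c => ((2 : ℝ) ^ t * L ≤ (Nat.gcd b c : ℝ) ∧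
        (Nat.gcd b c : ℝ) < 2 * (2 ^ t * L)) ∧
        near ((((b / Nat.gcd b c : ℕ) : ℝ) - ((c / Nat.gcd b c : ℕ) : ℝ)) * γ) (1 / 2 ^ t) ∧
        S2bx284.Rare (upp (P.cut t) (b / Nat.gcd b c) * γ) (upp (P.cut t) (c / Nat.gcd b c) * γ)
          (2 ^ t) (D cp t) (low (P.cut t) (b / Nat.gcd b c)) (low (P.cut t) (c / Nat.gcd b c)))
      (W := fun b c => (2 : ℝ) ^ t * L ≤ (Nat.gcd b c : ℝ) ∧
        (Nat.gcd b c : ℝ) < 2 * (2 ^ t * L))
      (K := fun b c => KRare γ (2 ^ t) (D cp t) (2 ^ (A * t)) (b / Nat.gcd b c) (c / Nat.gcd b c))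
      (fun b c => KRare_nonneg _ _ _ _ _ _)
      (fun b _ c _ hq => ⟨hq.1, by
        unfold KRare
        rw [if_pos ⟨hq.2.1, hq.2.2⟩]⟩)
    refine (mul_le_mul_of_nonneg_left h2 hS.hL.le).trans (h1.trans ?_)
    rw [Ex_ind hSd, Ex_ind hSd', pow_zero, mul_one]
    obtain ⟨m1, m2⟩ := sub_mass hS hSB
    obtain ⟨m3, m4⟩ := sub_mass hS hSB'
    have h3 := pow_le_sqrt (mul_nonneg m1 m3) (mul_le_one₀ m2 m3 m4)
      (e := 1 / 2 + c' / 2 / 256) (by linarith)
    have e4 : ((2 : ℝ) ^ t) ^ (-(c' / 200)) = (2 : ℝ) ^ (-(c' / 200 * t)) := by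
      rw [← Real.rpow_natCast 2 t, ← Real.rpow_mul (by norm_num)]
      congr 1
      ring
    rw [e4]
    exact mul_le_mul_of_nonneg_left h3 (by positivity)

end Crest.Agent.R4C.EnRareAx179
end

-- ▼ part R4C/ClsTw_100
section

/-!
# Row 4: `ClsOK` for the class `CTw` of the split (helper100)

`clsTw_ok γ : ClsOK γ (fun cp _ A m0 L M B F b c h => CTw F (ParOf cp A m0 γ L M B) b c h)`:
the set bound `TwSets_100.tw_sets` at every level (`E t = 2^(cp t)`, exponent `η`) with the kit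
`FarKit_179.clsOK_of_sets`.
-/

set_option autoImplicit false

open Finset

namespace Crest.Agent.R4C.ClsTwx100

open Crest.Agent.R4C.Basex935 Crest.Agent.R4C.FLDefx935 Crest.Agent.R4C.BoostCx972
  Crest.Agent.R4C.CrCoinx935 Crest.Agent.R4C.CrCountx935 Crest.Agent.R4C.Bridgex882
  Crest.Agent.R4C.Rulex945 Crest.Agent.R4C.Sharedx11
  Crest.Agent.R4C.Splitx945 Crest.Agent.R4C.TwSetsx100
  Crest.Agent.R4C.Spinex946 Crest.Agent.R4C.FLShx326 Crest.Agent.R4C.FarKitx179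
  Crest.Agent.R4C.HyOfx281

section par

variable {cp : ℝ} {A m0 : ℕ} {γ L : ℝ} {M : ℕ} {B : Finset ℕ}

/-- `16 E⁶ < 2^m` -/
lemma E6_lt (hc : cp ≤ 1 / 200) {m : ℕ} (hm : 5 ≤ m) :
    16 * (ParOf cp A m0 γ L M B).E m ^ 6 < 2 ^ m := by
  have hm' : (5 : ℝ) ≤ m := by exact_mod_cast hm
  rw [E_pow]
  calc 16 * (2 : ℝ) ^ (cp * m * (6 : ℕ)) = (2 : ℝ) ^ (4 + cp * m * (6 : ℕ)) := by
        rw [Real.rpow_add (by norm_num)]; norm_num
    _ < (2 : ℝ) ^ (m : ℝ) := Real.rpow_lt_rpow_of_exponent_lt (by norm_num) (by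
        have h1 : cp * m ≤ 1 / 200 * m := mul_le_mul_of_nonneg_right hc (by linarith)
        push_cast; linarith)
    _ = 2 ^ m := Real.rpow_natCast 2 m

/-- `2 E² ≤ cut` -/
lemma E2_le (hc : cp ≤ 1 / 200) (hA : 1 ≤ A) {m : ℕ} (hm : 2 ≤ m) :
    2 * (ParOf cp A m0 γ L M B).E m ^ 2 ≤ (ParOf cp A m0 γ L M B).cut m := by
  have hm' : (2 : ℝ) ≤ m := by exact_mod_cast hm
  have hA' : (1 : ℝ) ≤ A := by exact_mod_cast hA
  rw [E_pow]
  change _ ≤ (((2 : ℕ) ^ (A * m) : ℕ) : ℝ)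
  push_cast
  calc 2 * (2 : ℝ) ^ (cp * m * 2) = (2 : ℝ) ^ (1 + cp * m * 2) := by
        rw [Real.rpow_add (by norm_num), Real.rpow_one]
    _ ≤ (2 : ℝ) ^ (((A * m : ℕ) : ℝ)) := Real.rpow_le_rpow_of_exponent_le (by norm_num) (by
        have h1 : cp * m ≤ 1 / 200 * m := mul_le_mul_of_nonneg_right hc (by linarith)
        have h2 : (m : ℝ) ≤ A * m := le_mul_of_one_le_left (by linarith) hA'
        push_cast; linarith)
    _ = 2 ^ (A * m) := Real.rpow_natCast 2 (A * m)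

lemma cut_mono (hA : 1 ≤ A) : Monotone (ParOf cp A m0 γ L M B).cut := by
  intro a b hab
  change 2 ^ (A * a) ≤ 2 ^ (A * b)
  exact Nat.pow_le_pow_right (by norm_num) (Nat.mul_le_mul_left A hab)

end par

/-- **class CTw** -/
theorem clsTw_ok (γ : ℝ) : ClsOK γ
    (fun cp _ A m0 L M B F b c h => CTw F (ParOf cp A m0 γ L M B) b c h) := by
  classical
  refine clsOK_of_sets ?_
  refine (Ev.basic.and (Ev.le_m0 (fun _ _ _ => 5))).mono ?_
  rintro cp η A m0 ⟨⟨hcp, hcp2, hη, hη2, hη1, hA, hm01⟩, hm0⟩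
  have hm5 : 5 ≤ m0 := by exact_mod_cast hm0
  obtain ⟨C, hC, htw⟩ := tw_sets (η := η) (ε := 1 / 100) hη hη1 (by norm_num) (by linarith)
  refine ⟨cp / 2, by positivity, 2 * C, by positivity, 0, ?_⟩
  intro L M B F hS
  set P := ParOf cp A m0 γ L M B with hP
  have eL : P.L = L := rfl
  have em : P.m0 = m0 := rfl
  refine ⟨TwLev F P, ?_, ?_⟩
  · rintro b hb c hc hne h hh hk ⟨t, m, f, f', hBP, htm, hR⟩
    have hmt : m0 ≤ t := by
      have := hBP.m0
      rw [em] at this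
      omega
    have hle : P.cut t ≤ 2 ^ (A * (2 * t + 1)) := by
      change 2 ^ (A * t) ≤ _
      exact Nat.pow_le_pow_right (by norm_num) (Nat.mul_le_mul_left A (by omega))
    refine ⟨t, hmt, ⟨h, hh, m, f, f', hBP, htm, hR⟩, ?_, ?_, ?_⟩
    · exact F.good_mono hle hBP.good
    · intro q hq
      exact (hBP.al q hq).trans hle
    · refine hBP.near.le.trans ?_
      exact_mod_cast hle
  · intro t ht S S' hSB hSB'
    have hmass : ∀ T : Finset ℕ, T ⊆ B → P.L * ∑ b ∈ T, nu M b ≤ 1 := by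
      intro T hT
      refine le_trans (mul_le_mul_of_nonneg_left
        (sum_le_sum_of_subset_of_nonneg hT fun b _ _ => nu_nonneg M b) hS.hL.le) hS.mass
    have h1 := htw M F P S S' t hS.hM (hSB.trans hS.hB) (hSB'.trans hS.hB) hS.hL
      (hmass S hSB) (hmass S' hSB') (cut_mono hA)
      (fun m hm => E6_lt hcp2 (hm5.trans hm)) (fun m hm => E2_le hcp2 hA ((by omega : 2 ≤ m0).trans hm))
      (by change 0 < (2 : ℝ) ^ (cp * t); positivity)
    have e1 : ∑ b ∈ S, ∑ c ∈ S', ker M (TwLev F P t) b c = ∑ b ∈ S, ∑ c ∈ S',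
        (if TwLev F P t b c then (Nat.gcd b c : ℝ) * nu M b * nu M c else 0) := by
      refine sum_congr rfl fun b _ => sum_congr rfl fun c _ => ?_
      unfold ker
      congr
    -- the exponent
    have ht0 : (0 : ℝ) ≤ t := Nat.cast_nonneg t
    have e2 : ((2 : ℝ) ^ ((t + 1 : ℝ) / 2)) ^ η * (P.E t ^ 4) ^ (-((1 - η) / 4 - 1 / 100)) ≤
        2 * (2 : ℝ) ^ (-(cp / 2 * t)) := by
      have e3 : P.E t ^ 4 = (2 : ℝ) ^ (cp * t * (4 : ℕ)) := E_pow cp A m0 γ L M B t 4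
      rw [e3, ← Real.rpow_mul (by norm_num), ← Real.rpow_mul (by norm_num),
        ← Real.rpow_add (by norm_num)]
      calc _ ≤ (2 : ℝ) ^ (1 + -(cp / 2 * t)) := by
            refine Real.rpow_le_rpow_of_exponent_le (by norm_num) ?_
            push_cast
            have h2 : η * t ≤ cp / 200 * t := mul_le_mul_of_nonneg_right hη2 ht0
            have h3 : cp * t * η ≤ cp * t * (1 / 200) := by
              refine mul_le_mul_of_nonneg_left ?_ (by positivity)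
              linarith
            have h4 : 0 ≤ cp * t := by positivity
            nlinarith
        _ = 2 * (2 : ℝ) ^ (-(cp / 2 * t)) := by
            rw [Real.rpow_add (by norm_num), Real.rpow_one]
    have h0 : 0 ≤ Real.sqrt ((∑ b ∈ S, nu M b) * ∑ b ∈ S', nu M b) := Real.sqrt_nonneg _
    have e4 : L * Real.sqrt ((∑ b ∈ S, nu M b) * ∑ b ∈ S', nu M b) =
        Real.sqrt ((L * ∑ b ∈ S, nu M b) * (L * ∑ c ∈ S', nu M c)) := by
      have : (L * ∑ b ∈ S, nu M b) * (L * ∑ c ∈ S', nu M c) =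
          L ^ 2 * ((∑ b ∈ S, nu M b) * ∑ c ∈ S', nu M c) := by ring
      rw [this, Real.sqrt_mul (sq_nonneg L), Real.sqrt_sq hS.hL.le]
    rw [pow_zero, mul_one, e1, ← e4]
    calc L * ∑ b ∈ S, ∑ c ∈ S', (if TwLev F P t b c then
          (Nat.gcd b c : ℝ) * nu M b * nu M c else 0)
        ≤ L * (C * ((2 : ℝ) ^ ((t + 1 : ℝ) / 2)) ^ η *
          (P.E t ^ 4) ^ (-((1 - η) / 4 - 1 / 100)) *
          Real.sqrt ((∑ b ∈ S, nu M b) * ∑ b ∈ S', nu M b)) :=
          mul_le_mul_of_nonneg_left h1 hS.hL.le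
      _ = C * (((2 : ℝ) ^ ((t + 1 : ℝ) / 2)) ^ η *
          (P.E t ^ 4) ^ (-((1 - η) / 4 - 1 / 100))) *
          (L * Real.sqrt ((∑ b ∈ S, nu M b) * ∑ b ∈ S', nu M b)) := by ring
      _ ≤ C * (2 * (2 : ℝ) ^ (-(cp / 2 * t))) *
          (L * Real.sqrt ((∑ b ∈ S, nu M b) * ∑ b ∈ S', nu M b)) :=
          mul_le_mul_of_nonneg_right (mul_le_mul_of_nonneg_left e2 hC.le)
            (mul_nonneg hS.hL.le h0)
      _ = _ := by ring

end Crest.Agent.R4C.ClsTwx100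
end

-- ▼ part R4C/RareFLa_208
section

/-!
# LEMMA III-R, part a (helper208): Hölder / Cauchy lemmas and the level sum over one box

(935 3246 (3), 208 3284, 578 3290.)  `lvl_box`: one pair of dyadic classes of deficits `(l, l')`
with a relation of density `ρ` in `l'`.
-/
namespace Crest.Agent.R4C.RareFLx208
end Crest.Agent.R4C.RareFLx208
end

-- ▼ part R4C/LemQ_491
section

/-!
# Row 4, LEMMA Q (helper491): count of unexplained deficits

`lemQ` : literal form of Lemma Q of helper935's note 3246 (leaf 461), constants `12` and `96`: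
for real `θ`, the number of `P0`-rough integers `l ∈ [Y, 2Y)` such that for some `1 ≤ k ≤ E`, `a`
coprime to `k`, `l ∤ a`: `|θ - a/(k l)| ≤ E/(T l)`, is `≤ (12 / P0 + 96 E^3 / T) Y`.
-/

set_option autoImplicit false

namespace Crest.Agent.R4C.LemQx491

open Finset

/-- a `δ`-separated family in an interval of length `2 r` -/
theorem card_sep {ι : Type*} (s : Finset ι) (f : ι → ℝ) (θ r δ : ℝ) (hδ : 0 < δ) (hr0 : 0 ≤ r)
    (hr : ∀ i ∈ s, |f i - θ| ≤ r)
    (hs : ∀ i ∈ s, ∀ j ∈ s, i ≠ j → δ ≤ |f i - f j|) :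
    (s.card : ℝ) ≤ 1 + 2 * r / δ := by
  classical
  have hcard : s.card ≤ ⌊2 * r / δ⌋₊ + 1 := by
    rw [← Finset.card_range (⌊2 * r / δ⌋₊ + 1)]
    refine Finset.card_le_card_of_injOn (fun i => ⌊(f i - (θ - r)) / δ⌋₊) ?_ ?_
    · intro i hi
      have h := abs_le.1 (hr i hi)
      simp only [Finset.coe_range, Set.mem_Iio, Nat.lt_succ_iff]
      exact Nat.floor_le_floor (div_le_div_of_nonneg_right (by linarith) hδ.le)
    · intro i hi j hj hij
      by_contra hne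
      have h1 := abs_le.1 (hr i hi)
      have h2 := abs_le.1 (hr j hj)
      have h3 := hs i hi j hj hne
      have hi0 : 0 ≤ (f i - (θ - r)) / δ := div_nonneg (by linarith) hδ.le
      have hj0 : 0 ≤ (f j - (θ - r)) / δ := div_nonneg (by linarith) hδ.le
      have e1 := Nat.floor_le hi0
      have e2 := Nat.lt_floor_add_one ((f i - (θ - r)) / δ)
      have e3 := Nat.floor_le hj0
      have e4 := Nat.lt_floor_add_one ((f j - (θ - r)) / δ)
      have hij' : (⌊(f i - (θ - r)) / δ⌋₊ : ℝ) = (⌊(f j - (θ - r)) / δ⌋₊ : ℝ) := by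
        exact_mod_cast hij
      have h4 : |(f i - (θ - r)) / δ - (f j - (θ - r)) / δ| < 1 := by
        rw [abs_lt]
        constructor <;> linarith
      have h5 : (f i - (θ - r)) / δ - (f j - (θ - r)) / δ = (f i - f j) / δ := by
        rw [← sub_div]
        congr 1
        ring
      rw [h5, abs_div, abs_of_pos hδ, div_lt_one hδ] at h4
      linarith
  have h1 : ((⌊2 * r / δ⌋₊ : ℕ) : ℝ) ≤ 2 * r / δ := Nat.floor_le (by positivity)
  have h2 : (s.card : ℝ) ≤ (⌊2 * r / δ⌋₊ : ℝ) + 1 := by exact_mod_cast hcard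
  linarith

/-- equal reduced fractions have equal denominators -/
theorem den_eq {n n' : ℕ} (hn : 0 < n) (hn' : 0 < n') {A A' : ℤ}
    (h : IsCoprime A (n : ℤ)) (h' : IsCoprime A' (n' : ℤ))
    (he : (A : ℝ) / n = (A' : ℝ) / n') : n = n' := by
  have hn0 : (n : ℝ) ≠ 0 := by positivity
  have hn0' : (n' : ℝ) ≠ 0 := by positivity
  rw [div_eq_div_iff hn0 hn0'] at he
  have he' : A * (n' : ℤ) = A' * (n : ℤ) := by exact_mod_cast he
  have d1 : (n : ℤ) ∣ (n' : ℤ) := by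
    exact h.symm.dvd_of_dvd_mul_left ⟨A', by rw [he']; ring⟩
  have d2 : (n' : ℤ) ∣ (n : ℤ) := by
    exact h'.symm.dvd_of_dvd_mul_left ⟨A, by rw [← he']; ring⟩
  exact Nat.dvd_antisymm (Int.natCast_dvd_natCast.1 d1) (Int.natCast_dvd_natCast.1 d2)

/-- different fractions are separated -/
theorem frac_sep {n n' : ℕ} (hn : 0 < n) (hn' : 0 < n') {A A' : ℤ}
    (he : (A : ℝ) / n ≠ (A' : ℝ) / n') :
    1 / ((n : ℝ) * n') ≤ |(A : ℝ) / n - (A' : ℝ) / n'| := by
  have hn0 : (0 : ℝ) < n := by positivity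
  have hn0' : (0 : ℝ) < n' := by positivity
  have h1 : (A : ℝ) / n - (A' : ℝ) / n' = ((A * n' - n * A' : ℤ) : ℝ) / ((n : ℝ) * n') := by
    rw [div_sub_div _ _ hn0.ne' hn0'.ne']
    push_cast
    rfl
  have h2 : (A * n' - n * A' : ℤ) ≠ 0 := by
    intro h
    apply he
    rw [← sub_eq_zero, h1, h]
    simp
  rw [h1, abs_div, abs_of_pos (mul_pos hn0 hn0')]
  refine div_le_div_of_nonneg_right ?_ (by positivity)
  rw [← Int.cast_abs]
  exact_mod_cast Int.one_le_abs h2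

/-- the `P0`-rough part of the denominator is determined -/
theorem rough_eq {P0 k k' l l' : ℕ} (hk : 0 < k) (hk' : 0 < k') (hkP : k ≤ P0) (hkP' : k' ≤ P0)
    (hl : ∀ p, p.Prime → p ∣ l → P0 < p) (hl' : ∀ p, p.Prime → p ∣ l' → P0 < p)
    (he : k * l = k' * l') : l = l' := by
  have cop : ∀ {k l : ℕ}, 0 < k → k ≤ P0 → (∀ p, p.Prime → p ∣ l → P0 < p) → Nat.Coprime l k := by
    intro k l hk hkP hl
    refine Nat.Coprime.symm (Nat.coprime_of_dvd' ?_)
    intro p hp hpk hpl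
    exact absurd (Nat.le_of_dvd hk hpk) (by have := hl p hp hpl; omega)
  have d1 : l ∣ l' := by
    refine (cop hk' hkP' hl).dvd_of_dvd_mul_left (m := k') ?_
    exact ⟨k, by rw [← he]; ring⟩
  have d2 : l' ∣ l := by
    refine (cop hk hkP hl').dvd_of_dvd_mul_left (m := k) ?_
    exact ⟨k', by rw [he]; ring⟩
  exact Nat.dvd_antisymm d1 d2

/-- the reduced data of one `l` -/
theorem datum {θ E T Y : ℝ} (hE : 1 ≤ E) (hT : 1 ≤ T) (hY : 1 ≤ Y) {P0 l : ℕ} (hl : Y ≤ l)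
    (hp : ∀ p, p.Prime → p ∣ l → P0 < p)
    (h : ∃ (k : ℕ) (a : ℤ), 1 ≤ k ∧ (k : ℝ) ≤ E ∧ IsCoprime a (k : ℤ) ∧ ¬ (l : ℤ) ∣ a ∧
      |θ - (a : ℝ) / (k * l)| ≤ E / (T * l)) :
    ∃ (k l1 d : ℕ) (A : ℤ), 1 ≤ k ∧ (k : ℝ) ≤ E ∧ l = d * l1 ∧ 0 < d ∧ P0 < l1 ∧
      (∀ p, p.Prime → p ∣ l1 → P0 < p) ∧ IsCoprime A ((k * l1 : ℕ) : ℤ) ∧
      |(A : ℝ) / ((k * l1 : ℕ) : ℝ) - θ| ≤ E / (T * Y) := by
  obtain ⟨k, a, hk, hkE, hcop, hnd, hdist⟩ := h
  have hl0 : 0 < l := by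
    have : (0 : ℝ) < l := by linarith
    exact_mod_cast this
  have ha0 : a ≠ 0 := by
    rintro rfl
    exact hnd (dvd_zero _)
  set d : ℕ := Nat.gcd l a.natAbs with hd
  have hd0 : 0 < d := Nat.gcd_pos_of_pos_left _ hl0
  obtain ⟨l1, hl1⟩ : d ∣ l := Nat.gcd_dvd_left _ _
  obtain ⟨A, hA⟩ : (d : ℤ) ∣ a := Int.natCast_dvd.2 (Nat.gcd_dvd_right _ _)
  have hl10 : 0 < l1 := by
    rcases Nat.eq_zero_or_pos l1 with h | h
    · rw [h] at hl1; omega
    · exact h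
  have hl1p : ∀ p, p.Prime → p ∣ l1 → P0 < p := fun p hpp hpd =>
    hp p hpp (hpd.trans ⟨d, by rw [hl1]; ring⟩)
  have hAl : IsCoprime A (l1 : ℤ) := by
    rw [Int.isCoprime_iff_gcd_eq_one]
    have h1 : Int.gcd a (l : ℤ) = d := by
      rw [hd, Int.gcd_comm]
      rfl
    have h2 : Int.gcd a (l : ℤ) = d * Int.gcd A (l1 : ℤ) := by
      rw [hA, hl1, Nat.cast_mul, Int.gcd_mul_left]
      simp
    have h3 : d * Int.gcd A (l1 : ℤ) = d * 1 := by rw [← h2, h1, mul_one]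
    exact Nat.eq_of_mul_eq_mul_left hd0 h3
  have hl11 : l1 ≠ 1 := by
    rintro rfl
    apply hnd
    rw [hl1, hA]
    exact ⟨A, by push_cast; ring⟩
  have hPl : P0 < l1 := by
    have h1 := hl1p _ (Nat.minFac_prime hl11) (Nat.minFac_dvd l1)
    exact lt_of_lt_of_le h1 (Nat.minFac_le hl10)
  refine ⟨k, l1, d, A, hk, hkE, hl1, hd0, hPl, hl1p, ?_, ?_⟩
  · rw [Nat.cast_mul]
    refine IsCoprime.mul_right ?_ hAl
    rw [hA] at hcop
    exact hcop.of_mul_left_right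
  · have hd0' : (0 : ℝ) < d := by exact_mod_cast hd0
    have hl10' : (0 : ℝ) < l1 := by exact_mod_cast hl10
    have hk' : (0 : ℝ) < k := by exact_mod_cast hk
    have e1 : (A : ℝ) / ((k * l1 : ℕ) : ℝ) = (a : ℝ) / (k * l) := by
      rw [hA, hl1]
      push_cast
      field_simp
    rw [e1, abs_sub_comm]
    refine hdist.trans ?_
    have hl' : (0 : ℝ) < l := by linarith
    exact div_le_div_of_nonneg_left (by linarith) (by positivity)
      (mul_le_mul_of_nonneg_left hl (by linarith))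

theorem sum_half (j0 j1 : ℕ) : ∑ j ∈ Finset.Icc j0 j1, ((1 : ℝ) / 2) ^ j ≤ 2 * (1 / 2) ^ j0 := by
  have h1 : Finset.Icc j0 j1 = Finset.Ico j0 (j1 + 1) := by
    ext x
    simp [Finset.mem_Icc, Finset.mem_Ico]
  rw [h1, Finset.sum_Ico_eq_sum_range]
  have h2 : ∀ n : ℕ, ∑ i ∈ Finset.range n, ((1 : ℝ) / 2) ^ (j0 + i)
      = 2 * (1 / 2) ^ j0 - 2 * (1 / 2) ^ (j0 + n) := by
    intro n
    induction n with
    | zero => simp
    | succ n ih =>
      rw [Finset.sum_range_succ, ih, ← add_assoc, pow_succ]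
      ring
  rw [h2]
  have : (0 : ℝ) < (1 / 2) ^ (j0 + (j1 + 1 - j0)) := by positivity
  linarith

theorem sum_two (j0 j1 : ℕ) : ∑ j ∈ Finset.Icc j0 j1, (2 : ℝ) ^ j ≤ 2 * 2 ^ j1 := by
  have h1 : ∑ j ∈ Finset.Icc j0 j1, (2 : ℝ) ^ j ≤ ∑ j ∈ Finset.range (j1 + 1), (2 : ℝ) ^ j := by
    refine Finset.sum_le_sum_of_subset_of_nonneg ?_ (fun _ _ _ => by positivity)
    intro x hx
    rw [Finset.mem_Icc] at hx
    rw [Finset.mem_range]
    omega
  refine h1.trans ?_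
  have h2 : ∀ n : ℕ, ∑ i ∈ Finset.range n, (2 : ℝ) ^ i = 2 ^ n - 1 := by
    intro n
    induction n with
    | zero => simp
    | succ n ih =>
      rw [Finset.sum_range_succ, ih, pow_succ]
      ring
  rw [h2, pow_succ]
  linarith

/-- one dyadic block of the rough part of the denominator -/
theorem block {θ E T Y : ℝ} (hE : 1 ≤ E) (hT : 1 ≤ T) (hY : 1 ≤ Y) {P0 : ℕ} (hP0 : E < P0)
    (S : Finset ℕ) (k l1 d : ℕ → ℕ) (A : ℕ → ℤ) (j : ℕ)
    (hS : ∀ l ∈ S, Y ≤ l ∧ (l : ℝ) < 2 * Y ∧ 1 ≤ k l ∧ (k l : ℝ) ≤ E ∧ l = d l * l1 l ∧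
      0 < d l ∧ P0 < l1 l ∧ (∀ p, p.Prime → p ∣ l1 l → P0 < p) ∧
      IsCoprime (A l) ((k l * l1 l : ℕ) : ℤ) ∧
      |(A l : ℝ) / ((k l * l1 l : ℕ) : ℝ) - θ| ≤ E / (T * Y) ∧
      2 ^ j ≤ l1 l ∧ l1 l < 2 ^ (j + 1)) :
    (S.card : ℝ) ≤ 3 * Y / 2 ^ j * (1 + 8 * E ^ 3 * 4 ^ j / (T * Y)) := by
  classical
  have hTY : 0 < T * Y := by positivity
  set φ : ℕ → ℝ := fun l => (A l : ℝ) / ((k l * l1 l : ℕ) : ℝ) with hφ
  -- the fibres
  have hfib : ∀ b ∈ S.image φ, (((S.filter fun l => φ l = b).card : ℕ) : ℝ) ≤ 3 * Y / 2 ^ j := by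
    intro b hb
    obtain ⟨l₀, hl₀, -⟩ := Finset.mem_image.1 hb
    obtain ⟨h1, h2, h3, h4, h5, h6, h7, h8, h9, h10, h11, h12⟩ := hS l₀ hl₀
    have e1 : ((2 : ℝ) ^ j) ≤ 2 * Y := by
      have a1 : l1 l₀ ≤ l₀ := by
        conv_rhs => rw [h5]
        exact Nat.le_mul_of_pos_left _ h6
      have a2 : ((2 ^ j : ℕ) : ℝ) ≤ (l₀ : ℝ) := by exact_mod_cast h11.trans a1
      push_cast at a2
      linarith
    have hcs := card_sep (S.filter fun l => φ l = b) (fun l => (l : ℝ)) (3 * Y / 2) (Y / 2)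
      (2 ^ j) (by positivity) (by linarith) ?_ ?_
    · refine hcs.trans ?_
      have e2 : 2 * (Y / 2) / 2 ^ j = Y / 2 ^ j := by ring
      rw [e2]
      have e3 : (1 : ℝ) ≤ 2 * Y / 2 ^ j := by
        rw [le_div_iff₀ (by positivity)]
        linarith
      have e4 : 3 * Y / 2 ^ j = 2 * Y / 2 ^ j + Y / 2 ^ j := by ring
      linarith
    · intro l hl
      rw [Finset.mem_filter] at hl
      obtain ⟨g1, g2, -⟩ := hS l hl.1
      rw [abs_le]
      constructor <;> linarith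
    · intro l hl l' hl' hne
      rw [Finset.mem_filter] at hl hl'
      obtain ⟨-, -, g3, g4, g5, g6, g7, g8, g9, g10, g11, g12⟩ := hS l hl.1
      obtain ⟨-, -, g3', g4', g5', g6', g7', g8', g9', g10', g11', g12'⟩ := hS l' hl'.1
      have hden : k l * l1 l = k l' * l1 l' := by
        refine den_eq (Nat.mul_pos (by omega) (by omega)) (Nat.mul_pos (by omega) (by omega)) g9 g9' ?_
        have : φ l = φ l' := by rw [hl.2, hl'.2]
        simpa [hφ] using this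
      have hkP : ∀ {x : ℕ}, (x : ℝ) ≤ E → x ≤ P0 := by
        intro x hx
        have : (x : ℝ) ≤ P0 := by linarith
        exact_mod_cast this
      have hrough : l1 l = l1 l' := rough_eq (by omega) (by omega) (hkP g4) (hkP g4') g8 g8' hden
      have hd : d l ≠ d l' := by
        intro hdd
        apply hne
        rw [g5, g5', hdd, hrough]
      have e5 : (l : ℝ) - (l' : ℝ) = ((d l : ℤ) - (d l' : ℤ) : ℤ) * (l1 l : ℝ) := by
        have b1 : (l : ℝ) = (d l : ℝ) * (l1 l : ℝ) := by exact_mod_cast g5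
        have b2 : (l' : ℝ) = (d l' : ℝ) * (l1 l : ℝ) := by
          rw [hrough]
          exact_mod_cast g5'
        rw [b1, b2]
        push_cast
        ring
      show (2 : ℝ) ^ j ≤ |(l : ℝ) - (l' : ℝ)|
      rw [e5, abs_mul]
      have e6 : (1 : ℝ) ≤ |(((d l : ℤ) - (d l' : ℤ) : ℤ) : ℝ)| := by
        rw [← Int.cast_abs]
        have : ((d l : ℤ) - (d l' : ℤ)) ≠ 0 := by
          intro h
          apply hd
          omega
        exact_mod_cast Int.one_le_abs this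
      have e7 : ((2 : ℝ) ^ j) ≤ |(l1 l : ℝ)| := by
        rw [abs_of_nonneg (by positivity)]
        exact_mod_cast g11
      calc (2 : ℝ) ^ j = 1 * 2 ^ j := by ring
        _ ≤ _ := mul_le_mul e6 e7 (by positivity) (abs_nonneg _)
  -- the number of fractions
  have himg : (((S.image φ).card : ℕ) : ℝ) ≤ 1 + 8 * E ^ 3 * 4 ^ j / (T * Y) := by
    have hcs := card_sep (S.image φ) (fun x => x) θ (E / (T * Y)) (1 / (4 * E ^ 2 * 4 ^ j))
      (by positivity) (by positivity) ?_ ?_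
    · refine hcs.trans (le_of_eq ?_)
      field_simp
      ring
    · intro b hb
      obtain ⟨l, hl, rfl⟩ := Finset.mem_image.1 hb
      exact (hS l hl).2.2.2.2.2.2.2.2.2.1
    · intro b hb b' hb' hne
      obtain ⟨l, hl, rfl⟩ := Finset.mem_image.1 hb
      obtain ⟨l', hl', rfl⟩ := Finset.mem_image.1 hb'
      obtain ⟨-, -, g3, g4, g5, g6, g7, g8, g9, g10, g11, g12⟩ := hS l hl
      obtain ⟨-, -, g3', g4', g5', g6', g7', g8', g9', g10', g11', g12'⟩ := hS l' hl'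
      have hn : 0 < k l * l1 l := Nat.mul_pos (by omega) (by omega)
      have hn' : 0 < k l' * l1 l' := Nat.mul_pos (by omega) (by omega)
      refine le_trans ?_ (frac_sep hn hn' hne)
      have hb1 : ∀ {x y : ℕ}, (x : ℝ) ≤ E → y < 2 ^ (j + 1) →
          ((x * y : ℕ) : ℝ) ≤ E * (2 * 2 ^ j) := by
        intro x y hx hy
        push_cast
        have : (y : ℝ) ≤ 2 * 2 ^ j := by
          have : (y : ℝ) < ((2 ^ (j + 1) : ℕ) : ℝ) := by exact_mod_cast hy
          push_cast at this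
          rw [pow_succ] at this
          linarith
        exact mul_le_mul hx this (by positivity) (by linarith)
      have c1 := hb1 g4 g12
      have c2 := hb1 g4' g12'
      have hn1 : (0 : ℝ) < ((k l * l1 l : ℕ) : ℝ) := by exact_mod_cast hn
      have hn2 : (0 : ℝ) < ((k l' * l1 l' : ℕ) : ℝ) := by exact_mod_cast hn'
      refine one_div_le_one_div_of_le (mul_pos hn1 hn2) ?_
      calc ((k l * l1 l : ℕ) : ℝ) * ((k l' * l1 l' : ℕ) : ℝ)
          ≤ (E * (2 * 2 ^ j)) * (E * (2 * 2 ^ j)) :=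
            mul_le_mul c1 c2 hn2.le (by positivity)
        _ = 4 * E ^ 2 * 4 ^ j := by
            have : (4 : ℝ) ^ j = 2 ^ j * 2 ^ j := by
              rw [← mul_pow]
              norm_num
            rw [this]
            ring
  have htot : (S.card : ℝ) ≤ ∑ b ∈ S.image φ, 3 * Y / 2 ^ j := by
    have : (S.card : ℝ) = ∑ b ∈ S.image φ, (((S.filter fun l => φ l = b).card : ℕ) : ℝ) := by
      have := Finset.card_eq_sum_card_image φ S
      exact_mod_cast this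
    rw [this]
    exact Finset.sum_le_sum hfib
  refine htot.trans ?_
  rw [Finset.sum_const, nsmul_eq_mul, mul_comm]
  exact mul_le_mul_of_nonneg_left himg (by positivity)

/-- **Lemma Q** (935, note 3246): the count of unexplained deficits. -/
theorem lemQ (θ E T : ℝ) (hE : 1 ≤ E) (hT : 1 ≤ T) (P0 : ℕ) (hP0 : E < P0) (Y : ℝ) (hY : 1 ≤ Y)
    (S : Finset ℕ)
    (hS : ∀ l ∈ S, Y ≤ (l : ℝ) ∧ (l : ℝ) < 2 * Y ∧ (∀ p : ℕ, p.Prime → p ∣ l → P0 < p) ∧
      ∃ (k : ℕ) (a : ℤ), 1 ≤ k ∧ (k : ℝ) ≤ E ∧ IsCoprime a (k : ℤ) ∧ ¬ (l : ℤ) ∣ a ∧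
        |θ - (a : ℝ) / ((k : ℝ) * l)| ≤ E / (T * l)) :
    (S.card : ℝ) ≤ (12 / P0 + 96 * E ^ 3 / T) * Y := by
  classical
  have hdat : ∀ l ∈ S, ∃ (k l1 d : ℕ) (A : ℤ), 1 ≤ k ∧ (k : ℝ) ≤ E ∧ l = d * l1 ∧ 0 < d ∧
      P0 < l1 ∧ (∀ p : ℕ, p.Prime → p ∣ l1 → P0 < p) ∧ IsCoprime A ((k * l1 : ℕ) : ℤ) ∧
      |(A : ℝ) / ((k * l1 : ℕ) : ℝ) - θ| ≤ E / (T * Y) := by
    intro l hl
    obtain ⟨h1, h2, h3, h4⟩ := hS l hl
    exact datum hE hT hY h1 h3 h4
  choose! k l1 d A hdat using hdat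
  have hP1 : (1 : ℝ) < P0 := by linarith
  have hP0' : 0 < P0 := by
    have : (0 : ℝ) < P0 := by linarith
    exact_mod_cast this
  set j0 := Nat.log 2 P0 with hj0
  set j1 := Nat.log 2 ⌊2 * Y⌋₊ with hj1
  have hmap : ∀ l ∈ S, Nat.log 2 (l1 l) ∈ Finset.Icc j0 j1 := by
    intro l hl
    obtain ⟨g1, g2, g3, g4, g5, g6, g7, g8⟩ := hdat l hl
    obtain ⟨h1, h2, h3, h4⟩ := hS l hl
    rw [Finset.mem_Icc]
    refine ⟨Nat.log_mono_right g5.le, Nat.log_mono_right ?_⟩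
    have a1 : l1 l ≤ l := by
      conv_rhs => rw [g3]
      exact Nat.le_mul_of_pos_left _ g4
    refine a1.trans (Nat.le_floor ?_)
    linarith
  have hcard : S.card = ∑ j ∈ Finset.Icc j0 j1, (S.filter fun l => Nat.log 2 (l1 l) = j).card :=
    Finset.card_eq_sum_card_fiberwise hmap
  have hblock : ∀ j ∈ Finset.Icc j0 j1,
      (((S.filter fun l => Nat.log 2 (l1 l) = j).card : ℕ) : ℝ)
        ≤ 3 * Y * (1 / 2) ^ j + 24 * E ^ 3 / T * 2 ^ j := by
    intro j _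
    refine (block (θ := θ) hE hT hY hP0 _ k l1 d A j ?_).trans (le_of_eq ?_)
    · intro l hl
      rw [Finset.mem_filter] at hl
      obtain ⟨g1, g2, g3, g4, g5, g6, g7, g8⟩ := hdat l hl.1
      obtain ⟨h1, h2, h3, h4⟩ := hS l hl.1
      have hl10 : l1 l ≠ 0 := by omega
      refine ⟨h1, h2, g1, g2, g3, g4, g5, g6, g7, g8, ?_, ?_⟩
      · rw [← hl.2]
        exact Nat.pow_log_le_self 2 hl10
      · rw [← hl.2]
        exact Nat.lt_pow_succ_log_self (by norm_num) _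
    · have h4 : (4 : ℝ) ^ j = 2 ^ j * 2 ^ j := by
        rw [← mul_pow]
        norm_num
      have hY0 : Y ≠ 0 := by linarith
      have hT0 : T ≠ 0 := by linarith
      have h2 : (2 : ℝ) ^ j ≠ 0 := by positivity
      rw [h4, one_div, inv_pow]
      field_simp
      ring
  have hsum : (S.card : ℝ) ≤ 3 * Y * (2 * (1 / 2) ^ j0) + 24 * E ^ 3 / T * (2 * 2 ^ j1) := by
    have h1 : (S.card : ℝ)
        = ∑ j ∈ Finset.Icc j0 j1, (((S.filter fun l => Nat.log 2 (l1 l) = j).card : ℕ) : ℝ) := by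
      exact_mod_cast hcard
    rw [h1]
    refine (Finset.sum_le_sum hblock).trans ?_
    rw [Finset.sum_add_distrib, ← Finset.mul_sum, ← Finset.mul_sum]
    exact add_le_add (mul_le_mul_of_nonneg_left (sum_half _ _) (by positivity))
      (mul_le_mul_of_nonneg_left (sum_two _ _) (by positivity))
  refine hsum.trans ?_
  have hp : (P0 : ℝ) < 2 * 2 ^ j0 := by
    have := Nat.lt_pow_succ_log_self (b := 2) (by norm_num) P0
    have h : (P0 : ℝ) < ((2 ^ (j0 + 1) : ℕ) : ℝ) := by exact_mod_cast this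
    push_cast at h
    rw [pow_succ] at h
    linarith
  have hq : (2 : ℝ) ^ j1 ≤ 2 * Y := by
    have h0 : ⌊2 * Y⌋₊ ≠ 0 := by
      have : 1 ≤ ⌊2 * Y⌋₊ := Nat.le_floor (by push_cast; linarith)
      omega
    have h1 := Nat.pow_log_le_self 2 h0
    have h2 : ((2 ^ j1 : ℕ) : ℝ) ≤ (⌊2 * Y⌋₊ : ℝ) := by exact_mod_cast h1
    push_cast at h2
    exact h2.trans (Nat.floor_le (by linarith))
  have e1 : ((1 : ℝ) / 2) ^ j0 ≤ 2 / P0 := by
    rw [one_div, inv_pow, le_div_iff₀ (by linarith), inv_mul_le_iff₀ (by positivity)]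
    linarith
  have e2 : 24 * E ^ 3 / T * (2 * 2 ^ j1) ≤ 24 * E ^ 3 / T * (2 * (2 * Y)) :=
    mul_le_mul_of_nonneg_left (by linarith) (by positivity)
  have e3 : 3 * Y * (2 * (1 / 2) ^ j0) ≤ 3 * Y * (2 * (2 / P0)) :=
    mul_le_mul_of_nonneg_left (by linarith) (by positivity)
  calc 3 * Y * (2 * (1 / 2) ^ j0) + 24 * E ^ 3 / T * (2 * 2 ^ j1)
      ≤ 3 * Y * (2 * (2 / P0)) + 24 * E ^ 3 / T * (2 * (2 * Y)) := add_le_add e3 e2
    _ = (12 / P0 + 96 * E ^ 3 / T) * Y := by ring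

end Crest.Agent.R4C.LemQx491
end

-- ▼ part R4C/UnexplR_208
section

/-!
# The class UNEXPLAINED DEFICIT (helper208)

`unexpl` : LEMMA III-R (`rare_fl`) with LEMMA Q (`lemQ`) for the literal relation `Pairx14.UD`;
`unexpl'` : the same with the roles of `b, c` exchanged;
`unexpl_T` : at the scale `X = T L`, cut `x ≥ T`, energy
`L Σ ≤ C (n+1)^2 T^(2κ-1) (108 E^3/T)^(1-κ) (L m)^κ (L m')^κ`.
-/

set_option autoImplicit false

namespace Crest.Agent.R4C.UnexplRx208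

open Finset
open Crest.Agent.R4C.Basex935 Crest.Agent.R4C.Cutx50 Crest.Agent.R4C.FLDefx935
open Crest.Agent.R4C.RareFLx208 Crest.Agent.R4C.Pairx14

open Classical

variable {M : ℕ}

/-- the relation of Lemma Q with a free integer `l` -/
def RU (F : FL M) (γ T E : ℝ) (x b l : ℕ) : Prop :=
  ∃ (k : ℕ) (a : ℤ), 1 ≤ k ∧ (k : ℝ) ≤ E ∧ IsCoprime a (k : ℤ) ∧ ¬ ((l : ℕ) : ℤ) ∣ a ∧
    |(F.lam x b : ℝ) * γ - (a : ℝ) / (k * (l : ℕ))| ≤ E / (T * (l : ℕ))







end Crest.Agent.R4C.UnexplRx208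
end

-- ▼ part R4C/Core_251
section

/-!
# Row 4: induction core for the exact-scale energy theorems, general `M` (helper251)

Kernel `K b c` arbitrary with values in `[0,1]`; passive primes `p ∈ Z` with centre `z0 p`
(`Ok Z z0 b c` : for all `p ∈ Z`, `v_p(b) = z0 p` or `v_p(c) = z0 p`).
`S M Z z0 X K f f'` = sum over pairs of divisors of `M`, `X ≤ gcd < 2X`, `Ok`, of
`gcd * nu * nu * K * f * f'`.

`Val ρ θ Lam e M Z z0 K u` : inductive predicate "u is an upper value".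
`core` : `Val … u → S ≤ 96 ∏ (1+e p) X^(2ρ-1) (E f * E f')^ρ u`.
-/

set_option autoImplicit false

namespace Crest.Agent.R4C.Corex251

open Finset Crest.Agent.R4C.Basex935

/-! ## arithmetic -/

lemma sum_nu_dvd {M d : ℕ} (hM : 0 < M) (hd : d ∣ M) :
    ∑ b ∈ M.divisors.filter (fun b => d ∣ b), nu M b = 1 / (d : ℝ) := by
  obtain ⟨N, rfl⟩ := hd
  have hd0 : 0 < d := Nat.pos_of_mul_pos_right hM |> fun h => by
    rcases Nat.eq_zero_or_pos d with h0 | h0
    · simp [h0] at hM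
    · exact h0
  have hN0 : 0 < N := by
    rcases Nat.eq_zero_or_pos N with h0 | h0
    · simp [h0] at hM
    · exact h0
  have e : (d * N).divisors.filter (fun b => d ∣ b) = N.divisors.image (fun b => d * b) := by
    ext b
    simp only [mem_filter, Nat.mem_divisors, mem_image]
    constructor
    · rintro ⟨⟨h1, h2⟩, b', rfl⟩
      exact ⟨b', ⟨Nat.dvd_of_mul_dvd_mul_left hd0 h1, hN0.ne'⟩, rfl⟩
    · rintro ⟨b', ⟨h1, h2⟩, rfl⟩
      exact ⟨⟨Nat.mul_dvd_mul_left d h1, hM.ne'⟩, dvd_mul_right d b'⟩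
  rw [e, sum_image (fun a _ b _ h => Nat.eq_of_mul_eq_mul_left hd0 h)]
  have h : ∀ b ∈ N.divisors, nu (d * N) (d * b) = nu N b * (1 / (d : ℝ)) := by
    intro b hb
    unfold nu
    rw [Nat.mul_div_mul_left _ _ hd0]
    push_cast
    field_simp
  rw [sum_congr rfl h, ← sum_mul, sum_nu hN0, one_mul]

/-- kept pairs -/
def Ok (Z : Finset ℕ) (z0 : ℕ → ℕ) (b c : ℕ) : Prop :=
  ∀ q ∈ Z, b.factorization q = z0 q ∨ c.factorization q = z0 q

/-- centre word -/
def Hc (M : ℕ) (z0 : ℕ → ℕ) : ℕ := ∏ q ∈ M.primeFactors, q ^ (z0 q)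

/-- deficit -/
def lb (M : ℕ) (z0 : ℕ → ℕ) (b : ℕ) : ℕ := Hc M z0 / Nat.gcd b (Hc M z0)











/-! ## inequalities for finite sums -/



/-! ## the sums -/

open Classical in
/-- kernel at exact scale `X`, kept pairs only -/
noncomputable def ker (Z : Finset ℕ) (z0 : ℕ → ℕ) (X : ℝ) (K : ℕ → ℕ → ℝ) (f f' : ℕ → ℝ) :
    ℕ → ℕ → ℝ := fun b c =>
  if X ≤ (Nat.gcd b c : ℝ) ∧ (Nat.gcd b c : ℝ) < 2 * X ∧ Ok Z z0 b c then K b c * f b * f' c else 0

noncomputable def S (M : ℕ) (Z : Finset ℕ) (z0 : ℕ → ℕ) (X : ℝ) (K : ℕ → ℕ → ℝ)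
    (f f' : ℕ → ℝ) : ℝ := frm M (ker Z z0 X K f f')

/-- anatomy weight -/
noncomputable def wt (Lam : ℕ → ℝ) (b : ℕ) : ℝ := ∏ q ∈ b.primeFactors, (1 + Lam q / q)

noncomputable def E (Lam : ℕ → ℝ) (M : ℕ) (f : ℕ → ℝ) : ℝ :=
  ∑ b ∈ M.divisors, nu M b * wt Lam b * f b






/-! ## splitting at one prime -/











/-- weight of a letter -/
noncomputable def lw (L : ℝ) (p v : ℕ) : ℝ := if v = 0 then 1 else 1 + L / p






end Crest.Agent.R4C.Corex251
end

-- ▼ part R4C/Rankin_524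
section

/-!
# Row 4, leaf 452: Rankin bounds for `(log k)`-smooth words (helper524)

* `rankin_one` : `∑ n^{-1/2} ≤ N^{-1/4} exp(9 z^{3/4})` over any finite set of `z`-smooth `n ≥ N`;
* `rankin_two` : `∑ (s s')^{-1/2} ≤ N^{-1/4} exp(18 z^{3/4})` over any finite set of pairs of
  `z`-smooth words with `max s s' ≥ N`;
* `rankin_log` : with `z = log k`, `N = k^{1/2}/2` the bound is `≤ k^{-1/16}` for `k ≥ k0`.
* `rankin_sum` : `∑ n^{-s} ≤ exp (z^{1-s} / ((1-s) (1 - 2^{-s})))` for all finite sets of `z`-smooth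
  numbers, `0 < s < 1`.
-/

set_option autoImplicit false

namespace Crest.Agent.R4C.Rankinx524

open Finset

/-- the completely multiplicative function `n ↦ n^{-s}` -/
noncomputable def f (s : ℝ) : ℕ →* ℝ where
  toFun n := (n : ℝ) ^ (-s)
  map_one' := by simp
  map_mul' m n := by
    push_cast
    exact Real.mul_rpow (by positivity) (by positivity)


theorem sum_le_prod (s : ℝ) (hs : 0 < s) (M : ℕ) (F : Finset ℕ) (hF : ∀ n ∈ F, n ∈ Nat.smoothNumbers M) :
    ∑ n ∈ F, (n : ℝ) ^ (-s) ≤ ∏ p ∈ M.primesBelow, (1 - (p : ℝ) ^ (-s))⁻¹ := by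
  have h1 : ∀ {p : ℕ}, p.Prime → ‖f s p‖ < 1 := by
    intro p hp
    have : f s p = (p : ℝ) ^ (-s) := rfl
    rw [this, Real.norm_of_nonneg (by positivity)]
    exact Real.rpow_lt_one_of_one_lt_of_neg (by exact_mod_cast hp.one_lt) (by linarith)
  obtain ⟨hsum, hh⟩ :=
    EulerProduct.summable_and_hasSum_smoothNumbers_prod_primesBelow_geometric h1 M
  have h2 : ∑ n ∈ F, (n : ℝ) ^ (-s) ≤ ∑' m : M.smoothNumbers, f s m := by
    have h3 : ∑ n ∈ F, (n : ℝ) ^ (-s)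
        = ∑ m ∈ F.attach.map ⟨fun x => (⟨x.1, hF x.1 x.2⟩ : M.smoothNumbers), by
            intro x y hxy
            exact Subtype.ext (by simpa using hxy)⟩, f s m := by
      rw [Finset.sum_map, ← Finset.sum_attach]
      rfl
    rw [h3]
    refine Summable.sum_le_tsum _ (fun m _ => ?_) hh.summable
    show 0 ≤ ((m : ℕ) : ℝ) ^ (-s)
    positivity
  exact h2.trans (le_of_eq hh.tsum_eq)











end Crest.Agent.R4C.Rankinx524
end

-- ▼ part R4C/IIIR_256
section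

/-!
# Lemma III-R (note 3246 (3), helper935) as a corollary of theorem (R) (helper256)

`F : FL M`, cut `x`.  `R b l` a relation such that for every `b` at most `rho * N` of the
`x`-rough integers `n ≤ N` satisfy `R b n`.  Then the good pairs (above `x`) with
`R b (F.ell x c)` have the energy gain `(1/x)^δ + (Sm x * rho)^δ`, `Sm x = ∏_{p ≤ x} (1-1/p)⁻¹`.

Proof: the leaf hypothesis of `thmR_b` holds for every model `(Ma, Mz, H)`: either some prime
`p > x` of the model has an `F`-centre different from the model centre (then look at the largest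
one: density `≤ 12/x`), or the deficit of `c` in the model is `(x`-smooth`) * l1` with
`F.ell x c = A * l1`.
-/

set_option autoImplicit false
set_option linter.unusedVariables false

namespace Crest.Agent.R4C.IIIRx256

open Finset Crest.Agent.R4C.Basex935 Crest.Agent.R4C.Cutx50 Crest.Agent.R4C.FLDefx935
open Crest.Agent.R4C.ThmRx19 Crest.Agent.R4C.OnePx19
open scoped Classical

/-! ## box sums -/

/-- natural weight of `u` in the model -/
noncomputable def w (Mz H u : ℕ) : ℝ := (Nat.gcd H u : ℝ) * nu Mz u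

/-- deficit of `u` in the model -/
def ld (H u : ℕ) : ℕ := H / Nat.gcd H u

lemma w_nonneg (Mz H u : ℕ) : 0 ≤ w Mz H u := mul_nonneg (Nat.cast_nonneg _) (nu_nonneg _ _)

lemma ld_mul {H u : ℕ} : ld H u * Nat.gcd H u = H := Nat.div_mul_cancel (Nat.gcd_dvd_left _ _)

lemma ld_pos {H u : ℕ} (hH : 0 < H) : 0 < ld H u := by
  rcases Nat.eq_zero_or_pos (ld H u) with h | h
  · have := ld_mul (H := H) (u := u)
    rw [h] at this; omega
  · exact h

lemma w_fiber {Mz H : ℕ} (hMz : 0 < Mz) (hH : H ∣ Mz) (l : ℕ) :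
    ∑ u ∈ Mz.divisors.filter (fun u => ld H u = l), w Mz H u ≤ 1 := by
  rcases (Mz.divisors.filter (fun u => ld H u = l)).eq_empty_or_nonempty with he | ⟨u0, hu0⟩
  · rw [he, sum_empty]; exact zero_le_one
  · have hH0 : 0 < H := Nat.pos_of_dvd_of_pos hH hMz
    have hl : ld H u0 = l := (mem_filter.1 hu0).2
    have hl0 : 0 < l := hl ▸ ld_pos hH0
    set d := Nat.gcd H u0 with hd
    have hdd : ∀ u ∈ Mz.divisors.filter (fun u => ld H u = l), Nat.gcd H u = d := by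
      intro u hu
      have h1 : ld H u = l := (mem_filter.1 hu).2
      have h2 := ld_mul (H := H) (u := u)
      have h3 := ld_mul (H := H) (u := u0)
      rw [h1] at h2
      rw [hl] at h3
      exact Nat.eq_of_mul_eq_mul_left hl0 (h2.trans h3.symm)
    have hdM : d ∣ Mz := (Nat.gcd_dvd_left _ _).trans hH
    have hd0 : 0 < d := Nat.pos_of_dvd_of_pos hdM hMz
    calc ∑ u ∈ Mz.divisors.filter (fun u => ld H u = l), w Mz H u
        ≤ ∑ u ∈ Mz.divisors.filter (fun u => d ∣ u), (d : ℝ) * nu Mz u := by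
          refine (sum_le_sum (g := fun u => (d : ℝ) * nu Mz u) fun u hu => ?_).trans
            (sum_le_sum_of_subset_of_nonneg ?_ ?_)
          · unfold w
            rw [hdd u hu]
          · intro u hu
            rw [mem_filter] at hu ⊢
            refine ⟨hu.1, ?_⟩
            rw [← hdd u (mem_filter.2 hu)]
            exact Nat.gcd_dvd_right _ _
          · intro u _ _
            exact mul_nonneg (Nat.cast_nonneg _) (nu_nonneg _ _)
      _ = 1 := by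
          rw [← mul_sum, Corex251.sum_nu_dvd hMz hdM]
          have : (d : ℝ) ≠ 0 := by exact_mod_cast hd0.ne'
          field_simp

lemma w_set {Mz H : ℕ} (hMz : 0 < Mz) (hH : H ∣ Mz) (L : Finset ℕ) (P : ℕ → Prop) [DecidablePred P]
    (hP : ∀ u, u ∣ Mz → P u → ld H u ∈ L) :
    ∑ u ∈ Mz.divisors.filter P, w Mz H u ≤ L.card := by
  have hmap : ∀ u ∈ Mz.divisors.filter P, ld H u ∈ L := by
    intro u hu
    rw [mem_filter, Nat.mem_divisors] at hu
    exact hP u hu.1.1 hu.2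
  rw [← sum_fiberwise_of_maps_to hmap]
  calc _ ≤ ∑ l ∈ L, (1 : ℝ) := by
        refine sum_le_sum fun l _ => (sum_le_sum_of_subset_of_nonneg ?_ ?_).trans
          (w_fiber hMz hH l)
        · intro u hu
          rw [mem_filter] at hu ⊢
          exact ⟨(mem_filter.1 hu.1).1, hu.2⟩
        · intro u _ _
          exact w_nonneg _ _ _
    _ = L.card := by simp

lemma w_box {Mz H : ℕ} (hMz : 0 < Mz) (hH : H ∣ Mz) (i : ℕ) :
    ∑ u ∈ Mz.divisors.filter (fun u => Nat.log 2 (ld H u) = i), w Mz H u ≤ 2 ^ i := by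
  have hH0 : 0 < H := Nat.pos_of_dvd_of_pos hH hMz
  have h := w_set hMz hH (Finset.Ico (2 ^ i) (2 ^ (i + 1))) (fun u => Nat.log 2 (ld H u) = i)
    (by
      intro u _ hu
      rw [Finset.mem_Ico, ← hu]
      exact ⟨Nat.pow_log_le_self 2 (ld_pos hH0).ne', Nat.lt_pow_succ_log_self (by norm_num) _⟩)
  refine h.trans (le_of_eq ?_)
  rw [Nat.card_Ico, pow_succ]
  have : 2 ^ i * 2 - 2 ^ i = 2 ^ i := by omega
  rw [this]
  push_cast
  rfl

/-! ## one letter changed -/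

lemma w_pp {p a M' H' m v1 v : ℕ} (hp : p.Prime) (hM' : ¬ p ∣ M') (hH' : H' ∣ M')
    (hm : m ∣ M') (hv : v ≤ a) :
    w (p ^ a * M') (p ^ v1 * H') (p ^ v * m) = (p : ℝ) ^ (min v1 v) * nup p a v * w M' H' m := by
  have hH : ¬ p ∣ H' := fun h => hM' (h.trans hH')
  have hmm : ¬ p ∣ m := fun h => hM' (h.trans hm)
  have hcop : Nat.Coprime (p ^ a) M' :=
    Nat.Coprime.pow_left a ((Nat.Prime.coprime_iff_not_dvd hp).2 hM')
  unfold w
  rw [gcd_split hp v1 v hH hmm, nu_mul hcop (pow_dvd_pow p hv) hm, nu_prime_pow hp hv]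
  push_cast
  ring

lemma ld_pp {p H' m v1 v : ℕ} (hp : p.Prime) (hH : ¬ p ∣ H') (hm : ¬ p ∣ m) :
    ld (p ^ v1 * H') (p ^ v * m) = p ^ (v1 - v) * ld H' m := by
  unfold ld
  rw [gcd_split hp v1 v hH hm]
  rw [← Nat.div_mul_div_comm (pow_dvd_pow p (min_le_left _ _)) (Nat.gcd_dvd_left _ _)]
  congr 1
  rw [Nat.pow_div (min_le_left _ _) hp.pos]
  congr 1
  omega

lemma half_le {p : ℕ} (hp : p.Prime) : (1 : ℝ) / 2 ≤ 1 - 1 / (p : ℝ) := by
  have h2 : (2 : ℝ) ≤ p := by exact_mod_cast hp.two_le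
  have : (1 : ℝ) / p ≤ 1 / 2 := one_div_le_one_div_of_le (by norm_num) h2
  linarith

/-- excess letter: weight `≤ (2/p)` times the weight of the centre letter -/
lemma w_hi {p a M' H' m v1 v : ℕ} (hp : p.Prime) (hM' : ¬ p ∣ M') (hH' : H' ∣ M')
    (hm : m ∣ M') (hv : v ≤ a) (h : v1 < v) :
    w (p ^ a * M') (p ^ v1 * H') (p ^ v * m) ≤
      2 / (p : ℝ) * w (p ^ a * M') (p ^ v1 * H') (p ^ v1 * m) := by
  rw [w_pp hp hM' hH' hm hv, w_pp hp hM' hH' hm (by omega), min_eq_left h.le, min_self]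
  have hw := w_nonneg M' H' m
  have hp0 : (0 : ℝ) < p := by exact_mod_cast hp.pos
  have h1 : nup p a v ≤ (1 / (p : ℝ)) ^ v := nup_le hp.pos a v hv
  have h2 : (1 - 1 / (p : ℝ)) * (1 / (p : ℝ)) ^ v1 ≤ nup p a v1 := nup_ge hp.pos a v1 (by omega)
  have h3 : (1 / (p : ℝ)) ^ v ≤ 1 / (p : ℝ) * (1 / (p : ℝ)) ^ v1 := by
    rw [← pow_succ']
    exact pow_le_pow_of_le_one (by positivity)
      (by rw [div_le_one hp0]; exact_mod_cast hp.one_lt.le) (by omega)
  have h4 := half_le hp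
  have h5 : (0 : ℝ) ≤ (1 / (p : ℝ)) ^ v1 := by positivity
  have h6 : nup p a v ≤ 2 / (p : ℝ) * nup p a v1 := by
    have h7 : (1 / (p : ℝ)) ^ v1 ≤ 2 * nup p a v1 := by nlinarith
    calc nup p a v ≤ 1 / (p : ℝ) * (1 / (p : ℝ)) ^ v1 := h1.trans h3
      _ ≤ 1 / (p : ℝ) * (2 * nup p a v1) := mul_le_mul_of_nonneg_left h7 (by positivity)
      _ = _ := by ring
  calc (p : ℝ) ^ v1 * nup p a v * w M' H' m
      ≤ (p : ℝ) ^ v1 * (2 / (p : ℝ) * nup p a v1) * w M' H' m := by gcongr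
    _ = _ := by ring

/-- deficit letter: weight `≤ 2` times the weight of the centre letter -/
lemma w_lo {p a M' H' m v1 v : ℕ} (hp : p.Prime) (hM' : ¬ p ∣ M') (hH' : H' ∣ M')
    (hm : m ∣ M') (hv1 : v1 ≤ a) (h : v < v1) :
    w (p ^ a * M') (p ^ v1 * H') (p ^ v * m) ≤
      2 * w (p ^ a * M') (p ^ v1 * H') (p ^ v1 * m) := by
  rw [w_pp hp hM' hH' hm (by omega), w_pp hp hM' hH' hm hv1, min_eq_right h.le, min_self]
  have hw := w_nonneg M' H' m
  have hp0 : (0 : ℝ) < p := by exact_mod_cast hp.pos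
  have h1 : nup p a v ≤ (1 / (p : ℝ)) ^ v := nup_le hp.pos a v (by omega)
  have h2 : (1 - 1 / (p : ℝ)) * (1 / (p : ℝ)) ^ v1 ≤ nup p a v1 := nup_ge hp.pos a v1 hv1
  have h4 := half_le hp
  have e : ∀ k : ℕ, (p : ℝ) ^ k * (1 / (p : ℝ)) ^ k = 1 := by
    intro k
    rw [← mul_pow, mul_one_div_cancel hp0.ne', one_pow]
  have h5 : (p : ℝ) ^ v * nup p a v ≤ 1 := by
    calc (p : ℝ) ^ v * nup p a v ≤ (p : ℝ) ^ v * (1 / (p : ℝ)) ^ v := by gcongr
      _ = 1 := e v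
  have h6 : 1 ≤ 2 * ((p : ℝ) ^ v1 * nup p a v1) := by
    have h7 : (p : ℝ) ^ v1 * ((1 - 1 / (p : ℝ)) * (1 / (p : ℝ)) ^ v1) ≤ (p : ℝ) ^ v1 * nup p a v1 := by
      gcongr
    have h8 : (p : ℝ) ^ v1 * ((1 - 1 / (p : ℝ)) * (1 / (p : ℝ)) ^ v1) = 1 - 1 / (p : ℝ) := by
      rw [mul_left_comm, e v1, mul_one]
    linarith
  calc (p : ℝ) ^ v * nup p a v * w M' H' m ≤ 1 * w M' H' m := by gcongr
    _ ≤ (2 * ((p : ℝ) ^ v1 * nup p a v1)) * w M' H' m := by gcongr
    _ = _ := by ring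

/-- replace the exponent at `p` by `v` -/
def setE (u p v : ℕ) : ℕ := p ^ v * (u / p ^ u.factorization p)

lemma setE_ne {u p v : ℕ} (hu : u ≠ 0) (hp : p.Prime) : setE u p v ≠ 0 := by
  unfold setE
  exact mul_ne_zero (pow_ne_zero _ hp.ne_zero) (Nat.ordCompl_pos p hu).ne'

lemma fact_setE {u p v : ℕ} (hu : u ≠ 0) (hp : p.Prime) (q : ℕ) :
    (setE u p v).factorization q = if q = p then v else u.factorization q := by
  unfold setE
  rw [Nat.factorization_mul (pow_ne_zero _ hp.ne_zero) (Nat.ordCompl_pos p hu).ne',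
    hp.factorization_pow, Finsupp.add_apply, Nat.factorization_ordCompl, Finsupp.single_apply]
  by_cases h : q = p
  · subst h; simp
  · simp [h, Ne.symm h]

lemma setE_self {u p : ℕ} : setE u p (u.factorization p) = u := Nat.ordProj_mul_ordCompl_eq_self u p

lemma setE_dvd {M u p v : ℕ} (hM : M ≠ 0) (hu : u ∣ M) (hp : p.Prime)
    (hv : v ≤ M.factorization p) : setE u p v ∣ M := by
  have hu0 : u ≠ 0 := ne_zero_of_dvd_ne_zero hM hu
  rw [← Nat.factorization_le_iff_dvd (setE_ne hu0 hp) hM]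
  intro q
  rw [fact_setE hu0 hp]
  split_ifs with h
  · rw [h]; exact hv
  · exact (Nat.factorization_le_iff_dvd hu0 hM).2 hu q

lemma setE_setE {u p v v' : ℕ} (hu : u ≠ 0) (hp : p.Prime) :
    setE (setE u p v) p v' = setE u p v' := by
  refine Nat.eq_of_factorization_eq (setE_ne (setE_ne hu hp) hp) (setE_ne hu hp) fun q => ?_
  rw [fact_setE (setE_ne hu hp) hp, fact_setE hu hp, fact_setE hu hp]
  split_ifs <;> rfl

/-- comparison of `u` and the word with the centre letter at `p` -/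
lemma w_setE {Mz H u p : ℕ} (hMz : Mz ≠ 0) (hH : H ∣ Mz) (hu : u ∣ Mz) (hp : p.Prime) :
    (H.factorization p < u.factorization p →
      w Mz H u ≤ 2 / (p : ℝ) * w Mz H (setE u p (H.factorization p)) ∧
      ld H u = ld H (setE u p (H.factorization p))) ∧
    (u.factorization p < H.factorization p →
      w Mz H u ≤ 2 * w Mz H (setE u p (H.factorization p)) ∧
      p * ld H (setE u p (H.factorization p)) ≤ ld H u) := by
  have hH0 : H ≠ 0 := ne_zero_of_dvd_ne_zero hMz hH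
  have hu0 : u ≠ 0 := ne_zero_of_dvd_ne_zero hMz hu
  set a := Mz.factorization p with ha
  set v1 := H.factorization p with hv1
  set v := u.factorization p with hv
  set M' := Mz / p ^ a with hM'
  set H' := H / p ^ v1 with hH'
  set m := u / p ^ v with hm
  have e1 : p ^ a * M' = Mz := Nat.ordProj_mul_ordCompl_eq_self Mz p
  have e2 : p ^ v1 * H' = H := Nat.ordProj_mul_ordCompl_eq_self H p
  have e3 : p ^ v * m = u := Nat.ordProj_mul_ordCompl_eq_self u p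
  have n1 : ¬ p ∣ M' := Nat.not_dvd_ordCompl hp hMz
  have d2 : H' ∣ M' := Nat.ordCompl_dvd_ordCompl_of_dvd hH p
  have d3 : m ∣ M' := Nat.ordCompl_dvd_ordCompl_of_dvd hu p
  have l2 : v1 ≤ a := (Nat.factorization_le_iff_dvd hH0 hMz).2 hH p
  have l3 : v ≤ a := (Nat.factorization_le_iff_dvd hu0 hMz).2 hu p
  have es : setE u p v1 = p ^ v1 * m := rfl
  have nH : ¬ p ∣ H' := fun h => n1 (h.trans d2)
  have nm : ¬ p ∣ m := fun h => n1 (h.trans d3)
  have ld1 : ld H (p ^ v1 * m) = ld H' m := by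
    rw [← e2, ld_pp hp nH nm, Nat.sub_self, pow_zero, one_mul]
  have ld2 : ld H u = p ^ (v1 - v) * ld H' m := by
    rw [← e2, ← e3, ld_pp hp nH nm]
  refine ⟨fun h => ⟨?_, ?_⟩, fun h => ⟨?_, ?_⟩⟩
  · have := w_hi hp n1 d2 d3 l3 h
    rw [e1, e2, e3] at this
    rw [es]; exact this
  · rw [es, ld1, ld2, Nat.sub_eq_zero_of_le h.le, pow_zero, one_mul]
  · have := w_lo hp n1 d2 d3 l2 h
    rw [e1, e2, e3] at this
    rw [es]; exact this
  · rw [es, ld1, ld2]
    refine Nat.mul_le_mul_right _ ?_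
    calc p = p ^ 1 := (pow_one p).symm
      _ ≤ p ^ (v1 - v) := Nat.pow_le_pow_right hp.pos (by omega)

/-! ## the largest mismatch prime -/

variable {M : ℕ}

/-- primes `p > x` of the model where the `F`-centre differs from the model centre -/
noncomputable def MM (F : FL M) (x h Mz H u : ℕ) : Finset ℕ :=
  Mz.primeFactors.filter (fun p => x < p ∧ ∃ v, F.ctr (h * u) p = some v ∧ v ≠ H.factorization p)

/-- the largest one -/
noncomputable def mm (F : FL M) (x h Mz H u : ℕ) : ℕ := (MM F x h Mz H u).sup id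

lemma mm_mem {F : FL M} {x h Mz H u : ℕ} (hne : (MM F x h Mz H u).Nonempty) :
    mm F x h Mz H u ∈ MM F x h Mz H u := by
  obtain ⟨a, ha, hb⟩ := Finset.exists_mem_eq_sup _ hne id
  unfold mm
  rw [hb]; exact ha

lemma le_mm {F : FL M} {x h Mz H u p : ℕ} (hp : p ∈ MM F x h Mz H u) : p ≤ mm F x h Mz H u :=
  Finset.le_sup (f := id) hp

/-- statuses at primes `≥ p` do not see the letter at `p` -/
lemma ctr_setE {F : FL M} {h Ma Mz u p v : ℕ} (hM : Ma * Mz = M) (hM0 : M ≠ 0)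
    (hh : h ∣ Ma) (hu : u ∣ Mz) (hp : p.Prime) (hv : v ≤ Mz.factorization p) {q : ℕ}
    (hq : q.Prime) (hpq : p ≤ q) : F.ctr (h * setE u p v) q = F.ctr (h * u) q := by
  have hMz : Mz ≠ 0 := by rintro rfl; simp at hM; exact hM0 hM.symm
  have hMa : Ma ≠ 0 := by rintro rfl; simp at hM; exact hM0 hM.symm
  have hu0 : u ≠ 0 := ne_zero_of_dvd_ne_zero hMz hu
  have hh0 : h ≠ 0 := ne_zero_of_dvd_ne_zero hMa hh
  have d1 : h * setE u p v ∣ M := hM ▸ Nat.mul_dvd_mul hh (setE_dvd hMz hu hp hv)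
  have d2 : h * u ∣ M := hM ▸ Nat.mul_dvd_mul hh hu
  refine F.coh d1 d2 hq fun r hr hqr _ => ?_
  rw [Nat.factorization_mul hh0 (setE_ne hu0 hp), Nat.factorization_mul hh0 hu0,
    Finsupp.add_apply, Finsupp.add_apply, fact_setE hu0 hp, if_neg (by omega)]

lemma MM_setE {F : FL M} {x h Ma Mz H u v : ℕ} (hM : Ma * Mz = M) (hM0 : M ≠ 0)
    (hh : h ∣ Ma) (hu : u ∣ Mz) (hne : (MM F x h Mz H u).Nonempty)
    (hv : v ≤ Mz.factorization (mm F x h Mz H u)) :
    (MM F x h Mz H (setE u (mm F x h Mz H u) v)).Nonempty ∧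
    mm F x h Mz H (setE u (mm F x h Mz H u) v) = mm F x h Mz H u := by
  have h1 := mm_mem hne
  set p := mm F x h Mz H u with hp
  have h2 : p ∈ MM F x h Mz H u := h1
  unfold MM at h2
  rw [mem_filter] at h2
  obtain ⟨hpm, hxp, v0, hv0, hv0'⟩ := h2
  have hpp := Nat.prime_of_mem_primeFactors hpm
  have hctr : ∀ q, q.Prime → p ≤ q → F.ctr (h * setE u p v) q = F.ctr (h * u) q :=
    fun q hq hpq => ctr_setE hM hM0 hh hu hpp hv hq hpq
  have h3 : p ∈ MM F x h Mz H (setE u p v) := by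
    unfold MM
    rw [mem_filter]
    exact ⟨hpm, hxp, v0, by rw [hctr p hpp le_rfl]; exact hv0, hv0'⟩
  refine ⟨⟨p, h3⟩, le_antisymm ?_ (le_mm h3)⟩
  by_contra hc
  have hc := not_le.1 hc
  have h4 := mm_mem ⟨p, h3⟩
  set q := mm F x h Mz H (setE u p v) with hq
  have h5 : q ∈ MM F x h Mz H (setE u p v) := h4
  unfold MM at h5
  rw [mem_filter] at h5
  obtain ⟨hqm, hxq, v2, hv2, hv2'⟩ := h5
  have hqp := Nat.prime_of_mem_primeFactors hqm
  rw [hctr q hqp hc.le] at hv2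
  have h6 : q ∈ MM F x h Mz H u := by
    unfold MM
    rw [mem_filter]
    exact ⟨hqm, hxq, v2, hv2, hv2'⟩
  have := le_mm h6
  omega

/-- the letter of `u` at the largest mismatch prime is the `F`-centre -/
def Bad (F : FL M) (x h Mz H u : ℕ) : Prop :=
  (MM F x h Mz H u).Nonempty ∧
    F.ctr (h * u) (mm F x h Mz H u) = some (u.factorization (mm F x h Mz H u))

/-- the word with the model centre at the largest mismatch prime -/
noncomputable def toH (F : FL M) (x h Mz H u : ℕ) : ℕ :=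
  setE u (mm F x h Mz H u) (H.factorization (mm F x h Mz H u))

lemma toH_inj {F : FL M} {x h Ma Mz H : ℕ} (hM : Ma * Mz = M) (hM0 : M ≠ 0)
    (hh : h ∣ Ma) (hH : H ∣ Mz) {u u' : ℕ} (hu : u ∣ Mz) (hu' : u' ∣ Mz)
    (hb : Bad F x h Mz H u) (hb' : Bad F x h Mz H u') (he : toH F x h Mz H u = toH F x h Mz H u') :
    u = u' := by
  have hMz : Mz ≠ 0 := by rintro rfl; simp at hM; exact hM0 hM.symm
  have hu0 : u ≠ 0 := ne_zero_of_dvd_ne_zero hMz hu
  have hu0' : u' ≠ 0 := ne_zero_of_dvd_ne_zero hMz hu'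
  have hH0 : H ≠ 0 := ne_zero_of_dvd_ne_zero hMz hH
  have hv : ∀ p, H.factorization p ≤ Mz.factorization p := fun p =>
    (Nat.factorization_le_iff_dvd hH0 hMz).2 hH p
  have m1 := MM_setE hM hM0 hh hu hb.1 (hv _)
  have m2 := MM_setE hM hM0 hh hu' hb'.1 (hv _)
  have pp : (mm F x h Mz H u).Prime := by
    have := mm_mem hb.1
    unfold MM at this
    exact Nat.prime_of_mem_primeFactors (mem_filter.1 this).1
  have pp' : (mm F x h Mz H u').Prime := by
    have := mm_mem hb'.1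
    unfold MM at this
    exact Nat.prime_of_mem_primeFactors (mem_filter.1 this).1
  unfold toH at he
  have hp : mm F x h Mz H u = mm F x h Mz H u' := by
    rw [← m1.2, ← m2.2, he]
  have c1 := ctr_setE (F := F) hM hM0 hh hu pp (hv _) pp le_rfl
  have c2 := ctr_setE (F := F) hM hM0 hh hu' pp' (hv _) pp' le_rfl
  rw [hb.2] at c1
  rw [hb'.2] at c2
  rw [← hp] at c2 he
  rw [he, c2] at c1
  have hf : u'.factorization (mm F x h Mz H u) = u.factorization (mm F x h Mz H u) :=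
    Option.some.inj c1
  have g1 := setE_setE (u := u) (v := H.factorization (mm F x h Mz H u))
    (v' := u.factorization (mm F x h Mz H u)) hu0 pp
  have g2 := setE_setE (u := u') (v := H.factorization (mm F x h Mz H u))
    (v' := u.factorization (mm F x h Mz H u)) hu0' pp
  rw [setE_self] at g1
  rw [← hf, setE_self] at g2
  rw [← g1, ← g2, he, hf]

/-- **density of the mismatch words in a dyadic box** -/
lemma sum_bad {F : FL M} {x h Ma Mz H : ℕ} (hM : Ma * Mz = M) (hM0 : M ≠ 0)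
    (hh : h ∣ Ma) (hH : H ∣ Mz) (hx : 0 < x) (i : ℕ) :
    ∑ u ∈ Mz.divisors.filter (fun u => Nat.log 2 (ld H u) = i ∧ Bad F x h Mz H u), w Mz H u ≤
      6 / (x : ℝ) * 2 ^ i := by
  have hMz : Mz ≠ 0 := by rintro rfl; simp at hM; exact hM0 hM.symm
  have hMz0 : 0 < Mz := Nat.pos_of_ne_zero hMz
  have hH0 : H ≠ 0 := ne_zero_of_dvd_ne_zero hMz hH
  have hx0 : (0 : ℝ) < x := by exact_mod_cast hx
  have hv : ∀ p, H.factorization p ≤ Mz.factorization p := fun p =>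
    (Nat.factorization_le_iff_dvd hH0 hMz).2 hH p
  set S := Mz.divisors.filter (fun u => Nat.log 2 (ld H u) = i ∧ Bad F x h Mz H u) with hS
  set p : ℕ → ℕ := fun u => mm F x h Mz H u with hp
  have hSm : ∀ u ∈ S, u ∣ Mz ∧ Nat.log 2 (ld H u) = i ∧ Bad F x h Mz H u := by
    intro u hu
    rw [hS, mem_filter, Nat.mem_divisors] at hu
    exact ⟨hu.1.1, hu.2.1, hu.2.2⟩
  have hpp : ∀ u ∈ S, (p u).Prime ∧ x < p u ∧ u.factorization (p u) ≠ H.factorization (p u) := by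
    intro u hu
    obtain ⟨hu1, hu2, hb⟩ := hSm u hu
    have h1 := mm_mem hb.1
    unfold MM at h1
    rw [mem_filter] at h1
    obtain ⟨a1, a2, v, hv, hv'⟩ := h1
    have e := hb.2
    rw [hv] at e
    refine ⟨Nat.prime_of_mem_primeFactors a1, a2, ?_⟩
    rw [← Option.some.inj e]
    exact hv'
  have hinj : Set.InjOn (toH F x h Mz H) (S : Set ℕ) := by
    intro u hu u' hu' he
    rw [mem_coe] at hu hu'
    exact toH_inj hM hM0 hh hH (hSm u hu).1 (hSm u' hu').1 (hSm u hu).2.2 (hSm u' hu').2.2 he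
  have hdv : ∀ u ∈ S, toH F x h Mz H u ∣ Mz := fun u hu =>
    setE_dvd hMz (hSm u hu).1 (hpp u hu).1 (hv _)
  -- split
  have hsplit : ∑ u ∈ S, w Mz H u =
      ∑ u ∈ S.filter (fun u => H.factorization (p u) < u.factorization (p u)), w Mz H u +
      ∑ u ∈ S.filter (fun u => ¬ H.factorization (p u) < u.factorization (p u)), w Mz H u :=
    (sum_filter_add_sum_filter_not S _ _).symm
  rw [hsplit]
  have hA : ∑ u ∈ S.filter (fun u => H.factorization (p u) < u.factorization (p u)), w Mz H u ≤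
      2 / (x : ℝ) * 2 ^ i := by
    set S1 := S.filter (fun u => H.factorization (p u) < u.factorization (p u)) with hS1
    have hsub : ∀ u ∈ S1, u ∈ S := fun u hu => (mem_filter.1 hu).1
    calc ∑ u ∈ S1, w Mz H u ≤ ∑ u ∈ S1, 2 / (x : ℝ) * w Mz H (toH F x h Mz H u) := by
          refine sum_le_sum fun u hu => ?_
          have h1 := (w_setE hMz hH (hSm u (hsub u hu)).1 (hpp u (hsub u hu)).1).1
            (mem_filter.1 hu).2
          refine h1.1.trans ?_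
          refine mul_le_mul_of_nonneg_right ?_ (w_nonneg _ _ _)
          refine div_le_div_of_nonneg_left (by norm_num) hx0 ?_
          exact_mod_cast (hpp u (hsub u hu)).2.1.le
      _ = 2 / (x : ℝ) * ∑ u ∈ S1.image (toH F x h Mz H), w Mz H u := by
          rw [sum_image (fun u hu u' hu' he => hinj (hsub u hu) (hsub u' hu') he), mul_sum]
      _ ≤ 2 / (x : ℝ) * 2 ^ i := by
          refine mul_le_mul_of_nonneg_left ?_ (by positivity)
          refine le_trans (sum_le_sum_of_subset_of_nonneg ?_ ?_) (w_box hMz0 hH i)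
          · intro y hy
            rw [mem_image] at hy
            obtain ⟨u, hu, rfl⟩ := hy
            rw [mem_filter, Nat.mem_divisors]
            refine ⟨⟨hdv u (hsub u hu), hMz⟩, ?_⟩
            have h1 := (w_setE hMz hH (hSm u (hsub u hu)).1 (hpp u (hsub u hu)).1).1
              (mem_filter.1 hu).2
            have h2 := (hSm u (hsub u hu)).2.1
            rw [h1.2] at h2
            exact h2
          · intro u _ _
            exact w_nonneg _ _ _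
  have hB : ∑ u ∈ S.filter (fun u => ¬ H.factorization (p u) < u.factorization (p u)), w Mz H u ≤
      4 / (x : ℝ) * 2 ^ i := by
    set S1 := S.filter (fun u => ¬ H.factorization (p u) < u.factorization (p u)) with hS1
    have hsub : ∀ u ∈ S1, u ∈ S := fun u hu => (mem_filter.1 hu).1
    have hlt : ∀ u ∈ S1, u.factorization (p u) < H.factorization (p u) := by
      intro u hu
      have h1 := (mem_filter.1 hu).2
      have h2 := (hpp u (hsub u hu)).2.2
      omega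
    calc ∑ u ∈ S1, w Mz H u ≤ ∑ u ∈ S1, 2 * w Mz H (toH F x h Mz H u) := by
          refine sum_le_sum fun u hu => ?_
          exact ((w_setE hMz hH (hSm u (hsub u hu)).1 (hpp u (hsub u hu)).1).2 (hlt u hu)).1
      _ = 2 * ∑ u ∈ S1.image (toH F x h Mz H), w Mz H u := by
          rw [sum_image (fun u hu u' hu' he => hinj (hsub u hu) (hsub u' hu') he), mul_sum]
      _ ≤ 2 * ∑ u ∈ Mz.divisors.filter (fun u => ld H u * x ≤ 2 ^ (i + 1)), w Mz H u := by
          refine mul_le_mul_of_nonneg_left ?_ (by norm_num)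
          refine sum_le_sum_of_subset_of_nonneg ?_ ?_
          · intro y hy
            rw [mem_image] at hy
            obtain ⟨u, hu, rfl⟩ := hy
            rw [mem_filter, Nat.mem_divisors]
            refine ⟨⟨hdv u (hsub u hu), hMz⟩, ?_⟩
            have h1 := ((w_setE hMz hH (hSm u (hsub u hu)).1 (hpp u (hsub u hu)).1).2
              (hlt u hu)).2
            have h2 := (hSm u (hsub u hu)).2.1
            have h3 : ld H u < 2 ^ (i + 1) := by
              rw [← h2]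
              exact Nat.lt_pow_succ_log_self (by norm_num) _
            have h4 := (hpp u (hsub u hu)).2.1
            calc ld H (toH F x h Mz H u) * x ≤ ld H (toH F x h Mz H u) * p u :=
                  Nat.mul_le_mul_left _ h4.le
              _ = p u * ld H (toH F x h Mz H u) := Nat.mul_comm _ _
              _ ≤ ld H u := h1
              _ ≤ 2 ^ (i + 1) := h3.le
          · intro u _ _
            exact w_nonneg _ _ _
      _ ≤ 2 * ((Finset.Icc 1 (2 ^ (i + 1) / x)).card : ℝ) := by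
          refine mul_le_mul_of_nonneg_left ?_ (by norm_num)
          refine w_set hMz0 hH _ _ fun u _ hu => ?_
          rw [Finset.mem_Icc]
          exact ⟨ld_pos (Nat.pos_of_ne_zero hH0), (Nat.le_div_iff_mul_le hx).2 hu⟩
      _ ≤ 2 * (((2 ^ (i + 1) : ℕ) : ℝ) / x) := by
          refine mul_le_mul_of_nonneg_left ?_ (by norm_num)
          rw [Nat.card_Icc, Nat.add_sub_cancel]
          exact Nat.cast_div_le
      _ = 4 / (x : ℝ) * 2 ^ i := by
          push_cast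
          rw [pow_succ]
          ring
  have : 6 / (x : ℝ) * 2 ^ i = 2 / (x : ℝ) * 2 ^ i + 4 / (x : ℝ) * 2 ^ i := by ring
  rw [this]
  exact add_le_add hA hB

/-! ## counting the deficits -/

/-- `∏_{p ≤ x} (1 - 1/p)⁻¹` -/
noncomputable def Sm (x : ℕ) : ℝ := ∏ p ∈ (x + 1).primesBelow, (1 - (p : ℝ) ^ (-(1 : ℝ)))⁻¹

lemma Sm_nonneg (x : ℕ) : 0 ≤ Sm x := by
  unfold Sm
  refine Finset.prod_nonneg fun p hp => inv_nonneg.2 ?_
  have hp' := Nat.prime_of_mem_primesBelow hp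
  have : (p : ℝ) ^ (-(1 : ℝ)) ≤ 1 :=
    Real.rpow_le_one_of_one_le_of_nonpos (by exact_mod_cast hp'.one_lt.le) (by norm_num)
  linarith

/-- all prime factors are `> x` -/
def Rough (x n : ℕ) : Prop := ∀ p, p.Prime → p ∣ n → x < p

lemma count_le {R : ℕ → Prop} {x A : ℕ} {ρ : ℝ} (hA : 0 < A) (hAr : Rough x A) (hρ : 0 ≤ ρ)
    (hR : ∀ N : ℕ, (((Finset.Icc 1 N).filter (fun n => Rough x n ∧ R n)).card : ℝ) ≤ ρ * N)
    (j : ℕ) :
    (((Finset.Ico (2 ^ j) (2 ^ (j + 1))).filter (fun l => R (A * upp x l))).card : ℝ) ≤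
      ρ * A * 2 ^ (j + 1) * Sm x := by
  set Y := 2 ^ (j + 1) with hY
  set S := (Finset.Ico (2 ^ j) Y).filter (fun l => R (A * upp x l)) with hS
  set Λ := (Finset.Icc 1 Y).filter (fun n => n ∈ Nat.smoothNumbers (x + 1)) with hΛ
  have hS1 : ∀ l ∈ S, 0 < l ∧ l < Y ∧ R (A * upp x l) := by
    intro l hl
    rw [hS, mem_filter, Finset.mem_Ico] at hl
    exact ⟨lt_of_lt_of_le (pow_pos (by norm_num) j) hl.1.1, hl.1.2, hl.2⟩
  have hmap : ∀ l ∈ S, low x l ∈ Λ := by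
    intro l hl
    obtain ⟨h1, h2, _⟩ := hS1 l hl
    rw [hΛ, mem_filter, Finset.mem_Icc]
    refine ⟨⟨low_pos x l, (Nat.le_of_dvd h1 (low_dvd_self x l)).trans h2.le⟩, ?_⟩
    rw [Nat.mem_smoothNumbers']
    intro p hp hpl
    have := prime_dvd_part (S := fun p => p ≤ x) hp hpl
    omega
  have h1 : (S.card : ℝ) = ∑ n ∈ Λ, ((S.filter (fun l => low x l = n)).card : ℝ) := by
    rw [card_eq_sum_card_fiberwise hmap]
    push_cast
    rfl
  rw [h1]
  have h2 : ∀ n ∈ Λ, ((S.filter (fun l => low x l = n)).card : ℝ) ≤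
      ρ * A * Y * (n : ℝ) ^ (-(1 : ℝ)) := by
    intro n hn
    rw [hΛ, mem_filter, Finset.mem_Icc] at hn
    have hn0 : 0 < n := hn.1.1
    have h3 : (S.filter (fun l => low x l = n)).card ≤
        ((Finset.Icc 1 (A * (Y / n))).filter (fun m => Rough x m ∧ R m)).card := by
      refine card_le_card_of_injOn (fun l => A * upp x l) ?_ ?_
      · intro l hl
        rw [mem_coe, mem_filter] at hl
        obtain ⟨hl1, hl2⟩ := hl
        obtain ⟨g1, g2, g3⟩ := hS1 l hl1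
        rw [mem_coe, mem_filter, Finset.mem_Icc]
        have e := low_mul_upp x g1.ne'
        rw [hl2] at e
        refine ⟨⟨Nat.mul_pos hA (upp_pos x l), Nat.mul_le_mul_left A ?_⟩, ?_, g3⟩
        · rw [Nat.le_div_iff_mul_le hn0, Nat.mul_comm, e]
          exact g2.le
        · intro p hp hpd
          rcases (Nat.Prime.dvd_mul hp).1 hpd with h5 | h5
          · exact hAr p hp h5
          · have := prime_dvd_part (S := fun p => ¬ p ≤ x) hp h5
            omega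
      · intro l hl l' hl' he
        rw [mem_coe, mem_filter] at hl hl'
        have e := low_mul_upp x (hS1 l hl.1).1.ne'
        have e' := low_mul_upp x (hS1 l' hl'.1).1.ne'
        have he' : upp x l = upp x l' := Nat.eq_of_mul_eq_mul_left hA he
        rw [← e, ← e', hl.2, hl'.2, he']
    have h4 : ((S.filter (fun l => low x l = n)).card : ℝ) ≤
        (((Finset.Icc 1 (A * (Y / n))).filter (fun m => Rough x m ∧ R m)).card : ℝ) := by
      exact_mod_cast h3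
    refine (h4.trans (hR _)).trans ?_
    rw [Real.rpow_neg_one]
    have h5 : ((Y / n : ℕ) : ℝ) ≤ (Y : ℝ) / n := Nat.cast_div_le
    push_cast
    calc ρ * ((A : ℝ) * ((Y / n : ℕ) : ℝ)) ≤ ρ * ((A : ℝ) * ((Y : ℝ) / n)) := by gcongr
      _ = _ := by rw [div_eq_mul_inv]; ring
  refine (sum_le_sum h2).trans ?_
  rw [← mul_sum]
  have h6 := Rankinx524.sum_le_prod 1 one_pos (x + 1) Λ (fun n hn => (mem_filter.1 hn).2)
  have h7 : (0 : ℝ) ≤ ρ * A * Y := by positivity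
  have h8 : ((Y : ℕ) : ℝ) = 2 ^ (j + 1) := by rw [hY]; push_cast; rfl
  rw [← h8]
  exact mul_le_mul_of_nonneg_left h6 h7

/-- the active part of the deficit -/
def AwE (F : FL M) (x b h' p : ℕ) : ℕ := if x < p then (match F.ctr b p with
  | some v => v - h'.factorization p
  | none => 0) else 0

/-- the active part of the deficit -/
def Aw (F : FL M) (x Ma b h' : ℕ) : ℕ := ∏ p ∈ Ma.primeFactors, p ^ AwE F x b h' p

/-- distance of the active words -/
def DD (Ma h h' : ℕ) : ℕ := ∏ p ∈ Ma.primeFactors, p ^ dst (h.factorization p) (h'.factorization p)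

lemma fact_pr (N : ℕ) (e : ℕ → ℕ) (p : ℕ) :
    (∏ p ∈ N.primeFactors, p ^ e p).factorization p = if p ∈ N.primeFactors then e p else 0 :=
  FL.fact_prod (M := N) e p

lemma Aw_pos (F : FL M) (x Ma b h' : ℕ) : 0 < Aw F x Ma b h' :=
  Finset.prod_pos fun _ hp => pow_pos (Nat.prime_of_mem_primeFactors hp).pos _


lemma Aw_rough (F : FL M) (x Ma b h' : ℕ) : Rough x (Aw F x Ma b h') := by
  intro p hp hpd
  have h1 : 0 < (Aw F x Ma b h').factorization p :=
    hp.factorization_pos_of_dvd (Aw_pos F x Ma b h').ne' hpd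
  unfold Aw at h1
  rw [fact_pr] at h1
  split_ifs at h1 with h2
  · unfold AwE at h1
    by_contra hc
    rw [if_neg hc] at h1
    omega
  · exact absurd h1 (lt_irrefl 0)

lemma fact_ld {Mz H v p : ℕ} (hH : H ≠ 0) (hv : v ≠ 0) :
    (ld H v).factorization p = H.factorization p - v.factorization p := by
  unfold ld
  rw [Nat.factorization_div (Nat.gcd_dvd_left _ _)]
  simp only [Finsupp.coe_tsub, Pi.sub_apply]
  rw [Nat.factorization_gcd hH hv]
  simp only [Finsupp.inf_apply]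
  omega

lemma ell_eq {F : FL M} {x h h' Ma Mz H u v : ℕ} (hM : Ma * Mz = M) (hM0 : M ≠ 0)
    (hcop : Nat.Coprime Ma Mz) (hh : h ∣ Ma) (hh' : h' ∣ Ma) (hH : H ∣ Mz) (hu : u ∣ Mz)
    (hv : v ∣ Mz) (hg : F.good x (h * u) (h' * v)) (hl : lvl Mz H u v)
    (he : ¬ (MM F x h Mz H u).Nonempty) :
    F.ell x (h' * v) = Aw F x Ma (h * u) h' * upp x (ld H v) := by
  have hMz : Mz ≠ 0 := by rintro rfl; simp at hM; exact hM0 hM.symm
  have hMa : Ma ≠ 0 := by rintro rfl; simp at hM; exact hM0 hM.symm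
  have hu0 : u ≠ 0 := ne_zero_of_dvd_ne_zero hMz hu
  have hv0 : v ≠ 0 := ne_zero_of_dvd_ne_zero hMz hv
  have hh0 : h ≠ 0 := ne_zero_of_dvd_ne_zero hMa hh
  have hh0' : h' ≠ 0 := ne_zero_of_dvd_ne_zero hMa hh'
  have hH0 : H ≠ 0 := ne_zero_of_dvd_ne_zero hMz hH
  have d1 : h * u ∣ M := hM ▸ Nat.mul_dvd_mul hh hu
  have d2 : h' * v ∣ M := hM ▸ Nat.mul_dvd_mul hh' hv
  have hl0 : ld H v ≠ 0 := (ld_pos (Nat.pos_of_ne_zero hH0)).ne'
  refine Nat.eq_of_factorization_eq (FL.ell_pos x _).ne'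
    (mul_ne_zero (Aw_pos F x Ma _ h').ne' (upp_pos x _).ne') fun p => ?_
  rw [Nat.factorization_mul (Aw_pos F x Ma _ h').ne' (upp_pos x _).ne', Finsupp.add_apply,
    FL.fact_ell, fact_upp, fact_ld (Mz := Mz) hH0 hv0]
  unfold Aw
  rw [fact_pr]
  have hz : ∀ {n N : ℕ}, N ≠ 0 → n ∣ N → p ∉ N.primeFactors → n.factorization p = 0 := by
    intro n N hN hn hp
    exact FL.fact_zero (M := N) (Nat.pos_of_ne_zero hN) hn hp
  have hMf : M.primeFactors = Ma.primeFactors ∪ Mz.primeFactors := by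
    rw [← hM, Nat.primeFactors_mul hMa hMz]
  by_cases hx : x < p
  · have hx' : ¬ p ≤ x := by omega
    by_cases ha : p ∈ Ma.primeFactors
    · have hpp := Nat.prime_of_mem_primeFactors ha
      have hz' : p ∉ Mz.primeFactors := fun h5 => by
        have := Nat.Coprime.disjoint_primeFactors hcop
        exact (Finset.disjoint_left.1 this) ha h5
      have hm : p ∈ M.primeFactors := by rw [hMf]; exact mem_union_left _ ha
      simp only [hm, ha, if_true, hx', not_false_eq_true]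
      rw [hz hMz hH hz', Nat.zero_sub, add_zero]
      unfold FL.ellE AwE
      simp only [hx, if_true]
      rw [FL.ctr_eq d1 d2 hg.1 hpp hx.le, Nat.factorization_mul hh0' hv0, Finsupp.add_apply,
        hz hMz hv hz', add_zero]
      cases F.ctr (h' * v) p <;> rfl
    · by_cases hb : p ∈ Mz.primeFactors
      · have hpp := Nat.prime_of_mem_primeFactors hb
        have hm : p ∈ M.primeFactors := by rw [hMf]; exact mem_union_right _ hb
        simp only [hm, ha, if_true, if_false, hx', not_false_eq_true, zero_add]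
        unfold FL.ellE
        simp only [hx, if_true]
        rw [← FL.ctr_eq d1 d2 hg.1 hpp hx.le, Nat.factorization_mul hh0' hv0, Finsupp.add_apply,
          hz hMa hh' ha, zero_add]
        cases hc : F.ctr (h * u) p with
        | none =>
          simp only
          have h5 := hg.1 p hpp hx hc
          rw [Nat.factorization_mul hh0 hu0, Nat.factorization_mul hh0' hv0, Finsupp.add_apply,
            Finsupp.add_apply, hz hMa hh ha, hz hMa hh' ha] at h5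
          have h6 := hl p hb
          omega
        | some v0 =>
          simp only
          have h5 : v0 = H.factorization p := by
            by_contra h7
            refine he ⟨p, ?_⟩
            unfold MM
            rw [mem_filter]
            exact ⟨hb, hx, v0, hc, h7⟩
          rw [h5]
      · have hm : p ∉ M.primeFactors := by
          rw [hMf, mem_union]; tauto
        simp only [hm, ha, if_false, zero_add]
        rw [hz hMz hH hb, Nat.zero_sub, ite_self]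
  · have hx' : p ≤ x := by omega
    unfold FL.ellE AwE
    simp [hx, hx']

lemma Aw_le {F : FL M} {x h h' Ma Mz u v : ℕ} (hM : Ma * Mz = M) (hM0 : M ≠ 0)
    (hcop : Nat.Coprime Ma Mz) (hh : h ∣ Ma) (hh' : h' ∣ Ma) (hu : u ∣ Mz)
    (hv : v ∣ Mz) (hg : F.good x (h * u) (h' * v)) : Aw F x Ma (h * u) h' ≤ DD Ma h h' := by
  have hMz : Mz ≠ 0 := by rintro rfl; simp at hM; exact hM0 hM.symm
  have hMa : Ma ≠ 0 := by rintro rfl; simp at hM; exact hM0 hM.symm
  have hu0 : u ≠ 0 := ne_zero_of_dvd_ne_zero hMz hu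
  have hv0 : v ≠ 0 := ne_zero_of_dvd_ne_zero hMz hv
  have hh0 : h ≠ 0 := ne_zero_of_dvd_ne_zero hMa hh
  have hh0' : h' ≠ 0 := ne_zero_of_dvd_ne_zero hMa hh'
  unfold Aw DD
  refine Finset.prod_le_prod' fun p hp => ?_
  have hpp := Nat.prime_of_mem_primeFactors hp
  refine Nat.pow_le_pow_right hpp.pos ?_
  have hz' : p ∉ Mz.primeFactors := fun h5 => by
    have := Nat.Coprime.disjoint_primeFactors hcop
    exact (Finset.disjoint_left.1 this) hp h5
  have zu : u.factorization p = 0 := FL.fact_zero (M := Mz) (Nat.pos_of_ne_zero hMz) hu hz'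
  have zv : v.factorization p = 0 := FL.fact_zero (M := Mz) (Nat.pos_of_ne_zero hMz) hv hz'
  unfold AwE
  by_cases hx : x < p
  · simp only [hx, if_true]
    cases hc : F.ctr (h * u) p with
    | none => simp
    | some v0 =>
      simp only
      have h5 := hg.2 p hpp hx v0 hc
      rw [Nat.factorization_mul hh0 hu0, Nat.factorization_mul hh0' hv0, Finsupp.add_apply,
        Finsupp.add_apply, zu, zv] at h5
      unfold dst
      omega
  · simp [hx]

lemma FF_le_DD {κ δ c : ℝ} (hδ0 : 0 < δ) {p0 : ℕ} (hc : 0 < c)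
    (hX : ∀ p : ℕ, p0 ≤ p → c * X1 κ δ p ≤ 1 / 2)
    (Ma h h' : ℕ) : FF δ (gg κ δ c p0) Ma h h' ≤ (DD Ma h h' : ℝ) ^ (-δ) := by
  unfold FF DD
  push_cast
  rw [← Real.finsetProd_rpow]
  · refine Finset.prod_le_prod (fun p hp => ?_) fun p hp => ?_
    · split_ifs
      · unfold gg
        split_ifs with h1
        · have := hX p h1; linarith
        · norm_num
      · positivity
    · split_ifs with h1
      · rw [h1, dst_self, pow_zero, Real.one_rpow]
        unfold gg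
        split_ifs with h1
        · have : 0 ≤ X1 κ δ p := by unfold X1; positivity
          have : 0 ≤ c * X1 κ δ p := by positivity
          linarith
        · exact le_rfl
      · rw [← Real.rpow_natCast, ← Real.rpow_mul (Nat.cast_nonneg _)]
        refine le_of_eq ?_
        congr 1
        ring
  · intro p _
    positivity

/-! ## the leaf hypothesis -/

/-- the pair relation -/
noncomputable def KK (F : FL M) (x : ℕ) (R : ℕ → ℕ → Prop) (b c : ℕ) : ℝ :=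
  if F.good x b c ∧ R b (F.ell x c) then 1 else 0

lemma KK_nonneg (F : FL M) (x : ℕ) (R : ℕ → ℕ → Prop) (b c : ℕ) : 0 ≤ KK F x R b c := by
  unfold KK; split_ifs <;> norm_num

lemma KK_le_one (F : FL M) (x : ℕ) (R : ℕ → ℕ → Prop) (b c : ℕ) : KK F x R b c ≤ 1 := by
  unfold KK; split_ifs <;> norm_num

/-- third kind of pairs -/
def Q3 (F : FL M) (x Ma h h' : ℕ) (R : ℕ → ℕ → Prop) (H u v : ℕ) : Prop :=
  Aw F x Ma (h * u) h' ≤ DD Ma h h' ∧ R (h * u) (Aw F x Ma (h * u) h' * upp x (ld H v))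

lemma trichotomy {F : FL M} {x h h' Ma Mz H u v : ℕ} {R : ℕ → ℕ → Prop} (hM : Ma * Mz = M)
    (hM0 : M ≠ 0)
    (hcop : Nat.Coprime Ma Mz) (hh : h ∣ Ma) (hh' : h' ∣ Ma) (hH : H ∣ Mz) (hu : u ∣ Mz)
    (hv : v ∣ Mz) (hg : F.good x (h * u) (h' * v)) (hl : lvl Mz H u v)
    (hR : R (h * u) (F.ell x (h' * v))) :
    Bad F x h Mz H u ∨ Bad F x h' Mz H v ∨ Q3 F x Ma h h' R H u v := by
  have hMz : Mz ≠ 0 := by rintro rfl; simp at hM; exact hM0 hM.symm
  have hMa : Ma ≠ 0 := by rintro rfl; simp at hM; exact hM0 hM.symm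
  have hu0 : u ≠ 0 := ne_zero_of_dvd_ne_zero hMz hu
  have hv0 : v ≠ 0 := ne_zero_of_dvd_ne_zero hMz hv
  have hh0 : h ≠ 0 := ne_zero_of_dvd_ne_zero hMa hh
  have hh0' : h' ≠ 0 := ne_zero_of_dvd_ne_zero hMa hh'
  have d1 : h * u ∣ M := hM ▸ Nat.mul_dvd_mul hh hu
  have d2 : h' * v ∣ M := hM ▸ Nat.mul_dvd_mul hh' hv
  by_cases he : (MM F x h Mz H u).Nonempty
  · have hc : ∀ q, q.Prime → x < q → F.ctr (h * u) q = F.ctr (h' * v) q := fun q hq hxq =>
      FL.ctr_eq d1 d2 hg.1 hq hxq.le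
    have hMM : MM F x h Mz H u = MM F x h' Mz H v := by
      unfold MM
      refine Finset.filter_congr fun q hq => ?_
      have hqp := Nat.prime_of_mem_primeFactors hq
      constructor
      · rintro ⟨h1, h2⟩
        exact ⟨h1, by rw [← hc q hqp h1]; exact h2⟩
      · rintro ⟨h1, h2⟩
        exact ⟨h1, by rw [hc q hqp h1]; exact h2⟩
    have hmm : mm F x h Mz H u = mm F x h' Mz H v := by unfold mm; rw [hMM]
    have h1 := mm_mem he
    set p := mm F x h Mz H u with hp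
    have h2 : p ∈ MM F x h Mz H u := h1
    unfold MM at h2
    rw [mem_filter] at h2
    obtain ⟨hpm, hxp, v0, hv0c, hv0'⟩ := h2
    have hpp := Nat.prime_of_mem_primeFactors hpm
    have hpa : p ∉ Ma.primeFactors := fun h5 =>
      (Finset.disjoint_left.1 (Nat.Coprime.disjoint_primeFactors hcop)) h5 hpm
    have za : h.factorization p = 0 := FL.fact_zero (M := Ma) (Nat.pos_of_ne_zero hMa) hh hpa
    have za' : h'.factorization p = 0 := FL.fact_zero (M := Ma) (Nat.pos_of_ne_zero hMa) hh' hpa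
    have h5 := hg.2 p hpp hxp v0 hv0c
    rw [Nat.factorization_mul hh0 hu0, Nat.factorization_mul hh0' hv0, Finsupp.add_apply,
      Finsupp.add_apply, za, za', zero_add, zero_add] at h5
    rcases h5 with h5 | h5
    · left
      refine ⟨he, ?_⟩
      rw [← hp, h5]; exact hv0c
    · right; left
      refine ⟨hMM ▸ he, ?_⟩
      rw [← hmm, h5, ← hc p hpp hxp]; exact hv0c
  · right; right
    refine ⟨Aw_le hM hM0 hcop hh hh' hu hv hg, ?_⟩
    rw [← ell_eq hM hM0 hcop hh hh' hH hu hv hg hl he]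
    exact hR

/-- **the relation `good ∧ R` in an arbitrary model** with `DD ≤ x` -/
lemma rhoB {F : FL M} {x h h' Ma Mz H : ℕ} {R : ℕ → ℕ → Prop} {ρ : ℝ} (hM : Ma * Mz = M)
    (hM0 : M ≠ 0) (hx : 0 < x) (hρ : 0 ≤ ρ)
    (hcop : Nat.Coprime Ma Mz) (hh : h ∣ Ma) (hh' : h' ∣ Ma) (hH : H ∣ Mz)
    (hD : DD Ma h h' ≤ x)
    (hR : ∀ b, b ∣ M → ∀ N : ℕ,
      (((Finset.Icc 1 N).filter (fun n => Rough x n ∧ R b n)).card : ℝ) ≤ ρ * N) :
    RhoB Mz H (fun u v => KK F x R (h * u) (h' * v)) (12 / (x : ℝ) + 2 * Sm x * ρ) := by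
  have hMz : Mz ≠ 0 := by rintro rfl; simp at hM; exact hM0 hM.symm
  have hMz0 : 0 < Mz := Nat.pos_of_ne_zero hMz
  have hMa : Ma ≠ 0 := by rintro rfl; simp at hM; exact hM0 hM.symm
  have hH0 : H ≠ 0 := ne_zero_of_dvd_ne_zero hMz hH
  have hx0 : (0 : ℝ) < x := by exact_mod_cast hx
  intro i j
  have hSm := Sm_nonneg x
  set U := Mz.divisors.filter (fun b => Nat.log 2 (H / Nat.gcd H b) = i) with hU
  set V := Mz.divisors.filter (fun b => Nat.log 2 (H / Nat.gcd H b) = j) with hV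
  have hUm : ∀ u ∈ U, u ∣ Mz := fun u hu => (Nat.mem_divisors.1 (mem_filter.1 hu).1).1
  have hVm : ∀ u ∈ V, u ∣ Mz := fun u hu => (Nat.mem_divisors.1 (mem_filter.1 hu).1).1
  have hw := w_nonneg Mz H
  -- pointwise
  have hpt : ∀ u ∈ U, ∀ v ∈ V,
      (if lvl Mz H u v then ((Nat.gcd H u : ℝ) * nu Mz u) * ((Nat.gcd H v : ℝ) * nu Mz v) *
        KK F x R (h * u) (h' * v) else 0) ≤
      (if Bad F x h Mz H u then w Mz H u else 0) * w Mz H v +
      w Mz H u * (if Bad F x h' Mz H v then w Mz H v else 0) +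
      w Mz H u * (if Q3 F x Ma h h' R H u v then w Mz H v else 0) := by
    intro u hu v hv
    have hwu := hw u
    have hwv := hw v
    have n1 : 0 ≤ (if Bad F x h Mz H u then w Mz H u else 0) := by split_ifs <;> simp [hwu]
    have n2 : 0 ≤ (if Bad F x h' Mz H v then w Mz H v else 0) := by split_ifs <;> simp [hwv]
    have n3 : 0 ≤ (if Q3 F x Ma h h' R H u v then w Mz H v else 0) := by
      split_ifs <;> simp [hwv]
    have m1 := mul_nonneg n1 hwv
    have m2 := mul_nonneg hwu n2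
    have m3 := mul_nonneg hwu n3
    by_cases h1 : lvl Mz H u v
    · rw [if_pos h1]
      unfold KK
      by_cases hg : F.good x (h * u) (h' * v) ∧ R (h * u) (F.ell x (h' * v))
      · rw [if_pos hg, mul_one]
        have e : (Nat.gcd H u : ℝ) * nu Mz u * ((Nat.gcd H v : ℝ) * nu Mz v) =
            w Mz H u * w Mz H v := rfl
        rw [e]
        rcases trichotomy hM hM0 hcop hh hh' hH (hUm u hu) (hVm v hv) hg.1 h1 hg.2 with h2 | h2 | h2
        · rw [if_pos h2] at m1 ⊢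
          linarith
        · rw [if_pos h2] at m2 ⊢
          linarith
        · rw [if_pos h2] at m3 ⊢
          linarith
      · rw [if_neg hg, mul_zero]
        linarith
    · rw [if_neg h1]
      linarith
  have hboxU : ∑ u ∈ U, w Mz H u ≤ 2 ^ i := w_box hMz0 hH i
  have hboxV : ∑ u ∈ V, w Mz H u ≤ 2 ^ j := w_box hMz0 hH j
  have hbadU : ∑ u ∈ U, (if Bad F x h Mz H u then w Mz H u else 0) ≤ 6 / (x : ℝ) * 2 ^ i := by
    rw [← sum_filter, hU, filter_filter]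
    exact sum_bad hM hM0 hh hH hx i
  have hbadV : ∑ u ∈ V, (if Bad F x h' Mz H u then w Mz H u else 0) ≤ 6 / (x : ℝ) * 2 ^ j := by
    rw [← sum_filter, hV, filter_filter]
    exact sum_bad hM hM0 hh' hH hx j
  have hq : ∀ u ∈ U, ∑ v ∈ V, (if Q3 F x Ma h h' R H u v then w Mz H v else 0) ≤
      2 * Sm x * ρ * 2 ^ j := by
    intro u hu
    by_cases hA : Aw F x Ma (h * u) h' ≤ DD Ma h h'
    · have hA0 := Aw_pos F x Ma (h * u) h'
      have hAR := Aw_rough F x Ma (h * u) h'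
      have hA1 : Aw F x Ma (h * u) h' = 1 := by
        by_contra hne
        obtain ⟨p, hp, hpd⟩ := Nat.exists_prime_and_dvd hne
        have h5 := hAR p hp hpd
        have h6 := Nat.le_of_dvd hA0 hpd
        omega
      have hbM : h * u ∣ M := hM ▸ Nat.mul_dvd_mul hh (hUm u hu)
      have hcnt := count_le (R := R (h * u)) hA0 hAR hρ (hR _ hbM) j
      have hs : ∑ v ∈ V, (if Q3 F x Ma h h' R H u v then w Mz H v else 0) ≤
          (((Finset.Ico (2 ^ j) (2 ^ (j + 1))).filter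
            (fun l => R (h * u) (Aw F x Ma (h * u) h' * upp x l))).card : ℝ) := by
        rw [← sum_filter, hV, filter_filter]
        refine w_set hMz0 hH _ _ fun v hv hvv => ?_
        rw [mem_filter, Finset.mem_Ico]
        refine ⟨?_, hvv.2.2⟩
        have h3 : Nat.log 2 (ld H v) = j := hvv.1
        rw [← h3]
        exact ⟨Nat.pow_log_le_self 2 (ld_pos (Nat.pos_of_ne_zero hH0)).ne',
          Nat.lt_pow_succ_log_self (by norm_num) _⟩
      refine (hs.trans hcnt).trans ?_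
      rw [hA1, Nat.cast_one, pow_succ]
      exact le_of_eq (by ring)
    · have : ∑ v ∈ V, (if Q3 F x Ma h h' R H u v then w Mz H v else 0) = 0 := by
        refine Finset.sum_eq_zero fun v _ => ?_
        rw [if_neg]
        intro h5
        exact hA h5.1
      rw [this]
      positivity
  calc _ ≤ ∑ u ∈ U, ∑ v ∈ V, ((if Bad F x h Mz H u then w Mz H u else 0) * w Mz H v +
        w Mz H u * (if Bad F x h' Mz H v then w Mz H v else 0) +
        w Mz H u * (if Q3 F x Ma h h' R H u v then w Mz H v else 0)) :=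
        sum_le_sum fun u hu => sum_le_sum fun v hv => hpt u hu v hv
    _ = (∑ u ∈ U, (if Bad F x h Mz H u then w Mz H u else 0)) * (∑ v ∈ V, w Mz H v) +
        (∑ u ∈ U, w Mz H u) * (∑ v ∈ V, (if Bad F x h' Mz H v then w Mz H v else 0)) +
        ∑ u ∈ U, w Mz H u * ∑ v ∈ V, (if Q3 F x Ma h h' R H u v then w Mz H v else 0) := by
        rw [sum_mul_sum, sum_mul_sum, ← sum_add_distrib, ← sum_add_distrib]
        refine sum_congr rfl fun u _ => ?_
        rw [sum_add_distrib, sum_add_distrib, mul_sum]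
    _ ≤ 6 / (x : ℝ) * 2 ^ i * 2 ^ j + 2 ^ i * (6 / (x : ℝ) * 2 ^ j) +
        2 ^ i * (2 * Sm x * ρ * 2 ^ j) := by
        have s1 : 0 ≤ ∑ v ∈ V, w Mz H v := sum_nonneg fun v _ => hw v
        have s2 : 0 ≤ ∑ v ∈ V, (if Bad F x h' Mz H v then w Mz H v else 0) :=
          sum_nonneg fun v _ => by split_ifs <;> simp [hw v]
        refine add_le_add (add_le_add ?_ ?_) ?_
        · exact mul_le_mul hbadU hboxV s1 (by positivity)
        · exact mul_le_mul hboxU hbadV s2 (by positivity)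
        · calc _ ≤ ∑ u ∈ U, w Mz H u * (2 * Sm x * ρ * 2 ^ j) :=
              sum_le_sum fun u hu => mul_le_mul_of_nonneg_left (hq u hu) (hw u)
            _ = (∑ u ∈ U, w Mz H u) * (2 * Sm x * ρ * 2 ^ j) := (sum_mul _ _ _).symm
            _ ≤ _ := mul_le_mul_of_nonneg_right hboxU (by positivity)
    _ = _ := by ring

/-- **LEMMA III-R.**  Good pairs (above the cut `x`) with `R b (ell x c)`, where for every `b` the
`x`-rough integers `n` with `R b n` have density `≤ ρ`: the energy at one scale gains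
`(12/x + 2 Sm x ρ)^(1-κ) + x^(-δ)` (`1 - κ = (1-η)/2` for `2κ = 1 + η`). -/
theorem IIIR {κ : ℝ} (hκ : 1 / 2 < κ) (hκ1 : κ < 1) :
    ∃ δ C : ℝ, 0 < δ ∧ δ ≤ 1 ∧ 0 < C ∧
      ∀ (M : ℕ) (F : FL M) (x : ℕ) (X ρ : ℝ) (f f' : ℕ → ℝ) (R : ℕ → ℕ → Prop), M ≠ 0 → 0 < x →
      0 < X → 0 ≤ ρ →
      (∀ b, 0 ≤ f b) → (∀ b, f b ≤ 1) → (∀ b, 0 ≤ f' b) → (∀ b, f' b ≤ 1) →
      (∀ b, b ∣ M → ∀ N : ℕ,
        (((Finset.Icc 1 N).filter (fun n => Rough x n ∧ R b n)).card : ℝ) ≤ ρ * N) →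
      ∑ b ∈ M.divisors, ∑ c ∈ M.divisors,
        (if X < (Nat.gcd b c : ℝ) ∧ (Nat.gcd b c : ℝ) ≤ 2 * X then
          (Nat.gcd b c : ℝ) * nu M b * nu M c * (f b * f' c *
            (if F.good x b c ∧ R b (F.ell x c) then 1 else 0))
        else 0) ≤ C * X ^ (2 * κ - 1) *
          ((12 / (x : ℝ) + 2 * Sm x * ρ) ^ (1 - κ) + (x : ℝ) ^ (-δ)) *
          ((∑ b ∈ M.divisors, nu M b * f b) ^ κ * (∑ b ∈ M.divisors, nu M b * f' b) ^ κ) := by
  obtain ⟨δ, hδ0, hδ⟩ := exists_delta hκ hκ1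
  obtain ⟨c, C, p0, hc, hC, hX, h⟩ := thmR_b hκ hκ1 hδ0 hδ
  have hδκ : δ ≤ 1 - κ := by
    by_contra hcon
    have h1 := not_le.1 hcon
    have : (1 - κ) * (2 * κ) < δ * (2 * κ) := mul_lt_mul_of_pos_right h1 (by linarith)
    nlinarith
  refine ⟨δ, C, hδ0, by linarith, hC, ?_⟩
  intro M F x X ρ f f' R hM hx hX0 hρ hf hf1 hf' hf1' hR
  have hx0 : (0 : ℝ) < x := by exact_mod_cast hx
  have hSm := Sm_nonneg x
  have hr0 : 0 ≤ 12 / (x : ℝ) + 2 * Sm x * ρ := by positivity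
  have hV1 : 0 ≤ (12 / (x : ℝ) + 2 * Sm x * ρ) ^ (1 - κ) := by positivity
  have hV2 : 0 ≤ (x : ℝ) ^ (-δ) := by positivity
  refine h M X ((12 / (x : ℝ) + 2 * Sm x * ρ) ^ (1 - κ) + (x : ℝ) ^ (-δ)) f f' (KK F x R) hM hX0
    (by positivity) hf hf1 hf' hf1' (KK_nonneg F x R) (KK_le_one F x R) ?_
  intro Ma Mz H h h' hMM hcop hh hh' hH
  have hMz : Mz ≠ 0 := by rintro rfl; simp at hMM; exact hM hMM.symm
  have hFF := FF_le_DD (κ := κ) hδ0 hc hX Ma h h'
  have hFF0 : 0 ≤ FF δ (gg κ δ c p0) Ma h h' := FF_nonneg hX Ma h h'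
  have hFF1 : FF δ (gg κ δ c p0) Ma h h' ≤ 1 := FF_le_one hδ0 hc hX Ma h h'
  rcases le_or_gt (DD Ma h h') x with hD | hD
  · refine ⟨12 / (x : ℝ) + 2 * Sm x * ρ, hr0, rhoB hMM hM hx hρ hcop hh hh' hH hD hR, ?_⟩
    calc FF δ (gg κ δ c p0) Ma h h' * (12 / (x : ℝ) + 2 * Sm x * ρ) ^ (1 - κ)
        ≤ 1 * (12 / (x : ℝ) + 2 * Sm x * ρ) ^ (1 - κ) := mul_le_mul_of_nonneg_right hFF1 hV1
      _ ≤ _ := by rw [one_mul]; linarith
  · refine ⟨1, zero_le_one, RhoB_one hMz hH _ (fun _ _ => KK_nonneg _ _ _ _ _)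
      (fun _ _ => KK_le_one _ _ _ _ _), ?_⟩
    rw [Real.one_rpow, mul_one]
    have hD' : (x : ℝ) ≤ DD Ma h h' := by exact_mod_cast hD.le
    have h5 : (DD Ma h h' : ℝ) ^ (-δ) ≤ (x : ℝ) ^ (-δ) :=
      Real.rpow_le_rpow_of_nonpos hx0 hD' (by linarith)
    linarith

end Crest.Agent.R4C.IIIRx256
end

-- ▼ part R4C/UDtot_208
section

/-!
# The class UNEXPLAINED DEFICIT, total at one scale (helper208)

`Sm_le`  : `∏_{p ≤ x} (1-1/p)⁻¹ ≤ C log x`;
`ud_tot` : `F : FL M`, cut `x ≥ T`, closed window `T L ≤ gcd ≤ 2 T L`, all low words: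
`L Σ_{good, UD b c ∨ UD c b} gcd ν ν f g
   ≤ C T^η ((log x · E^3/T)^((1-η)/2) + x^(-δ)) (L Σ ν f)^((1+η)/2) (L Σ ν g)^((1+η)/2)`
(`256`'s `IIIR` + `491`'s `lemQ`).
-/

set_option autoImplicit false

namespace Crest.Agent.R4C.UDtotx208

open Finset
open Crest.Agent.R4C.Basex935 Crest.Agent.R4C.Cutx50 Crest.Agent.R4C.FLDefx935
open Crest.Agent.R4C.UnexplRx208 Crest.Agent.R4C.Pairx14

open Classical

/-- `∏_{p ≤ x} (1-1/p)⁻¹ ≤ C log x` -/
theorem Sm_le : ∃ C : ℝ, 0 < C ∧ ∀ x : ℕ, 2 ≤ x → IIIRx256.Sm x ≤ C * Real.log x := by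
  refine ⟨2 * (Real.exp (22 / Real.log 2) / Real.log 2), by
    have := Real.log_pos (by norm_num : (1:ℝ) < 2); positivity, fun x hx => ?_⟩
  have hl2 : 0 < Real.log 2 := Real.log_pos (by norm_num)
  have hxR : (2:ℝ) ≤ x := by exact_mod_cast hx
  have hlx : 0 < Real.log x := Real.log_pos (by linarith)
  have h1 := (Crest.Agent.Lib.Mertens.mertens_three 2 x le_rfl hxR).1
  set P := ∏ p ∈ Crest.Agent.Lib.Mertens.pr 2 x, (1 - 1 / (p : ℝ)) with hP
  have hset : (x + 1).primesBelow = insert 2 (Crest.Agent.Lib.Mertens.pr 2 x) := by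
    ext p
    rw [Nat.mem_primesBelow, Finset.mem_insert, Crest.Agent.Lib.Mertens.mem_pr (by norm_num)
      (by positivity)]
    constructor
    · rintro ⟨h2, h3⟩
      by_cases hp : p = 2
      · exact Or.inl hp
      · right
        have := h3.two_le
        refine ⟨⟨?_, ?_⟩, h3⟩
        · have : 2 < p := by omega
          exact_mod_cast this
        · have : p ≤ x := by omega
          exact_mod_cast this
    · rintro (h2 | ⟨⟨h2, h3⟩, h4⟩)
      · subst h2; exact ⟨by omega, Nat.prime_two⟩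
      · have : p ≤ x := by exact_mod_cast h3
        exact ⟨by omega, h4⟩
  have hnot : (2:ℕ) ∉ Crest.Agent.Lib.Mertens.pr 2 x := by
    rw [Crest.Agent.Lib.Mertens.mem_pr (by norm_num) (by positivity)]
    rintro ⟨⟨h2, _⟩, _⟩
    norm_num at h2
  have hPpos : 0 < P := by
    refine lt_of_lt_of_le ?_ h1
    positivity
  have e1 : IIIRx256.Sm x = 2 * P⁻¹ := by
    unfold IIIRx256.Sm
    rw [hset, Finset.prod_insert hnot, hP, ← Finset.prod_inv_distrib]
    congr 1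
    · rw [Real.rpow_neg_one]; norm_num
    · refine Finset.prod_congr rfl fun p _ => ?_
      rw [Real.rpow_neg_one, one_div]
  have h2 : P⁻¹ ≤ Real.exp (22 / Real.log 2) / Real.log 2 * Real.log x := by
    have h3 : P⁻¹ ≤ (Real.exp (-(22 / Real.log 2)) * (Real.log 2 / Real.log x))⁻¹ :=
      inv_anti₀ (by positivity) h1
    refine h3.trans (le_of_eq ?_)
    rw [mul_inv, Real.exp_neg, inv_inv, inv_div]
    ring
  rw [e1]
  calc 2 * P⁻¹ ≤ 2 * (Real.exp (22 / Real.log 2) / Real.log 2 * Real.log x) := by linarith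
    _ = _ := by ring

/-- density of the relation on initial segments -/
lemma RU_density' {M : ℕ} (F : FL M) {γ T E : ℝ} {x : ℕ} (hE : 1 ≤ E) (hT : 1 ≤ T) (hx : E < x)
    (b N : ℕ) :
    ((((Finset.Icc 1 N).filter (fun n => IIIRx256.Rough x n ∧ RU F γ T E x b n)).card : ℕ) : ℝ) ≤
      2 * (12 / x + 96 * E ^ 3 / T) * N := by
  have hρ : 0 ≤ 12 / (x : ℝ) + 96 * E ^ 3 / T := by positivity
  rcases Nat.eq_zero_or_pos N with hN | hN
  · subst hN; simp
  set K := Nat.log 2 N with hK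
  set S := (Finset.Icc 1 N).filter (fun n => IIIRx256.Rough x n ∧ RU F γ T E x b n) with hS
  have hmap : ∀ l ∈ S, Nat.log 2 l ∈ range (K + 1) := by
    intro l hl
    rw [hS, Finset.mem_filter, Finset.mem_Icc] at hl
    rw [Finset.mem_range]
    have := Nat.log_mono_right (b := 2) hl.1.2
    omega
  have hcard : S.card = ∑ j ∈ range (K + 1), (S.filter (fun l => Nat.log 2 l = j)).card :=
    Finset.card_eq_sum_card_fiberwise hmap
  have hj : ∀ j ∈ range (K + 1), (((S.filter (fun l => Nat.log 2 l = j)).card : ℕ) : ℝ) ≤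
      (12 / (x : ℝ) + 96 * E ^ 3 / T) * 2 ^ j := by
    intro j _
    refine LemQx491.lemQ ((F.lam x b : ℝ) * γ) E T hE hT x hx (2 ^ j)
      (one_le_pow₀ (by norm_num)) _ ?_
    intro l hl
    rw [Finset.mem_filter, hS, Finset.mem_filter, Finset.mem_Icc] at hl
    obtain ⟨⟨h0, h1, h2⟩, h3⟩ := hl
    have hl0 : l ≠ 0 := by omega
    refine ⟨?_, ?_, h1, h2⟩
    · have : 2 ^ j ≤ l := by rw [← h3]; exact Nat.pow_log_le_self 2 hl0
      exact_mod_cast this
    · have : l < 2 ^ (j + 1) := by rw [← h3]; exact Nat.lt_pow_succ_log_self (by norm_num) l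
      have h4 : (l : ℝ) < 2 ^ (j + 1) := by exact_mod_cast this
      rw [pow_succ] at h4
      linarith
  rw [hcard]
  push_cast
  refine (Finset.sum_le_sum hj).trans ?_
  rw [← Finset.mul_sum]
  have hgeo : ∑ j ∈ range (K + 1), (2:ℝ) ^ j ≤ 2 * N := by
    have h5 : ∑ j ∈ range (K + 1), (2:ℝ) ^ j = 2 ^ (K + 1) - 1 := by
      rw [geom_sum_eq (by norm_num)]; norm_num
    have h6 : (2:ℝ) ^ K ≤ N := by
      have : 2 ^ K ≤ N := Nat.pow_log_le_self 2 (by omega)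
      exact_mod_cast this
    rw [h5, pow_succ]; linarith
  calc (12 / (x : ℝ) + 96 * E ^ 3 / T) * ∑ j ∈ range (K + 1), (2:ℝ) ^ j
      ≤ (12 / (x : ℝ) + 96 * E ^ 3 / T) * (2 * N) := mul_le_mul_of_nonneg_left hgeo hρ
    _ = _ := by ring

/-- the energy in a half-open window -/
noncomputable def eU {M : ℕ} (F : FL M) (γ T E : ℝ) (x : ℕ) (X : ℝ) (f g : ℕ → ℝ) : ℝ :=
  ∑ b ∈ M.divisors, ∑ c ∈ M.divisors,
    (if X < (Nat.gcd b c : ℝ) ∧ (Nat.gcd b c : ℝ) ≤ 2 * X then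
      (Nat.gcd b c : ℝ) * nu M b * nu M c * (f b * g c *
        (if F.good x b c ∧ UD F γ T E x b c then 1 else 0)) else 0)

theorem eU_le {κ : ℝ} (hκ : 1 / 2 < κ) (hκ1 : κ < 1) :
    ∃ δ C : ℝ, 0 < δ ∧ 0 < C ∧
      ∀ (M : ℕ) (F : FL M) (x : ℕ) (γ T E X : ℝ) (f g : ℕ → ℝ), 0 < M → 2 ≤ x → 0 < X →
      1 ≤ E → 1 ≤ T → E < x → T ≤ x →
      (∀ b, 0 ≤ f b) → (∀ b, f b ≤ 1) → (∀ b, 0 ≤ g b) → (∀ b, g b ≤ 1) →
      eU F γ T E x X f g ≤ C * X ^ (2 * κ - 1) *
        ((Real.log x * (E ^ 3 / T)) ^ (1 - κ) + (x : ℝ) ^ (-δ)) *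
          ((∑ b ∈ M.divisors, nu M b * f b) ^ κ * (∑ b ∈ M.divisors, nu M b * g b) ^ κ) := by
  obtain ⟨δ, C, hδ, hδ1, hC, h⟩ := IIIRx256.IIIR hκ hκ1
  obtain ⟨C1, hC1, hSm⟩ := Sm_le
  refine ⟨δ, C * (24 + 432 * C1), hδ, by positivity, ?_⟩
  intro M F x γ T E X f g hM hx2 hX hE hT hx hTx hf hf1 hg hg1
  have hT0 : 0 < T := by linarith
  have hxR : (2:ℝ) ≤ x := by exact_mod_cast hx2
  have hlog2 : (1:ℝ) / 2 ≤ Real.log x := by
    have h1 : Real.log 2 ≤ Real.log x := Real.log_le_log (by norm_num) hxR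
    have h2 : (0.6931471803 : ℝ) < Real.log 2 := Real.log_two_gt_d9
    linarith
  have hρ0 : 0 ≤ 2 * (12 / (x : ℝ) + 96 * E ^ 3 / T) := by positivity
  have h1 := h M F x X _ f g (fun b l => RU F γ T E x b l) hM.ne' (by omega) hX hρ0 hf hf1 hg hg1
    (fun b _ N => by
      have h2 := RU_density' F (γ := γ) hE hT hx b N
      convert h2 using 2)
  have hρ : 12 / (x : ℝ) + 96 * E ^ 3 / T ≤ 108 * (E ^ 3 / T) := by
    have h2 : 12 / (x : ℝ) ≤ 12 / T := div_le_div_of_nonneg_left (by norm_num) hT0 hTx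
    have h3 : 12 / T ≤ 12 * (E ^ 3 / T) := by
      rw [mul_div_assoc']
      refine div_le_div_of_nonneg_right ?_ hT0.le
      have : (1:ℝ) ≤ E ^ 3 := one_le_pow₀ hE
      linarith
    have h4 : 96 * E ^ 3 / T = 96 * (E ^ 3 / T) := by ring
    rw [h4]; linarith
  have hET : 0 ≤ E ^ 3 / T := by positivity
  have hlogx : 0 ≤ Real.log x := by linarith
  set Q := Real.log x * (E ^ 3 / T) with hQ
  have hQ0 : 0 ≤ Q := mul_nonneg hlogx hET
  have hin : 12 / (x : ℝ) + 2 * IIIRx256.Sm x * (2 * (12 / (x : ℝ) + 96 * E ^ 3 / T)) ≤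
      (24 + 432 * C1) * Q := by
    have h2 : 12 / (x : ℝ) ≤ 24 * Q := by
      have h3 : 12 / (x : ℝ) ≤ 12 * (E ^ 3 / T) := by
        have h4 : 12 / (x : ℝ) ≤ 12 / T := div_le_div_of_nonneg_left (by norm_num) hT0 hTx
        refine h4.trans ?_
        rw [mul_div_assoc']
        refine div_le_div_of_nonneg_right ?_ hT0.le
        have : (1:ℝ) ≤ E ^ 3 := one_le_pow₀ hE
        linarith
      have h5 : E ^ 3 / T ≤ 2 * Q := by
        rw [hQ]
        calc E ^ 3 / T = 2 * (1 / 2 * (E ^ 3 / T)) := by ring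
          _ ≤ 2 * (Real.log x * (E ^ 3 / T)) :=
              mul_le_mul_of_nonneg_left (mul_le_mul_of_nonneg_right hlog2 hET) (by norm_num)
      linarith
    have h6 : 2 * IIIRx256.Sm x * (2 * (12 / (x : ℝ) + 96 * E ^ 3 / T)) ≤ 432 * C1 * Q := by
      calc 2 * IIIRx256.Sm x * (2 * (12 / (x : ℝ) + 96 * E ^ 3 / T))
          ≤ 2 * (C1 * Real.log x) * (2 * (108 * (E ^ 3 / T))) := by
            refine mul_le_mul ?_ ?_ hρ0 (by positivity)
            · exact mul_le_mul_of_nonneg_left (hSm x hx2) (by norm_num)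
            · exact mul_le_mul_of_nonneg_left hρ (by norm_num)
        _ = 432 * C1 * Q := by rw [hQ]; ring
    linarith
  have h7 : (12 / (x : ℝ) + 2 * IIIRx256.Sm x * (2 * (12 / (x : ℝ) + 96 * E ^ 3 / T))) ^ (1 - κ) ≤
      (24 + 432 * C1) * Q ^ (1 - κ) := by
    calc (12 / (x : ℝ) + 2 * IIIRx256.Sm x * (2 * (12 / (x : ℝ) + 96 * E ^ 3 / T))) ^ (1 - κ)
        ≤ ((24 + 432 * C1) * Q) ^ (1 - κ) := by
          refine Real.rpow_le_rpow ?_ hin (by linarith)
          have := IIIRx256.Sm_nonneg x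
          positivity
      _ = (24 + 432 * C1) ^ (1 - κ) * Q ^ (1 - κ) := Real.mul_rpow (by positivity) hQ0
      _ ≤ (24 + 432 * C1) ^ (1:ℝ) * Q ^ (1 - κ) := by
          refine mul_le_mul_of_nonneg_right ?_ (Real.rpow_nonneg hQ0 _)
          exact Real.rpow_le_rpow_of_exponent_le (by linarith) (by linarith)
      _ = _ := by rw [Real.rpow_one]
  have hm0 : 0 ≤ (∑ b ∈ M.divisors, nu M b * f b) ^ κ * (∑ b ∈ M.divisors, nu M b * g b) ^ κ :=
    mul_nonneg (Real.rpow_nonneg (Finset.sum_nonneg fun b _ => mul_nonneg (nu_nonneg _ _) (hf b)) _)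
      (Real.rpow_nonneg (Finset.sum_nonneg fun b _ => mul_nonneg (nu_nonneg _ _) (hg b)) _)
  refine le_trans (le_of_eq ?_) (h1.trans ?_)
  · unfold eU
    rfl
  · refine mul_le_mul_of_nonneg_right ?_ hm0
    have hXκ : 0 ≤ X ^ (2 * κ - 1) := Real.rpow_nonneg hX.le _
    have hxδ : 0 ≤ (x : ℝ) ^ (-δ) := Real.rpow_nonneg (Nat.cast_nonneg _) _
    have hQκ : 0 ≤ Q ^ (1 - κ) := Real.rpow_nonneg hQ0 _
    calc C * X ^ (2 * κ - 1) * ((12 / (x : ℝ) + 2 * IIIRx256.Sm x *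
          (2 * (12 / (x : ℝ) + 96 * E ^ 3 / T))) ^ (1 - κ) + (x : ℝ) ^ (-δ))
        ≤ C * X ^ (2 * κ - 1) * ((24 + 432 * C1) * Q ^ (1 - κ) +
          (24 + 432 * C1) * (x : ℝ) ^ (-δ)) := by
          refine mul_le_mul_of_nonneg_left ?_ (by positivity)
          refine add_le_add h7 ?_
          refine le_mul_of_one_le_left hxδ ?_
          linarith
      _ = _ := by ring

/-- **UNEXPLAINED DEFICIT, total at one scale** -/
theorem ud_tot {η : ℝ} (hη : 0 < η) (hη1 : η < 1) :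
    ∃ δ C : ℝ, 0 < δ ∧ 0 < C ∧
      ∀ (M : ℕ) (F : FL M) (x : ℕ) (γ T E L : ℝ) (f g : ℕ → ℝ), 0 < M → 2 ≤ x → 0 < L →
      1 ≤ E → 1 ≤ T → E < x → T ≤ x →
      (∀ b, 0 ≤ f b) → (∀ b, f b ≤ 1) → (∀ b, 0 ≤ g b) → (∀ b, g b ≤ 1) →
      L * ∑ b ∈ M.divisors, ∑ c ∈ M.divisors,
        (if T * L ≤ (Nat.gcd b c : ℝ) ∧ (Nat.gcd b c : ℝ) ≤ 2 * (T * L) ∧ F.good x b c ∧
          (UD F γ T E x b c ∨ UD F γ T E x c b) then
          (Nat.gcd b c : ℝ) * nu M b * nu M c * (f b * g c) else 0) ≤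
      C * T ^ η * ((Real.log x * (E ^ 3 / T)) ^ ((1 - η) / 2) + (x : ℝ) ^ (-δ)) *
        ((L * ∑ b ∈ M.divisors, nu M b * f b) ^ ((1 + η) / 2) *
          (L * ∑ b ∈ M.divisors, nu M b * g b) ^ ((1 + η) / 2)) := by
  obtain ⟨δ, C, hδ, hC, h⟩ := eU_le (κ := (1 + η) / 2) (by linarith) (by linarith)
  refine ⟨δ, 4 * C, hδ, by positivity, ?_⟩
  intro M F x γ T E L f g hM hx2 hL hE hT hx hTx hf hf1 hg hg1
  have hT0 : 0 < T := by linarith
  have e1 : 2 * ((1 + η) / 2) - 1 = η := by ring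
  have e2 : 1 - (1 + η) / 2 = (1 - η) / 2 := by ring
  rw [e1, e2] at h
  set W := (Real.log x * (E ^ 3 / T)) ^ ((1 - η) / 2) + (x : ℝ) ^ (-δ) with hW
  set m := ∑ b ∈ M.divisors, nu M b * f b with hm
  set m' := ∑ b ∈ M.divisors, nu M b * g b with hm'
  have hm0 : 0 ≤ m := Finset.sum_nonneg fun b _ => mul_nonneg (nu_nonneg _ _) (hf b)
  have hm0' : 0 ≤ m' := Finset.sum_nonneg fun b _ => mul_nonneg (nu_nonneg _ _) (hg b)
  have hlogx : 0 ≤ Real.log x := Real.log_nonneg (by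
    have : (2:ℝ) ≤ x := by exact_mod_cast hx2
    linarith)
  have hW0 : 0 ≤ W := by
    have : 0 ≤ Real.log x * (E ^ 3 / T) := mul_nonneg hlogx (by positivity)
    exact add_nonneg (Real.rpow_nonneg this _) (Real.rpow_nonneg (Nat.cast_nonneg _) _)
  -- pointwise: four half-open energies
  have hpt : ∑ b ∈ M.divisors, ∑ c ∈ M.divisors,
        (if T * L ≤ (Nat.gcd b c : ℝ) ∧ (Nat.gcd b c : ℝ) ≤ 2 * (T * L) ∧ F.good x b c ∧
          (UD F γ T E x b c ∨ UD F γ T E x c b) then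
          (Nat.gcd b c : ℝ) * nu M b * nu M c * (f b * g c) else 0) ≤
      (eU F γ T E x (T * L / 2) f g + eU F γ T E x (T * L) f g) +
        (eU F γ T E x (T * L / 2) g f + eU F γ T E x (T * L) g f) := by
    have hsw : ∀ X, eU F γ T E x X g f = ∑ b ∈ M.divisors, ∑ c ∈ M.divisors,
        (if X < (Nat.gcd c b : ℝ) ∧ (Nat.gcd c b : ℝ) ≤ 2 * X then
          (Nat.gcd c b : ℝ) * nu M c * nu M b * (g c * f b *
            (if F.good x c b ∧ UD F γ T E x c b then 1 else 0)) else 0) := by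
      intro X; unfold eU; rw [Finset.sum_comm]
    rw [hsw, hsw]
    unfold eU
    simp_rw [← Finset.sum_add_distrib]
    refine Finset.sum_le_sum fun b hb => Finset.sum_le_sum fun c hc => ?_
    have hb := Nat.dvd_of_mem_divisors hb
    have hc := Nat.dvd_of_mem_divisors hc
    have hp : 0 ≤ (Nat.gcd b c : ℝ) * nu M b * nu M c * (f b * g c) :=
      mul_nonneg (mul_nonneg (mul_nonneg (by positivity) (nu_nonneg _ _)) (nu_nonneg _ _))
        (mul_nonneg (hf _) (hg _))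
    have hnn : ∀ (X : ℝ) (P : Prop) [Decidable P], 0 ≤ (if X < (Nat.gcd b c : ℝ) ∧
        (Nat.gcd b c : ℝ) ≤ 2 * X then (Nat.gcd b c : ℝ) * nu M b * nu M c *
          (f b * g c * (if P then 1 else 0)) else 0) := by
      intro X P _
      split_ifs
      · rw [mul_one]; exact hp
      · rw [mul_zero, mul_zero]
      · exact le_rfl
    have ec : ∀ (X : ℝ) (P : Prop) [Decidable P], (if X < (Nat.gcd c b : ℝ) ∧
        (Nat.gcd c b : ℝ) ≤ 2 * X then (Nat.gcd c b : ℝ) * nu M c * nu M b *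
          (g c * f b * (if P then 1 else 0)) else 0) = (if X < (Nat.gcd b c : ℝ) ∧
        (Nat.gcd b c : ℝ) ≤ 2 * X then (Nat.gcd b c : ℝ) * nu M b * nu M c *
          (f b * g c * (if P then 1 else 0)) else 0) := by
      intro X P _
      rw [Nat.gcd_comm c b]
      split_ifs <;> ring
    simp only [ec]
    have n1 := hnn (T * L / 2) (F.good x b c ∧ UD F γ T E x b c)
    have n2 := hnn (T * L) (F.good x b c ∧ UD F γ T E x b c)
    have n3 := hnn (T * L / 2) (F.good x c b ∧ UD F γ T E x c b)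
    have n4 := hnn (T * L) (F.good x c b ∧ UD F γ T E x c b)
    by_cases hcon : T * L ≤ (Nat.gcd b c : ℝ) ∧ (Nat.gcd b c : ℝ) ≤ 2 * (T * L) ∧ F.good x b c ∧
          (UD F γ T E x b c ∨ UD F γ T E x c b)
    · rw [if_pos hcon]
      obtain ⟨g1, g2, g3, g4⟩ := hcon
      have hTL : 0 < T * L := by positivity
      rcases g4 with g4 | g4
      · by_cases hg5 : T * L < (Nat.gcd b c : ℝ)
        · have e : (if T * L < (Nat.gcd b c : ℝ) ∧ (Nat.gcd b c : ℝ) ≤ 2 * (T * L) then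
              (Nat.gcd b c : ℝ) * nu M b * nu M c * (f b * g c *
              (if F.good x b c ∧ UD F γ T E x b c then 1 else 0)) else 0) =
              (Nat.gcd b c : ℝ) * nu M b * nu M c * (f b * g c) := by
            rw [if_pos ⟨hg5, g2⟩, if_pos ⟨g3, g4⟩, mul_one]
          linarith
        · have e : (if T * L / 2 < (Nat.gcd b c : ℝ) ∧ (Nat.gcd b c : ℝ) ≤ 2 * (T * L / 2) then
              (Nat.gcd b c : ℝ) * nu M b * nu M c * (f b * g c *
              (if F.good x b c ∧ UD F γ T E x b c then 1 else 0)) else 0) =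
              (Nat.gcd b c : ℝ) * nu M b * nu M c * (f b * g c) := by
            rw [if_pos ⟨by linarith, by linarith⟩, if_pos ⟨g3, g4⟩, mul_one]
          linarith
      · have g3' := FL.good_symm hb hc g3
        by_cases hg5 : T * L < (Nat.gcd b c : ℝ)
        · have e : (if T * L < (Nat.gcd b c : ℝ) ∧ (Nat.gcd b c : ℝ) ≤ 2 * (T * L) then
              (Nat.gcd b c : ℝ) * nu M b * nu M c * (f b * g c *
              (if F.good x c b ∧ UD F γ T E x c b then 1 else 0)) else 0) =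
              (Nat.gcd b c : ℝ) * nu M b * nu M c * (f b * g c) := by
            rw [if_pos ⟨hg5, g2⟩, if_pos ⟨g3', g4⟩, mul_one]
          linarith
        · have e : (if T * L / 2 < (Nat.gcd b c : ℝ) ∧ (Nat.gcd b c : ℝ) ≤ 2 * (T * L / 2) then
              (Nat.gcd b c : ℝ) * nu M b * nu M c * (f b * g c *
              (if F.good x c b ∧ UD F γ T E x c b then 1 else 0)) else 0) =
              (Nat.gcd b c : ℝ) * nu M b * nu M c * (f b * g c) := by
            rw [if_pos ⟨by linarith, by linarith⟩, if_pos ⟨g3', g4⟩, mul_one]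
          linarith
    · rw [if_neg hcon]; linarith
  have hX1 : (T * L / 2) ^ η ≤ (T * L) ^ η :=
    Real.rpow_le_rpow (by positivity) (by linarith [mul_pos hT0 hL]) hη.le
  have b1 := h M F x γ T E (T * L / 2) f g hM hx2 (by positivity) hE hT hx hTx hf hf1 hg hg1
  have b2 := h M F x γ T E (T * L) f g hM hx2 (by positivity) hE hT hx hTx hf hf1 hg hg1
  have b3 := h M F x γ T E (T * L / 2) g f hM hx2 (by positivity) hE hT hx hTx hg hg1 hf hf1
  have b4 := h M F x γ T E (T * L) g f hM hx2 (by positivity) hE hT hx hTx hg hg1 hf hf1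
  have hmm : 0 ≤ m ^ ((1 + η) / 2) * m' ^ ((1 + η) / 2) :=
    mul_nonneg (Real.rpow_nonneg hm0 _) (Real.rpow_nonneg hm0' _)
  have hbase : C * (T * L / 2) ^ η * W * (m ^ ((1 + η) / 2) * m' ^ ((1 + η) / 2)) ≤
      C * (T * L) ^ η * W * (m ^ ((1 + η) / 2) * m' ^ ((1 + η) / 2)) := by
    refine mul_le_mul_of_nonneg_right ?_ hmm
    refine mul_le_mul_of_nonneg_right ?_ hW0
    exact mul_le_mul_of_nonneg_left hX1 hC.le
  have hsw : m' ^ ((1 + η) / 2) * m ^ ((1 + η) / 2) = m ^ ((1 + η) / 2) * m' ^ ((1 + η) / 2) :=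
    mul_comm _ _
  rw [hsw] at b3 b4
  have htot : ∑ b ∈ M.divisors, ∑ c ∈ M.divisors,
        (if T * L ≤ (Nat.gcd b c : ℝ) ∧ (Nat.gcd b c : ℝ) ≤ 2 * (T * L) ∧ F.good x b c ∧
          (UD F γ T E x b c ∨ UD F γ T E x c b) then
          (Nat.gcd b c : ℝ) * nu M b * nu M c * (f b * g c) else 0) ≤
      4 * (C * (T * L) ^ η * W * (m ^ ((1 + η) / 2) * m' ^ ((1 + η) / 2))) := by
    linarith
  have eL : L * L ^ η = L ^ ((1 + η) / 2) * L ^ ((1 + η) / 2) := by
    rw [← Real.rpow_add hL, ← Real.rpow_one_add' hL.le (by linarith)]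
    congr 1; ring
  calc L * _ ≤ L * (4 * (C * (T * L) ^ η * W * (m ^ ((1 + η) / 2) * m' ^ ((1 + η) / 2)))) :=
        mul_le_mul_of_nonneg_left htot hL.le
    _ = 4 * C * T ^ η * W * ((L * L ^ η) * (m ^ ((1 + η) / 2) * m' ^ ((1 + η) / 2))) := by
        rw [Real.mul_rpow hT0.le hL.le]; ring
    _ = _ := by
        rw [eL, Real.mul_rpow hL.le hm0, Real.mul_rpow hL.le hm0']; ring


/-- numbers of one scale -/
lemma scale_num {η δ : ℝ} (hη : 0 < η) (hη1 : η ≤ 1 / 20) {A m : ℕ} (hA : 1 ≤ A)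
    (hAδ : 3 / 10 ≤ A * δ) (hm : 1 ≤ m) {E : ℝ} (hE : 1 ≤ E) (hE2 : E ≤ 2 ^ ((m : ℝ) / 24)) :
    (2 ^ m : ℝ) ^ η * ((Real.log ((2 ^ (A * m) : ℕ) : ℝ) * (E ^ 3 / 2 ^ m)) ^ ((1 - η) / 2) +
      (((2 ^ (A * m) : ℕ) : ℝ)) ^ (-δ)) ≤ 11 * A * 2 ^ (-(m : ℝ) / 4) := by
  have hmR : (1:ℝ) ≤ m := by exact_mod_cast hm
  have hAR : (1:ℝ) ≤ A := by exact_mod_cast hA
  have h2 : (0:ℝ) < 2 := by norm_num
  have e0 : (2 ^ m : ℝ) ^ η = 2 ^ (η * m) := by
    rw [← Real.rpow_natCast, ← Real.rpow_mul h2.le]; congr 1; ring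
  have eT : (2 ^ m : ℝ) = 2 ^ (m : ℝ) := (Real.rpow_natCast 2 m).symm
  have ex : (((2 ^ (A * m) : ℕ) : ℝ)) = 2 ^ ((A : ℝ) * m) := by
    push_cast
    rw [← Real.rpow_natCast]; push_cast; rfl
  have hlog : Real.log ((2 ^ (A * m) : ℕ) : ℝ) ≤ A * m := by
    rw [ex, Real.log_rpow h2]
    have : Real.log 2 < 1 := by
      have := Real.log_two_lt_d9; linarith
    have hAm : 0 < (A:ℝ) * m := by positivity
    nlinarith
  have hlog0 : 0 ≤ Real.log ((2 ^ (A * m) : ℕ) : ℝ) := Real.log_natCast_nonneg _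
  have hE3 : E ^ 3 / 2 ^ m ≤ 2 ^ (-(7 / 8) * (m : ℝ)) := by
    have h3 : E ^ 3 ≤ 2 ^ ((m : ℝ) / 8) := by
      calc E ^ 3 ≤ (2 ^ ((m : ℝ) / 24)) ^ 3 := pow_le_pow_left₀ (by linarith) hE2 3
        _ = 2 ^ ((m : ℝ) / 8) := by
            rw [← Real.rpow_natCast, ← Real.rpow_mul h2.le]; congr 1; push_cast; ring
    rw [eT, div_le_iff₀ (by positivity), ← Real.rpow_add h2]
    refine h3.trans (le_of_eq ?_)
    congr 1; ring
  have hE30 : 0 ≤ E ^ 3 / 2 ^ m := by positivity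
  have hAm1 : 1 ≤ (A:ℝ) * m := by nlinarith
  -- first term
  have t1 : (Real.log ((2 ^ (A * m) : ℕ) : ℝ) * (E ^ 3 / 2 ^ m)) ^ ((1 - η) / 2) ≤
      (A * m) * 2 ^ (-(7 / 8) * (m : ℝ) * (19 / 40)) := by
    calc (Real.log ((2 ^ (A * m) : ℕ) : ℝ) * (E ^ 3 / 2 ^ m)) ^ ((1 - η) / 2)
        ≤ ((A * m) * 2 ^ (-(7 / 8) * (m : ℝ))) ^ ((1 - η) / 2) :=
          Real.rpow_le_rpow (mul_nonneg hlog0 hE30)
            (mul_le_mul hlog hE3 hE30 (by positivity)) (by linarith)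
      _ = (A * m) ^ ((1 - η) / 2) * (2 ^ (-(7 / 8) * (m : ℝ))) ^ ((1 - η) / 2) :=
          Real.mul_rpow (by positivity) (by positivity)
      _ ≤ (A * m) ^ (1:ℝ) * (2 ^ (-(7 / 8) * (m : ℝ))) ^ (19 / 40 : ℝ) := by
          refine mul_le_mul ?_ ?_ (by positivity) (by positivity)
          · exact Real.rpow_le_rpow_of_exponent_le hAm1 (by linarith)
          · refine Real.rpow_le_rpow_of_exponent_ge (by positivity) ?_ (by linarith)
            refine Real.rpow_le_one_of_one_le_of_nonpos (by norm_num) ?_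
            linarith
      _ = _ := by rw [Real.rpow_one, ← Real.rpow_mul h2.le]
  have t2 : (((2 ^ (A * m) : ℕ) : ℝ)) ^ (-δ) ≤ 2 ^ (-(3 / 10) * (m : ℝ)) := by
    rw [ex, ← Real.rpow_mul h2.le]
    refine Real.rpow_le_rpow_of_exponent_le (by norm_num) ?_
    nlinarith
  have hηm : (2:ℝ) ^ (η * m) ≤ 2 ^ ((1 / 20 : ℝ) * m) :=
    Real.rpow_le_rpow_of_exponent_le (by norm_num) (mul_le_mul_of_nonneg_right hη1 (by linarith))
  -- `m ≤ 10 · 2^(m/10)`
  have hm2 : (m : ℝ) ≤ 10 * (2:ℝ) ^ ((1 / 10 : ℝ) * m) * 1 := by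
    have h5 : 1 + ((1 / 10 : ℝ) * m) * Real.log 2 ≤ (2:ℝ) ^ ((1 / 10 : ℝ) * m) := by
      rw [Real.rpow_def_of_pos h2]
      have := Real.add_one_le_exp (Real.log 2 * ((1 / 10 : ℝ) * m))
      linarith
    have h6 : (0.6931471803 : ℝ) < Real.log 2 := Real.log_two_gt_d9
    have h7 : ((1 / 10 : ℝ) * m) * (1 / 2) ≤ ((1 / 10 : ℝ) * m) * Real.log 2 :=
      mul_le_mul_of_nonneg_left (by linarith) (by positivity)
    have h8 : 2 ^ ((1 / 10 : ℝ) * m) * (2:ℝ) ^ ((1 / 10 : ℝ) * m) ≥ 0 := by positivity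
    -- square root trick is not needed: use the bound with exponent `m/20` squared
    have h9 : 1 + ((1 / 20 : ℝ) * m) * Real.log 2 ≤ (2:ℝ) ^ ((1 / 20 : ℝ) * m) := by
      rw [Real.rpow_def_of_pos h2]
      have := Real.add_one_le_exp (Real.log 2 * ((1 / 20 : ℝ) * m))
      linarith
    have h10 : (2:ℝ) ^ ((1 / 10 : ℝ) * m) = 2 ^ ((1 / 20 : ℝ) * m) * 2 ^ ((1 / 20 : ℝ) * m) := by
      rw [← Real.rpow_add h2]; congr 1; ring
    have h11 : 1 + (1 / 40 : ℝ) * m ≤ (2:ℝ) ^ ((1 / 20 : ℝ) * m) := by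
      have : ((1 / 20 : ℝ) * m) * (1 / 2) ≤ ((1 / 20 : ℝ) * m) * Real.log 2 :=
        mul_le_mul_of_nonneg_left (by linarith) (by positivity)
      linarith
    have h12 : (1 + (1 / 40 : ℝ) * m) * (1 + (1 / 40 : ℝ) * m) ≤ (2:ℝ) ^ ((1 / 10 : ℝ) * m) := by
      rw [h10]
      exact mul_le_mul h11 h11 (by positivity) (by positivity)
    nlinarith [sq_nonneg ((1 / 40 : ℝ) * m - 1)]
  rw [e0]
  calc (2:ℝ) ^ (η * m) * ((Real.log ((2 ^ (A * m) : ℕ) : ℝ) * (E ^ 3 / 2 ^ m)) ^ ((1 - η) / 2) +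
      (((2 ^ (A * m) : ℕ) : ℝ)) ^ (-δ))
      ≤ 2 ^ ((1 / 20 : ℝ) * m) * ((A * m) * 2 ^ (-(7 / 8) * (m : ℝ) * (19 / 40)) +
        2 ^ (-(3 / 10) * (m : ℝ))) := by
        refine mul_le_mul hηm (add_le_add t1 t2) ?_ (by positivity)
        exact add_nonneg (Real.rpow_nonneg (mul_nonneg hlog0 hE30) _)
          (Real.rpow_nonneg (Nat.cast_nonneg _) _)
    _ ≤ 2 ^ ((1 / 20 : ℝ) * m) * ((A * (10 * (2:ℝ) ^ ((1 / 10 : ℝ) * m) * 1)) *
          2 ^ (-(7 / 8) * (m : ℝ) * (19 / 40)) + 2 ^ (-(3 / 10) * (m : ℝ))) := by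
        refine mul_le_mul_of_nonneg_left ?_ (by positivity)
        refine add_le_add ?_ le_rfl
        refine mul_le_mul_of_nonneg_right ?_ (by positivity)
        exact mul_le_mul_of_nonneg_left hm2 (by positivity)
    _ = 10 * A * 2 ^ ((1 / 20 : ℝ) * m + (1 / 10 : ℝ) * m + -(7 / 8) * (m : ℝ) * (19 / 40)) +
          2 ^ ((1 / 20 : ℝ) * m + -(3 / 10) * (m : ℝ)) := by
        rw [Real.rpow_add h2, Real.rpow_add h2, Real.rpow_add h2]; ring
    _ ≤ 10 * A * 2 ^ (-(m : ℝ) / 4) + A * 2 ^ (-(m : ℝ) / 4) := by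
        refine add_le_add ?_ ?_
        · refine mul_le_mul_of_nonneg_left ?_ (by positivity)
          exact Real.rpow_le_rpow_of_exponent_le (by norm_num) (by nlinarith)
        · calc (2:ℝ) ^ ((1 / 20 : ℝ) * m + -(3 / 10) * (m : ℝ)) ≤ 2 ^ (-(m : ℝ) / 4) :=
                Real.rpow_le_rpow_of_exponent_le (by norm_num) (by nlinarith)
            _ = 1 * 2 ^ (-(m : ℝ) / 4) := (one_mul _).symm
            _ ≤ A * 2 ^ (-(m : ℝ) / 4) := mul_le_mul_of_nonneg_right hAR (by positivity)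
    _ = _ := by ring


end Crest.Agent.R4C.UDtotx208
end

-- ▼ part R4C/UDset_404
section

/-!
# Class UNEXPLAINED DEFICIT: set-bilinear bound per level (helper404)

`ud_sets` : 208's `ud_tot` for the indicator functions of `S, S' ⊆ B`, `L ν(B) ≤ 1`:
`Σ_{b ∈ S, c ∈ S'} gcd ν ν 1[...] ≤ C A 2^(-m/4) √(ν S ν S')` (input of the level kit `Kit_21`).
-/

set_option autoImplicit false

namespace Crest.Agent.R4C.UDsetx404

open Finset
open Crest.Agent.R4C.Basex935 Crest.Agent.R4C.Cutx50 Crest.Agent.R4C.FLDefx935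
open Crest.Agent.R4C.Pairx14 Crest.Agent.R4C.UDtotx208

open Classical

/-- `x^((1+η)/2) ≤ √x` for `0 ≤ x ≤ 1` -/
lemma rpow_half_le {x η : ℝ} (hx : 0 ≤ x) (hx1 : x ≤ 1) (hη : 0 ≤ η) :
    x ^ ((1 + η) / 2) ≤ √x := by
  rcases hx.eq_or_lt with h | h
  · rw [← h, Real.zero_rpow (by linarith), Real.sqrt_zero]
  · rw [Real.sqrt_eq_rpow]
    exact Real.rpow_le_rpow_of_exponent_ge h hx1 (by linarith)

lemma sum_ind {M : ℕ} {S : Finset ℕ} (hS : S ⊆ M.divisors) (g : ℕ → ℝ) :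
    ∑ b ∈ M.divisors, g b * (if b ∈ S then (1 : ℝ) else 0) = ∑ b ∈ S, g b := by
  simp only [mul_ite, mul_one, mul_zero]
  rw [← Finset.sum_filter]
  refine Finset.sum_congr ?_ fun _ _ => rfl
  ext b
  rw [Finset.mem_filter]
  exact ⟨fun h => h.2, fun h => ⟨hS h, h⟩⟩

/-- a double sum over subsets, with indicators -/
lemma sum_ind2 {M : ℕ} {S S' : Finset ℕ} (hS : S ⊆ M.divisors) (hS' : S' ⊆ M.divisors)
    (K : ℕ → ℕ → ℝ) :
    ∑ b ∈ M.divisors, ∑ c ∈ M.divisors, K b c * ((if b ∈ S then (1 : ℝ) else 0) *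
      (if c ∈ S' then (1 : ℝ) else 0)) = ∑ b ∈ S, ∑ c ∈ S', K b c := by
  rw [← Finset.sum_subset hS]
  · refine Finset.sum_congr rfl fun b hb => ?_
    rw [← Finset.sum_subset hS']
    · refine Finset.sum_congr rfl fun c hc => ?_
      rw [if_pos hb, if_pos hc]; ring
    · intro c _ hc
      rw [if_neg hc]; ring
  · intro b _ hb
    refine Finset.sum_eq_zero fun c _ => ?_
    rw [if_neg hb]; ring

/-- **from an energy bound for `[0,1]`-functions with exponent `(1+η)/2` to a set-bilinear bound** -/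
theorem sets_of_fun {M : ℕ} {L η Z : ℝ} {B : Finset ℕ} {K : ℕ → ℕ → ℝ} (hB : B ⊆ M.divisors)
    (hL : 0 < L) (hη : 0 ≤ η) (hZ : 0 ≤ Z) (hm : L * ∑ b ∈ B, nu M b ≤ 1)
    (h : ∀ f g : ℕ → ℝ, (∀ b, 0 ≤ f b) → (∀ b, f b ≤ 1) → (∀ b, 0 ≤ g b) → (∀ b, g b ≤ 1) →
      L * ∑ b ∈ M.divisors, ∑ c ∈ M.divisors, K b c * (f b * g c) ≤
        Z * ((L * ∑ b ∈ M.divisors, nu M b * f b) ^ ((1 + η) / 2) *
          (L * ∑ b ∈ M.divisors, nu M b * g b) ^ ((1 + η) / 2)))
    {S S' : Finset ℕ} (hS : S ⊆ B) (hS' : S' ⊆ B) :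
    ∑ b ∈ S, ∑ c ∈ S', K b c ≤ Z * √((∑ b ∈ S, nu M b) * ∑ c ∈ S', nu M c) := by
  have h01 : ∀ (T : Finset ℕ) (b : ℕ), (0 : ℝ) ≤ (if b ∈ T then 1 else 0) := fun T b => by
    split_ifs <;> norm_num
  have h02 : ∀ (T : Finset ℕ) (b : ℕ), (if b ∈ T then (1 : ℝ) else 0) ≤ 1 := fun T b => by
    split_ifs <;> norm_num
  have h1 := h (fun b => if b ∈ S then 1 else 0) (fun b => if b ∈ S' then 1 else 0)
    (h01 S) (h02 S) (h01 S') (h02 S')
  rw [sum_ind2 (hS.trans hB) (hS'.trans hB), sum_ind (hS.trans hB), sum_ind (hS'.trans hB)] at h1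
  have hmS : ∀ {T : Finset ℕ}, T ⊆ B → 0 ≤ L * ∑ b ∈ T, nu M b ∧ L * ∑ b ∈ T, nu M b ≤ 1 := by
    intro T hT
    refine ⟨mul_nonneg hL.le (Finset.sum_nonneg fun b _ => nu_nonneg M b), le_trans ?_ hm⟩
    exact mul_le_mul_of_nonneg_left
      (Finset.sum_le_sum_of_subset_of_nonneg hT fun b _ _ => nu_nonneg M b) hL.le
  have e1 := rpow_half_le (hmS hS).1 (hmS hS).2 hη
  have e2 := rpow_half_le (hmS hS').1 (hmS hS').2 hη
  have h3 : L * ∑ b ∈ S, ∑ c ∈ S', K b c ≤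
      L * (Z * √((∑ b ∈ S, nu M b) * ∑ c ∈ S', nu M c)) := by
    refine h1.trans ?_
    calc Z * ((L * ∑ b ∈ S, nu M b) ^ ((1 + η) / 2) * (L * ∑ b ∈ S', nu M b) ^ ((1 + η) / 2))
        ≤ Z * (√(L * ∑ b ∈ S, nu M b) * √(L * ∑ b ∈ S', nu M b)) :=
          mul_le_mul_of_nonneg_left (mul_le_mul e1 e2 (Real.rpow_nonneg (hmS hS').1 _)
            (Real.sqrt_nonneg _)) hZ
      _ = _ := by
          rw [Real.sqrt_mul hL.le, Real.sqrt_mul hL.le,
            Real.sqrt_mul (Finset.sum_nonneg fun b _ => nu_nonneg M b)]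
          have e3 : √L * √L = L := Real.mul_self_sqrt hL.le
          calc Z * (√L * √(∑ b ∈ S, nu M b) * (√L * √(∑ b ∈ S', nu M b)))
              = (√L * √L) * (Z * (√(∑ b ∈ S, nu M b) * √(∑ b ∈ S', nu M b))) := by ring
            _ = _ := by rw [e3]
  exact le_of_mul_le_mul_left h3 hL

/-- **UNEXPLAINED DEFICIT at the scale `2^m`, cut `2^(A m)`: set-bilinear bound.** -/
theorem ud_sets {η : ℝ} (hη : 0 < η) (hη1 : η ≤ 1 / 20) :
    ∃ A0 : ℕ, ∃ C : ℝ, 1 ≤ A0 ∧ 0 < C ∧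
      ∀ (A : ℕ), A0 ≤ A → ∀ (M : ℕ) (F : FL M) (m : ℕ) (γ E L : ℝ) (B : Finset ℕ),
        0 < M → B ⊆ M.divisors → 1 ≤ m → 0 < L → L * ∑ b ∈ B, nu M b ≤ 1 → 1 ≤ E →
        E ≤ 2 ^ ((m : ℝ) / 24) → ∀ S S' : Finset ℕ, S ⊆ B → S' ⊆ B →
        ∑ b ∈ S, ∑ c ∈ S',
          (if 2 ^ m * L ≤ (Nat.gcd b c : ℝ) ∧ (Nat.gcd b c : ℝ) ≤ 2 * (2 ^ m * L) ∧
            F.good (2 ^ (A * m)) b c ∧
            (UD F γ (2 ^ m) E (2 ^ (A * m)) b c ∨ UD F γ (2 ^ m) E (2 ^ (A * m)) c b) then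
            (Nat.gcd b c : ℝ) * nu M b * nu M c else 0) ≤
        C * A * 2 ^ (-(m : ℝ) / 4) * √((∑ b ∈ S, nu M b) * ∑ c ∈ S', nu M c) := by
  obtain ⟨δ, C, hδ, hC, h⟩ := ud_tot hη (by linarith)
  obtain ⟨A1, hA1⟩ := exists_nat_ge (3 / 10 / δ)
  refine ⟨A1 + 1, 11 * C, by omega, by positivity, ?_⟩
  intro A hA M F m γ E L B hM hB hm hL hmass hE hE2 S S' hS hS'
  have hA1' : 1 ≤ A := by omega
  have hAδ : 3 / 10 ≤ A * δ := by
    have h1 : (A1 : ℝ) ≤ A := by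
      have : A1 ≤ A := by omega
      exact_mod_cast this
    have h2 : 3 / 10 / δ ≤ A := hA1.trans h1
    rwa [div_le_iff₀ hδ] at h2
  have hmR : (1:ℝ) ≤ m := by exact_mod_cast hm
  have hAm : m ≤ A * m := Nat.le_mul_of_pos_left m hA1'
  have hx2 : 2 ≤ 2 ^ (A * m) := by
    calc 2 = 2 ^ 1 := by norm_num
      _ ≤ 2 ^ (A * m) := Nat.pow_le_pow_right (by norm_num) (by omega)
  have hTx : (2:ℝ) ^ m ≤ ((2 ^ (A * m) : ℕ) : ℝ) := by
    push_cast
    exact pow_le_pow_right₀ (by norm_num) hAm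
  have hEx : E < ((2 ^ (A * m) : ℕ) : ℝ) := by
    refine lt_of_lt_of_le ?_ hTx
    refine lt_of_le_of_lt hE2 ?_
    rw [← Real.rpow_natCast]
    exact Real.rpow_lt_rpow_of_exponent_lt (by norm_num) (by linarith)
  have hT1 : (1:ℝ) ≤ 2 ^ m := one_le_pow₀ (by norm_num)
  have hnum := scale_num (δ := δ) hη hη1 hA1' hAδ hm hE hE2
  refine sets_of_fun (η := η) (Z := 11 * C * A * 2 ^ (-(m : ℝ) / 4)) hB hL hη.le (by positivity)
    hmass ?_ hS hS'
  intro f g hf hf1 hg hg1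
  have h1 := h M F (2 ^ (A * m)) γ (2 ^ m) E L f g hM hx2 hL hE hT1 hEx hTx hf hf1 hg hg1
  have hm0 : ∀ u : ℕ → ℝ, (∀ b, 0 ≤ u b) → 0 ≤ L * ∑ b ∈ M.divisors, nu M b * u b := fun u hu =>
    mul_nonneg hL.le (Finset.sum_nonneg fun b _ => mul_nonneg (nu_nonneg _ _) (hu b))
  refine le_trans (le_of_eq ?_) (h1.trans ?_)
  · congr 1
    refine Finset.sum_congr rfl fun b _ => Finset.sum_congr rfl fun c _ => ?_
    split_ifs <;> ring
  · have h2 : 0 ≤ (L * ∑ b ∈ M.divisors, nu M b * f b) ^ ((1 + η) / 2) *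
        (L * ∑ b ∈ M.divisors, nu M b * g b) ^ ((1 + η) / 2) :=
      mul_nonneg (Real.rpow_nonneg (hm0 f hf) _) (Real.rpow_nonneg (hm0 g hg) _)
    calc _ = C * ((2 ^ m) ^ η * ((Real.log ((2 ^ (A * m) : ℕ) : ℝ) * (E ^ 3 / 2 ^ m)) ^
          ((1 - η) / 2) + ((2 ^ (A * m) : ℕ) : ℝ) ^ (-δ))) *
          ((L * ∑ b ∈ M.divisors, nu M b * f b) ^ ((1 + η) / 2) *
            (L * ∑ b ∈ M.divisors, nu M b * g b) ^ ((1 + η) / 2)) := by ring
      _ ≤ C * (11 * A * 2 ^ (-(m : ℝ) / 4)) *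
          ((L * ∑ b ∈ M.divisors, nu M b * f b) ^ ((1 + η) / 2) *
            (L * ∑ b ∈ M.divisors, nu M b * g b) ^ ((1 + η) / 2)) :=
          mul_le_mul_of_nonneg_right (mul_le_mul_of_nonneg_left hnum hC.le) h2
      _ = _ := by ring

end Crest.Agent.R4C.UDsetx404
end

-- ▼ part R4C/ClsUD_208

/-!
# Row 4: the class `CUD` (unexplained deficit at the own scale) is bounded (helper208)

* `lvl_of_far` : a pair of `FarA` (own scale `2^i`, good at `cut i`, aligned primes `≤ cut (2 i)`)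
  satisfies the level conditions `Lvl` of `FarKit_179` with `Q = 2^(A (2 i + 1))`;
* `clsOK_UD` : `ClsOK γ CUD` for every `1 ≤ D m ≤ 2^(cp m / 16)`;
* `cls_ud` : the same for `D = HyOf_281.DD`.
-/

set_option autoImplicit false

open Finset

namespace Crest.Agent.R4C.ClsUDx208

open Crest.Agent.R4C.Basex935 Crest.Agent.R4C.CrCoinx935 Crest.Agent.R4C.CrCountx935
  Crest.Agent.R4C.Bridgex882 Crest.Agent.R4C.FLDefx935 Crest.Agent.R4C.Cutx50
  Crest.Agent.R4C.Rulex945 Crest.Agent.R4C.Splitx945 Crest.Agent.R4C.Spinex946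
  Crest.Agent.R4C.FarKitx179
open Crest.Agent.R4C.HyOfx281 (DD one_le_DD)

/-- `FarA` at the scale `i ≥ 3` satisfies the level conditions with `Q = 2^(A (2 i + 1))` -/
lemma lvl_of_far {cp γ L η : ℝ} {A m0 M : ℕ} {B : Finset ℕ} {F : FL M} (hS : Setup η L M B F)
    (hA : 1 ≤ A) (hm3 : 3 ≤ m0) {i b c : ℕ} {h : ℤ} (hb : b ∈ B)
    (hF : FarA F (ParOf cp A m0 γ L M B) i b c h) :
    Lvl F (ParOf cp A m0 γ L M B) (2 ^ (A * (2 * i + 1))) b c h := by
  have hi : m0 ≤ i := hF.m0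
  have hg : 0 < Nat.gcd b c := Nat.gcd_pos_of_pos_left _ (hS.pos hb)
  have h2i : (1 : ℝ) ≤ 2 ^ i := one_le_pow₀ (by norm_num)
  have hlo : (2 : ℝ) ^ i * L ≤ (Nat.gcd b c : ℕ) := hF.lo
  refine ⟨?_, ?_, ?_⟩
  · refine FL.good_mono ?_ hF.good
    change 2 ^ (A * i) ≤ _
    exact Nat.pow_le_pow_right (by norm_num) (Nat.mul_le_mul_left _ (by omega))
  · intro p hp
    refine (hF.al p hp).trans ?_
    change 2 ^ (A * (2 * i)) ≤ _
    exact Nat.pow_le_pow_right (by norm_num) (Nat.mul_le_mul_left _ (by omega))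
  · have hgR : (0 : ℝ) < (Nat.gcd b c : ℕ) := by exact_mod_cast hg
    have h1 : L / (Nat.gcd b c : ℕ) ≤ 1 := by
      rw [div_le_one hgR]
      have := hS.hL
      nlinarith
    unfold X1
    rw [show (ParOf cp A m0 γ L M B).L = L from rfl, max_eq_left h1, Real.one_rpow]
    have h2 : Real.exp 1 ≤ 8 := by
      have := Real.exp_one_lt_d9
      linarith
    have h3 : (8 : ℕ) ≤ 2 ^ (A * (2 * i + 1)) := by
      calc (8 : ℕ) = 2 ^ 3 := by norm_num
        _ ≤ 2 ^ (A * (2 * i + 1)) := Nat.pow_le_pow_right (by norm_num) (by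
            have : 3 ≤ i := hm3.trans hi
            nlinarith)
    exact h2.trans (by exact_mod_cast h3)

open Classical in
/-- **the class `CUD`** -/
theorem clsOK_UD {γ : ℝ} {D : ℝ → ℕ → ℝ} (hD1 : ∀ cp, 0 < cp → ∀ m : ℕ, 1 ≤ D cp m)
    (hD : ∀ cp, 0 < cp → ∀ m : ℕ, D cp m ≤ (2 : ℝ) ^ (cp * m / 16)) :
    ClsOK γ (fun cp _ A m0 L M B F => CUD F (ParOf cp A m0 γ L M B) (D cp)) := by
  -- the constants of `ud_sets` as functions of `η`
  have hex : ∀ η : ℝ, ∃ A0 : ℕ, ∃ C : ℝ, 0 < η → η ≤ 1 / 20 → 1 ≤ A0 ∧ 0 < C ∧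
      ∀ (A : ℕ), A0 ≤ A → ∀ (M : ℕ) (F : FL M) (m : ℕ) (γ E L : ℝ) (B : Finset ℕ),
        0 < M → B ⊆ M.divisors → 1 ≤ m → 0 < L → L * ∑ b ∈ B, nu M b ≤ 1 → 1 ≤ E →
        E ≤ 2 ^ ((m : ℝ) / 24) → ∀ S S' : Finset ℕ, S ⊆ B → S' ⊆ B →
        ∑ b ∈ S, ∑ c ∈ S',
          (if 2 ^ m * L ≤ (Nat.gcd b c : ℝ) ∧ (Nat.gcd b c : ℝ) ≤ 2 * (2 ^ m * L) ∧
            F.good (2 ^ (A * m)) b c ∧
            (Pairx14.UD F γ (2 ^ m) E (2 ^ (A * m)) b c ∨
              Pairx14.UD F γ (2 ^ m) E (2 ^ (A * m)) c b) then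
            (Nat.gcd b c : ℝ) * nu M b * nu M c else 0) ≤
        C * A * 2 ^ (-(m : ℝ) / 4) * √((∑ b ∈ S, nu M b) * ∑ c ∈ S', nu M c) := by
    intro η
    by_cases h : 0 < η ∧ η ≤ 1 / 20
    · obtain ⟨A0, C, h1⟩ := UDsetx404.ud_sets h.1 h.2
      exact ⟨A0, C, fun _ _ => h1⟩
    · exact ⟨0, 0, fun h1 h2 => absurd ⟨h1, h2⟩ h⟩
  choose A0 C hspec using hex
  refine clsOK_of_sets (((Ev.basic.and (Ev.le_m0 fun _ _ _ => 52)).and
    (Ev.le_A fun _ η => (A0 η : ℝ))).mono ?_)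
  rintro cp η A m0 ⟨⟨⟨hcp, hcp2, hη, hη2, hη1, hA, _⟩, hm0⟩, hA0⟩
  have hm52 : 52 ≤ m0 := by exact_mod_cast hm0
  have hA0' : A0 η ≤ A := by exact_mod_cast hA0
  obtain ⟨_, hC0, H⟩ := hspec η hη (by linarith)
  refine ⟨1 / 4, by norm_num, C η * A, by positivity, 0, ?_⟩
  intro L M B F hS
  refine ⟨fun t b c => 2 ^ t * L ≤ (Nat.gcd b c : ℝ) ∧ (Nat.gcd b c : ℝ) ≤ 2 * (2 ^ t * L) ∧
    F.good (2 ^ (A * t)) b c ∧
    (Pairx14.UD F γ (2 ^ t) (4 * D cp t ^ 8) (2 ^ (A * t)) b c ∨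
      Pairx14.UD F γ (2 ^ t) (4 * D cp t ^ 8) (2 ^ (A * t)) c b), ?_, ?_⟩
  · intro b hb c hcB hne h hh hk hR
    obtain ⟨i, hF, hr⟩ := hR
    refine ⟨i, hF.m0, ⟨hF.lo, ?_, hF.good, hr⟩, lvl_of_far hS hA (by omega) hb hF⟩
    have h1 : (Nat.gcd b c : ℝ) < 2 ^ (i + 1) * L := hF.hi
    rw [pow_succ] at h1
    linarith
  · intro t ht S S' hSB hSB'
    have ht52 : (52 : ℝ) ≤ t := by exact_mod_cast (hm52.trans ht)
    have hD1' := hD1 cp hcp t
    have hE1 : (1 : ℝ) ≤ 4 * D cp t ^ 8 := by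
      have := one_le_pow₀ (n := 8) hD1'
      linarith
    have hE2 : 4 * D cp t ^ 8 ≤ (2 : ℝ) ^ ((t : ℝ) / 24) := by
      have h1 : D cp t ^ 8 ≤ ((2 : ℝ) ^ (cp * t / 16)) ^ 8 :=
        pow_le_pow_left₀ (by linarith) (hD cp hcp t) 8
      calc 4 * D cp t ^ 8 ≤ (2 : ℝ) ^ (2 : ℝ) * ((2 : ℝ) ^ (cp * t / 16)) ^ 8 := by
            rw [show (2 : ℝ) ^ (2 : ℝ) = 4 by norm_num]
            linarith
        _ = (2 : ℝ) ^ (2 + cp * t / 16 * (8 : ℕ)) := by
            rw [← Real.rpow_natCast _ 8, ← Real.rpow_mul (by norm_num),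
              Real.rpow_add (by norm_num)]
        _ ≤ (2 : ℝ) ^ ((t : ℝ) / 24) := by
            refine Real.rpow_le_rpow_of_exponent_le (by norm_num) ?_
            have h2 : cp * t ≤ 1 / 200 * t := mul_le_mul_of_nonneg_right hcp2 (by linarith)
            push_cast
            linarith
    have h1 := H A hA0' M F t γ (4 * D cp t ^ 8) L B hS.hM hS.hB (by omega) hS.hL hS.mass hE1 hE2
      S S' hSB hSB'
    have hL := hS.hL.le
    have h2 : ∑ b ∈ S, ∑ c ∈ S', ker M (fun b c => 2 ^ t * L ≤ (Nat.gcd b c : ℝ) ∧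
        (Nat.gcd b c : ℝ) ≤ 2 * (2 ^ t * L) ∧ F.good (2 ^ (A * t)) b c ∧
        (Pairx14.UD F γ (2 ^ t) (4 * D cp t ^ 8) (2 ^ (A * t)) b c ∨
          Pairx14.UD F γ (2 ^ t) (4 * D cp t ^ 8) (2 ^ (A * t)) c b)) b c ≤
        C η * A * 2 ^ (-(t : ℝ) / 4) * √((∑ b ∈ S, nu M b) * ∑ c ∈ S', nu M c) := by
      refine le_trans (le_of_eq ?_) h1
      refine Finset.sum_congr rfl fun b _ => Finset.sum_congr rfl fun c _ => ?_
      unfold ker
      by_cases hq : 2 ^ t * L ≤ (Nat.gcd b c : ℝ) ∧ (Nat.gcd b c : ℝ) ≤ 2 * (2 ^ t * L) ∧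
        F.good (2 ^ (A * t)) b c ∧
        (Pairx14.UD F γ (2 ^ t) (4 * D cp t ^ 8) (2 ^ (A * t)) b c ∨
          Pairx14.UD F γ (2 ^ t) (4 * D cp t ^ 8) (2 ^ (A * t)) c b)
      · rw [if_pos hq, if_pos hq]
      · rw [if_neg hq, if_neg hq]
    have hn : ∀ T : Finset ℕ, 0 ≤ ∑ b ∈ T, nu M b := fun T =>
      Finset.sum_nonneg fun b _ => nu_nonneg M b
    have e1 : √((L * ∑ b ∈ S, nu M b) * (L * ∑ c ∈ S', nu M c)) =
        L * √((∑ b ∈ S, nu M b) * ∑ c ∈ S', nu M c) := by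
      rw [show (L * ∑ b ∈ S, nu M b) * (L * ∑ c ∈ S', nu M c) =
        L ^ 2 * ((∑ b ∈ S, nu M b) * ∑ c ∈ S', nu M c) by ring,
        Real.sqrt_mul (by positivity), Real.sqrt_sq hL]
    have e2 : (2 : ℝ) ^ (-(t : ℝ) / 4) = (2 : ℝ) ^ (-(1 / 4 * (t : ℝ))) := by
      congr 1
      ring
    rw [e1, pow_zero, mul_one, ← e2]
    calc L * _ ≤ L * (C η * A * 2 ^ (-(t : ℝ) / 4) *
          √((∑ b ∈ S, nu M b) * ∑ c ∈ S', nu M c)) := mul_le_mul_of_nonneg_left h2 hL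
      _ = _ := by ring

/-- **the class `CUD` with the parameter `DD` of `HyOf_281`** -/
theorem cls_ud (γ : ℝ) :
    ClsOK γ (fun cp _ A m0 L M B F => CUD F (ParOf cp A m0 γ L M B) (DD cp)) :=
  clsOK_UD (fun _ hcp m => one_le_DD hcp.le m) fun _ _ _ => le_rfl

end Crest.Agent.R4C.ClsUDx208
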