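import Crest.Agent.R4.Soft104

-- ▼ part R4C/CrRed_935
section

/-!
# Row 4: the constant radius statement implies the finite theorem (helper935)

* `m E` : measure of a `1`-periodic set on one period.
* `m_N_sdiff_le`, `m_Nb_le` : growth of neighbourhoods (one-sided layers are shifted injectively).
* `union_ge` : constant radius bounds for all subsets of `S` give the bound for variable radii on `S`.
* `CR γ` : constant radius statement, `FT_of_CR : CR γ → Soft104.FT γ`.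
* `CR1 γ` : constant radius statement at critical mass and small `ρ q`; `CR_of_CR1 : CR1 γ → CR γ`.
-/

set_option autoImplicit false
open MeasureTheory Filter Set Topology
open scoped Pointwise

namespace Crest.Agent.R4C.CrRedx935

open Crest.Agent.R4.Soft104

/-- periodicity -/
def Per (E : Set ℝ) : Prop := ∀ (x : ℝ) (n : ℤ), x + n ∈ E ↔ x ∈ E

/-- measure on one period -/
noncomputable def m (E : Set ℝ) : ℝ := volume.real (Ioc (0 : ℝ) 1 ∩ E)

lemma ne_top (a b : ℝ) (E : Set ℝ) : volume (Ioc a b ∩ E) ≠ ⊤ :=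
  ne_top_of_le_ne_top (by simp) (measure_mono inter_subset_left)

lemma m_nonneg (E : Set ℝ) : 0 ≤ m E := measureReal_nonneg

lemma m_mono {E F : Set ℝ} (h : E ⊆ F) : m E ≤ m F :=
  measureReal_mono (inter_subset_inter_right _ h) (ne_top _ _ _)

lemma m_union_le (E F : Set ℝ) : m (E ∪ F) ≤ m E + m F := by
  unfold m
  rw [inter_union_distrib_left]
  exact measureReal_union_le _ _

lemma m_Ico (E : Set ℝ) : volume.real (Ico (0 : ℝ) 1 ∩ E) = m E := by
  unfold m Measure.real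
  congr 1
  refine measure_congr ?_
  exact (Ico_ae_eq_Ioc).inter (ae_eq_refl _)

lemma m_period {E : Set ℝ} (hE : MeasurableSet E) (hp : Per E) (t : ℝ) :
    volume.real (Ioc t (t + 1) ∩ E) = m E := by
  have h1 := isAddFundamentalDomain_Ioc (T := (1 : ℝ)) one_pos t volume
  have h2 := isAddFundamentalDomain_Ioc (T := (1 : ℝ)) one_pos 0 volume
  have h := h1.measure_set_eq h2 hE (fun g => by
    obtain ⟨g, hg⟩ := g
    obtain ⟨n, rfl⟩ := AddSubgroup.mem_zmultiples_iff.1 hg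
    ext x
    simp only [mem_preimage]
    have : ((⟨n • (1 : ℝ), hg⟩ : AddSubgroup.zmultiples (1 : ℝ)) +ᵥ x) = x + n := by
      rw [AddSubgroup.vadd_def]
      simp [add_comm]
    rw [this]
    exact hp x n)
  unfold m Measure.real
  rw [inter_comm, h, inter_comm, zero_add]

lemma m_shift {E : Set ℝ} (hE : MeasurableSet E) (hp : Per E) (h : ℝ) :
    m ((fun x => x - h) ⁻¹' E) = m E := by
  rw [← m_period hE hp (-h)]
  unfold m Measure.real
  congr 1
  have : Ioc (0 : ℝ) 1 ∩ (fun x => x - h) ⁻¹' E = (fun x => x + (-h)) ⁻¹' (Ioc (-h) (-h + 1) ∩ E) := by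
    ext x
    simp only [mem_inter_iff, mem_Ioc, mem_preimage, sub_eq_add_neg]
    constructor
    · rintro ⟨⟨a, b⟩, c⟩; exact ⟨⟨by linarith, by linarith⟩, c⟩
    · rintro ⟨⟨a, b⟩, c⟩; exact ⟨⟨by linarith, by linarith⟩, c⟩
  rw [this, measure_preimage_add_right]

/-! ### one-sided neighbourhoods -/

/-- one-sided closed neighbourhood (`σ = 1` or `σ = -1`) -/
def N (σ : ℝ) (A : Set ℝ) (s : ℝ) : Set ℝ := {x | ∃ a ∈ A, 0 ≤ σ * (x - a) ∧ σ * (x - a) ≤ s}

variable {σ : ℝ} {A U : Set ℝ}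

lemma N_zero (hσ : σ * σ = 1) : N σ A 0 = A := by
  ext x
  constructor
  · rintro ⟨a, ha, h1, h2⟩
    have h3 : σ * (x - a) = 0 := le_antisymm h2 h1
    have h4 : x - a = 0 := by
      have : σ * (σ * (x - a)) = 0 := by rw [h3, mul_zero]
      rwa [← mul_assoc, hσ, one_mul] at this
    have h5 : x = a := by linarith
    rwa [h5]
  · intro h
    exact ⟨x, h, by simp, by simp⟩


lemma N_per (hA : Per A) (s : ℝ) : Per (N σ A s) := by
  intro x n
  constructor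
  · rintro ⟨a, ha, h1, h2⟩
    refine ⟨a - n, ?_, ?_, ?_⟩
    · have := (hA (a - n) n)
      rw [sub_add_cancel] at this
      exact this.1 ha
    · have : x - (a - n) = x + n - a := by ring
      rwa [this]
    · have : x - (a - n) = x + n - a := by ring
      rwa [this]
  · rintro ⟨a, ha, h1, h2⟩
    refine ⟨a + n, (hA a n).2 ha, ?_, ?_⟩
    · have : x + n - (a + n) = x - a := by ring
      rwa [this]
    · have : x + n - (a + n) = x - a := by ring
      rwa [this]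

lemma N_closed (hσ : σ * σ = 1) (hA : IsClosed A) (s : ℝ) : IsClosed (N σ A s) := by
  have h : N σ A s = A + (fun t => σ * t) '' Icc 0 s := by
    ext x
    simp only [N, Set.mem_add, mem_image, mem_ofPred_eq]
    constructor
    · rintro ⟨a, ha, h1, h2⟩
      refine ⟨a, ha, x - a, ⟨σ * (x - a), ⟨h1, h2⟩, ?_⟩, by ring⟩
      rw [← mul_assoc, hσ, one_mul]
    · rintro ⟨a, ha, y, ⟨t, ⟨h1, h2⟩, rfl⟩, rfl⟩
      refine ⟨a, ha, ?_, ?_⟩
      · have : σ * (a + σ * t - a) = t := by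
          have : σ * (a + σ * t - a) = (σ * σ) * t := by ring
          rw [this, hσ, one_mul]
        rwa [this]
      · have : σ * (a + σ * t - a) = t := by
          have : σ * (a + σ * t - a) = (σ * σ) * t := by ring
          rw [this, hσ, one_mul]
        rwa [this]
  rw [h]
  exact hA.add_right_of_isCompact (isCompact_Icc.image (by fun_prop))

/-- layers -/
def Ly (σ : ℝ) (A : Set ℝ) (h : ℝ) (k : ℕ) : Set ℝ := N σ A ((k + 1) * h) \ N σ A (k * h)

lemma Ly_shift (hσ : σ * σ = 1) {h : ℝ} (hh : 0 < h) (k : ℕ) :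
    Ly σ A h (k + 1) ⊆ (fun x => x - σ * h) ⁻¹' Ly σ A h k := by
  rintro x ⟨⟨a, ha, h1, h2⟩, h3⟩
  push_cast at h2 h3
  have e : ∀ b : ℝ, σ * (x - σ * h - b) = σ * (x - b) - h := by
    intro b
    have : σ * (x - σ * h - b) = σ * (x - b) - (σ * σ) * h := by ring
    rw [this, hσ, one_mul]
  have h4 : (k + 1) * h < σ * (x - a) := by
    by_contra hc
    exact h3 ⟨a, ha, h1, not_lt.1 hc⟩
  have hk : (0 : ℝ) ≤ k := Nat.cast_nonneg k
  refine ⟨⟨a, ha, ?_, ?_⟩, ?_⟩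
  · rw [e]; nlinarith
  · rw [e]; nlinarith
  · rintro ⟨b, hb, h5, h6⟩
    rw [e] at h5 h6
    refine h3 ⟨b, hb, by linarith, by nlinarith⟩

lemma Ly_meas (hσ : σ * σ = 1) (hA : IsClosed A) (h : ℝ) (k : ℕ) : MeasurableSet (Ly σ A h k) :=
  (N_closed hσ hA _).measurableSet.diff (N_closed hσ hA _).measurableSet

lemma Ly_per (hA : Per A) (h : ℝ) (k : ℕ) : Per (Ly σ A h k) := fun x n => by
  unfold Ly
  rw [Set.mem_sdiff, Set.mem_sdiff, N_per hA _ x n, N_per hA _ x n]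

lemma m_Ly_le (hσ : σ * σ = 1) (hA : IsClosed A) (hp : Per A) {h : ℝ} (hh : 0 < h) (k : ℕ) :
    m (Ly σ A h k) ≤ m (Ly σ A h 0) := by
  induction k with
  | zero => exact le_rfl
  | succ k ih =>
    refine le_trans ?_ ih
    calc m (Ly σ A h (k + 1)) ≤ m ((fun x => x - σ * h) ⁻¹' Ly σ A h k) := m_mono (Ly_shift hσ hh k)
      _ = m (Ly σ A h k) := m_shift (Ly_meas hσ hA h k) (Ly_per hp h k) _

/-- **growth of one-sided neighbourhoods** -/
lemma m_N_sdiff_le (hσ : σ * σ = 1) (hA : IsClosed A) (hp : Per A) {h : ℝ} (hh : 0 < h) (n : ℕ) :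
    m (N σ A (n * h) \ A) ≤ n * m (N σ A h \ A) := by
  have h0 : Ly σ A h 0 = N σ A h \ A := by
    unfold Ly
    simp only [Nat.cast_zero, zero_add, one_mul, zero_mul]
    rw [N_zero hσ]
  induction n with
  | zero =>
    simp only [Nat.cast_zero, zero_mul]
    rw [N_zero hσ, sdiff_self]
    simp [m]
  | succ n ih =>
    have hs : N σ A (((n + 1 : ℕ) : ℝ) * h) \ A ⊆ (N σ A (n * h) \ A) ∪ Ly σ A h n := by
      rintro x ⟨hx, hxA⟩
      by_cases hx' : x ∈ N σ A (n * h)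
      · exact Or.inl ⟨hx', hxA⟩
      · exact Or.inr ⟨by push_cast at hx; exact hx, hx'⟩
    calc m (N σ A (((n + 1 : ℕ) : ℝ) * h) \ A) ≤ m ((N σ A (n * h) \ A) ∪ Ly σ A h n) := m_mono hs
      _ ≤ m (N σ A (n * h) \ A) + m (Ly σ A h n) := m_union_le _ _
      _ ≤ n * m (N σ A h \ A) + m (Ly σ A h 0) := add_le_add ih (m_Ly_le hσ hA hp hh n)
      _ = ((n + 1 : ℕ) : ℝ) * m (N σ A h \ A) := by rw [h0]; push_cast; ring

/-- open neighbourhood -/
def Nb (A : Set ℝ) (R : ℝ) : Set ℝ := {x | ∃ a ∈ A, |x - a| < R}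

lemma Nb_subset {R : ℝ} {h : ℝ} (n : ℕ) (hn : R ≤ n * h) :
    Nb A R ⊆ A ∪ ((N 1 A (n * h) \ A) ∪ (N (-1) A (n * h) \ A)) := by
  rintro x ⟨a, ha, hx⟩
  by_cases hxA : x ∈ A
  · exact Or.inl hxA
  rw [abs_lt] at hx
  rcases le_total a x with h1 | h1
  · exact Or.inr (Or.inl ⟨⟨a, ha, by linarith, by linarith⟩, hxA⟩)
  · exact Or.inr (Or.inr ⟨⟨a, ha, by linarith, by linarith⟩, hxA⟩)

lemma m_Nb_le (hA : IsClosed A) (hp : Per A) {h : ℝ} (hh : 0 < h) {R : ℝ} (n : ℕ)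
    (hn : R ≤ n * h) {v : ℝ} (h1 : m (N 1 A h \ A) ≤ v) (h2 : m (N (-1) A h \ A) ≤ v) :
    m (Nb A R) ≤ m A + 2 * n * v := by
  have e1 := m_N_sdiff_le (σ := 1) (by norm_num) hA hp hh n
  have e2 := m_N_sdiff_le (σ := -1) (by norm_num) hA hp hh n
  have hn0 : (0 : ℝ) ≤ n := Nat.cast_nonneg n
  calc m (Nb A R) ≤ m (A ∪ ((N 1 A (n * h) \ A) ∪ (N (-1) A (n * h) \ A))) :=
        m_mono (Nb_subset n hn)
    _ ≤ m A + m ((N 1 A (n * h) \ A) ∪ (N (-1) A (n * h) \ A)) := m_union_le _ _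
    _ ≤ m A + (m (N 1 A (n * h) \ A) + m (N (-1) A (n * h) \ A)) :=
        add_le_add le_rfl (m_union_le _ _)
    _ ≤ m A + (n * v + n * v) := by
        have := mul_le_mul_of_nonneg_left h1 hn0
        have := mul_le_mul_of_nonneg_left h2 hn0
        linarith
    _ = m A + 2 * n * v := by ring

/-! ### erosions -/

/-- erosion of `U` by `r` -/
def V (U : Set ℝ) (r : ℝ) : Set ℝ := {x | ∀ y, |y - x| < r → y ∈ U}

lemma V_closed (r : ℝ) : IsClosed (V U r) := by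
  have : V U r = (Metric.thickening r Uᶜ)ᶜ := by
    ext x
    simp only [V, mem_ofPred_eq, mem_compl_iff, Metric.mem_thickening_iff, not_exists, not_and]
    constructor
    · intro h y hy hxy
      refine hy (h y ?_)
      rwa [← Real.dist_eq, dist_comm]
    · intro h y hy
      by_contra hc
      refine h y hc ?_
      rwa [dist_comm, Real.dist_eq]
  rw [this]
  exact Metric.isOpen_thickening.isClosed_compl

lemma V_per (hU : Per U) (r : ℝ) : Per (V U r) := by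
  intro x n
  constructor
  · intro h y hy
    have := h (y + n) (by rwa [add_sub_add_right_eq_sub])
    exact (hU y n).1 this
  · intro h y hy
    have := h (y - n) (by rwa [show y - (n : ℝ) - x = y - (x + n) by ring])
    have h2 := (hU (y - n) n)
    rw [sub_add_cancel] at h2
    exact h2.2 this

lemma V_anti {r s : ℝ} (h : r ≤ s) : V U s ⊆ V U r := fun _ hx y hy => hx y (hy.trans_le h)

lemma V_subset {r : ℝ} (hr : 0 < r) : V U r ⊆ U := fun x hx => hx x (by simpa using hr)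

lemma N_V_subset (hσ : |σ| = 1) {h : ℝ} : N σ (V U (2 * h)) h ⊆ V U h := by
  rintro x ⟨a, ha, h1, h2⟩ y hy
  refine ha y ?_
  have e : |x - a| = σ * (x - a) := by
    rw [← abs_of_nonneg h1, abs_mul, hσ, one_mul]
  calc |y - a| = |(y - x) + (x - a)| := by ring_nf
    _ ≤ |y - x| + |x - a| := abs_add_le _ _
    _ < h + h := by rw [e]; linarith
    _ = 2 * h := by ring

/-- **neighbourhoods of an erosion** -/
lemma m_Nb_V_le (hU : Per U) {h : ℝ} (hh : 0 < h) {R : ℝ} (n : ℕ) (hn : R ≤ n * h) :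
    m (Nb (V U (2 * h)) R) ≤ m U + 2 * n * m (V U h \ V U (2 * h)) := by
  refine (m_Nb_le (V_closed _) (V_per hU _) hh n hn (v := m (V U h \ V U (2 * h))) ?_ ?_).trans ?_
  · exact m_mono (sdiff_subset_sdiff_left (N_V_subset (by norm_num)))
  · exact m_mono (sdiff_subset_sdiff_left (N_V_subset (by norm_num)))
  · have := m_mono (V_subset (U := U) (r := 2 * h) (by linarith))
    linarith

/-! ### the constant radius statement -/

lemma mem_arc {γ r : ℝ} {q : ℕ} (hq : 0 < q) {x : ℝ} :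
    x ∈ Arc γ (r * q) q ↔ ∃ n : ℤ, |x - (γ + n) / q| < r := by
  have hq' : (0 : ℝ) < q := by exact_mod_cast hq
  have e : ∀ n : ℤ, |(q : ℝ) * x - γ - n| = q * |x - (γ + n) / q| := by
    intro n
    rw [← abs_of_pos hq', ← abs_mul, abs_of_pos hq']
    congr 1
    field_simp
    ring
  constructor
  · intro h
    refine ⟨round ((q : ℝ) * x - γ), ?_⟩
    have h1 : |(q : ℝ) * x - γ - round ((q : ℝ) * x - γ)| < r * q := h
    rw [e] at h1
    nlinarith
  · rintro ⟨n, hn⟩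
    show |(q : ℝ) * x - γ - round ((q : ℝ) * x - γ)| < r * q
    refine (round_le _ n).trans_lt ?_
    rw [e]
    nlinarith

/-- the centres -/
def X (γ : ℝ) (Q : Finset ℕ) : Set ℝ := {x | ∃ q ∈ Q, ∃ n : ℤ, x = (γ + n) / q}

lemma Nb_X {γ ρ : ℝ} {Q : Finset ℕ} (hQ : ∀ q ∈ Q, 0 < q) :
    Nb (X γ Q) ρ = ⋃ q ∈ Q, Arc γ (ρ * q) q := by
  ext x
  simp only [Nb, X, mem_ofPred_eq, mem_iUnion, exists_prop]
  constructor
  · rintro ⟨a, ⟨q, hq, n, rfl⟩, h⟩
    exact ⟨q, hq, (mem_arc (hQ q hq)).2 ⟨n, h⟩⟩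
  · rintro ⟨q, hq, h⟩
    obtain ⟨n, hn⟩ := (mem_arc (hQ q hq)).1 h
    exact ⟨_, ⟨q, hq, n, rfl⟩, hn⟩

/-- **constant radius statement** -/
def CR (γ : ℝ) : Prop := ∃ c : ℝ, 0 < c ∧ ∃ P : ℕ, ∀ (Q : Finset ℕ) (ρ : ℝ),
  (∀ q ∈ Q, 0 < q ∧ P ≤ q) → 0 < ρ →
    c * min 1 (ρ * ∑ q ∈ Q, (Nat.totient q : ℝ)) ≤
      volume.real (Ico (0 : ℝ) 1 ∩ ⋃ q ∈ Q, Arc γ (ρ * q) q)

/-- one level -/
lemma level {c u v Φ h : ℝ} (hc : 0 < c) (hh : 0 < h) (hv : 0 ≤ v) (hvu : v ≤ u)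
    (hΦ : 0 ≤ Φ) (hu : 6 * u < c)
    (H : ∀ R : ℝ, 0 < R → c * min 1 (R * Φ) ≤ u + 2 * (R / h + 1) * v) :
    Φ * h ≤ 5 * v / c := by
  rcases hv.eq_or_lt with rfl | hv
  · rcases hΦ.eq_or_lt with rfl | hΦ
    · simp
    · exfalso
      have := H (1 / Φ) (by positivity)
      rw [one_div, inv_mul_cancel₀ hΦ.ne', min_self] at this
      simp only [mul_one, mul_zero, add_zero] at this
      linarith
  · have hu0 : 0 < u := hv.trans_le hvu
    have h1 := H (h * u / v) (by positivity)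
    have h2 : u + 2 * (h * u / v / h + 1) * v ≤ 5 * u := by
      have : h * u / v / h * v = u := by field_simp
      nlinarith
    have h3 : c * min 1 (h * u / v * Φ) ≤ 5 * u := h1.trans h2
    have h4 : h * u / v * Φ < 1 := by
      by_contra hc'
      rw [min_eq_left (not_lt.1 hc')] at h3
      linarith
    rw [min_eq_right h4.le] at h3
    rw [le_div_iff₀ hc]
    have h5 : c * (h * u / v * Φ) * v ≤ 5 * u * v := mul_le_mul_of_nonneg_right h3 hv.le
    have h6 : c * (h * u / v * Φ) * v = u * (Φ * h * c) := by field_simp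
    rw [h6] at h5
    have h7 : u * (Φ * h * c) ≤ u * (5 * v) := by linarith
    exact le_of_mul_le_mul_left h7 hu0

/-! ### variable radii -/

lemma U_per (γ : ℝ) (ψ : ℕ → ℝ) (S : Finset ℕ) : Per (⋃ q ∈ S, Arc γ (ψ q) q) := by
  intro x n
  simp only [mem_iUnion]
  have : ∀ q : ℕ, (x + n ∈ Arc γ (ψ q) q ↔ x ∈ Arc γ (ψ q) q) := fun q =>
    arc_add_int (q * n) (by push_cast; ring)
  simp only [this]

/-- the dyadic layers of the erosions are disjoint inside `U` -/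
def D (U : Set ℝ) (i : ℤ) : Set ℝ := V U ((2 : ℝ) ^ (i - 1)) \ V U ((2 : ℝ) ^ i)

lemma D_subset (i : ℤ) : D U i ⊆ U := sdiff_subset.trans (V_subset (by positivity))

lemma D_meas (i : ℤ) : MeasurableSet (D U i) :=
  (V_closed _).measurableSet.diff (V_closed _).measurableSet

lemma D_disj {i j : ℤ} (h : i < j) : Disjoint (D U i) (D U j) := by
  rw [Set.disjoint_left]
  rintro x ⟨_, h1⟩ ⟨h2, _⟩
  exact h1 (V_anti (zpow_le_zpow_right₀ (by norm_num) (by omega)) h2)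

lemma sum_m_D_le (I : Finset ℤ) : ∑ i ∈ I, m (D U i) ≤ m U := by
  have hd : Set.PairwiseDisjoint (↑I : Set ℤ) (fun i => Ioc (0 : ℝ) 1 ∩ D U i) := by
    intro i _ j _ hij
    rcases lt_or_gt_of_ne hij with h | h
    · exact (D_disj h).mono inter_subset_right inter_subset_right
    · exact ((D_disj h).mono inter_subset_right inter_subset_right).symm
  have e : ∑ i ∈ I, m (D U i) = volume.real (⋃ i ∈ I, Ioc (0 : ℝ) 1 ∩ D U i) := by
    rw [measureReal_biUnion_finset hd (fun i _ => measurableSet_Ioc.inter (D_meas i))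
      (fun i _ => ne_top _ _ _)]
    rfl
  rw [e]
  refine measureReal_mono ?_ (ne_top _ _ _)
  refine iUnion₂_subset fun i _ => inter_subset_inter_right _ (D_subset i)

/-- **constant radius implies variable radii** -/
theorem union_ge {γ c : ℝ} (hc : 0 < c) {ψ : ℕ → ℝ} (h0 : ∀ q, 0 ≤ ψ q) {S : Finset ℕ}
    (hS : ∀ q ∈ S, 0 < q)
    (H : ∀ Q ⊆ S, ∀ ρ : ℝ, 0 < ρ → c * min 1 (ρ * ∑ q ∈ Q, (Nat.totient q : ℝ)) ≤
      m (⋃ q ∈ Q, Arc γ (ρ * q) q)) :
    c * min 1 (∑ q ∈ S, w ψ q) ≤ 20 * m (⋃ q ∈ S, Arc γ (ψ q) q) := by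
  classical
  set U := ⋃ q ∈ S, Arc γ (ψ q) q with hU
  by_cases hu : 6 * m U < c
  swap
  · have : c * min 1 (∑ q ∈ S, w ψ q) ≤ c * 1 := mul_le_mul_of_nonneg_left (min_le_left _ _) hc.le
    linarith [m_nonneg U]
  set S' := S.filter (fun q => 0 < ψ q) with hS'
  set l : ℕ → ℤ := fun q => Int.log 2 (ψ q / q) with hl
  have hr : ∀ q ∈ S', 0 < ψ q / q := by
    intro q hq
    rw [hS', Finset.mem_filter] at hq
    have : (0 : ℝ) < q := by exact_mod_cast hS q hq.1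
    exact div_pos hq.2 this
  have hlo : ∀ q ∈ S', (2 : ℝ) ^ (l q) ≤ ψ q / q := fun q hq => by
    have := Int.zpow_log_le_self (b := 2) (R := ℝ) (by norm_num) (hr q hq)
    simpa [hl] using this
  have hhi : ∀ q ∈ S', ψ q / q < (2 : ℝ) ^ (l q + 1) := fun q hq => by
    have := Int.lt_zpow_succ_log_self (b := 2) (R := ℝ) (by norm_num) (ψ q / q)
    simpa [hl] using this
  have hlev : ∀ i : ℤ, (∑ q ∈ S'.filter (fun q => l q = i), (Nat.totient q : ℝ)) *
      (2 : ℝ) ^ (i - 1) ≤ 5 * m (D U i) / c := by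
    intro i
    set Q := S'.filter (fun q => l q = i) with hQ
    have hQS : Q ⊆ S := (Finset.filter_subset _ _).trans (Finset.filter_subset _ _)
    have h2 : (2 : ℝ) ^ i = 2 * (2 : ℝ) ^ (i - 1) := by
      rw [← zpow_one_add₀ (by norm_num)]; congr 1; ring
    have hh : (0 : ℝ) < (2 : ℝ) ^ (i - 1) := by positivity
    have hX : X γ Q ⊆ V U ((2 : ℝ) ^ i) := by
      rintro x ⟨q, hq, n, rfl⟩ y hy
      have hq' := Finset.mem_filter.1 hq
      have hq0 := hS q (hQS hq)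
      have hq0' : (0 : ℝ) < q := by exact_mod_cast hq0
      have h1 := hlo q hq'.1
      rw [hq'.2] at h1
      have h3 : y ∈ Arc γ (ψ q / q * q) q := (mem_arc hq0).2 ⟨n, hy.trans_le h1⟩
      rw [div_mul_cancel₀ _ hq0'.ne'] at h3
      rw [hU]
      simp only [mem_iUnion]
      exact ⟨q, hQS hq, h3⟩
    refine level hc hh (m_nonneg _) (m_mono (D_subset i)) (Finset.sum_nonneg fun _ _ => by positivity)
      hu ?_
    intro R hR
    refine (H Q hQS R hR).trans ?_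
    rw [← Nb_X fun q hq => hS q (hQS hq)]
    have h3 : Nb (X γ Q) R ⊆ Nb (V U (2 * (2 : ℝ) ^ (i - 1))) R := by
      rintro x ⟨a, ha, hx⟩
      exact ⟨a, h2 ▸ hX ha, hx⟩
    have hn : R ≤ (⌈R / (2 : ℝ) ^ (i - 1)⌉₊ : ℝ) * (2 : ℝ) ^ (i - 1) := by
      rw [← div_le_iff₀ hh]
      exact Nat.le_ceil _
    have hn' : (⌈R / (2 : ℝ) ^ (i - 1)⌉₊ : ℝ) ≤ R / (2 : ℝ) ^ (i - 1) + 1 :=
      (Nat.ceil_lt_add_one (by positivity)).le
    refine (m_mono h3).trans ((m_Nb_V_le (U_per γ ψ S) hh _ hn).trans ?_)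
    have e : V U ((2 : ℝ) ^ (i - 1)) \ V U (2 * (2 : ℝ) ^ (i - 1)) = D U i := by
      unfold D; rw [h2]
    rw [e]
    have := mul_le_mul_of_nonneg_right hn' (m_nonneg (D U i))
    nlinarith
  -- total mass
  have hW : ∑ q ∈ S, w ψ q ≤ 20 * m U / c := by
    have e1 : ∑ q ∈ S, w ψ q = ∑ q ∈ S', w ψ q := by
      rw [hS', Finset.sum_filter]
      refine Finset.sum_congr rfl fun q _ => ?_
      split_ifs with h
      · rfl
      · have : ψ q = 0 := le_antisymm (not_lt.1 h) (h0 q)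
        simp [w, this]
    have e2 : ∑ q ∈ S', w ψ q = ∑ i ∈ S'.image l, ∑ q ∈ S'.filter (fun q => l q = i), w ψ q :=
      (Finset.sum_fiberwise_of_maps_to (fun q hq => Finset.mem_image_of_mem l hq) _).symm
    have e3 : ∀ i ∈ S'.image l, ∑ q ∈ S'.filter (fun q => l q = i), w ψ q ≤ 20 * m (D U i) / c := by
      intro i _
      have h1 : ∑ q ∈ S'.filter (fun q => l q = i), w ψ q ≤
          ∑ q ∈ S'.filter (fun q => l q = i), (Nat.totient q : ℝ) * (4 * (2 : ℝ) ^ (i - 1)) := by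
        refine Finset.sum_le_sum fun q hq => ?_
        have hq' := Finset.mem_filter.1 hq
        have h2 := (hhi q hq'.1).le
        rw [hq'.2] at h2
        have h3 : (2 : ℝ) ^ (i + 1) = 4 * (2 : ℝ) ^ (i - 1) := by
          rw [show i + 1 = 2 + (i - 1) by ring, zpow_add₀ (by norm_num)]
          norm_num
        rw [h3] at h2
        calc w ψ q = (Nat.totient q : ℝ) * (ψ q / q) := by unfold w; ring
          _ ≤ _ := mul_le_mul_of_nonneg_left h2 (by positivity)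
      refine h1.trans ?_
      rw [← Finset.sum_mul]
      have h4 := hlev i
      calc (∑ q ∈ S'.filter (fun q => l q = i), (Nat.totient q : ℝ)) * (4 * (2 : ℝ) ^ (i - 1))
          = 4 * ((∑ q ∈ S'.filter (fun q => l q = i), (Nat.totient q : ℝ)) * (2 : ℝ) ^ (i - 1)) := by
            ring
        _ ≤ 4 * (5 * m (D U i) / c) := by linarith
        _ = _ := by ring
    rw [e1, e2]
    refine (Finset.sum_le_sum e3).trans ?_
    rw [← Finset.sum_div, ← Finset.mul_sum]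
    have := sum_m_D_le (U := U) (S'.image l)
    gcongr
  calc c * min 1 (∑ q ∈ S, w ψ q) ≤ c * (20 * m U / c) :=
        mul_le_mul_of_nonneg_left ((min_le_right _ _).trans hW) hc.le
    _ = 20 * m U := by field_simp

/-- **the constant radius statement implies the finite theorem** -/
theorem FT_of_CR {γ : ℝ} (h : CR γ) : FT γ := by
  obtain ⟨c, hc, P, h⟩ := h
  refine ⟨c / 20, by positivity, P, fun ψ S hS => ?_⟩
  have h1 := union_ge hc hS.nonneg (S := S) hS.pos (fun Q hQ ρ hρ => by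
    have := h Q ρ (fun q hq => ⟨hS.pos q (hQ hq), hS.large q (hQ hq)⟩) hρ
    rwa [m_Ico] at this)
  rw [min_eq_left hS.mass_lo, mul_one] at h1
  rw [m_Ico]
  linarith

/-! ### reduction to critical mass -/

lemma X_closed (γ : ℝ) {Q : Finset ℕ} (hQ : ∀ q ∈ Q, 0 < q) : IsClosed (X γ Q) := by
  have e : X γ Q = ⋃ q ∈ Q, (fun x : ℝ => (q : ℝ) * x - γ) ⁻¹' (range ((↑) : ℤ → ℝ)) := by
    ext x
    simp only [X, mem_ofPred_eq, mem_iUnion, mem_preimage, mem_range, exists_prop]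
    constructor
    · rintro ⟨q, hq, n, rfl⟩
      have : (q : ℝ) ≠ 0 := by exact_mod_cast (hQ q hq).ne'
      exact ⟨q, hq, n, by field_simp; ring⟩
    · rintro ⟨q, hq, n, hn⟩
      have : (q : ℝ) ≠ 0 := by exact_mod_cast (hQ q hq).ne'
      refine ⟨q, hq, n, ?_⟩
      rw [hn]; field_simp; ring
  rw [e]
  refine Set.Finite.isClosed_biUnion Q.finite_toSet fun q _ => ?_
  exact Int.isClosedEmbedding_coe_real.isClosed_range.preimage (by fun_prop)

lemma X_per (γ : ℝ) {Q : Finset ℕ} (hQ : ∀ q ∈ Q, 0 < q) : Per (X γ Q) := by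
  intro x k
  simp only [X, mem_ofPred_eq]
  constructor
  · rintro ⟨q, hq, n, hn⟩
    have : (q : ℝ) ≠ 0 := by exact_mod_cast (hQ q hq).ne'
    refine ⟨q, hq, n - q * k, ?_⟩
    have h1 : x = (γ + n) / q - k := by rw [← hn]; ring
    rw [h1]; push_cast; field_simp; ring
  · rintro ⟨q, hq, n, hn⟩
    have : (q : ℝ) ≠ 0 := by exact_mod_cast (hQ q hq).ne'
    refine ⟨q, hq, n + q * k, ?_⟩
    rw [hn]; push_cast; field_simp; ring

lemma m_X (γ : ℝ) (Q : Finset ℕ) : m (X γ Q) = 0 := by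
  have hc : (X γ Q).Countable := by
    have e : X γ Q = ⋃ q ∈ Q, range (fun n : ℤ => (γ + n) / q) := by
      ext x
      simp only [X, mem_ofPred_eq, mem_iUnion, mem_range, exists_prop, eq_comm]
    rw [e]
    exact Set.Countable.biUnion Q.countable_toSet fun q _ => countable_range _
  unfold m Measure.real
  rw [measure_mono_null inter_subset_right (hc.measure_zero volume), ENNReal.toReal_zero]

lemma N_subset_Nb (hσ : |σ| = 1) {s R : ℝ} (h : s < R) : N σ A s ⊆ Nb A R := by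
  rintro x ⟨a, ha, h1, h2⟩
  refine ⟨a, ha, ?_⟩
  rw [← abs_of_nonneg h1, abs_mul, hσ, one_mul] at h2
  exact h2.trans_lt h

/-- growth of the neighbourhoods of the centres -/
lemma m_Nb_X_le {γ : ℝ} {Q : Finset ℕ} (hQ : ∀ q ∈ Q, 0 < q) {r R : ℝ} (hr : 0 < r) (hrR : r ≤ R) :
    m (Nb (X γ Q) R) ≤ 6 * (R / r) * m (Nb (X γ Q) r) := by
  have hh : 0 < r / 2 := by positivity
  have hR : 0 < R := hr.trans_le hrR
  set n := ⌈R / (r / 2)⌉₊ with hn
  have hn1 : R ≤ n * (r / 2) := by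
    rw [← div_le_iff₀ hh]; exact Nat.le_ceil _
  have hn2 : (n : ℝ) ≤ 3 * (R / r) := by
    have h1 : (n : ℝ) ≤ R / (r / 2) + 1 := (Nat.ceil_lt_add_one (by positivity)).le
    have h2 : R / (r / 2) = 2 * (R / r) := by field_simp
    have h3 : 1 ≤ R / r := by rwa [one_le_div hr]
    linarith
  have h1 := m_Nb_le (X_closed γ hQ) (X_per γ hQ) hh n hn1 (v := m (Nb (X γ Q) r))
    (m_mono (sdiff_subset.trans (N_subset_Nb (by norm_num) (by linarith))))
    (m_mono (sdiff_subset.trans (N_subset_Nb (by norm_num) (by linarith))))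
  rw [m_X, zero_add] at h1
  refine h1.trans ?_
  have := mul_le_mul_of_nonneg_right hn2 (m_nonneg (Nb (X γ Q) r))
  linarith

/-- constant radius statement at critical mass, small `ρ q` -/
def CR1 (γ : ℝ) : Prop := ∃ c : ℝ, 0 < c ∧ ∃ δ : ℝ, 0 < δ ∧ ∃ P : ℕ, ∀ (Q : Finset ℕ) (ρ : ℝ),
  (∀ q ∈ Q, 0 < q ∧ P ≤ q) → 0 < ρ → ρ * ∑ q ∈ Q, (Nat.totient q : ℝ) = 1 →
    (∀ q ∈ Q, ρ * q ≤ δ) →
    c ≤ volume.real (Ico (0 : ℝ) 1 ∩ ⋃ q ∈ Q, Arc γ (ρ * q) q)

lemma m_Arc {γ r : ℝ} {q : ℕ} (hq : 0 < q) (hr : 0 ≤ r) (hr2 : r ≤ 1 / 2) :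
    2 * r ≤ m (Arc γ r q) := by
  have hq' : (0 : ℝ) < q := by exact_mod_cast hq
  -- disjoint intervals
  set f : ℤ → Set ℝ := fun n => Ioo ((γ + n - r) / q) ((γ + n + r) / q) with hf
  have hfd : Pairwise (Function.onFun Disjoint f) := by
    intro a b hab
    rw [Function.onFun, Set.disjoint_left]
    rintro x ⟨h1, h2⟩ ⟨h3, h4⟩
    rw [div_lt_iff₀ hq'] at h1 h3
    rw [lt_div_iff₀ hq'] at h2 h4
    rcases lt_or_gt_of_ne hab with h | h
    · have : (a : ℝ) + 1 ≤ b := by exact_mod_cast h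
      linarith
    · have : (b : ℝ) + 1 ≤ a := by exact_mod_cast h
      linarith
  have hsub : ∀ n, f n ⊆ Arc γ r q := by
    rintro n x ⟨h1, h2⟩
    rw [div_lt_iff₀ hq'] at h1
    rw [lt_div_iff₀ hq'] at h2
    show |(q : ℝ) * x - γ - round ((q : ℝ) * x - γ)| < r
    refine (round_le _ n).trans_lt ?_
    rw [abs_lt]
    constructor <;> linarith
  -- translate so that the intervals are inside a period
  set t : ℝ := (γ - r) / q with ht
  have h1 := m_period (measurableSet_arc γ r q) (fun x n => by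
    exact arc_add_int (q * n) (by push_cast; ring)) t
  rw [← h1]
  have hsub2 : (⋃ n ∈ Finset.range q, f (n : ℤ)) ⊆ Ioc t (t + 1) ∩ Arc γ r q := by
    refine iUnion₂_subset fun n hn x hx => ⟨⟨?_, ?_⟩, hsub _ hx⟩
    · refine lt_of_le_of_lt ?_ hx.1
      rw [ht]
      have : (0 : ℝ) ≤ n := Nat.cast_nonneg n
      push_cast
      gcongr
      linarith
    · refine hx.2.le.trans ?_
      have hn' : (n : ℝ) + 1 ≤ q := by exact_mod_cast Finset.mem_range.1 hn
      have e : t + 1 = (γ - r + q) / q := by rw [ht]; field_simp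
      rw [e]
      push_cast
      refine div_le_div_of_nonneg_right ?_ hq'.le
      linarith
  have h2 : volume.real (⋃ n ∈ Finset.range q, f (n : ℤ)) = 2 * r := by
    have hne : ∀ n ∈ Finset.range q, volume (f (n : ℤ)) ≠ ⊤ := by
      intro n _; simp [hf]
    rw [measureReal_biUnion_finset (h := hne)]
    · have : ∀ n ∈ Finset.range q, volume.real (f (n : ℤ)) = 2 * r / q := by
        intro n _
        simp only [hf]
        rw [Real.volume_real_Ioo_of_le (by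
          refine div_le_div_of_nonneg_right ?_ hq'.le
          linarith)]
        ring
      rw [Finset.sum_congr rfl this]
      simp only [Finset.sum_const, Finset.card_range, nsmul_eq_mul]
      field_simp
    · intro a _ b _ hab
      exact hfd (by exact_mod_cast hab)
    · intro n _; exact measurableSet_Ioo
  rw [← h2]
  exact measureReal_mono hsub2 (ne_top _ _ _)

/-- **reduction to critical mass** -/
theorem CR_of_CR1 {γ : ℝ} (h : CR1 γ) : CR γ := by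
  obtain ⟨c, hc, δ₀, hδ₀, P, h⟩ := h
  set δ := min δ₀ (1 / 2) with hδdef
  have hδ : 0 < δ := lt_min hδ₀ (by norm_num)
  set c' : ℝ := min c (2 * δ) with hc'
  have hc'0 : 0 < c' := lt_min hc (by positivity)
  -- critical mass without smallness
  have key : ∀ (Q : Finset ℕ) (ρ : ℝ), (∀ q ∈ Q, 0 < q ∧ P ≤ q) → 0 < ρ →
      ρ * ∑ q ∈ Q, (Nat.totient q : ℝ) = 1 → c' ≤ m (Nb (X γ Q) ρ) := by
    intro Q ρ hQ hρ hmass
    rw [Nb_X fun q hq => (hQ q hq).1]
    by_cases hs : ∀ q ∈ Q, ρ * q ≤ δ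
    · have := h Q ρ hQ hρ hmass (fun q hq => (hs q hq).trans (min_le_left _ _))
      rw [m_Ico] at this
      exact (min_le_left _ _).trans this
    · push Not at hs
      obtain ⟨q, hq, hs⟩ := hs
      have h1 := m_Arc (γ := γ) (hQ q hq).1 hδ.le (min_le_right _ _)
      refine (min_le_right _ _).trans (h1.trans (m_mono ?_))
      refine (arc_mono hs.le).trans fun x hx => ?_
      simp only [mem_iUnion]
      exact ⟨q, hq, hx⟩
  refine ⟨c' / 6, by positivity, P, fun Q ρ hQ hρ => ?_⟩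
  rw [m_Ico, ← Nb_X fun q hq => (hQ q hq).1]
  set Φ := ∑ q ∈ Q, (Nat.totient q : ℝ) with hΦ
  have hΦ0 : 0 ≤ Φ := Finset.sum_nonneg fun _ _ => by positivity
  rcases hΦ0.eq_or_lt with h0 | h0
  · rw [← h0]
    simp [m_nonneg]
  have hkey := key Q (1 / Φ) hQ (by positivity) (by rw [← hΦ]; field_simp)
  rcases le_total (ρ * Φ) 1 with h1 | h1
  · have h2 : ρ ≤ 1 / Φ := by rwa [le_div_iff₀ h0]
    have h3 := m_Nb_X_le (γ := γ) (fun q hq => (hQ q hq).1) hρ h2
    rw [min_eq_right h1]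
    have h4 : 6 * (1 / Φ / ρ) * m (Nb (X γ Q) ρ) * (ρ * Φ) = 6 * m (Nb (X γ Q) ρ) := by
      field_simp
    have h5 := mul_le_mul_of_nonneg_right (hkey.trans h3) (by positivity : 0 ≤ ρ * Φ)
    rw [h4] at h5
    linarith
  · rw [min_eq_left h1]
    have h2 : 1 / Φ ≤ ρ := by rwa [div_le_iff₀ h0]
    have h3 : Nb (X γ Q) (1 / Φ) ⊆ Nb (X γ Q) ρ := by
      rintro x ⟨a, ha, hx⟩
      exact ⟨a, ha, hx.trans_le h2⟩
    have := hkey.trans (m_mono h3)
    linarith

theorem FT_of_CR1 {γ : ℝ} (h : CR1 γ) : FT γ := FT_of_CR (CR_of_CR1 h)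

end Crest.Agent.R4C.CrRedx935
end

-- ▼ part R4C/CrLoc_935
section

/-!
# Row 4: local constant radius statement and the full soft reduction (helper935)

* `grow_loc`, `level_loc`, `loc_union_ge` : constant radius at critical mass, seen from a grid set
  `G`, implies the bound for variable radii seen from `G`.
* `CRL γ`, `CRL2 γ` : local constant radius statements (measure / second moment form).
* `main_CR : CR1 γ → CRL γ → (S0004 for γ)`, `main_CR2 : CR1 γ → CRL2 γ → (S0004 for γ)`.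
-/

set_option autoImplicit false
open MeasureTheory Filter Set Topology

namespace Crest.Agent.R4C.CrLocx935

open Crest.Agent.R4.Soft104 Crest.Agent.R4C.CrRedx935

variable {σ : ℝ} {A U G : Set ℝ}

lemma Ly_shift_iter (hσ : σ * σ = 1) {h : ℝ} (hh : 0 < h) (k : ℕ) :
    Ly σ A h k ⊆ (fun x => x - σ * (k * h)) ⁻¹' Ly σ A h 0 := by
  induction k with
  | zero => intro x hx; simpa using hx
  | succ k ih =>
    intro x hx
    have h1 := ih (Ly_shift hσ hh k hx)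
    simp only [mem_preimage] at h1 ⊢
    have : x - σ * (((k + 1 : ℕ) : ℝ) * h) = x - σ * h - σ * (k * h) := by push_cast; ring
    rwa [this]

lemma N_sdiff_subset (hσ : σ * σ = 1) (h : ℝ) (n : ℕ) :
    N σ A (n * h) \ A ⊆ ⋃ k ∈ Finset.range n, Ly σ A h k := by
  induction n with
  | zero =>
    simp only [Nat.cast_zero, zero_mul]
    rw [N_zero hσ, sdiff_self]
    exact empty_subset _
  | succ n ih =>
    rintro x ⟨hx, hxA⟩
    by_cases hx' : x ∈ N σ A (n * h)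
    · have := ih ⟨hx', hxA⟩
      simp only [mem_iUnion, Finset.mem_range, exists_prop] at this ⊢
      obtain ⟨k, hk, h⟩ := this
      exact ⟨k, hk.trans (Nat.lt_succ_self n), h⟩
    · simp only [mem_iUnion, Finset.mem_range, exists_prop]
      refine ⟨n, Nat.lt_succ_self n, ?_, hx'⟩
      push_cast at hx
      exact hx

lemma ne_top_inter (hG : volume G ≠ ⊤) (E : Set ℝ) : volume (G ∩ E) ≠ ⊤ :=
  ne_top_of_le_ne_top hG (measure_mono inter_subset_left)

/-- growth seen from `G`: layers in the `n h`-interior `G'` of `G` are shifted into `G` -/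
lemma grow_loc (hσ : σ * σ = 1) (hσ' : |σ| = 1) {G' : Set ℝ} (hG : volume G ≠ ⊤)
    {h : ℝ} (hh : 0 < h) (n : ℕ) (hG' : ∀ x ∈ G', ∀ y, |y - x| ≤ n * h → y ∈ G) :
    volume.real (G' ∩ (N σ A (n * h) \ A)) ≤ n * volume.real (G ∩ (N σ A h \ A)) := by
  have hsub : G' ⊆ G := fun x hx => hG' x hx x (by simp; positivity)
  have hG'fin : volume G' ≠ ⊤ := ne_top_of_le_ne_top hG (measure_mono hsub)
  have h0 : Ly σ A h 0 = N σ A h \ A := by
    unfold Ly
    simp only [Nat.cast_zero, zero_add, one_mul, zero_mul]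
    rw [N_zero hσ]
  have hk : ∀ k ∈ Finset.range n, volume.real (G' ∩ Ly σ A h k) ≤ volume.real (G ∩ (N σ A h \ A)) := by
    intro k hk
    have hkn : (k : ℝ) ≤ n := by exact_mod_cast (Finset.mem_range.1 hk).le
    have h1 : G' ∩ Ly σ A h k ⊆ (fun x => x + (-(σ * (k * h)))) ⁻¹' (G ∩ (N σ A h \ A)) := by
      rintro x ⟨hx, hxL⟩
      have h2 := Ly_shift_iter hσ hh k hxL
      simp only [mem_preimage] at h2
      rw [h0] at h2
      rw [mem_preimage, ← sub_eq_add_neg]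
      refine ⟨hG' x hx _ ?_, h2⟩
      have : x - σ * (k * h) - x = -(σ * (k * h)) := by ring
      rw [this, abs_neg, abs_mul, hσ', one_mul, abs_of_nonneg (by positivity)]
      gcongr
    refine (measureReal_mono h1 ?_).trans (le_of_eq ?_)
    · rw [measure_preimage_add_right]
      exact ne_top_inter hG _
    · unfold Measure.real
      rw [measure_preimage_add_right]
  calc volume.real (G' ∩ (N σ A (n * h) \ A))
      ≤ volume.real (⋃ k ∈ Finset.range n, G' ∩ Ly σ A h k) := by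
        refine measureReal_mono ?_ ?_
        · intro x hx
          have := N_sdiff_subset hσ h n hx.2
          simp only [mem_iUnion] at this ⊢
          obtain ⟨k, hk, hkx⟩ := this
          exact ⟨k, hk, hx.1, hkx⟩
        · refine ne_top_of_le_ne_top hG'fin (measure_mono ?_)
          exact iUnion₂_subset fun k _ => inter_subset_left
    _ ≤ ∑ k ∈ Finset.range n, volume.real (G' ∩ Ly σ A h k) :=
        measureReal_biUnion_finset_le _ _
    _ ≤ ∑ _k ∈ Finset.range n, volume.real (G ∩ (N σ A h \ A)) := Finset.sum_le_sum hk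
    _ = n * volume.real (G ∩ (N σ A h \ A)) := by simp

/-! ### grid sets -/

/-- grid set -/
def Gr (K : ℕ) (I : Finset ℕ) : Set ℝ := ⋃ i ∈ I, J K i

/-- its interior at distance `t` -/
def Gt (K : ℕ) (I : Finset ℕ) (t : ℝ) : Set ℝ :=
  ⋃ i ∈ I, Ico ((i : ℝ) / K + t) (((i : ℝ) + 1) / K - t)

lemma Gr_meas (K : ℕ) (I : Finset ℕ) : MeasurableSet (Gr K I) :=
  Finset.measurableSet_biUnion _ fun i _ => measurableSet_J _ _

lemma Gt_int {K : ℕ} {I : Finset ℕ} {t : ℝ} : ∀ x ∈ Gt K I t, ∀ y, |y - x| ≤ t → y ∈ Gr K I := by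
  intro x hx y hy
  simp only [Gt, mem_iUnion] at hx
  obtain ⟨i, hi, h1, h2⟩ := hx
  rw [abs_le] at hy
  simp only [Gr, mem_iUnion]
  exact ⟨i, hi, by linarith, by linarith⟩

lemma Gr_sdiff_Gt {K : ℕ} (I : Finset ℕ) {t : ℝ} (ht : 0 ≤ t) :
    volume.real (Gr K I \ Gt K I t) ≤ I.card * (2 * t) := by
  have h1 : Gr K I \ Gt K I t ⊆ ⋃ i ∈ I, (Ico ((i : ℝ) / K) ((i : ℝ) / K + t) ∪
      Ico (((i : ℝ) + 1) / K - t) (((i : ℝ) + 1) / K)) := by
    rintro x ⟨hx, hx'⟩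
    simp only [Gr, Gt, mem_iUnion, not_exists] at hx hx'
    obtain ⟨i, hi, h1, h2⟩ := hx
    simp only [mem_iUnion]
    refine ⟨i, hi, ?_⟩
    have h3 := hx' i hi
    rw [mem_Ico, not_and, not_lt] at h3
    by_cases h4 : (i : ℝ) / K + t ≤ x
    · exact Or.inr ⟨h3 h4, h2⟩
    · exact Or.inl ⟨h1, not_le.1 h4⟩
  have hfin : volume (⋃ i ∈ I, (Ico ((i : ℝ) / K) ((i : ℝ) / K + t) ∪
      Ico (((i : ℝ) + 1) / K - t) (((i : ℝ) + 1) / K))) ≠ ⊤ := by
    refine (measure_biUnion_lt_top I.finite_toSet fun _ _ => ?_).ne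
    refine (measure_union_lt_top ?_ ?_) <;> simp
  refine (measureReal_mono h1 hfin).trans ((measureReal_biUnion_finset_le _ _).trans ?_)
  calc ∑ i ∈ I, volume.real (Ico ((i : ℝ) / K) ((i : ℝ) / K + t) ∪
      Ico (((i : ℝ) + 1) / K - t) (((i : ℝ) + 1) / K)) ≤ ∑ _i ∈ I, (2 * t) := by
        refine Finset.sum_le_sum fun i _ => ?_
        refine (measureReal_union_le _ _).trans ?_
        rw [Real.volume_real_Ico_of_le (by linarith), Real.volume_real_Ico_of_le (by linarith)]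
        linarith
    _ = I.card * (2 * t) := by simp

/-- neighbourhoods seen from a grid set -/
lemma Nb_loc {K : ℕ} {I : Finset ℕ} (hfin : volume (Gr K I) ≠ ⊤) {h R : ℝ} (hh : 0 < h) (n : ℕ)
    (hn : R ≤ n * h) {v : ℝ} (h1 : volume.real (Gr K I ∩ (N 1 A h \ A)) ≤ v)
    (h2 : volume.real (Gr K I ∩ (N (-1) A h \ A)) ≤ v) :
    volume.real (Gr K I ∩ Nb A R) ≤
      volume.real (Gr K I ∩ A) + 2 * n * v + I.card * (2 * (n * h)) := by
  have hn0 : (0 : ℝ) ≤ n := Nat.cast_nonneg n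
  set G' := Gt K I (n * h) with hG'
  have hint := Gt_int (K := K) (I := I) (t := n * h)
  have hsub : G' ⊆ Gr K I := fun x hx => hint x hx x (by simp; positivity)
  have hG'fin : volume G' ≠ ⊤ := ne_top_of_le_ne_top hfin (measure_mono hsub)
  have e1 := grow_loc (σ := 1) (A := A) (by norm_num) (by norm_num) hfin hh n hint
  have e2 := grow_loc (σ := -1) (A := A) (by norm_num) (by norm_num) hfin hh n hint
  have e3 := Gr_sdiff_Gt (K := K) I (t := n * h) (by positivity)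
  have hs : Gr K I ∩ Nb A R ⊆ ((Gr K I \ G') ∪ (Gr K I ∩ A)) ∪
      ((G' ∩ (N 1 A (n * h) \ A)) ∪ (G' ∩ (N (-1) A (n * h) \ A))) := by
    rintro x ⟨hx, hxN⟩
    by_cases hx' : x ∈ G'
    · rcases Nb_subset n hn hxN with h | h | h
      · exact Or.inl (Or.inr ⟨hx, h⟩)
      · exact Or.inr (Or.inl ⟨hx', h⟩)
      · exact Or.inr (Or.inr ⟨hx', h⟩)
    · exact Or.inl (Or.inl ⟨hx, hx'⟩)
  have hfin2 : volume (((Gr K I \ G') ∪ (Gr K I ∩ A)) ∪
      ((G' ∩ (N 1 A (n * h) \ A)) ∪ (G' ∩ (N (-1) A (n * h) \ A)))) ≠ ⊤ := by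
    refine ne_top_of_le_ne_top hfin (measure_mono ?_)
    refine union_subset (union_subset sdiff_subset inter_subset_left)
      (union_subset (inter_subset_left.trans hsub) (inter_subset_left.trans hsub))
  calc volume.real (Gr K I ∩ Nb A R) ≤ _ := measureReal_mono hs hfin2
    _ ≤ volume.real ((Gr K I \ G') ∪ (Gr K I ∩ A)) +
        volume.real ((G' ∩ (N 1 A (n * h) \ A)) ∪ (G' ∩ (N (-1) A (n * h) \ A))) :=
        measureReal_union_le _ _
    _ ≤ (volume.real (Gr K I \ G') + volume.real (Gr K I ∩ A)) +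
        (volume.real (G' ∩ (N 1 A (n * h) \ A)) + volume.real (G' ∩ (N (-1) A (n * h) \ A))) :=
        add_le_add (measureReal_union_le _ _) (measureReal_union_le _ _)
    _ ≤ (I.card * (2 * (n * h)) + volume.real (Gr K I ∩ A)) + (n * v + n * v) := by
        have := mul_le_mul_of_nonneg_left h1 hn0
        have := mul_le_mul_of_nonneg_left h2 hn0
        linarith
    _ = _ := by ring

/-- one level, numbers -/
lemma level_loc {c u v e Φ h R : ℝ} (hc : 0 < c) (hh : 0 < h) (_hv : 0 ≤ v) (hvu : v ≤ u)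
    (hΦ : 0 < Φ) (hR : R * Φ = 1) (hu : 16 * u ≤ c) (he : 4 * e ≤ c)
    (H : c ≤ u + 2 * (R / h + 1) * v + e) : Φ * h ≤ 4 * v / c := by
  have h1 : c / 4 ≤ R / h * v := by nlinarith
  have hR' : R = 1 / Φ := by field_simp; linarith
  rw [hR'] at h1
  have h2 : 1 / Φ / h * v = v / (Φ * h) := by field_simp
  rw [h2, le_div_iff₀ (by positivity)] at h1
  rw [le_div_iff₀ hc]
  linarith

/-- **constant radius at critical mass implies variable radii, seen from a grid set** -/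
theorem loc_union_ge {γ c : ℝ} (hc : 0 < c) {K : ℕ} (hK : 0 < K) {I : Finset ℕ}
    (hI : ∀ i ∈ I, i < K) {ψ : ℕ → ℝ} (h0 : ∀ q, 0 ≤ ψ q) {S : Finset ℕ}
    (hS : ∀ q ∈ S, 0 < q) (hr : ∀ q ∈ S, ψ q / q ≤ c / (16 * K))
    (hφ : ∀ q ∈ S, 16 * K / c ≤ (Nat.totient q : ℝ))
    (H : ∀ Q ⊆ S, ∀ ρ : ℝ, 0 < ρ → ρ * ∑ q ∈ Q, (Nat.totient q : ℝ) = 1 →
      c ≤ volume.real (Gr K I ∩ ⋃ q ∈ Q, Arc γ (ρ * q) q))
    (hW : 1 ≤ ∑ q ∈ S, w ψ q) :
    c ≤ 16 * volume.real (Gr K I ∩ ⋃ q ∈ S, Arc γ (ψ q) q) := by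
  classical
  have hK' : (0 : ℝ) < K := by exact_mod_cast hK
  have hfin : volume (Gr K I) ≠ ⊤ := ne_top_of_sub (grid_subset hI)
  set U := ⋃ q ∈ S, Arc γ (ψ q) q with hU
  set u := volume.real (Gr K I ∩ U) with hu'
  by_contra hcon
  rw [not_le] at hcon
  have hcard : (I.card : ℝ) ≤ K := by
    have : I ⊆ Finset.range K := fun i hi => Finset.mem_range.2 (hI i hi)
    have := Finset.card_le_card this
    rw [Finset.card_range] at this
    exact_mod_cast this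
  set S' := S.filter (fun q => 0 < ψ q) with hS'
  set l : ℕ → ℤ := fun q => Int.log 2 (ψ q / q) with hl
  have hrp : ∀ q ∈ S', 0 < ψ q / q := by
    intro q hq
    rw [hS', Finset.mem_filter] at hq
    have : (0 : ℝ) < q := by exact_mod_cast hS q hq.1
    exact div_pos hq.2 this
  have hlo : ∀ q ∈ S', (2 : ℝ) ^ (l q) ≤ ψ q / q := fun q hq => by
    have := Int.zpow_log_le_self (b := 2) (R := ℝ) (by norm_num) (hrp q hq)
    simpa [hl] using this
  have hhi : ∀ q ∈ S', ψ q / q < (2 : ℝ) ^ (l q + 1) := fun q hq => by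
    have := Int.lt_zpow_succ_log_self (b := 2) (R := ℝ) (by norm_num) (ψ q / q)
    simpa [hl] using this
  set v : ℤ → ℝ := fun i => volume.real (Gr K I ∩ D U i) with hv
  have hlev : ∀ i ∈ S'.image l, (∑ q ∈ S'.filter (fun q => l q = i), (Nat.totient q : ℝ)) *
      (2 : ℝ) ^ (i - 1) ≤ 4 * v i / c := by
    intro i hi
    set Q := S'.filter (fun q => l q = i) with hQ
    have hQS : Q ⊆ S := (Finset.filter_subset _ _).trans (Finset.filter_subset _ _)
    obtain ⟨q₀, hq₀, hlq₀⟩ := Finset.mem_image.1 hi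
    have hq₀Q : q₀ ∈ Q := Finset.mem_filter.2 ⟨hq₀, hlq₀⟩
    have h2 : (2 : ℝ) ^ i = 2 * (2 : ℝ) ^ (i - 1) := by
      rw [← zpow_one_add₀ (by norm_num)]; congr 1; ring
    have hh : (0 : ℝ) < (2 : ℝ) ^ (i - 1) := by positivity
    have hX : X γ Q ⊆ V U ((2 : ℝ) ^ i) := by
      rintro x ⟨q, hq, n, rfl⟩ y hy
      have hq' := Finset.mem_filter.1 hq
      have hq0 := hS q (hQS hq)
      have hq0' : (0 : ℝ) < q := by exact_mod_cast hq0
      have h1 := hlo q hq'.1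
      rw [hq'.2] at h1
      have h3 : y ∈ Arc γ (ψ q / q * q) q := (mem_arc hq0).2 ⟨n, hy.trans_le h1⟩
      rw [div_mul_cancel₀ _ hq0'.ne'] at h3
      rw [hU]
      simp only [mem_iUnion]
      exact ⟨q, hQS hq, h3⟩
    set Φ := ∑ q ∈ Q, (Nat.totient q : ℝ) with hΦ
    have hΦ1 : 16 * K / c ≤ Φ := (hφ q₀ (hQS hq₀Q)).trans
      (Finset.single_le_sum (f := fun q : ℕ => (Nat.totient q : ℝ)) (fun q _ => by positivity) hq₀Q)
    have hΦ0 : 0 < Φ := lt_of_lt_of_le (by positivity) hΦ1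
    have hR0 : (0 : ℝ) < 1 / Φ := by positivity
    have hR1 : 1 / Φ ≤ c / (16 * K) := by
      rw [div_le_div_iff₀ hΦ0 (by positivity)]
      rw [div_le_iff₀ hc] at hΦ1
      linarith
    have hh1 : (2 : ℝ) ^ (i - 1) ≤ c / (16 * K) := by
      have e1 := hlo q₀ hq₀
      rw [hlq₀, h2] at e1
      have e2 := hr q₀ (hQS hq₀Q)
      linarith
    have hn : 1 / Φ ≤ (⌈1 / Φ / (2 : ℝ) ^ (i - 1)⌉₊ : ℝ) * (2 : ℝ) ^ (i - 1) := by
      rw [← div_le_iff₀ hh]
      exact Nat.le_ceil _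
    have hn' : (⌈1 / Φ / (2 : ℝ) ^ (i - 1)⌉₊ : ℝ) ≤ 1 / Φ / (2 : ℝ) ^ (i - 1) + 1 :=
      (Nat.ceil_lt_add_one (by positivity)).le
    set n := ⌈1 / Φ / (2 : ℝ) ^ (i - 1)⌉₊ with hndef
    have hnh : (n : ℝ) * (2 : ℝ) ^ (i - 1) ≤ c / (8 * K) := by
      have e1 := mul_le_mul_of_nonneg_right hn' hh.le
      have e2 : (1 / Φ / (2 : ℝ) ^ (i - 1) + 1) * (2 : ℝ) ^ (i - 1) = 1 / Φ + (2 : ℝ) ^ (i - 1) := by
        field_simp
      rw [e2] at e1
      have e3 : c / (8 * K) = c / (16 * K) + c / (16 * K) := by field_simp; ring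
      rw [e3]
      linarith
    have he : 4 * (I.card * (2 * (n * (2 : ℝ) ^ (i - 1)))) ≤ c := by
      have e1 : (I.card : ℝ) * (n * (2 : ℝ) ^ (i - 1)) ≤ K * (c / (8 * K)) := by
        gcongr
      have e2 : (K : ℝ) * (c / (8 * K)) = c / 8 := by field_simp
      rw [e2] at e1
      linarith
    have hvi : ∀ σ : ℝ, |σ| = 1 → volume.real (Gr K I ∩ (N σ (V U (2 * (2 : ℝ) ^ (i - 1)))
        ((2 : ℝ) ^ (i - 1)) \ V U (2 * (2 : ℝ) ^ (i - 1)))) ≤ v i := by
      intro σ hσ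
      refine measureReal_mono (inter_subset_inter_right _ ?_) (ne_top_inter hfin _)
      unfold D
      rw [h2]
      exact sdiff_subset_sdiff_left (N_V_subset hσ)
    have hNb := Nb_loc (A := V U (2 * (2 : ℝ) ^ (i - 1))) hfin hh n hn
      (hvi 1 (by norm_num)) (hvi (-1) (by norm_num))
    have hH := H Q hQS (1 / Φ) hR0 (by rw [← hΦ]; field_simp)
    rw [← Nb_X fun q hq => hS q (hQS hq)] at hH
    have h3 : Nb (X γ Q) (1 / Φ) ⊆ Nb (V U (2 * (2 : ℝ) ^ (i - 1))) (1 / Φ) := by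
      rintro x ⟨a, ha, hx⟩
      exact ⟨a, h2 ▸ hX ha, hx⟩
    have h4 : volume.real (Gr K I ∩ Nb (X γ Q) (1 / Φ)) ≤
        volume.real (Gr K I ∩ Nb (V U (2 * (2 : ℝ) ^ (i - 1))) (1 / Φ)) :=
      measureReal_mono (inter_subset_inter_right _ h3) (ne_top_inter hfin _)
    have h5 : volume.real (Gr K I ∩ V U (2 * (2 : ℝ) ^ (i - 1))) ≤ u :=
      measureReal_mono (inter_subset_inter_right _ (V_subset (by positivity))) (ne_top_inter hfin _)
    have hv0 : 0 ≤ v i := measureReal_nonneg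
    have hvu : v i ≤ u := measureReal_mono (inter_subset_inter_right _ (D_subset i))
      (ne_top_inter hfin _)
    refine level_loc (u := u) (e := I.card * (2 * (n * (2 : ℝ) ^ (i - 1)))) (R := 1 / Φ) hc hh hv0
      hvu hΦ0 (by field_simp) hcon.le he ?_
    have h6 := mul_le_mul_of_nonneg_right hn' hv0
    linarith
  -- total mass
  have hsumv : ∑ i ∈ S'.image l, v i ≤ u := by
    have hd : Set.PairwiseDisjoint (↑(S'.image l) : Set ℤ) (fun i => Gr K I ∩ D U i) := by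
      intro i _ j _ hij
      rcases lt_or_gt_of_ne hij with h | h
      · exact (D_disj h).mono inter_subset_right inter_subset_right
      · exact ((D_disj h).mono inter_subset_right inter_subset_right).symm
    have e : ∑ i ∈ S'.image l, v i = volume.real (⋃ i ∈ S'.image l, Gr K I ∩ D U i) := by
      rw [measureReal_biUnion_finset hd (fun i _ => (Gr_meas K I).inter (D_meas i))
        (fun i _ => ne_top_inter hfin _)]
    rw [e]
    refine measureReal_mono ?_ (ne_top_inter hfin _)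
    exact iUnion₂_subset fun i _ => inter_subset_inter_right _ (D_subset i)
  have hW' : ∑ q ∈ S, w ψ q ≤ 16 * u / c := by
    have e1 : ∑ q ∈ S, w ψ q = ∑ q ∈ S', w ψ q := by
      rw [hS', Finset.sum_filter]
      refine Finset.sum_congr rfl fun q _ => ?_
      split_ifs with h
      · rfl
      · have : ψ q = 0 := le_antisymm (not_lt.1 h) (h0 q)
        simp [w, this]
    have e2 : ∑ q ∈ S', w ψ q = ∑ i ∈ S'.image l, ∑ q ∈ S'.filter (fun q => l q = i), w ψ q :=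
      (Finset.sum_fiberwise_of_maps_to (fun q hq => Finset.mem_image_of_mem l hq) _).symm
    have e3 : ∀ i ∈ S'.image l, ∑ q ∈ S'.filter (fun q => l q = i), w ψ q ≤ 16 * v i / c := by
      intro i hi
      have h1 : ∑ q ∈ S'.filter (fun q => l q = i), w ψ q ≤
          ∑ q ∈ S'.filter (fun q => l q = i), (Nat.totient q : ℝ) * (4 * (2 : ℝ) ^ (i - 1)) := by
        refine Finset.sum_le_sum fun q hq => ?_
        have hq' := Finset.mem_filter.1 hq
        have h2 := (hhi q hq'.1).le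
        rw [hq'.2] at h2
        have h3 : (2 : ℝ) ^ (i + 1) = 4 * (2 : ℝ) ^ (i - 1) := by
          rw [show i + 1 = 2 + (i - 1) by ring, zpow_add₀ (by norm_num)]
          norm_num
        rw [h3] at h2
        calc w ψ q = (Nat.totient q : ℝ) * (ψ q / q) := by unfold w; ring
          _ ≤ _ := mul_le_mul_of_nonneg_left h2 (by positivity)
      refine h1.trans ?_
      rw [← Finset.sum_mul]
      have h4 := hlev i hi
      calc (∑ q ∈ S'.filter (fun q => l q = i), (Nat.totient q : ℝ)) * (4 * (2 : ℝ) ^ (i - 1))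
          = 4 * ((∑ q ∈ S'.filter (fun q => l q = i), (Nat.totient q : ℝ)) * (2 : ℝ) ^ (i - 1)) := by
            ring
        _ ≤ 4 * (4 * v i / c) := by linarith
        _ = _ := by ring
    rw [e1, e2]
    refine (Finset.sum_le_sum e3).trans ?_
    rw [← Finset.sum_div, ← Finset.mul_sum]
    gcongr
  have h1 : (1 : ℝ) ≤ 16 * u / c := hW.trans hW'
  rw [le_div_iff₀ hc, one_mul] at h1
  linarith

/-! ### one arc, seen from the grid -/

lemma Arc_loc {γ r : ℝ} {q K : ℕ} (i : ℕ) (hK : 0 < K) (hr : 0 ≤ r) (hr2 : r ≤ 1 / 2)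
    (hq : 6 * K ≤ q) : r / K ≤ volume.real (Arc γ r q ∩ J K i) := by
  have hK' : (0 : ℝ) < K := by exact_mod_cast hK
  have hq6 : (6 : ℝ) * K ≤ q := by exact_mod_cast hq
  have hq' : (0 : ℝ) < q := by nlinarith
  set a : ℝ := q * i / K - γ + r with ha
  set n₀ : ℤ := ⌈a⌉ with hn₀
  have hn1 : a ≤ n₀ := Int.le_ceil _
  have hn2 : (n₀ : ℝ) < a + 1 := Int.ceil_lt_add_one _
  set M := ⌊(q : ℝ) / K - 2⌋₊ with hM
  have hqK : (6 : ℝ) ≤ q / K := by rwa [le_div_iff₀ hK']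
  have hM1 : (M : ℝ) ≤ q / K - 2 := Nat.floor_le (by linarith)
  have hM2 : (q : ℝ) / K - 3 ≤ M := by
    have := Nat.lt_floor_add_one ((q : ℝ) / K - 2)
    linarith
  set f : ℤ → Set ℝ := fun n => Ioo ((γ + n - r) / q) ((γ + n + r) / q) with hf
  have hfd : Pairwise (Function.onFun Disjoint f) := by
    intro a b hab
    rw [Function.onFun, Set.disjoint_left]
    rintro x ⟨h1, h2⟩ ⟨h3, h4⟩
    rw [div_lt_iff₀ hq'] at h1 h3
    rw [lt_div_iff₀ hq'] at h2 h4
    rcases lt_or_gt_of_ne hab with h | h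
    · have : (a : ℝ) + 1 ≤ b := by exact_mod_cast h
      linarith
    · have : (b : ℝ) + 1 ≤ a := by exact_mod_cast h
      linarith
  have hsub : ∀ n, f n ⊆ Arc γ r q := by
    rintro n x ⟨h1, h2⟩
    rw [div_lt_iff₀ hq'] at h1
    rw [lt_div_iff₀ hq'] at h2
    show |(q : ℝ) * x - γ - round ((q : ℝ) * x - γ)| < r
    refine (round_le _ n).trans_lt ?_
    rw [abs_lt]
    constructor <;> linarith
  have hsub2 : (⋃ n ∈ Finset.range M, f (n₀ + (n : ℤ))) ⊆ Arc γ r q ∩ J K i := by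
    refine iUnion₂_subset fun n hn x hx => ⟨hsub _ hx, ?_, ?_⟩
    · refine le_trans ?_ hx.1.le
      rw [div_le_div_iff₀ hK' hq']
      have hn0 : (0 : ℝ) ≤ n := Nat.cast_nonneg n
      push_cast
      have e : (i : ℝ) * q = (q * i / K) * K := by field_simp
      rw [e]
      refine mul_le_mul_of_nonneg_right ?_ hK'.le
      linarith
    · refine hx.2.trans_le ?_
      have hn' : (n : ℝ) + 1 ≤ M := by exact_mod_cast Finset.mem_range.1 hn
      rw [div_le_div_iff₀ hq' hK']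
      push_cast
      have e : ((i : ℝ) + 1) * q = (q * i / K + q / K) * K := by field_simp
      rw [e]
      refine mul_le_mul_of_nonneg_right ?_ hK'.le
      linarith
  have hfin : volume (Arc γ r q ∩ J K i) ≠ ⊤ := by
    refine ne_top_of_le_ne_top ?_ (measure_mono inter_subset_right)
    rw [volume_J hK]; exact ENNReal.ofReal_ne_top
  have h2 : volume.real (⋃ n ∈ Finset.range M, f (n₀ + (n : ℤ))) = M * (2 * r / q) := by
    have hne : ∀ n ∈ Finset.range M, volume (f (n₀ + (n : ℤ))) ≠ ⊤ := by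
      intro n _; simp [hf]
    rw [measureReal_biUnion_finset (h := hne)]
    · have : ∀ n ∈ Finset.range M, volume.real (f (n₀ + (n : ℤ))) = 2 * r / q := by
        intro n _
        simp only [hf]
        rw [Real.volume_real_Ioo_of_le (by
          refine div_le_div_of_nonneg_right ?_ hq'.le
          linarith)]
        ring
      rw [Finset.sum_congr rfl this]
      simp
    · intro a _ b _ hab
      refine hfd ?_
      intro h
      exact hab (by exact_mod_cast add_left_cancel h)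
    · intro n _; exact measurableSet_Ioo
  refine le_trans ?_ (measureReal_mono hsub2 hfin)
  rw [h2]
  have h3 : ((q : ℝ) / K - 3) * (2 * r / q) ≤ M * (2 * r / q) :=
    mul_le_mul_of_nonneg_right hM2 (by positivity)
  refine le_trans ?_ h3
  have h4 : ((q : ℝ) / K - 3) * (2 * r / q) = 2 * r / K - 6 * r / q := by field_simp; ring
  rw [h4]
  have h5 : 6 * r / q ≤ r / K := by
    rw [div_le_div_iff₀ hq' hK']
    nlinarith
  have h6 : 2 * r / K = r / K + r / K := by ring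
  linarith

lemma Gr_real {K : ℕ} (hK : 0 < K) (I : Finset ℕ) : volume.real (Gr K I) = I.card * (1 / K) :=
  grid_real hK I

lemma Arc_loc_Gr {γ r : ℝ} {q K : ℕ} (I : Finset ℕ) (hK : 0 < K) (hr : 0 ≤ r) (hr2 : r ≤ 1 / 2)
    (hq : 6 * K ≤ q) : r * volume.real (Gr K I) ≤ volume.real (Gr K I ∩ Arc γ r q) := by
  rw [Gr_real hK, inter_comm]
  unfold Gr
  rw [← grid_disj_real hK I _ (measurableSet_arc _ _ _)]
  calc r * (I.card * (1 / K)) = ∑ _i ∈ I, r / K := by simp; ring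
    _ ≤ _ := Finset.sum_le_sum fun i _ => Arc_loc i hK hr hr2 hq

/-! ### the local constant radius statements -/

/-- local constant radius statement (critical mass, rough denominators), measure form -/
def CRL (γ : ℝ) : Prop := ∀ ε : ℝ, 0 < ε → ∃ c : ℝ, 0 < c ∧ ∃ δ : ℝ, 0 < δ ∧
  ∀ (K : ℕ) (I : Finset ℕ), 0 < K → (∀ i ∈ I, i < K) → ε ≤ volume.real (Gr K I) →
    ∃ P : ℕ, ∀ (Q : Finset ℕ) (ρ : ℝ), (∀ q ∈ Q, 0 < q ∧ P ≤ q ∧ Rough P q) → 0 < ρ →
      ρ * ∑ q ∈ Q, (Nat.totient q : ℝ) = 1 → (∀ q ∈ Q, ρ * q ≤ δ) →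
      c ≤ volume.real (Gr K I ∩ ⋃ q ∈ Q, Arc γ (ρ * q) q)

/-- local constant radius statement, second moment form: global second moment, local first
moments. -/
def CRL2 (γ : ℝ) : Prop := ∃ c : ℝ, 0 < c ∧ ∃ C : ℝ, ∃ δ : ℝ, 0 < δ ∧ ∀ K : ℕ, 0 < K → ∃ P : ℕ,
  ∀ (Q : Finset ℕ) (ρ : ℝ), (∀ q ∈ Q, 0 < q ∧ P ≤ q ∧ Rough P q) → 0 < ρ →
    ρ * ∑ q ∈ Q, (Nat.totient q : ℝ) = 1 → (∀ q ∈ Q, ρ * q ≤ δ) →
    ∃ F : ℝ → ℝ, Test F ∧ (∀ x, F x ≠ 0 → ∃ q ∈ Q, x ∈ Arc γ (ρ * q) q) ∧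
      (∫ x in Ico (0 : ℝ) 1, F x ^ 2) ≤ C ∧ ∀ i < K, c / K ≤ ∫ x in J K i, F x

theorem CRL_of_CRL2 {γ : ℝ} (h : CRL2 γ) : CRL γ := by
  obtain ⟨c, hc, C, δ, hδ, h⟩ := h
  intro ε hε
  set C' := max C 1 with hC'
  have hC'0 : 0 < C' := lt_of_lt_of_le one_pos (le_max_right _ _)
  refine ⟨(c * ε) ^ 2 / C', by positivity, δ, hδ, fun K I hK hI hG => ?_⟩
  obtain ⟨P, hP⟩ := h K hK
  refine ⟨P, fun Q ρ hQ hρ hmass hs => ?_⟩
  obtain ⟨F, hF, hsupp, hF2, hloc⟩ := hP Q ρ hQ hρ hmass hs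
  set U := ⋃ q ∈ Q, Arc γ (ρ * q) q with hU
  have hUm : MeasurableSet U := Finset.measurableSet_biUnion _ fun q _ => measurableSet_arc _ _ _
  have hG1 : Gr K I ⊆ Ico (0 : ℝ) 1 := grid_subset hI
  have hA1 : Gr K I ∩ U ⊆ Ico (0 : ℝ) 1 := inter_subset_left.trans hG1
  have h1 : c * ε ≤ ∫ x in Gr K I, F x := by
    calc c * ε ≤ c * volume.real (Gr K I) := mul_le_mul_of_nonneg_left hG hc.le
      _ = ∑ _i ∈ I, c / K := by rw [Gr_real hK]; simp; ring
      _ ≤ ∑ i ∈ I, ∫ x in J K i, F x := Finset.sum_le_sum fun i hi => hloc i (hI i hi)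
      _ = ∫ x in Gr K I, F x := by
        unfold Gr
        rw [integral_biUnion_finset]
        · intro i _; exact measurableSet_J _ _
        · intro i _ j _ hij; exact J_disjoint K hK hij
        · intro i hi; exact hF.integrableOn (J_subset (hI i hi))
  have h2 : ∫ x in Gr K I, F x = ∫ x in Gr K I ∩ U, F x := by
    have : ∫ x in Gr K I, F x = ∫ x in Gr K I, (Gr K I ∩ U).indicator F x := by
      refine setIntegral_congr_fun (Gr_meas K I) fun x hx => ?_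
      by_cases hxA : x ∈ Gr K I ∩ U
      · simp [hxA]
      · simp only [indicator_of_notMem hxA]
        by_contra hFx
        obtain ⟨q, hq, hxq⟩ := hsupp x hFx
        exact hxA ⟨hx, by rw [hU]; simp only [mem_iUnion]; exact ⟨q, hq, hxq⟩⟩
    rw [this, setIntegral_indicator ((Gr_meas K I).inter hUm),
      inter_eq_right.2 inter_subset_left]
  have hl : 0 < c * ε / C' := by positivity
  have h3 := hF.amgm hA1 hl
  rw [← h2] at h3
  have h4 : c * ε / C' / 2 * (∫ x in Ico (0 : ℝ) 1, F x ^ 2) ≤ c * ε / 2 := by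
    calc c * ε / C' / 2 * (∫ x in Ico (0 : ℝ) 1, F x ^ 2) ≤ c * ε / C' / 2 * C' := by
          refine mul_le_mul_of_nonneg_left (hF2.trans (le_max_left _ _)) (by positivity)
      _ = c * ε / 2 := by field_simp
  have h5 : c * ε / 2 ≤ volume.real (Gr K I ∩ U) / (2 * (c * ε / C')) := by linarith
  rw [le_div_iff₀ (by positivity)] at h5
  have h6 : c * ε / 2 * (2 * (c * ε / C')) = (c * ε) ^ 2 / C' := by field_simp
  linarith

/-- totients of rough numbers -/
lemma rough_totient {P q : ℕ} (hq : 2 ≤ q) (h : Rough P q) : (P : ℝ) - 1 ≤ (Nat.totient q : ℝ) := by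
  have hp : (Nat.minFac q).Prime := Nat.minFac_prime (by omega)
  have h1 : P ≤ Nat.minFac q := h _ hp (Nat.minFac_dvd q)
  have h2 : Nat.totient (Nat.minFac q) ∣ Nat.totient q := Nat.totient_dvd_of_dvd (Nat.minFac_dvd q)
  have h3 : Nat.totient (Nat.minFac q) ≤ Nat.totient q :=
    Nat.le_of_dvd (Nat.totient_pos.2 (by omega)) h2
  rw [Nat.totient_prime hp] at h3
  have h4 : P ≤ Nat.totient q + 1 := by omega
  have : (P : ℝ) ≤ (Nat.totient q : ℝ) + 1 := by exact_mod_cast h4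
  linarith

/-- the full measure statement for systems which are divergent on rough numbers of every level -/
def Case2 (γ : ℝ) : Prop := ∀ ψ : ℕ → ℝ, (∀ q, 0 ≤ ψ q) → (∀ q, ψ q ≤ 1 / 2) →
  (∀ P : ℕ, ¬ Summable fun q => open Classical in if Rough P q then w ψ q else 0) →
    volume (Ico (0 : ℝ) 1 \ W γ ψ) = 0

theorem case2_of_CRL {γ : ℝ} (h : CRL γ) : Case2 γ := by
  classical
  intro ψ h0 h2 hdiv
  set Z := Ico (0 : ℝ) 1 \ W γ ψ with hZdef
  have hZm : MeasurableSet Z := measurableSet_Ico.diff (measurableSet_W _ _)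
  have hZ1 : Z ⊆ Ico (0 : ℝ) 1 := sdiff_subset
  by_contra hne
  have hzpos : 0 < volume.real Z := by
    rw [Measure.real, ENNReal.toReal_pos_iff]
    exact ⟨pos_iff_ne_zero.2 hne, lt_top_iff_ne_top.2 (ne_top_of_sub hZ1)⟩
  set z := volume.real Z with hz
  obtain ⟨c, hc, δ, hδ, hCR⟩ := h (z / 2) (by positivity)
  set δ' := min δ (1 / 2) with hδ'
  have hδ'0 : 0 < δ' := lt_min hδ (by norm_num)
  set c' := min c (δ' * (z / 2)) with hc'
  have hc'0 : 0 < c' := lt_min hc (by positivity)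
  set η := min (z / 2) (c' / 32) with hη
  have hη0 : 0 < η := lt_min (by positivity) (by positivity)
  obtain ⟨K₀, hK₀⟩ := exists_grid hZm hZ1 hη0
  set K := max K₀ 1 with hK
  have hKpos : 0 < K := lt_of_lt_of_le one_pos (le_max_right _ _)
  have hKpos' : (0 : ℝ) < K := by exact_mod_cast hKpos
  obtain ⟨I, hI, h1, h2'⟩ := hK₀ K (le_max_left _ _) hKpos
  change volume.real (Gr K I \ Z) ≤ η at h1
  change volume.real (Z \ Gr K I) ≤ η at h2'
  have hG1 : Gr K I ⊆ Ico (0 : ℝ) 1 := grid_subset hI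
  have hGz : z / 2 ≤ volume.real (Gr K I) := by
    have := grid_ge hZ1 hG1 h2'
    have : η ≤ z / 2 := min_le_left _ _
    linarith
  obtain ⟨P, hP⟩ := hCR K I hKpos hI hGz
  set L := ⌈16 * K / c'⌉₊ with hL
  have hL1 : 16 * K / c' ≤ L := Nat.le_ceil _
  set P' := max P (max (6 * K) (L + 2)) with hP'
  have hPP' : P ≤ P' := le_max_left _ _
  have h6P' : 6 * K ≤ P' := (le_max_left _ _).trans (le_max_right _ _)
  have hLP' : L + 2 ≤ P' := (le_max_right _ _).trans (le_max_right _ _)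
  have hLP'' : (L : ℝ) + 2 ≤ P' := by exact_mod_cast hLP'
  have htail : ∀ N, c' / 16 ≤ volume.real (Gr K I ∩ Tail γ ψ N) := by
    intro N
    obtain ⟨S, hS, hSN⟩ := exists_sys h0 h2 (Rough P') (by convert hdiv P') P' N
    set ψ' := cut ψ (Rough P') (1 / (P' + 2)) with hψ'
    have key := loc_union_ge (γ := γ) hc'0 hKpos hI hS.nonneg hS.pos
      (fun q hq => by
        have hq0 : (0 : ℝ) < q := by exact_mod_cast hS.pos q hq
        have hq1 : (P' : ℝ) ≤ q := by exact_mod_cast hS.large q hq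
        have e1 : ψ' q ≤ 1 := (hS.small q).trans (by
          rw [div_le_one (by positivity)]
          have : (0 : ℝ) ≤ P' := by positivity
          linarith)
        rw [div_le_div_iff₀ hq0 (by positivity)]
        have e2 : 16 * K ≤ c' * L := by
          rw [div_le_iff₀ hc'0] at hL1; linarith
        have e3 : c' * L ≤ c' * q := mul_le_mul_of_nonneg_left (by linarith) hc'0.le
        have e4 : ψ' q * (16 * K) ≤ 1 * (16 * K) := mul_le_mul_of_nonneg_right e1 (by positivity)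
        linarith)
      (fun q hq => by
        have e1 := rough_totient (P := P') (q := q) (by
          have := hS.large q hq; omega) (hSN q hq).1
        linarith)
      (fun Q hQ ρ hρ hmass => by
        by_cases hs : ∀ q ∈ Q, ρ * q ≤ δ'
        · refine (min_le_left _ _).trans (hP Q ρ (fun q hq => ?_) hρ hmass
            (fun q hq => (hs q hq).trans (min_le_left _ _)))
          exact ⟨hS.pos q (hQ hq), hPP'.trans (hS.large q (hQ hq)),
            (hSN q (hQ hq)).1.mono hPP'⟩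
        · push Not at hs
          obtain ⟨q, hq, hs⟩ := hs
          have e1 := Arc_loc_Gr (γ := γ) I hKpos hδ'0.le (min_le_right _ _)
            (h6P'.trans (hS.large q (hQ hq)))
          refine (min_le_right _ _).trans ?_
          refine (mul_le_mul_of_nonneg_left hGz hδ'0.le).trans (e1.trans ?_)
          refine measureReal_mono (inter_subset_inter_right _ ?_) (ne_top_inter (ne_top_of_sub hG1) _)
          refine (arc_mono hs.le).trans fun x hx => ?_
          simp only [mem_iUnion]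
          exact ⟨q, hq, hx⟩)
      hS.mass_lo
    have hsub : Gr K I ∩ (⋃ q ∈ S, Arc γ (ψ' q) q) ⊆ Gr K I ∩ Tail γ ψ N := by
      refine inter_subset_inter_right _ fun x hx => ?_
      simp only [mem_iUnion] at hx
      obtain ⟨q, hq, hx⟩ := hx
      exact ⟨q, (hSN q hq).2, arc_mono (cut_le' h0 _ q) hx⟩
    have := measureReal_mono hsub (ne_top_inter (ne_top_of_sub hG1) _)
    linarith
  have hlim := limsup_ge (Gr_meas K I) hG1 htail
  have hle : volume.real (Gr K I ∩ W γ ψ) ≤ η := by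
    refine (measureReal_mono ?_ (ne_top_of_sub (sdiff_subset.trans hG1))).trans h1
    exact fun x hx => ⟨hx.1, fun hxZ => hxZ.2 hx.2⟩
  have hη2 : η ≤ c' / 32 := min_le_right _ _
  linarith

/-- **Soft reduction** with an abstract second case. -/
theorem main' {γ : ℝ} (hFT : FT γ) (hC2 : Case2 γ) (ψ : ℕ → ℝ)
    (hψ : ∀ q, 0 ≤ ψ q) (hdiv : ¬ Summable fun q : ℕ => (Nat.totient q : ℝ) / q * ψ q) :
    ∀ᵐ x : ℝ, ∃ᶠ q : ℕ in atTop, |(q : ℝ) * x - γ - round ((q : ℝ) * x - γ)| < ψ q := by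
  classical
  by_cases hbig : ∃ᶠ q : ℕ in atTop, 1 / 2 < ψ q
  · exact Eventually.of_forall fun x => hbig.mono fun q hq =>
      (abs_sub_round _).trans_lt hq
  rw [not_frequently, eventually_atTop] at hbig
  obtain ⟨Q₀, hQ₀⟩ := hbig
  -- truncate
  set ψ₁ : ℕ → ℝ := fun q => if Q₀ ≤ q then ψ q else 0 with hψ₁
  have h0 : ∀ q, 0 ≤ ψ₁ q := fun q => by
    simp only [hψ₁]; split_ifs; exacts [hψ q, le_rfl]
  have h2 : ∀ q, ψ₁ q ≤ 1 / 2 := fun q => by
    simp only [hψ₁]; split_ifs with h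
    · exact not_lt.1 (hQ₀ q h)
    · norm_num
  have hdiv₁ : ¬ Summable (w ψ₁) := by
    intro hs
    refine hdiv ?_
    refine (summable_congr_atTop ?_).1 hs
    filter_upwards [eventually_ge_atTop Q₀] with q hq
    simp [w, hψ₁, hq]
  have hsub : ∀ x, x ∈ W γ ψ₁ → ∃ᶠ q : ℕ in atTop,
      |(q : ℝ) * x - γ - round ((q : ℝ) * x - γ)| < ψ q := by
    intro x hx
    refine hx.mono fun q hq => ?_
    have hle : ψ₁ q ≤ ψ q := by
      simp only [hψ₁]; split_ifs; exacts [le_rfl, hψ q]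
    exact lt_of_lt_of_le hq hle
  suffices h : ∀ᵐ x : ℝ, x ∈ W γ ψ₁ from h.mono hsub
  by_cases hc : ∀ K₀ : ℕ, ∃ K, K₀ ≤ K ∧ 0 < K ∧ ¬ Summable fun q => if K ∣ q then w ψ₁ q else 0
  · exact ae_of_Ico (case1 hFT h0 h2 hc)
  · push Not at hc
    obtain ⟨B, hB⟩ := hc
    obtain ⟨u, hu, hdu⟩ := exists_u h0 hdiv₁ (B := B) (fun π hπ hBπ => by
      have := hB π hBπ hπ.pos
      convert this)
    have hcore := ae_of_Ico (hC2 (fun r => ψ₁ (u * r)) (fun r => h0 _) (fun r => h2 _) hdu)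
    have hu' : (u : ℝ) ≠ 0 := by exact_mod_cast hu.ne'
    refine (ae_mul hcore hu').mono fun x hx => ?_
    have hx' : ∃ᶠ r : ℕ in atTop, u * x ∈ Arc γ (ψ₁ (u * r)) r := hx
    have htend : Tendsto (fun r : ℕ => u * r) atTop atTop :=
      tendsto_id.const_mul_atTop' hu
    refine htend.frequently (hx'.mono fun r hr => ?_)
    have e : ((u * r : ℕ) : ℝ) * x - γ = (r : ℝ) * (u * x) - γ := by push_cast; ring
    show |((u * r : ℕ) : ℝ) * x - γ - round (((u * r : ℕ) : ℝ) * x - γ)| < ψ₁ (u * r)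
    rw [e]
    exact hr

/-- **full soft reduction of `S0004` to constant radius, critical mass** -/
theorem main_CR {γ : ℝ} (h1 : CR1 γ) (h2 : CRL γ) (ψ : ℕ → ℝ)
    (hψ : ∀ q, 0 ≤ ψ q) (hdiv : ¬ Summable fun q : ℕ => (Nat.totient q : ℝ) / q * ψ q) :
    ∀ᵐ x : ℝ, ∃ᶠ q : ℕ in atTop, |(q : ℝ) * x - γ - round ((q : ℝ) * x - γ)| < ψ q :=
  main' (FT_of_CR1 h1) (case2_of_CRL h2) ψ hψ hdiv

theorem main_CR2 {γ : ℝ} (h1 : CR1 γ) (h2 : CRL2 γ) (ψ : ℕ → ℝ)
    (hψ : ∀ q, 0 ≤ ψ q) (hdiv : ¬ Summable fun q : ℕ => (Nat.totient q : ℝ) / q * ψ q) :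
    ∀ᵐ x : ℝ, ∃ᶠ q : ℕ in atTop, |(q : ℝ) * x - γ - round ((q : ℝ) * x - γ)| < ψ q :=
  main_CR h1 (CRL_of_CRL2 h2) ψ hψ hdiv

end Crest.Agent.R4C.CrLocx935
end

-- ▼ part R4C/CrPair_935
section

/-!
# Row 4: kept numerators, pair count ⇒ `CR1` and `CRL2` (helper935)

For every `q` a `q`-periodic set `Kp q` of integers (kept numerators) is given;
`E γ ρ Kp q` is the union of the arcs of radius `ρ` around the kept points `(γ+n)/q`.

* `m_E_ge`, `loc_E_ge` : first moments; `m_E_inter_le` : second moment by the pair count `PC`.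
-/

set_option autoImplicit false
open MeasureTheory Filter Set Topology

namespace Crest.Agent.R4C.CrPairx935

open Crest.Agent.R4.Soft104 Crest.Agent.R4C.CrRedx935 Crest.Agent.R4C.CrLocx935

/-- points close to a kept hit -/
def E (γ ρ : ℝ) (Kp : ℕ → Set ℤ) (q : ℕ) : Set ℝ :=
  {x | |(q : ℝ) * x - γ - round ((q : ℝ) * x - γ)| < ρ * q ∧ round ((q : ℝ) * x - γ) ∈ Kp q}

lemma round_eq_of {y : ℝ} {n : ℤ} (h : |y - n| < 1 / 2) : round y = n := by
  have h1 : |y - round y| ≤ |y - n| := round_le y n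
  have h2 : |((round y : ℤ) : ℝ) - n| < 1 := by
    have : ((round y : ℤ) : ℝ) - n = (y - n) - (y - round y) := by ring
    rw [this]
    calc |(y - n) - (y - round y)| ≤ |y - n| + |y - round y| := abs_sub _ _
      _ < 1 / 2 + 1 / 2 := by linarith
      _ = 1 := by norm_num
  have h3 : |round y - n| < 1 := by exact_mod_cast h2
  have h4 : round y - n = 0 := Int.abs_lt_one_iff.1 h3
  omega

variable {γ ρ : ℝ} {Kp : ℕ → Set ℤ} {q q' : ℕ}

lemma E_subset_Arc : E γ ρ Kp q ⊆ Arc γ (ρ * q) q := fun _ hx => hx.1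

lemma qabs (hq : 0 < q) (x : ℝ) (n : ℤ) :
    |(q : ℝ) * x - γ - n| = q * |x - (γ + n) / q| := by
  have hq' : (0 : ℝ) < q := by exact_mod_cast hq
  rw [← abs_of_pos hq', ← abs_mul, abs_of_pos hq']
  congr 1
  field_simp
  ring

lemma mem_E (hq : 0 < q) (hρ : ρ * q ≤ 1 / 2) {x : ℝ} :
    x ∈ E γ ρ Kp q ↔ ∃ n ∈ Kp q, |x - (γ + n) / q| < ρ := by
  have hq' : (0 : ℝ) < q := by exact_mod_cast hq
  constructor
  · rintro ⟨h1, h2⟩
    refine ⟨_, h2, ?_⟩
    rw [qabs hq] at h1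
    nlinarith
  · rintro ⟨n, hn, h⟩
    have h1 : |(q : ℝ) * x - γ - n| < ρ * q := by
      rw [qabs hq]; nlinarith
    have h2 : round ((q : ℝ) * x - γ) = n := round_eq_of (h1.trans_le hρ)
    refine ⟨?_, ?_⟩
    · rw [h2]; exact h1
    · rw [h2]; exact hn

lemma measurable_round_lin (γ : ℝ) (q : ℕ) :
    Measurable fun x : ℝ => round ((q : ℝ) * x - γ) := by
  have : (fun x : ℝ => round ((q : ℝ) * x - γ)) = fun x : ℝ => ⌊(q : ℝ) * x - γ + 1 / 2⌋ := by
    funext x; rw [round_eq]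
  rw [this]
  exact Int.measurable_floor.comp (by fun_prop)

lemma measurableSet_E (γ ρ : ℝ) (Kp : ℕ → Set ℤ) (q : ℕ) : MeasurableSet (E γ ρ Kp q) := by
  have h1 : E γ ρ Kp q = Arc γ (ρ * q) q ∩ (fun x : ℝ => round ((q : ℝ) * x - γ)) ⁻¹' (Kp q) := by
    ext x; rfl
  rw [h1]
  exact (measurableSet_arc _ _ _).inter (measurable_round_lin γ q (MeasurableSet.of_discrete))

lemma E_per (hK : ∀ n : ℤ, n + q ∈ Kp q ↔ n ∈ Kp q) : Per (E γ ρ Kp q) := by
  have hK' : ∀ (k : ℤ) (n : ℤ), n + k * q ∈ Kp q ↔ n ∈ Kp q := by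
    intro k
    induction k using Int.induction_on with
    | zero => intro n; simp
    | succ k ih =>
      intro n
      rw [← ih n, ← hK (n + k * q)]
      have : n + (k + 1) * (q : ℤ) = n + k * q + q := by ring
      rw [this]
    | pred k ih =>
      intro n
      rw [← ih n, ← hK (n + (-(k : ℤ) - 1) * q)]
      have : n + (-(k : ℤ) - 1) * (q : ℤ) + q = n + -(k : ℤ) * q := by ring
      rw [this]
  intro x k
  have e : (q : ℝ) * (x + k) - γ = ((q : ℝ) * x - γ) + ((k * q : ℤ) : ℝ) := by push_cast; ring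
  have e2 : round ((q : ℝ) * (x + k) - γ) = round ((q : ℝ) * x - γ) + k * q := by
    rw [e, round_add_intCast]
  unfold E
  rw [mem_ofPred_eq, mem_ofPred_eq, e2, hK' k, e]
  push_cast
  have : (q : ℝ) * x - γ + k * q - (round ((q : ℝ) * x - γ) + k * q) =
    (q : ℝ) * x - γ - round ((q : ℝ) * x - γ) := by ring
  rw [this]

/-! ### first moments -/

/-- disjoint balls around a finite set of numerators -/
lemma vol_balls (γ : ℝ) (hq : 0 < q) (hρ0 : 0 ≤ ρ) (hρ : ρ * q ≤ 1 / 2) (T : Finset ℤ) :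
    volume.real (⋃ n ∈ T, Ioo ((γ + n) / q - ρ) ((γ + n) / q + ρ)) = T.card * (2 * ρ) := by
  have hq' : (0 : ℝ) < q := by exact_mod_cast hq
  have hne : ∀ n ∈ T, volume (Ioo ((γ + (n : ℤ)) / q - ρ) ((γ + n) / q + ρ)) ≠ ⊤ := by
    intro n _; simp
  rw [measureReal_biUnion_finset (h := hne)]
  · have : ∀ n ∈ T, volume.real (Ioo ((γ + (n : ℤ)) / q - ρ) ((γ + n) / q + ρ)) = 2 * ρ := by
      intro n _
      rw [Real.volume_real_Ioo_of_le (by linarith)]
      ring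
    rw [Finset.sum_congr rfl this]
    simp
  · intro a _ b _ hab
    rw [Function.onFun, Set.disjoint_left]
    rintro x ⟨h1, h2⟩ ⟨h3, h4⟩
    have key : ∀ u v : ℤ, u < v → x < (γ + u) / q + ρ → (γ + v) / q - ρ < x → False := by
      intro u v huv h5 h6
      have h7 : (u : ℝ) + 1 ≤ v := by exact_mod_cast huv
      have h8 : (γ + v) / q - (γ + u) / q < 2 * ρ := by linarith
      have h9 : (γ + v) / q - (γ + u) / q = (v - u) / q := by ring
      rw [h9, div_lt_iff₀ hq'] at h8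
      nlinarith
    rcases lt_or_gt_of_ne hab with h | h
    · exact key a b h h2 h3
    · exact key b a h h4 h1
  · intro n _; exact measurableSet_Ioo

lemma ball_subset_E (hq : 0 < q) (hρ : ρ * q ≤ 1 / 2) {n : ℤ} (hn : n ∈ Kp q) :
    Ioo ((γ + n) / q - ρ) ((γ + n) / q + ρ) ⊆ E γ ρ Kp q := by
  rintro x ⟨h1, h2⟩
  refine (mem_E hq hρ).2 ⟨n, hn, ?_⟩
  rw [abs_lt]
  constructor <;> linarith

/-- global first moment -/
lemma m_E_ge (hq : 0 < q) (hρ0 : 0 ≤ ρ) (hρ : ρ * q ≤ 1 / 2)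
    (hK : ∀ n : ℤ, n + q ∈ Kp q ↔ n ∈ Kp q) (T : Finset ℤ)
    (hT : ∀ n ∈ T, 0 ≤ n ∧ n < q ∧ n ∈ Kp q) :
    T.card * (2 * ρ) ≤ m (E γ ρ Kp q) := by
  have hq' : (0 : ℝ) < q := by exact_mod_cast hq
  rw [← m_period (measurableSet_E γ ρ Kp q) (E_per hK) (γ / q - ρ), ← vol_balls γ hq hρ0 hρ T]
  refine measureReal_mono ?_ (ne_top _ _ _)
  refine iUnion₂_subset fun n hn x hx => ⟨⟨?_, ?_⟩, ball_subset_E hq hρ (hT n hn).2.2 hx⟩
  · refine lt_of_le_of_lt ?_ hx.1
    have : (0 : ℝ) ≤ n := by exact_mod_cast (hT n hn).1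
    have : γ / q ≤ (γ + n) / q := by gcongr; linarith
    linarith
  · refine hx.2.le.trans ?_
    have h1 : (n : ℝ) + 1 ≤ q := by exact_mod_cast (hT n hn).2.1
    have h2 : (γ + n) / q ≤ (γ + q - 1) / q := by gcongr; linarith
    have h3 : (γ + q - 1) / q = γ / q + 1 - 1 / q := by field_simp
    have h4 : 2 * ρ ≤ 1 / q := by
      rw [le_div_iff₀ hq']; linarith
    linarith

/-- local first moment -/
lemma loc_E_ge (hq : 0 < q) (hρ0 : 0 ≤ ρ) (hρ : ρ * q ≤ 1 / 2) {K i : ℕ} (hK : 0 < K)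
    (T : Finset ℤ)
    (hT : ∀ n ∈ T, (i : ℝ) / K + ρ ≤ (γ + n) / q ∧ (γ + n) / q ≤ ((i : ℝ) + 1) / K - ρ ∧ n ∈ Kp q) :
    T.card * (2 * ρ) ≤ volume.real (J K i ∩ E γ ρ Kp q) := by
  rw [← vol_balls γ hq hρ0 hρ T]
  refine measureReal_mono ?_ ?_
  · refine iUnion₂_subset fun n hn x hx => ⟨⟨?_, ?_⟩, ball_subset_E hq hρ (hT n hn).2.2 hx⟩
    · have := (hT n hn).1
      have := hx.1
      linarith
    · have := (hT n hn).2.1
      have := hx.2
      linarith
  · refine ne_top_of_le_ne_top ?_ (measure_mono inter_subset_left)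
    rw [volume_J hK]; exact ENNReal.ofReal_ne_top

/-! ### second moment -/

/-- close kept pairs; the first numerator modulo `q` -/
def Pr (γ ρ : ℝ) (Kp : ℕ → Set ℤ) (q q' : ℕ) : Set (ℤ × ℤ) :=
  {v | 0 ≤ v.1 ∧ v.1 < q ∧ v.1 ∈ Kp q ∧ v.2 ∈ Kp q' ∧
    |(γ + v.1) / q - (γ + v.2) / q'| < 2 * ρ}

lemma Pr_finite (hq' : 0 < q') : (Pr γ ρ Kp q q').Finite := by
  have hq'' : (0 : ℝ) < q' := by exact_mod_cast hq'
  refine Set.Finite.subset (s := (Finset.Ico (0 : ℤ) q ×ˢ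
    Finset.Icc (⌊-(q' * (|γ| + q + 1 + 2 * |ρ|)) - |γ| - 1⌋)
      (⌈q' * (|γ| + q + 1 + 2 * |ρ|) + |γ| + 1⌉) : Finset (ℤ × ℤ))) (Finset.finite_toSet _) ?_
  rintro ⟨n, n'⟩ ⟨h1, h2, -, -, h3⟩
  simp only at h1 h2 h3
  have hq0 : (0 : ℝ) < q := by
    have : (0 : ℤ) < q := lt_of_le_of_lt h1 h2
    exact_mod_cast this
  have hq1 : (1 : ℝ) ≤ q := by
    have : (0 : ℤ) < q := lt_of_le_of_lt h1 h2
    have : (1 : ℤ) ≤ q := this
    exact_mod_cast this
  have hn0 : (0 : ℝ) ≤ n := by exact_mod_cast h1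
  have hn1 : (n : ℝ) ≤ q := by exact_mod_cast h2.le
  have h4 : |(γ + n) / q| ≤ |γ| + q := by
    rw [abs_div, abs_of_pos hq0, div_le_iff₀ hq0]
    calc |γ + n| ≤ |γ| + |(n : ℝ)| := abs_add_le _ _
      _ ≤ |γ| + q := by rw [abs_of_nonneg hn0]; linarith
      _ ≤ (|γ| + q) * q := by nlinarith [abs_nonneg γ]
  have h5 : |(γ + n') / q'| ≤ |γ| + q + 1 + 2 * |ρ| := by
    have e : (γ + n') / q' = (γ + n) / q - ((γ + n) / q - (γ + n') / q') := by ring
    rw [e]
    calc |(γ + n) / q - ((γ + n) / q - (γ + n') / q')|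
        ≤ |(γ + n) / q| + |(γ + n) / q - (γ + n') / q'| := abs_sub _ _
      _ ≤ |γ| + q + 2 * ρ := add_le_add h4 h3.le
      _ ≤ _ := by linarith [le_abs_self ρ]
  rw [abs_div, abs_of_pos hq'', div_le_iff₀ hq''] at h5
  have h6 : |(n' : ℝ)| ≤ q' * (|γ| + q + 1 + 2 * |ρ|) + |γ| := by
    have e : (n' : ℝ) = (γ + n') - γ := by ring
    rw [e]
    calc |(γ + n') - γ| ≤ |γ + n'| + |γ| := abs_sub _ _
      _ ≤ _ := by linarith
  rw [abs_le] at h6
  simp only [Finset.coe_product, mem_prod, Finset.mem_coe, Finset.mem_Ico, Finset.mem_Icc]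
  refine ⟨⟨h1, h2⟩, ?_, ?_⟩
  · have : ((⌊-(q' * (|γ| + q + 1 + 2 * |ρ|)) - |γ| - 1⌋ : ℤ) : ℝ) ≤ n' := by
      refine (Int.floor_le _).trans ?_
      linarith [h6.1]
    exact_mod_cast this
  · have : (n' : ℝ) ≤ ((⌈q' * (|γ| + q + 1 + 2 * |ρ|) + |γ| + 1⌉ : ℤ) : ℝ) := by
      refine le_trans ?_ (Int.le_ceil _)
      linarith [h6.2]
    exact_mod_cast this

/-- pair count -/
noncomputable def PC (γ ρ : ℝ) (Kp : ℕ → Set ℤ) (q q' : ℕ) : ℕ := (Pr γ ρ Kp q q').ncard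

lemma m_E_inter_le (hq : 0 < q) (hq' : 0 < q') (hρ0 : 0 ≤ ρ) (hρ : ρ * q ≤ 1 / 2)
    (hρ' : ρ * q' ≤ 1 / 2) (hK : ∀ n : ℤ, n + q ∈ Kp q ↔ n ∈ Kp q)
    (hK' : ∀ n : ℤ, n + q' ∈ Kp q' ↔ n ∈ Kp q') :
    m (E γ ρ Kp q ∩ E γ ρ Kp q') ≤ 2 * ρ * PC γ ρ Kp q q' := by
  classical
  have hq0 : (0 : ℝ) < q := by exact_mod_cast hq
  have hfin := Pr_finite (γ := γ) (ρ := ρ) (Kp := Kp) (q := q) hq'
  have hper : Per (E γ ρ Kp q ∩ E γ ρ Kp q') := fun x n => by
    rw [Set.mem_inter_iff, Set.mem_inter_iff, E_per hK x n, E_per hK' x n]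
  rw [← m_period ((measurableSet_E γ ρ Kp q).inter (measurableSet_E γ ρ Kp q')) hper
    ((γ - 1 / 2) / q)]
  have hsub : Ioc ((γ - 1 / 2) / q) ((γ - 1 / 2) / q + 1) ∩ (E γ ρ Kp q ∩ E γ ρ Kp q') ⊆
      ⋃ v ∈ hfin.toFinset, Ioo ((γ + v.1) / q - ρ) ((γ + v.1) / q + ρ) := by
    rintro x ⟨⟨h1, h2⟩, hx, hx'⟩
    obtain ⟨n, hn, hxn⟩ := (mem_E hq hρ).1 hx
    obtain ⟨n', hn', hxn'⟩ := (mem_E hq' hρ').1 hx'
    have h3 : |(q : ℝ) * x - γ - n| < 1 / 2 := by
      rw [qabs hq]; nlinarith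
    rw [abs_lt] at h3
    have e2 : (γ - 1 / 2) / q + 1 = (γ - 1 / 2 + q) / q := by field_simp
    rw [e2, le_div_iff₀ hq0] at h2
    rw [div_lt_iff₀ hq0] at h1
    have h4 : (-1 : ℝ) < n := by nlinarith
    have h5 : (n : ℝ) < q := by nlinarith
    have h4' : (-1 : ℤ) < n := by exact_mod_cast h4
    have h5' : n < (q : ℤ) := by exact_mod_cast h5
    have hpr : (n, n') ∈ Pr γ ρ Kp q q' := by
      refine ⟨by show 0 ≤ n; omega, h5', hn, hn', ?_⟩
      show |(γ + n) / q - (γ + n') / q'| < 2 * ρ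
      have e : (γ + n) / q - (γ + n') / q' = (x - (γ + n') / q') - (x - (γ + n) / q) := by ring
      rw [e]
      calc |(x - (γ + n') / q') - (x - (γ + n) / q)|
          ≤ |x - (γ + n') / q'| + |x - (γ + n) / q| := abs_sub _ _
        _ < 2 * ρ := by linarith
    simp only [mem_iUnion]
    refine ⟨(n, n'), hfin.mem_toFinset.2 hpr, ?_⟩
    rw [abs_lt] at hxn
    constructor <;> simp only <;> linarith [hxn.1, hxn.2]
  have hfinm : volume (⋃ v ∈ hfin.toFinset, Ioo ((γ + v.1) / q - ρ) ((γ + v.1) / q + ρ)) ≠ ⊤ := by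
    refine (measure_biUnion_lt_top (Finset.finite_toSet _) fun _ _ => ?_).ne
    simp
  refine (measureReal_mono hsub hfinm).trans ((measureReal_biUnion_finset_le _ _).trans ?_)
  have : ∀ v ∈ hfin.toFinset, volume.real (Ioo ((γ + (v.1 : ℤ)) / q - ρ) ((γ + v.1) / q + ρ))
      = 2 * ρ := by
    intro v _
    rw [Real.volume_real_Ioo_of_le (by linarith)]
    ring
  rw [Finset.sum_congr rfl this, Finset.sum_const, nsmul_eq_mul]
  have hcard : hfin.toFinset.card = PC γ ρ Kp q q' := by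
    unfold PC
    rw [Set.ncard_eq_toFinset_card _ hfin]
  rw [hcard]
  linarith

/-! ### the counting function -/

/-- number of kept hits close to `x` -/
noncomputable def F (γ ρ : ℝ) (Kp : ℕ → Set ℤ) (Q : Finset ℕ) (x : ℝ) : ℝ :=
  ∑ q ∈ Q, (E γ ρ Kp q).indicator (fun _ => (1 : ℝ)) x

lemma test_F (γ ρ : ℝ) (Kp : ℕ → Set ℤ) (Q : Finset ℕ) : Test (F γ ρ Kp Q) where
  meas := Finset.measurable_sum _ fun q _ =>
    measurable_const.indicator (measurableSet_E γ ρ Kp q)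
  nonneg x := Finset.sum_nonneg fun q _ => indicator_nonneg (fun _ _ => zero_le_one) x
  bdd := ⟨Q.card, fun x => by
    calc F γ ρ Kp Q x ≤ ∑ _q ∈ Q, (1 : ℝ) := Finset.sum_le_sum fun q _ =>
          indicator_le_self' (fun _ _ => zero_le_one) x |>.trans le_rfl
      _ = Q.card := by simp⟩

lemma supp_F {Q : Finset ℕ} {x : ℝ} (h : F γ ρ Kp Q x ≠ 0) : ∃ q ∈ Q, x ∈ Arc γ (ρ * q) q := by
  obtain ⟨q, hq, h⟩ := Finset.exists_ne_zero_of_sum_ne_zero h
  exact ⟨q, hq, E_subset_Arc (mem_of_indicator_ne_zero h)⟩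

lemma int_ind {A B : Set ℝ} (hB : MeasurableSet B) :
    ∫ x in A, B.indicator (fun _ => (1 : ℝ)) x = volume.real (A ∩ B) := by
  rw [setIntegral_indicator hB, setIntegral_const]
  simp

lemma intble_ind {A B : Set ℝ} (hA : volume A ≠ ⊤) (hB : MeasurableSet B) :
    IntegrableOn (B.indicator (fun _ => (1 : ℝ))) A := by
  refine Integrable.indicator ?_ hB
  exact integrableOn_const hA

lemma int_F {A : Set ℝ} (hA : volume A ≠ ⊤) (Q : Finset ℕ) :
    ∫ x in A, F γ ρ Kp Q x = ∑ q ∈ Q, volume.real (A ∩ E γ ρ Kp q) := by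
  unfold F
  rw [integral_finsetSum _ fun q _ => intble_ind hA (measurableSet_E γ ρ Kp q)]
  exact Finset.sum_congr rfl fun q _ => int_ind (measurableSet_E γ ρ Kp q)

lemma int_F_sq {A : Set ℝ} (hA : volume A ≠ ⊤) (Q : Finset ℕ) :
    ∫ x in A, F γ ρ Kp Q x ^ 2 =
      ∑ q ∈ Q, ∑ q' ∈ Q, volume.real (A ∩ (E γ ρ Kp q ∩ E γ ρ Kp q')) := by
  have e : ∀ x, F γ ρ Kp Q x ^ 2 = ∑ q ∈ Q, ∑ q' ∈ Q,
      (E γ ρ Kp q ∩ E γ ρ Kp q').indicator (fun _ => (1 : ℝ)) x := by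
    intro x
    unfold F
    rw [sq, Finset.sum_mul_sum]
    refine Finset.sum_congr rfl fun q _ => Finset.sum_congr rfl fun q' _ => ?_
    by_cases h : x ∈ E γ ρ Kp q <;> by_cases h' : x ∈ E γ ρ Kp q' <;> simp [h, h']
  simp only [e]
  have hm : ∀ q q' : ℕ, MeasurableSet (E γ ρ Kp q ∩ E γ ρ Kp q') := fun q q' =>
    (measurableSet_E γ ρ Kp q).inter (measurableSet_E γ ρ Kp q')
  rw [integral_finsetSum _ fun q _ => integrable_finsetSum _ fun q' _ => intble_ind hA (hm q q')]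
  refine Finset.sum_congr rfl fun q _ => ?_
  rw [integral_finsetSum _ fun q' _ => intble_ind hA (hm q q')]
  exact Finset.sum_congr rfl fun q' _ => int_ind (hm q q')

/-- second moment by pair count -/
lemma second_moment {Q : Finset ℕ} (hQ : ∀ q ∈ Q, 0 < q) (hρ0 : 0 ≤ ρ)
    (hρ : ∀ q ∈ Q, ρ * q ≤ 1 / 2) (hK : ∀ q ∈ Q, ∀ n : ℤ, n + q ∈ Kp q ↔ n ∈ Kp q) :
    ∫ x in Ico (0 : ℝ) 1, F γ ρ Kp Q x ^ 2 ≤
      2 * (ρ * ∑ q ∈ Q, ∑ q' ∈ Q, (PC γ ρ Kp q q' : ℝ)) := by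
  rw [int_F_sq (by simp), Finset.mul_sum, Finset.mul_sum]
  refine Finset.sum_le_sum fun q hq => ?_
  rw [Finset.mul_sum, Finset.mul_sum]
  refine Finset.sum_le_sum fun q' hq' => ?_
  rw [m_Ico]
  have := m_E_inter_le (γ := γ) (hQ q hq) (hQ q' hq') hρ0 (hρ q hq) (hρ q' hq') (hK q hq) (hK q' hq')
  linarith

/-! ### abstract interfaces -/

/-- residues kept modulo `q` -/
noncomputable def kc (Kp : ℕ → Set ℤ) (q : ℕ) : ℕ := {n : ℤ | 0 ≤ n ∧ n < q ∧ n ∈ Kp q}.ncard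

lemma kc_finite (Kp : ℕ → Set ℤ) (q : ℕ) : {n : ℤ | 0 ≤ n ∧ n < q ∧ n ∈ Kp q}.Finite :=
  (Set.finite_Ico (0 : ℤ) q).subset fun _ hn => ⟨hn.1, hn.2.1⟩

/-- **pair count statement** with abstract kept sets (global) -/
def KC (γ : ℝ) : Prop := ∃ c : ℝ, 0 < c ∧ ∃ C : ℝ, ∃ δ : ℝ, 0 < δ ∧ ∃ P : ℕ,
  ∀ (Q : Finset ℕ) (ρ : ℝ), (∀ q ∈ Q, 0 < q ∧ P ≤ q) → 0 < ρ →
    ρ * ∑ q ∈ Q, (Nat.totient q : ℝ) = 1 → (∀ q ∈ Q, ρ * q ≤ δ) →
    ∃ Q' ⊆ Q, ∃ Kp : ℕ → Set ℤ, (∀ q ∈ Q', ∀ n : ℤ, n + q ∈ Kp q ↔ n ∈ Kp q) ∧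
      c ≤ ρ * ∑ q ∈ Q', (kc Kp q : ℝ) ∧
      ρ * ∑ q ∈ Q', ∑ q' ∈ Q', (PC γ ρ Kp q q' : ℝ) ≤ C

theorem CR1_of_KC {γ : ℝ} (h : KC γ) : CR1 γ := by
  obtain ⟨c, hc, C, δ, hδ, P, h⟩ := h
  set C' := max C 1 with hC'
  have hC'0 : 0 < C' := lt_of_lt_of_le one_pos (le_max_right _ _)
  refine ⟨2 * c ^ 2 / C', by positivity, min δ (1 / 2), lt_min hδ (by norm_num), P,
    fun Q ρ hQ hρ hmass hs => ?_⟩
  obtain ⟨Q', hQ', Kp, hper, h1, h2⟩ := h Q ρ hQ hρ hmass
    (fun q hq => (hs q hq).trans (min_le_left _ _))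
  have hQ'0 : ∀ q ∈ Q', 0 < q := fun q hq => (hQ q (hQ' hq)).1
  have hρ' : ∀ q ∈ Q', ρ * q ≤ 1 / 2 := fun q hq => (hs q (hQ' hq)).trans (min_le_right _ _)
  have hF := test_F γ ρ Kp Q'
  have e2 : ∫ x in Ico (0 : ℝ) 1, F γ ρ Kp Q' x ^ 2 ≤ 2 * C' := by
    refine (second_moment hQ'0 hρ.le hρ' hper).trans ?_
    have := h2.trans (le_max_left C 1)
    linarith
  have e1 : 2 * c ≤ ∫ x in Ico (0 : ℝ) 1, F γ ρ Kp Q' x := by
    rw [int_F (by simp)]
    calc 2 * c ≤ 2 * (ρ * ∑ q ∈ Q', (kc Kp q : ℝ)) := by linarith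
      _ = ∑ q ∈ Q', (kc Kp q : ℝ) * (2 * ρ) := by
          rw [Finset.mul_sum, Finset.mul_sum]
          exact Finset.sum_congr rfl fun q _ => by ring
      _ ≤ _ := Finset.sum_le_sum fun q hq => by
          rw [m_Ico]
          have hfin := kc_finite Kp q
          have := m_E_ge (γ := γ) (Kp := Kp) (hQ'0 q hq) hρ.le (hρ' q hq) (hper q hq) hfin.toFinset
            (fun n hn => by simpa using hn)
          unfold kc
          rwa [Set.ncard_eq_toFinset_card _ hfin]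
  -- Cauchy-Schwarz
  set A := Ico (0 : ℝ) 1 ∩ ⋃ q ∈ Q, Arc γ (ρ * q) q with hA
  have hA1 : A ⊆ Ico (0 : ℝ) 1 := inter_subset_left
  have hAm : MeasurableSet A := measurableSet_Ico.inter
    (Finset.measurableSet_biUnion _ fun q _ => measurableSet_arc _ _ _)
  have e3 : ∫ x in Ico (0 : ℝ) 1, F γ ρ Kp Q' x = ∫ x in A, F γ ρ Kp Q' x := by
    have : ∫ x in Ico (0 : ℝ) 1, F γ ρ Kp Q' x =
        ∫ x in Ico (0 : ℝ) 1, A.indicator (F γ ρ Kp Q') x := by
      refine setIntegral_congr_fun measurableSet_Ico fun x hx => ?_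
      by_cases hxA : x ∈ A
      · simp [hxA]
      · simp only [indicator_of_notMem hxA]
        by_contra hFx
        obtain ⟨q, hq, hxq⟩ := supp_F hFx
        exact hxA ⟨hx, by simp only [mem_iUnion]; exact ⟨q, hQ' hq, hxq⟩⟩
    rw [this, setIntegral_indicator hAm, inter_eq_right.2 hA1]
  have hl : 0 < c / C' := by positivity
  have h5 := hF.amgm hA1 hl
  rw [← e3] at h5
  have h6 : c / C' / 2 * (∫ x in Ico (0 : ℝ) 1, F γ ρ Kp Q' x ^ 2) ≤ c := by
    calc c / C' / 2 * (∫ x in Ico (0 : ℝ) 1, F γ ρ Kp Q' x ^ 2) ≤ c / C' / 2 * (2 * C') :=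
          mul_le_mul_of_nonneg_left e2 (by positivity)
      _ = c := by field_simp
  have h7 : c ≤ volume.real A / (2 * (c / C')) := by linarith
  rw [le_div_iff₀ (by positivity)] at h7
  have h8 : c * (2 * (c / C')) = 2 * c ^ 2 / C' := by field_simp
  linarith

/-- **pair count statement** with abstract kept sets (local, rough denominators) -/
def KCL (γ : ℝ) : Prop := ∃ c : ℝ, 0 < c ∧ ∃ C : ℝ, ∃ δ : ℝ, 0 < δ ∧ ∀ K : ℕ, 0 < K → ∃ P : ℕ,
  ∀ (Q : Finset ℕ) (ρ : ℝ), (∀ q ∈ Q, 0 < q ∧ P ≤ q ∧ Rough P q) → 0 < ρ →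
    ρ * ∑ q ∈ Q, (Nat.totient q : ℝ) = 1 → (∀ q ∈ Q, ρ * q ≤ δ) →
    ∃ Q' ⊆ Q, ∃ Kp : ℕ → Set ℤ, (∀ q ∈ Q', ∀ n : ℤ, n + q ∈ Kp q ↔ n ∈ Kp q) ∧
      (∀ i < K, ∃ T : ℕ → Finset ℤ, (∀ q ∈ Q', ∀ n ∈ T q, (i : ℝ) / K + ρ ≤ (γ + n) / q ∧
        (γ + n) / q ≤ ((i : ℝ) + 1) / K - ρ ∧ n ∈ Kp q) ∧
        c / K ≤ ρ * ∑ q ∈ Q', ((T q).card : ℝ)) ∧
      ρ * ∑ q ∈ Q', ∑ q' ∈ Q', (PC γ ρ Kp q q' : ℝ) ≤ C

theorem CRL2_of_KCL {γ : ℝ} (h : KCL γ) : CRL2 γ := by
  obtain ⟨c, hc, C, δ, hδ, h⟩ := h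
  refine ⟨2 * c, by positivity, 2 * C, min δ (1 / 2), lt_min hδ (by norm_num), fun K hK => ?_⟩
  obtain ⟨P, h⟩ := h K hK
  refine ⟨P, fun Q ρ hQ hρ hmass hs => ?_⟩
  obtain ⟨Q', hQ', Kp, hper, h1, h2⟩ := h Q ρ hQ hρ hmass
    (fun q hq => (hs q hq).trans (min_le_left _ _))
  have hQ'0 : ∀ q ∈ Q', 0 < q := fun q hq => (hQ q (hQ' hq)).1
  have hρ' : ∀ q ∈ Q', ρ * q ≤ 1 / 2 := fun q hq => (hs q (hQ' hq)).trans (min_le_right _ _)
  refine ⟨F γ ρ Kp Q', test_F γ ρ Kp Q', fun x hx => ?_, ?_, fun i hi => ?_⟩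
  · obtain ⟨q, hq, hxq⟩ := supp_F hx
    exact ⟨q, hQ' hq, hxq⟩
  · refine (second_moment hQ'0 hρ.le hρ' hper).trans ?_
    linarith
  · obtain ⟨T, hT, hT2⟩ := h1 i hi
    rw [int_F (by rw [volume_J hK]; exact ENNReal.ofReal_ne_top)]
    calc 2 * c / K ≤ 2 * (ρ * ∑ q ∈ Q', ((T q).card : ℝ)) := by
          have : 2 * c / K = 2 * (c / K) := by ring
          rw [this]; linarith
      _ = ∑ q ∈ Q', ((T q).card : ℝ) * (2 * ρ) := by
          rw [Finset.mul_sum, Finset.mul_sum]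
          exact Finset.sum_congr rfl fun q _ => by ring
      _ ≤ _ := Finset.sum_le_sum fun q hq =>
          loc_E_ge (hQ'0 q hq) hρ.le (hρ' q hq) hK (T q) (hT q hq)

end Crest.Agent.R4C.CrPairx935
end

-- ▼ part R4C/CrSieve_935

/-!
# Row 4: forbidden classes, Legendre sieve, and the final interface (helper935)

* `sieve` : integers in `[a,b)` avoiding one class modulo each prime of `S`, error `2^|S|`.
* `Kc κ q` : numerators avoiding the class `κ q p` modulo each prime `p ∣ q`; `kc_Kc : = φ(q)`.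
* `KCc γ` : **one** pair count statement; `main_KCc : KCc γ → (S0004 for γ)`.
-/

set_option autoImplicit false
open MeasureTheory Filter Set Topology

namespace Crest.Agent.R4C.CrSievex935

open Crest.Agent.R4.Soft104 Crest.Agent.R4C.CrRedx935 Crest.Agent.R4C.CrLocx935
  Crest.Agent.R4C.CrPairx935

/-- integers in `[a,b)` avoiding the classes `κ p` modulo `p`, `p ∈ S` -/
noncomputable def cnt (S : Finset ℕ) (κ : ℕ → ℤ) (a b : ℝ) : Finset ℤ :=
  open Classical in (Finset.Ico ⌈a⌉ ⌈b⌉).filter (fun n => ∀ p ∈ S, ¬ (p : ℤ) ∣ n - κ p)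

lemma mem_cnt {S : Finset ℕ} {κ : ℕ → ℤ} {a b : ℝ} {n : ℤ} :
    n ∈ cnt S κ a b ↔ (a ≤ n ∧ (n : ℝ) < b) ∧ ∀ p ∈ S, ¬ (p : ℤ) ∣ n - κ p := by
  unfold cnt
  rw [Finset.mem_filter, Finset.mem_Ico, Int.ceil_le, Int.lt_ceil]

lemma cnt_step {S : Finset ℕ} {r : ℕ} (hS : ∀ p ∈ S, p.Prime) (hr : r.Prime) (hrS : r ∉ S)
    (κ : ℕ → ℤ) (a b : ℝ) : ∃ κ' : ℕ → ℤ,
    ((cnt (insert r S) κ a b).card : ℝ) = (cnt S κ a b).card -
      (cnt S κ' ((a - κ r) / r) ((b - κ r) / r)).card := by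
  classical
  have hr0 : (0 : ℝ) < r := by exact_mod_cast hr.pos
  have hr0' : (r : ℤ) ≠ 0 := by exact_mod_cast hr.ne_zero
  refine ⟨fun p => Nat.gcdA r p * (κ p - κ r), ?_⟩
  have hcong : ∀ p ∈ S, ∀ m : ℤ, ((p : ℤ) ∣ κ r + r * m - κ p ↔
      (p : ℤ) ∣ m - Nat.gcdA r p * (κ p - κ r)) := by
    intro p hp m
    have hpr : p ≠ r := fun h => hrS (h ▸ hp)
    have hpp := hS p hp
    have hcop : Nat.Coprime r p := (Nat.coprime_primes hr hpp).2 (Ne.symm hpr)
    have hbez := Nat.gcd_eq_gcd_ab r p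
    rw [hcop.gcd_eq_one] at hbez
    have hbez' : (r : ℤ) * Nat.gcdA r p = 1 - p * Nat.gcdB r p := by
      push_cast at hbez; linarith
    have hpr' : ¬ (p : ℤ) ∣ r := by
      intro h
      have h2 : p ∣ r := by exact_mod_cast h
      exact hpr ((Nat.prime_dvd_prime_iff_eq hpp hr).1 h2)
    have hpi : Prime (p : ℤ) := Nat.prime_iff_prime_int.1 hpp
    have e : κ r + r * m - κ p = r * (m - Nat.gcdA r p * (κ p - κ r)) -
        p * (Nat.gcdB r p * (κ p - κ r)) := by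
      have : (r : ℤ) * (m - Nat.gcdA r p * (κ p - κ r)) =
        r * m - (r * Nat.gcdA r p) * (κ p - κ r) := by ring
      rw [this, hbez']; ring
    rw [e]
    constructor
    · intro h
      have h2 : (p : ℤ) ∣ r * (m - Nat.gcdA r p * (κ p - κ r)) := by
        have := dvd_add h (dvd_mul_right (p : ℤ) (Nat.gcdB r p * (κ p - κ r)))
        simpa using this
      exact (hpi.dvd_or_dvd h2).resolve_left hpr'
    · intro h
      exact dvd_sub (dvd_mul_of_dvd_right h _) (dvd_mul_right _ _)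
  have h1 : cnt (insert r S) κ a b = (cnt S κ a b).filter (fun n => ¬ (r : ℤ) ∣ n - κ r) := by
    ext n
    rw [Finset.mem_filter, mem_cnt, mem_cnt]
    simp only [Finset.mem_insert, forall_eq_or_imp]
    tauto
  have h2 : ((cnt S κ a b).filter (fun n => (r : ℤ) ∣ n - κ r)).card =
      (cnt S (fun p => Nat.gcdA r p * (κ p - κ r)) ((a - κ r) / r) ((b - κ r) / r)).card := by
    symm
    refine Finset.card_bij (fun m _ => κ r + r * m) ?_ ?_ ?_
    · intro m hm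
      rw [mem_cnt] at hm
      rw [Finset.mem_filter, mem_cnt]
      refine ⟨⟨⟨?_, ?_⟩, ?_⟩, ?_⟩
      · have := hm.1.1
        rw [div_le_iff₀ hr0] at this
        push_cast; linarith
      · have := hm.1.2
        rw [lt_div_iff₀ hr0] at this
        push_cast; linarith
      · intro p hp
        rw [hcong p hp]
        exact hm.2 p hp
      · rw [add_sub_cancel_left]; exact dvd_mul_right _ _
    · intro m _ m' _ h
      exact mul_left_cancel₀ hr0' (add_left_cancel h)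
    · intro n hn
      rw [Finset.mem_filter, mem_cnt] at hn
      obtain ⟨m, hm⟩ := hn.2
      have hn' : n = κ r + r * m := by linarith
      refine ⟨m, ?_, hn'.symm⟩
      rw [mem_cnt]
      refine ⟨⟨?_, ?_⟩, ?_⟩
      · rw [div_le_iff₀ hr0]
        have := hn.1.1.1
        rw [hn'] at this
        push_cast at this; linarith
      · rw [lt_div_iff₀ hr0]
        have := hn.1.1.2
        rw [hn'] at this
        push_cast at this; linarith
      · intro p hp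
        rw [← hcong p hp, ← hn']
        exact hn.1.2 p hp
  rw [← h2, h1]
  have h3 := Finset.card_filter_add_card_filter_not (s := cnt S κ a b) (fun n => (r : ℤ) ∣ n - κ r)
  have h4 : (((cnt S κ a b).filter (fun n => (r : ℤ) ∣ n - κ r)).card : ℝ) +
      ((cnt S κ a b).filter (fun n => ¬ (r : ℤ) ∣ n - κ r)).card = (cnt S κ a b).card := by
    exact_mod_cast h3
  linarith

/-- **Legendre sieve** -/
theorem sieve (S : Finset ℕ) (hS : ∀ p ∈ S, p.Prime) : ∀ (κ : ℕ → ℤ) (a b : ℝ), a ≤ b →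
    |((cnt S κ a b).card : ℝ) - (b - a) * ∏ p ∈ S, (1 - 1 / (p : ℝ))| ≤ 2 ^ S.card := by
  classical
  induction S using Finset.induction_on with
  | empty =>
    intro κ a b hab
    have h1 : cnt ∅ κ a b = Finset.Ico ⌈a⌉ ⌈b⌉ := by
      ext n; rw [mem_cnt, Finset.mem_Ico, Int.ceil_le, Int.lt_ceil]; simp
    rw [h1, Int.card_Ico]
    have h2 : ⌈a⌉ ≤ ⌈b⌉ := Int.ceil_mono hab
    have h3 : (((⌈b⌉ - ⌈a⌉).toNat : ℕ) : ℝ) = (⌈b⌉ : ℝ) - ⌈a⌉ := by
      have : (((⌈b⌉ - ⌈a⌉).toNat : ℤ)) = ⌈b⌉ - ⌈a⌉ := Int.toNat_of_nonneg (by omega)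
      exact_mod_cast this
    rw [h3]
    simp only [Finset.prod_empty, mul_one, Finset.card_empty, pow_zero]
    have h4 := Int.le_ceil a
    have h5 := Int.ceil_lt_add_one a
    have h6 := Int.le_ceil b
    have h7 := Int.ceil_lt_add_one b
    rw [abs_le]
    constructor <;> linarith
  | insert r S hrS ih =>
    intro κ a b hab
    have hr : r.Prime := hS r (Finset.mem_insert_self _ _)
    have hr0 : (0 : ℝ) < r := by exact_mod_cast hr.pos
    have hS' : ∀ p ∈ S, p.Prime := fun p hp => hS p (Finset.mem_insert_of_mem hp)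
    obtain ⟨κ', hκ'⟩ := cnt_step hS' hr hrS κ a b
    have h1 := ih hS' κ a b hab
    have h2 := ih hS' κ' ((a - κ r) / r) ((b - κ r) / r) (by gcongr)
    rw [hκ', Finset.prod_insert hrS, Finset.card_insert_of_notMem hrS, pow_succ]
    have e : (b - κ r) / r - (a - κ r) / r = (b - a) / r := by ring
    rw [e] at h2
    rw [abs_le] at h1 h2 ⊢
    have e2 : (b - a) * ((1 - 1 / (r : ℝ)) * ∏ p ∈ S, (1 - 1 / (p : ℝ))) =
        (b - a) * ∏ p ∈ S, (1 - 1 / (p : ℝ)) - (b - a) / r * ∏ p ∈ S, (1 - 1 / (p : ℝ)) := by ring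
    rw [e2]
    constructor <;> linarith [h1.1, h1.2, h2.1, h2.2]

/-- numerators avoiding the class `κ q p` modulo each prime `p ∣ q` -/
def Kc (κ : ℕ → ℕ → ℤ) (q : ℕ) : Set ℤ := {n | ∀ p ∈ q.primeFactors, ¬ (p : ℤ) ∣ n - κ q p}

lemma Kc_per (κ : ℕ → ℕ → ℤ) (q : ℕ) (n : ℤ) : n + q ∈ Kc κ q ↔ n ∈ Kc κ q := by
  unfold Kc
  simp only [mem_ofPred_eq]
  refine forall₂_congr fun p hp => not_congr ?_
  have hpq : (p : ℤ) ∣ q := by exact_mod_cast Nat.dvd_of_mem_primeFactors hp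
  have e : n + q - κ q p = (n - κ q p) + q := by ring
  rw [e]
  exact (Int.dvd_add_left hpq)

/-- Chinese remainder -/
lemma crt (S : Finset ℕ) (hS : ∀ p ∈ S, p.Prime) (κ : ℕ → ℤ) : ∃ a : ℤ, ∀ p ∈ S, (p : ℤ) ∣ a - κ p := by
  classical
  induction S using Finset.induction_on with
  | empty => exact ⟨0, by simp⟩
  | insert r S hrS ih =>
    obtain ⟨a, ha⟩ := ih fun p hp => hS p (Finset.mem_insert_of_mem hp)
    have hr : r.Prime := hS r (Finset.mem_insert_self _ _)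
    have hcop : Nat.Coprime (∏ p ∈ S, p) r := by
      refine Nat.Coprime.prod_left fun p hp => ?_
      exact (Nat.coprime_primes (hS p (Finset.mem_insert_of_mem hp)) hr).2 fun h => hrS (h ▸ hp)
    have hbez := Nat.gcd_eq_gcd_ab (∏ p ∈ S, p) r
    rw [hcop.gcd_eq_one] at hbez
    set D := ∏ p ∈ S, p with hD
    refine ⟨a + D * (Nat.gcdA D r * (κ r - a)), fun p hp => ?_⟩
    rcases Finset.mem_insert.1 hp with rfl | hp
    · refine ⟨Nat.gcdB D p * -(κ p - a), ?_⟩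
      push_cast at hbez
      have : a + (D : ℤ) * (Nat.gcdA D p * (κ p - a)) - κ p =
        -(κ p - a) * (1 - D * Nat.gcdA D p) := by ring
      rw [this, hbez]; ring
    · have hpD : (p : ℤ) ∣ D := by exact_mod_cast Finset.dvd_prod_of_mem (fun p : ℕ => p) hp
      have e : a + (D : ℤ) * (Nat.gcdA D r * (κ r - a)) - κ p =
        (a - κ p) + D * (Nat.gcdA D r * (κ r - a)) := by ring
      rw [e]
      exact dvd_add (ha p hp) (dvd_mul_of_dvd_left hpD _)

lemma kc_Kc (κ : ℕ → ℕ → ℤ) {q : ℕ} (hq : 0 < q) : kc (Kc κ) q = Nat.totient q := by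
  classical
  obtain ⟨a, ha⟩ := crt q.primeFactors (fun p hp => Nat.prime_of_mem_primeFactors hp) (κ q)
  have hq' : (0 : ℤ) < q := by exact_mod_cast hq
  set A : ℕ := ((-a) % q).toNat with hA
  have hA' : (A : ℤ) = (-a) % q := Int.toNat_of_nonneg (Int.emod_nonneg _ hq'.ne')
  have hAa : (q : ℤ) ∣ A + a := by
    rw [hA']
    have := Int.emod_add_mul_ediv (-a) q
    refine ⟨-((-a) / q), ?_⟩
    linarith
  have hmem : ∀ n : ℤ, 0 ≤ n → (n ∈ Kc κ q ↔ Nat.Coprime q (n.toNat + A)) := by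
    intro n hn
    obtain ⟨n, rfl⟩ := Int.eq_ofNat_of_zero_le hn
    rw [Int.toNat_natCast]
    have key : ∀ p ∈ q.primeFactors, ((p : ℤ) ∣ (n : ℤ) - κ q p ↔ p ∣ n + A) := by
      intro p hp
      have hpq : (p : ℤ) ∣ q := by exact_mod_cast Nat.dvd_of_mem_primeFactors hp
      have h1 : ((p ∣ n + A) ↔ (p : ℤ) ∣ ((n + A : ℕ) : ℤ)) := by
        rw [Int.natCast_dvd_natCast]
      rw [h1]
      have e : ((n + A : ℕ) : ℤ) = ((n : ℤ) - κ q p) + ((A + a) - (a - κ q p)) := by push_cast; ring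
      rw [e]
      exact (Int.dvd_add_left (dvd_sub (hpq.trans hAa) (ha p hp))).symm
    constructor
    · intro h
      refine Nat.Coprime.symm (Nat.coprime_of_dvd fun p hp hpn hpq => ?_)
      have hpm : p ∈ q.primeFactors := Nat.mem_primeFactors.2 ⟨hp, hpq, hq.ne'⟩
      exact h p hpm ((key p hpm).2 hpn)
    · intro h p hp hd
      have h1 := (key p hp).1 hd
      have h2 := Nat.dvd_gcd (Nat.dvd_of_mem_primeFactors hp) h1
      rw [h.gcd_eq_one] at h2
      exact (Nat.prime_of_mem_primeFactors hp).one_lt.ne' (Nat.dvd_one.1 h2)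
  unfold kc
  rw [← Nat.filter_coprime_Ico_eq_totient q A, ← Set.ncard_coe_finset]
  refine Set.ncard_congr (fun n _ => n.toNat + A) ?_ ?_ ?_
  · rintro n ⟨h1, h2, h3⟩
    simp only [Finset.coe_filter, Finset.mem_Ico, mem_ofPred_eq]
    exact ⟨⟨by omega, by omega⟩, (hmem n h1).1 h3⟩
  · rintro n n' ⟨h1, _, _⟩ ⟨h1', _, _⟩ h
    omega
  · intro x hx
    simp only [Finset.coe_filter, Finset.mem_Ico, mem_ofPred_eq] at hx
    refine ⟨((x - A : ℕ) : ℤ), ⟨by omega, by omega, ?_⟩, ?_⟩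
    · rw [hmem _ (by omega), Int.toNat_natCast]
      have : x - A + A = x := by omega
      rw [this]
      exact hx.2
    · simp only [Int.toNat_natCast]
      omega

/-! ### the interface -/

/-- **pair count statement with forbidden classes**: one forbidden class `κ q p` for every prime
`p ∣ q` (any choice), on a sub-system `Q'` of positive mass -/
def KCc (γ : ℝ) : Prop := ∃ c : ℝ, 0 < c ∧ ∃ C : ℝ, ∃ δ : ℝ, 0 < δ ∧ ∃ P : ℕ,
  ∀ (Q : Finset ℕ) (ρ : ℝ), (∀ q ∈ Q, 0 < q ∧ P ≤ q) → 0 < ρ →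
    ρ * ∑ q ∈ Q, (Nat.totient q : ℝ) = 1 → (∀ q ∈ Q, ρ * q ≤ δ) →
    ∃ Q' ⊆ Q, ∃ κ : ℕ → ℕ → ℤ, c ≤ ρ * ∑ q ∈ Q', (Nat.totient q : ℝ) ∧
      ρ * ∑ q ∈ Q', ∑ q' ∈ Q', (PC γ ρ (Kc κ) q q' : ℝ) ≤ C

theorem KC_of_KCc {γ : ℝ} (h : KCc γ) : KC γ := by
  obtain ⟨c, hc, C, δ, hδ, P, h⟩ := h
  refine ⟨c, hc, C, δ, hδ, P, fun Q ρ hQ hρ hmass hs => ?_⟩
  obtain ⟨Q', hQ', κ, h1, h2⟩ := h Q ρ hQ hρ hmass hs
  refine ⟨Q', hQ', Kc κ, fun q _ n => Kc_per κ q n, ?_, h2⟩
  refine h1.trans (le_of_eq ?_)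
  congr 1
  exact Finset.sum_congr rfl fun q hq => by rw [kc_Kc κ (hQ q (hQ' hq)).1]

lemma totient_real (q : ℕ) : (Nat.totient q : ℝ) = q * ∏ p ∈ q.primeFactors, (1 - 1 / (p : ℝ)) := by
  have h := Nat.totient_eq_mul_prod_factors q
  have h2 : ((Nat.totient q : ℚ) : ℝ) =
      ((q * ∏ p ∈ q.primeFactors, (1 - (p : ℚ)⁻¹) : ℚ) : ℝ) := by rw [h]
  push_cast at h2
  rw [h2]
  simp only [one_div]

lemma totient_ge_pow {P q : ℕ} (hq : 0 < q) (h : Rough P q) (hP : 1 ≤ P) :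
    (P - 1) ^ q.primeFactors.card ≤ Nat.totient q := by
  rw [Nat.totient_eq_div_primeFactors_mul]
  have h1 : 1 ≤ q / ∏ p ∈ q.primeFactors, p :=
    Nat.div_pos (Nat.le_of_dvd hq (Nat.prod_primeFactors_dvd q))
      (Finset.prod_pos fun p hp => Nat.pos_of_mem_primeFactors hp)
  have h2 : (P - 1) ^ q.primeFactors.card ≤ ∏ p ∈ q.primeFactors, (p - 1) := by
    rw [← Finset.prod_const]
    refine Finset.prod_le_prod' fun p hp => ?_
    have := h p (Nat.prime_of_mem_primeFactors hp) (Nat.dvd_of_mem_primeFactors hp)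
    omega
  calc (P - 1) ^ q.primeFactors.card = 1 * (P - 1) ^ q.primeFactors.card := (one_mul _).symm
    _ ≤ _ := Nat.mul_le_mul h1 h2

/-- local count for rough denominators -/
lemma cnt_ge {γ ρ : ℝ} {K P q : ℕ} (i : ℕ) (hK : 0 < K) (hP : 8 * K + 1 ≤ P) (hPq : P ≤ q)
    (hR : Rough P q) (hρ : ρ ≤ 1 / (8 * K)) (κ : ℕ → ℤ) :
    (Nat.totient q : ℝ) / (2 * K) ≤ ((cnt q.primeFactors κ (q * i / K + ρ * q - γ)
      (q * (i + 1) / K - ρ * q - γ)).card : ℝ) := by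
  have hK' : (0 : ℝ) < K := by exact_mod_cast hK
  have hq2 : 2 ≤ q := by omega
  have hq : 0 < q := by omega
  have hq' : (0 : ℝ) < q := by exact_mod_cast hq
  have hlen : (q : ℝ) * (i + 1) / K - ρ * q - γ - (q * i / K + ρ * q - γ) = q / K - 2 * ρ * q := by
    ring
  have hlen0 : (q : ℝ) / (2 * K) ≤ q / K - 2 * ρ * q := by
    have h1 : 2 * ρ * q ≤ 2 * (1 / (8 * K)) * q := by gcongr
    have h2 : (q : ℝ) / K - 2 * (1 / (8 * K)) * q = (3 / 4) * (q / K) := by field_simp; ring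
    have h3 : (q : ℝ) / (2 * K) = (1 / 2) * (q / K) := by field_simp
    have h4 : (0 : ℝ) < q / K := by positivity
    rw [h3]; linarith
  have hab : (q : ℝ) * i / K + ρ * q - γ ≤ q * (i + 1) / K - ρ * q - γ := by
    have : (0 : ℝ) < q / (2 * K) := by positivity
    linarith
  have hs := sieve q.primeFactors (fun p hp => Nat.prime_of_mem_primeFactors hp) κ _ _ hab
  rw [hlen, abs_le] at hs
  set Pr0 := ∏ p ∈ q.primeFactors, (1 - 1 / (p : ℝ)) with hPr0
  have hφ : (Nat.totient q : ℝ) = q * Pr0 := totient_real q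
  have h1 : (q / K - 2 * ρ * q) * Pr0 = Nat.totient q / K - 2 * ρ * Nat.totient q := by
    rw [hφ]; ring
  rw [h1] at hs
  have hφ0 : (0 : ℝ) ≤ Nat.totient q := by positivity
  have h2 : 2 * ρ * Nat.totient q ≤ Nat.totient q / (4 * K) := by
    calc 2 * ρ * Nat.totient q ≤ 2 * (1 / (8 * K)) * Nat.totient q := by gcongr
      _ = _ := by field_simp; ring
  -- the error term
  set ω := q.primeFactors.card with hω
  have hω1 : 1 ≤ ω := by
    rw [hω, Nat.one_le_iff_ne_zero, Finset.card_ne_zero]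
    exact Nat.nonempty_primeFactors.2 (by omega)
  have h3 : 2 ^ ω * (4 * K) ≤ Nat.totient q := by
    have h4 := totient_ge_pow hq hR (by omega)
    refine le_trans ?_ h4
    obtain ⟨k, hk⟩ : ∃ k, ω = k + 1 := ⟨ω - 1, by omega⟩
    rw [← hω, hk, pow_succ, pow_succ]
    calc 2 ^ k * 2 * (4 * K) = 2 ^ k * (8 * K) := by ring
      _ ≤ (P - 1) ^ k * (P - 1) := by
          refine Nat.mul_le_mul (Nat.pow_le_pow_left (by omega) k) (by omega)
  have h5 : (2 : ℝ) ^ ω ≤ Nat.totient q / (4 * K) := by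
    rw [le_div_iff₀ (by positivity)]
    exact_mod_cast h3
  have h6 : (Nat.totient q : ℝ) / K = 2 * (Nat.totient q / (2 * K)) := by field_simp
  have h7 : (Nat.totient q : ℝ) / (2 * K) = 2 * (Nat.totient q / (4 * K)) := by field_simp; ring
  linarith [hs.1]

theorem KCL_of_KCc {γ : ℝ} (h : KCc γ) : KCL γ := by
  obtain ⟨c, hc, C, δ, hδ, P, h⟩ := h
  refine ⟨c / 2, by positivity, C, δ, hδ, fun K hK => ⟨max P (8 * K + 1),
    fun Q ρ hQ hρ hmass hs => ?_⟩⟩
  have hK' : (0 : ℝ) < K := by exact_mod_cast hK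
  set P' := max P (8 * K + 1) with hP'
  have hPP : P ≤ P' := le_max_left _ _
  have hKP : 8 * K + 1 ≤ P' := le_max_right _ _
  obtain ⟨Q', hQ', κ, h1, h2⟩ := h Q ρ (fun q hq => ⟨(hQ q hq).1, hPP.trans (hQ q hq).2.1⟩)
    hρ hmass hs
  have hρ8 : ρ ≤ 1 / (8 * K) := by
    rcases Finset.eq_empty_or_nonempty Q with rfl | ⟨q, hq⟩
    · simp at hmass
    · have e1 := rough_totient (P := P') (q := q) (by have := (hQ q hq).2.1; omega) (hQ q hq).2.2
      have e2 : (Nat.totient q : ℝ) ≤ ∑ q ∈ Q, (Nat.totient q : ℝ) :=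
        Finset.single_le_sum (f := fun q : ℕ => (Nat.totient q : ℝ)) (fun q _ => by positivity) hq
      have e3 : (8 : ℝ) * K + 1 ≤ P' := by exact_mod_cast hKP
      rw [le_div_iff₀ (by positivity)]
      calc ρ * (8 * K) ≤ ρ * ∑ q ∈ Q, (Nat.totient q : ℝ) := by gcongr; linarith
        _ = 1 := hmass
  refine ⟨Q', hQ', Kc κ, fun q _ n => Kc_per κ q n, fun i hi => ?_, h2⟩
  refine ⟨fun q => cnt q.primeFactors (κ q) (q * i / K + ρ * q - γ)
    (q * (i + 1) / K - ρ * q - γ), fun q hq n hn => ?_, ?_⟩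
  · rw [mem_cnt] at hn
    have hq0 : (0 : ℝ) < q := by exact_mod_cast (hQ q (hQ' hq)).1
    refine ⟨?_, ?_, hn.2⟩
    · rw [le_div_iff₀ hq0]
      have := hn.1.1
      have e : ((i : ℝ) / K + ρ) * q = q * i / K + ρ * q := by ring
      rw [e]; linarith
    · rw [div_le_iff₀ hq0]
      have := hn.1.2
      have e : (((i : ℝ) + 1) / K - ρ) * q = q * (i + 1) / K - ρ * q := by ring
      rw [e]; linarith
  · have e1 : ∀ q ∈ Q', (Nat.totient q : ℝ) / (2 * K) ≤
        ((cnt q.primeFactors (κ q) (q * i / K + ρ * q - γ)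
          (q * (i + 1) / K - ρ * q - γ)).card : ℝ) := fun q hq =>
      cnt_ge i hK hKP (hQ q (hQ' hq)).2.1 (hQ q (hQ' hq)).2.2 hρ8 (κ q)
    calc c / 2 / K = c / (2 * K) := by rw [div_div]
      _ ≤ (ρ * ∑ q ∈ Q', (Nat.totient q : ℝ)) / (2 * K) := by gcongr
      _ = ρ * ∑ q ∈ Q', (Nat.totient q : ℝ) / (2 * K) := by rw [← Finset.sum_div]; ring
      _ ≤ _ := by
          refine mul_le_mul_of_nonneg_left (Finset.sum_le_sum e1) hρ.le

/-- **full reduction of `S0004` to one pair count** -/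
theorem main_KCc {γ : ℝ} (h : KCc γ) (ψ : ℕ → ℝ)
    (hψ : ∀ q, 0 ≤ ψ q) (hdiv : ¬ Summable fun q : ℕ => (Nat.totient q : ℝ) / q * ψ q) :
    ∀ᵐ x : ℝ, ∃ᶠ q : ℕ in atTop, |(q : ℝ) * x - γ - round ((q : ℝ) * x - γ)| < ψ q :=
  main_CR2 (CR1_of_KC (KC_of_KCc h)) (CRL2_of_KCL (KCL_of_KCc h)) ψ hψ hdiv

end Crest.Agent.R4C.CrSievex935
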