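import Crest.Agent.R4C.FLSh_326
import Crest.Agent.R4C.Law_69
import Crest.Agent.R4C.Rule_945
import Crest.Agent.R4C.PureCls_863
import Crest.Agent.R4C.Pivots_80

-- ▼ part R4C/NodeMass_634
section

/-!
# Node masses of the F-Λ tree and heavy exceptions inside a node (helper634; row 4, GW section)

`F : FL M` with `NodeShares F B A s` (`FLSh_326.flam_full`).
* `node_mass` : `ν(B ∩ node of b at the cut x) ≤ ∏_{p > x branched} (1 - 1/p) · ν(B)`.
* `Cell F x b` : pure cell of `b` at the cut `x`: words with the same letters `≤ x`, the same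
  branched letters `> x`, and letters `≥` centre at the passive primes `> x`.
* `cell_mean` : `∑_{c ∈ Cell x b} ν(c) · mass M (ind B) y (upp y c) ≤ cen_y(b) · ν(B) · ν(Cell x b)`
  for every cut `y ≥ x` (natural expectation inside the node, no martingale).
* `exc_cell` : natural probability, given the cell, of the heavy exceptions in the gaps.
-/

set_option autoImplicit false

open Finset

namespace Crest.Agent.R4C.NodeMassx634

open Crest.Agent.R4C.Basex935 Crest.Agent.R4C.Cutx50 Crest.Agent.R4C.Lawx69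
  Crest.Agent.R4C.FLDefx935 Crest.Agent.R4C.FLShx326
open Crest.Agent.R4C.FLExx326 (ind ind_nonneg)

/-! ### Node masses -/

/-- branched primes of `b` above `x` -/
def br {M : ℕ} (F : FL M) (x b : ℕ) : Finset ℕ :=
  M.primeFactors.filter (fun q => x < q ∧ F.ctr b q = none)

/-- product over the branched primes -/
noncomputable def Nb {M : ℕ} (F : FL M) (x b : ℕ) : ℝ := ∏ q ∈ br F x b, (1 - 1 / (q : ℝ))

lemma one_sub_inv_nonneg {q : ℕ} (hq : q.Prime) : (0 : ℝ) ≤ 1 - 1 / (q : ℝ) := by
  have h : (1 : ℝ) ≤ q := by exact_mod_cast hq.one_lt.le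
  have : (1 : ℝ) / q ≤ 1 := by
    rw [div_le_one (by linarith)]
    exact h
  linarith


lemma same_succ {M : ℕ} {F : FL M} {x b c : ℕ} (h : F.same x b c) : F.same (x + 1) b c :=
  fun q hq hx hn => h q hq (by omega) hn

open Classical in
/-- **mass of `B` in a node** -/
theorem node_mass {M : ℕ} (hM : 0 < M) {F : FL M} {B : Finset ℕ} {A s : ℝ}
    (hS : NodeShares F B A s) {b : ℕ} {x0 : ℕ}
    (hq : ∀ q : ℕ, q.Prime → x0 < q → 1 / (q : ℝ) ≤ A * (q : ℝ) ^ (-s)) :
    ∀ x : ℕ, x0 ≤ x → ∑ c ∈ B, (if F.same x b c then nu M c else 0) ≤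
      Nb F x b * ∑ c ∈ B, nu M c := by
  -- trivial for large `x`
  have hbase : ∀ x, M ≤ x → ∑ c ∈ B, (if F.same x b c then nu M c else 0) ≤
      Nb F x b * ∑ c ∈ B, nu M c := by
    intro x hx
    have h1 : br F x b = ∅ := by
      unfold br
      rw [Finset.filter_eq_empty_iff]
      rintro q hq ⟨h, _⟩
      have := Nat.le_of_dvd hM (Nat.dvd_of_mem_primeFactors hq)
      omega
    unfold Nb
    rw [h1, Finset.prod_empty, one_mul]
    refine Finset.sum_le_sum fun c _ => ?_
    split_ifs
    · exact le_rfl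
    · exact nu_nonneg _ _
  -- one step down
  have hstep : ∀ x, x0 ≤ x → (∑ c ∈ B, (if F.same (x + 1) b c then nu M c else 0) ≤
      Nb F (x + 1) b * ∑ c ∈ B, nu M c) → ∑ c ∈ B, (if F.same x b c then nu M c else 0) ≤
      Nb F x b * ∑ c ∈ B, nu M c := by
    intro x hx ih
    have hmono : ∑ c ∈ B, (if F.same x b c then nu M c else 0) ≤
        ∑ c ∈ B, (if F.same (x + 1) b c then nu M c else 0) := by
      refine Finset.sum_le_sum fun c _ => ?_
      by_cases h : F.same x b c
      · rw [if_pos h, if_pos (same_succ h)]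
      · rw [if_neg h]
        split_ifs
        · exact nu_nonneg _ _
        · exact le_rfl
    by_cases hp : x + 1 ∈ M.primeFactors ∧ F.ctr b (x + 1) = none
    · -- branched prime
      obtain ⟨hpM, hpn⟩ := hp
      have hpp := Nat.prime_of_mem_primeFactors hpM
      have hbr : br F x b = insert (x + 1) (br F (x + 1) b) := by
        ext q
        unfold br
        rw [Finset.mem_insert, Finset.mem_filter, Finset.mem_filter]
        constructor
        · rintro ⟨h1, h2, h3⟩
          by_cases h : q = x + 1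
          · exact Or.inl h
          · exact Or.inr ⟨h1, by omega, h3⟩
        · rintro (h | ⟨h1, h2, h3⟩)
          · rw [h]
            exact ⟨hpM, by omega, hpn⟩
          · exact ⟨h1, by omega, h3⟩
      have hnot : x + 1 ∉ br F (x + 1) b := by
        unfold br
        rw [Finset.mem_filter]
        rintro ⟨_, h, _⟩
        omega
      have hNb : Nb F x b = (1 - 1 / ((x + 1 : ℕ) : ℝ)) * Nb F (x + 1) b := by
        unfold Nb
        rw [hbr, Finset.prod_insert hnot]
      have h1 := (hS b (x + 1) hpp).2 hpn (b.factorization (x + 1))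
      have h2 := hq (x + 1) hpp (by omega)
      set T := ∑ c ∈ B, (if F.same (x + 1) b c then nu M c else 0) with hT
      have hT0 : 0 ≤ T := Finset.sum_nonneg fun c _ => by
        split_ifs
        · exact nu_nonneg _ _
        · exact le_rfl
      have h3 : ∑ c ∈ B, (if F.same x b c then nu M c else 0) +
          ∑ c ∈ B, (if F.same (x + 1) b c ∧ c.factorization (x + 1) ≠ b.factorization (x + 1)
            then nu M c else 0) ≤ T := by
        rw [hT, ← Finset.sum_add_distrib]
        refine Finset.sum_le_sum fun c _ => ?_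
        by_cases h : F.same x b c
        · have he : b.factorization (x + 1) = c.factorization (x + 1) :=
            h (x + 1) hpp (by omega) hpn
          rw [if_pos h, if_pos (same_succ h), if_neg (fun h' => h'.2 he.symm), add_zero]
        · rw [if_neg h, zero_add]
          by_cases h' : F.same (x + 1) b c
          · rw [if_pos h']
            split_ifs
            · exact le_rfl
            · exact nu_nonneg _ _
          · rw [if_neg h', if_neg (fun h2 => h' h2.1)]
      have h4 : 1 / ((x + 1 : ℕ) : ℝ) * T ≤ A * ((x + 1 : ℕ) : ℝ) ^ (-s) * T :=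
        mul_le_mul_of_nonneg_right h2 hT0
      have h5 : ∑ c ∈ B, (if F.same x b c then nu M c else 0) ≤
          (1 - 1 / ((x + 1 : ℕ) : ℝ)) * T := by
        have := h1.le
        linarith
      rw [hNb]
      calc ∑ c ∈ B, (if F.same x b c then nu M c else 0)
          ≤ (1 - 1 / ((x + 1 : ℕ) : ℝ)) * T := h5
        _ ≤ (1 - 1 / ((x + 1 : ℕ) : ℝ)) * (Nb F (x + 1) b * ∑ c ∈ B, nu M c) :=
            mul_le_mul_of_nonneg_left ih (one_sub_inv_nonneg hpp)
        _ = _ := by ring
    · have hbr : br F x b = br F (x + 1) b := by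
        ext q
        unfold br
        rw [Finset.mem_filter, Finset.mem_filter]
        constructor
        · rintro ⟨h1, h2, h3⟩
          refine ⟨h1, ?_, h3⟩
          by_contra h
          have : q = x + 1 := by omega
          exact hp ⟨this ▸ h1, this ▸ h3⟩
        · rintro ⟨h1, h2, h3⟩
          exact ⟨h1, by omega, h3⟩
      have hNb : Nb F x b = Nb F (x + 1) b := by
        unfold Nb
        rw [hbr]
      rw [hNb]
      exact hmono.trans ih
  -- downward induction
  intro x hx
  by_cases hxM : M ≤ x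
  · exact hbase x hxM
  · obtain ⟨n, hn⟩ := Nat.exists_eq_add_of_le (show x ≤ M by omega)
    have key : ∀ n x, x0 ≤ x → M = x + n → ∑ c ∈ B, (if F.same x b c then nu M c else 0) ≤
        Nb F x b * ∑ c ∈ B, nu M c := by
      intro n
      induction n with
      | zero =>
        intro x _ h
        exact hbase x (by omega)
      | succ n ih =>
        intro x hx h
        exact hstep x hx (ih (x + 1) (by omega) (by omega))
    exact key n x hx hn

/-! ### The pure cell -/

/-- local condition of the pure cell -/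
def CP {M : ℕ} (F : FL M) (x b p v : ℕ) : Prop :=
  (p ≤ x → v = b.factorization p) ∧ (x < p → (F.ctr b p = none → v = b.factorization p) ∧
    ∀ w, F.ctr b p = some w → w ≤ v)

open Classical in
/-- pure cell of `b` at the cut `x` -/
noncomputable def Cell {M : ℕ} (F : FL M) (x b : ℕ) : Finset ℕ :=
  M.divisors.filter (fun c => ∀ p ∈ M.primeFactors, CP F x b p (c.factorization p))

open Classical in
lemma mem_Cell {M : ℕ} {F : FL M} {x b c : ℕ} : c ∈ Cell F x b ↔
    (c ∣ M ∧ M ≠ 0) ∧ ∀ p ∈ M.primeFactors, CP F x b p (c.factorization p) := by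
  unfold Cell
  rw [Finset.mem_filter, Nat.mem_divisors]

lemma self_mem_Cell {M : ℕ} (hM : 0 < M) {F : FL M} {x b : ℕ} (hb : b ∣ M)
    (h : F.ell x b = 1) : b ∈ Cell F x b := by
  rw [mem_Cell]
  refine ⟨⟨hb, hM.ne'⟩, fun p hp => ⟨fun _ => rfl, fun hx => ⟨fun _ => rfl, fun w hw => ?_⟩⟩⟩
  have h1 := FL.fact_ell (F := F) (x := x) (b := b) (p := p)
  rw [h, if_pos hp] at h1
  simp only [Nat.factorization_one, Finsupp.coe_zero, Pi.zero_apply, FL.ellE, if_pos hx, hw] at h1
  omega

/-- the cell: same letters `≤ x`, same node, no deficit -/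
lemma mem_Cell_iff {M : ℕ} (hM : 0 < M) {F : FL M} {x b c : ℕ} (hb : b ∣ M) (hc : c ∣ M) :
    c ∈ Cell F x b ↔ low x c = low x b ∧ F.same x b c ∧ F.ell x c = 1 := by
  rw [mem_Cell]
  constructor
  · rintro ⟨_, h⟩
    have hsame : F.same x b c := by
      intro q hq hx hn
      by_cases hqM : q ∈ M.primeFactors
      · exact (((h q hqM).2 hx).1 hn).symm
      · rw [FL.fact_zero hM hb hqM, FL.fact_zero hM hc hqM]
    refine ⟨?_, hsame, ?_⟩
    · refine Nat.eq_of_factorization_eq (low_pos _ _).ne' (low_pos _ _).ne' fun p => ?_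
      rw [fact_low, fact_low]
      by_cases hp : p ≤ x
      · rw [if_pos hp, if_pos hp]
        by_cases hpM : p ∈ M.primeFactors
        · exact (h p hpM).1 hp
        · rw [FL.fact_zero hM hb hpM, FL.fact_zero hM hc hpM]
      · rw [if_neg hp, if_neg hp]
    · refine Nat.eq_of_factorization_eq (FL.ell_pos x c).ne' one_ne_zero fun p => ?_
      rw [FL.fact_ell]
      simp only [Nat.factorization_one, Finsupp.coe_zero, Pi.zero_apply]
      by_cases hpM : p ∈ M.primeFactors
      · rw [if_pos hpM]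
        unfold FL.ellE
        by_cases hx : x < p
        · rw [if_pos hx]
          have hpp := Nat.prime_of_mem_primeFactors hpM
          have hctr : F.ctr b p = F.ctr c p := FL.ctr_eq hb hc hsame hpp hx.le
          cases hcc : F.ctr c p with
          | none => rfl
          | some v =>
            have := ((h p hpM).2 hx).2 v (hctr.trans hcc)
            simp only
            omega
        · rw [if_neg hx]
      · rw [if_neg hpM]
  · rintro ⟨h1, h2, h3⟩
    refine ⟨⟨hc, hM.ne'⟩, fun p hp => ⟨fun hx => ?_, fun hx => ⟨fun hn => ?_, fun w hw => ?_⟩⟩⟩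
    · have h4 : (low x c).factorization p = (low x b).factorization p := by rw [h1]
      rwa [fact_low, fact_low, if_pos hx, if_pos hx] at h4
    · exact (h2 p (Nat.prime_of_mem_primeFactors hp) hx hn).symm
    · have hctr : F.ctr b p = F.ctr c p :=
        FL.ctr_eq hb hc h2 (Nat.prime_of_mem_primeFactors hp) hx.le
      have h4 := FL.fact_ell (F := F) (x := x) (b := c) (p := p)
      rw [h3, if_pos hp] at h4
      rw [hctr] at hw
      simp only [Nat.factorization_one, Finsupp.coe_zero, Pi.zero_apply, FL.ellE, if_pos hx, hw]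
        at h4
      omega

/-- in the cell `uu` and `cen` at cuts `y ≥ x` : `uu = low * cen`, `cen` constant -/
lemma cell_cen {M : ℕ} (hM : 0 < M) {F : FL M} {x y b c : ℕ} (hb : b ∣ M) (hc : c ∣ M)
    (hxy : x ≤ y) (h : c ∈ Cell F x b) :
    F.cen y c = F.cen y b ∧ F.uu y c = low y c * F.cen y b := by
  rw [mem_Cell_iff hM hb hc] at h
  obtain ⟨_, h2, h3⟩ := h
  have e1 : F.cen y c = F.cen y b := by
    unfold FL.cen
    refine Finset.prod_congr rfl fun p hp => ?_
    congr 1
    unfold FL.cenE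
    by_cases hx : y < p
    · rw [if_pos hx, if_pos hx]
      have hpp := Nat.prime_of_mem_primeFactors hp
      have hctr : F.ctr b p = F.ctr c p := FL.ctr_eq hb hc h2 hpp (by omega)
      rw [← hctr]
      cases hcc : F.ctr b p with
      | none => exact (h2 p hpp (by omega) hcc).symm
      | some v => rfl
    · rw [if_neg hx, if_neg hx]
  have e2 : F.ell y c = 1 := by
    refine Nat.eq_of_factorization_eq (FL.ell_pos y c).ne' one_ne_zero fun p => ?_
    have h4 : (F.ell x c).factorization p = 0 := by rw [h3]; simp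
    rw [FL.fact_ell] at h4 ⊢
    simp only [Nat.factorization_one, Finsupp.coe_zero, Pi.zero_apply]
    by_cases hp : p ∈ M.primeFactors
    · rw [if_pos hp] at h4 ⊢
      unfold FL.ellE at h4 ⊢
      by_cases hy : y < p
      · rw [if_pos (by omega)] at h4
        rw [if_pos hy]
        exact h4
      · rw [if_neg hy]
    · rw [if_neg hp]
  refine ⟨e1, ?_⟩
  have h5 := FL.uu_mul_ell (F := F) (x := y) hM hc
  rw [e2, mul_one, e1] at h5
  exact h5

/-! ### Product structure of the cell -/

open Classical in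
/-- indicator of the local conditions `≤ y` -/
noncomputable def Ilo {M : ℕ} (F : FL M) (x y b n : ℕ) : ℝ :=
  if ∀ p ∈ M.primeFactors, p ≤ y → CP F x b p (n.factorization p) then 1 else 0

open Classical in
/-- indicator of the local conditions `> y` -/
noncomputable def Iup {M : ℕ} (F : FL M) (x y b z : ℕ) : ℝ :=
  if ∀ p ∈ M.primeFactors, y < p → CP F x b p (z.factorization p) then 1 else 0

lemma Ilo_nonneg {M : ℕ} (F : FL M) (x y b n : ℕ) : 0 ≤ Ilo F x y b n := by
  unfold Ilo; split_ifs <;> norm_num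


open Classical in
lemma cell_ind {M : ℕ} (F : FL M) (x y b c : ℕ) (hc : c ∈ M.divisors) :
    (if c ∈ Cell F x b then (1 : ℝ) else 0) = Ilo F x y b (low y c) * Iup F x y b (upp y c) := by
  unfold Ilo Iup
  rw [Nat.mem_divisors] at hc
  by_cases h : c ∈ Cell F x b
  · rw [if_pos h]
    rw [mem_Cell] at h
    rw [if_pos, if_pos, one_mul]
    · intro p hp hy
      rw [fact_upp, if_pos (by omega)]
      exact h.2 p hp
    · intro p hp hy
      rw [fact_low, if_pos hy]
      exact h.2 p hp
  · rw [if_neg h]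
    by_cases h1 : ∀ p ∈ M.primeFactors, p ≤ y → CP F x b p ((low y c).factorization p)
    · by_cases h2 : ∀ p ∈ M.primeFactors, y < p → CP F x b p ((upp y c).factorization p)
      · exfalso
        apply h
        rw [mem_Cell]
        refine ⟨hc, fun p hp => ?_⟩
        by_cases hy : p ≤ y
        · have := h1 p hp hy
          rwa [fact_low, if_pos hy] at this
        · have := h2 p hp (by omega)
          rwa [fact_upp, if_pos hy] at this
      · rw [if_neg h2, mul_zero]
    · rw [if_neg h1, zero_mul]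

open Classical in
/-- sums over the cell factor at every cut -/
theorem cell_split {M : ℕ} (hM : 0 < M) (F : FL M) (x y b : ℕ) (G : ℕ → ℝ) :
    ∑ c ∈ Cell F x b, nu M c * G (upp y c) =
      Ex (low y M) (Ilo F x y b) * Ex (upp y M) (fun z => Iup F x y b z * G z) := by
  have h1 := Ex_indep (fun p => p ≤ y) hM (Ilo F x y b) (fun z => Iup F x y b z * G z)
  refine Eq.trans ?_ h1
  unfold Cell Ex
  rw [Finset.sum_filter]
  refine Finset.sum_congr rfl fun c hc => ?_
  have h2 := cell_ind F x y b c hc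
  have e1 : part (fun p => p ≤ y) c = low y c := rfl
  have e2 : part (fun p => ¬ p ≤ y) c = upp y c := rfl
  simp only [e1, e2]
  have h3 : (if ∀ p ∈ M.primeFactors, CP F x b p (c.factorization p) then
      nu M c * G (upp y c) else 0) =
      (if c ∈ Cell F x b then (1 : ℝ) else 0) * (nu M c * G (upp y c)) := by
    rw [Nat.mem_divisors] at hc
    by_cases h : ∀ p ∈ M.primeFactors, CP F x b p (c.factorization p)
    · rw [if_pos h, if_pos (mem_Cell.2 ⟨hc, h⟩), one_mul]
    · rw [if_neg h, if_neg (fun h' => h (mem_Cell.1 h').2), zero_mul]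
  rw [h3, h2]
  ring

/-- natural mass of the cell -/
noncomputable def cm {M : ℕ} (F : FL M) (x b : ℕ) : ℝ := ∑ c ∈ Cell F x b, nu M c

lemma cm_nonneg {M : ℕ} (F : FL M) (x b : ℕ) : 0 ≤ cm F x b :=
  Finset.sum_nonneg fun _ _ => nu_nonneg _ _

lemma cm_split {M : ℕ} (hM : 0 < M) (F : FL M) (x y b : ℕ) :
    cm F x b = Ex (low y M) (Ilo F x y b) * Ex (upp y M) (Iup F x y b) := by
  have h := cell_split hM F x y b (fun _ => 1)
  unfold cm
  simpa using h

/-! ### The upper factor -/

lemma cast_cen {M : ℕ} (F : FL M) (y b : ℕ) :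
    (F.cen y b : ℝ) = ∏ p ∈ M.primeFactors, (p : ℝ) ^ F.cenE y b p := by
  unfold FL.cen
  push_cast
  rfl

open Classical in
/-- local mass of the cell condition above `y ≥ x` -/
lemma local_mass {M : ℕ} {F : FL M} {x y b p : ℕ} (hb : b ∣ M) (hM : 0 < M)
    (hp : p ∈ M.primeFactors) (hxy : x ≤ y) (hy : y < p) :
    (if F.ctr b p = none then 1 - 1 / (p : ℝ) else 1) ≤ (p : ℝ) ^ F.cenE y b p *
      ∑ v ∈ range (M.factorization p + 1), nup p (M.factorization p) v *
        (if CP F x b p v then 1 else 0) := by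
  have hpp := Nat.prime_of_mem_primeFactors hp
  have hp0 : (0 : ℝ) < p := by exact_mod_cast hpp.pos
  have hbp : b.factorization p ≤ M.factorization p :=
    (Nat.factorization_le_iff_dvd (fun h => hM.ne' (Nat.eq_zero_of_zero_dvd (h ▸ hb))) hM.ne').2
      hb p
  unfold FL.cenE
  rw [if_pos hy]
  cases hc : F.ctr b p with
  | none =>
    rw [if_pos rfl]
    simp only
    have h1 : nup p (M.factorization p) (b.factorization p) ≤
        ∑ v ∈ range (M.factorization p + 1), nup p (M.factorization p) v *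
        (if CP F x b p v then 1 else 0) := by
      refine le_trans (le_of_eq ?_) (Finset.single_le_sum
        (f := fun v => nup p (M.factorization p) v * (if CP F x b p v then 1 else 0))
        (fun v _ => mul_nonneg (nup_nonneg hpp.pos _ _) (by split_ifs <;> norm_num))
        (Finset.mem_range.2 (by omega : b.factorization p < M.factorization p + 1)))
      rw [if_pos, mul_one]
      exact ⟨fun _ => rfl, fun _ => ⟨fun _ => rfl, fun w hw => by rw [hc] at hw; simp at hw⟩⟩
    have h2 := nup_ge hpp.pos (M.factorization p) (b.factorization p) hbp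
    calc 1 - 1 / (p : ℝ) = (p : ℝ) ^ b.factorization p *
          ((1 - 1 / (p : ℝ)) * (1 / (p : ℝ)) ^ b.factorization p) := by
          rw [one_div, inv_pow]
          field_simp
      _ ≤ (p : ℝ) ^ b.factorization p * nup p (M.factorization p) (b.factorization p) :=
          mul_le_mul_of_nonneg_left h2 (by positivity)
      _ ≤ _ := mul_le_mul_of_nonneg_left h1 (by positivity)
  | some w =>
    rw [if_neg (by simp)]
    simp only
    have hw : w ≤ M.factorization p := F.le hb hpp hc
    have h1 : ∑ v ∈ range (M.factorization p + 1), nup p (M.factorization p) v *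
        (if CP F x b p v then 1 else 0) = (1 / (p : ℝ)) ^ w := by
      rw [← PrefixMx882.nup_tail p hw]
      have e : Finset.Ico w (M.factorization p + 1) ⊆ range (M.factorization p + 1) := by
        intro v hv
        rw [Finset.mem_Ico] at hv
        exact Finset.mem_range.2 hv.2
      rw [← Finset.sum_subset e]
      · refine Finset.sum_congr rfl fun v hv => ?_
        rw [Finset.mem_Ico] at hv
        rw [if_pos, mul_one]
        refine ⟨fun h => by omega, fun _ => ⟨fun h => by rw [hc] at h; simp at h, fun w' hw' => ?_⟩⟩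
        rw [hc, Option.some.injEq] at hw'
        omega
      · intro v hv hn
        rw [Finset.mem_range] at hv
        rw [Finset.mem_Ico] at hn
        rw [if_neg, mul_zero]
        intro h
        have := (h.2 (by omega)).2 w hc
        exact hn ⟨this, hv⟩
    rw [h1, one_div, inv_pow]
    rw [mul_inv_cancel₀ (by positivity)]

lemma pf_upp {M y : ℕ} (hM : 0 < M) : (upp y M).primeFactors =
    M.primeFactors.filter (fun p => y < p) := by
  ext p
  rw [Finset.mem_filter, Nat.mem_primeFactors, Nat.mem_primeFactors]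
  constructor
  · rintro ⟨h1, h2, h3⟩
    refine ⟨⟨h1, h2.trans (upp_dvd_self _ _), hM.ne'⟩, ?_⟩
    have := prime_dvd_part (fun p => ¬ p ≤ y) h1 h2
    omega
  · rintro ⟨⟨h1, h2, _⟩, h4⟩
    refine ⟨h1, ?_, (upp_pos _ _).ne'⟩
    refine (h1.dvd_iff_one_le_factorization (upp_pos _ _).ne').2 ?_
    rw [fact_upp, if_pos (by omega)]
    exact (h1.dvd_iff_one_le_factorization hM.ne').1 h2

open Classical in
/-- **lower bound of the natural mass of the cell above `y`** -/
theorem Nb_le {M : ℕ} (hM : 0 < M) {F : FL M} {x y b : ℕ} (hb : b ∣ M) (hxy : x ≤ y) :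
    Nb F y b ≤ (F.cen y b : ℝ) * Ex (upp y M) (Iup F x y b) := by
  have e1 : Ex (upp y M) (Iup F x y b) =
      ∏ p ∈ (upp y M).primeFactors, ∑ v ∈ range ((upp y M).factorization p + 1),
        nup p ((upp y M).factorization p) v * (if CP F x b p v then 1 else 0) := by
    rw [← Ex_prod (upp_pos y M) (fun p v => if CP F x b p v then (1 : ℝ) else 0)]
    unfold Ex
    refine Finset.sum_congr rfl fun z _ => ?_
    congr 1
    unfold Iup
    rw [pf_upp hM]
    by_cases h : ∀ p ∈ M.primeFactors, y < p → CP F x b p (z.factorization p)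
    · rw [if_pos h]
      symm
      refine Finset.prod_eq_one fun p hp => ?_
      rw [Finset.mem_filter] at hp
      rw [if_pos (h p hp.1 hp.2)]
    · rw [if_neg h]
      push Not at h
      obtain ⟨p, h1, h2, h3⟩ := h
      symm
      exact Finset.prod_eq_zero (Finset.mem_filter.2 ⟨h1, h2⟩) (if_neg h3)
  have e2 : ∏ p ∈ (upp y M).primeFactors, ∑ v ∈ range ((upp y M).factorization p + 1),
        nup p ((upp y M).factorization p) v * (if CP F x b p v then (1 : ℝ) else 0) =
      ∏ p ∈ M.primeFactors with y < p, ∑ v ∈ range (M.factorization p + 1),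
        nup p (M.factorization p) v * (if CP F x b p v then 1 else 0) := by
    rw [pf_upp hM]
    refine Finset.prod_congr rfl fun p hp => ?_
    rw [Finset.mem_filter] at hp
    rw [fact_upp, if_pos (by omega)]
  have e3 : (F.cen y b : ℝ) = ∏ p ∈ M.primeFactors with y < p, (p : ℝ) ^ F.cenE y b p := by
    rw [cast_cen, Finset.prod_filter]
    refine Finset.prod_congr rfl fun p _ => ?_
    by_cases h : y < p
    · rw [if_pos h]
    · rw [if_neg h]
      unfold FL.cenE
      rw [if_neg h, pow_zero]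
  have e4 : Nb F y b = ∏ p ∈ M.primeFactors with y < p,
      (if F.ctr b p = none then 1 - 1 / (p : ℝ) else 1) := by
    unfold Nb br
    rw [Finset.prod_filter, Finset.prod_filter]
    refine Finset.prod_congr rfl fun p _ => ?_
    by_cases h : y < p <;> by_cases h' : F.ctr b p = none <;> simp [h, h']
  rw [e1, e2, e3, e4, ← Finset.prod_mul_distrib]
  refine Finset.prod_le_prod (fun p hp => ?_) fun p hp => ?_
  · rw [Finset.mem_filter] at hp
    split_ifs
    · exact one_sub_inv_nonneg (Nat.prime_of_mem_primeFactors hp.1)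
    · norm_num
  · rw [Finset.mem_filter] at hp
    exact local_mass hb hM hp.1 hxy hp.2


lemma same_of_Iup {M : ℕ} (hM : 0 < M) {F : FL M} {x y b c : ℕ} (hb : b ∣ M) (hc : c ∣ M)
    (hxy : x ≤ y) (h : Iup F x y b (upp y c) ≠ 0) : F.same y b c := by
  unfold Iup at h
  split_ifs at h with h1
  · intro q hq hy hn
    by_cases hqM : q ∈ M.primeFactors
    · have h2 := h1 q hqM hy
      rw [fact_upp, if_pos (by omega)] at h2
      exact ((h2.2 (by omega)).1 hn).symm
    · rw [FL.fact_zero hM hb hqM, FL.fact_zero hM hc hqM]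
  · exact absurd rfl h

lemma Iup_le_one {M : ℕ} (F : FL M) (x y b n : ℕ) : Iup F x y b n ≤ 1 := by
  unfold Iup; split_ifs <;> norm_num

open Classical in
/-- **natural expectation of the node masses inside a cell**: cut `y ≥ x` -/
theorem cell_mean {M : ℕ} (hM : 0 < M) {F : FL M} {B : Finset ℕ} (hB : B ⊆ M.divisors)
    {A s : ℝ} (hS : NodeShares F B A s) {x0 : ℕ}
    (hq : ∀ q : ℕ, q.Prime → x0 < q → 1 / (q : ℝ) ≤ A * (q : ℝ) ^ (-s))
    {x y b : ℕ} (hb : b ∣ M) (hx0 : x0 ≤ y) (hxy : x ≤ y) :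
    ∑ c ∈ Cell F x b, nu M c * mass M (ind B) y (upp y c) ≤
      F.cen y b * (∑ c ∈ B, nu M c) * cm F x b := by
  rw [cell_split hM F x y b (fun z => mass M (ind B) y z), cm_split hM F x y b]
  have hB0 : 0 ≤ ∑ c ∈ B, nu M c := Finset.sum_nonneg fun _ _ => nu_nonneg _ _
  have h1 : Ex (upp y M) (fun z => Iup F x y b z * mass M (ind B) y z) ≤
      (F.cen y b : ℝ) * (∑ c ∈ B, nu M c) * Ex (upp y M) (Iup F x y b) := by
    rw [← Ex_cut' hM y (ind B) (Iup F x y b)]
    calc Ex M (fun c => Iup F x y b (upp y c) * ind B c)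
        ≤ ∑ c ∈ B, (if F.same y b c then nu M c else 0) := by
          unfold Ex
          rw [← Finset.sum_subset hB (fun c _ hc => by simp [ind, hc])]
          refine Finset.sum_le_sum fun c hc => ?_
          have hcM := Nat.dvd_of_mem_divisors (hB hc)
          have h0 := nu_nonneg M c
          have e : ind B c = 1 := by simp [ind, hc]
          beta_reduce
          rw [e, mul_one]
          by_cases h : F.same y b c
          · rw [if_pos h]
            have := Iup_le_one F x y b (upp y c)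
            nlinarith
          · rw [if_neg h]
            have : Iup F x y b (upp y c) = 0 := by
              by_contra h'
              exact h (same_of_Iup hM hb hcM hxy h')
            rw [this, mul_zero]
      _ ≤ Nb F y b * ∑ c ∈ B, nu M c := node_mass hM hS hq y hx0
      _ ≤ ((F.cen y b : ℝ) * Ex (upp y M) (Iup F x y b)) * ∑ c ∈ B, nu M c :=
          mul_le_mul_of_nonneg_right (Nb_le hM hb hxy) hB0
      _ = _ := by ring
  calc Ex (low y M) (Ilo F x y b) *
        Ex (upp y M) (fun z => Iup F x y b z * mass M (ind B) y z)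
      ≤ Ex (low y M) (Ilo F x y b) *
        ((F.cen y b : ℝ) * (∑ c ∈ B, nu M c) * Ex (upp y M) (Iup F x y b)) :=
        mul_le_mul_of_nonneg_left h1 (Ex_nonneg _ fun n => Ilo_nonneg F x y b n)
    _ = _ := by ring

/-- **pointwise**: node masses at the cuts inside the prefix -/
lemma low_point {M : ℕ} (hM : 0 < M) {f : ℕ → ℝ} (hf : ∀ b, 0 ≤ f b) {x y c : ℕ} (hc : c ∣ M)
    (hyx : y ≤ x) : (low y c : ℝ) * mass M f y (upp y c) * Vm (low x M) (low x c) ≤
      (low x c : ℝ) * mass M f x (upp x c) := by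
  have hc0 : c ≠ 0 := (Nat.pos_of_dvd_of_pos hc hM).ne'
  set E := upp y (low x c) with hE
  set T := upp x c with hT
  have hE0 : 0 < E := upp_pos _ _
  have hET : upp y c = E * T := by
    refine Nat.eq_of_factorization_eq (upp_pos _ _).ne' (mul_ne_zero hE0.ne' (upp_pos _ _).ne')
      fun p => ?_
    rw [Nat.factorization_mul hE0.ne' (upp_pos _ _).ne', Finsupp.add_apply, hE]
    simp only [fact_upp, fact_low]
    by_cases h1 : p ≤ y
    · have h2 : p ≤ x := h1.trans hyx
      simp [h1, h2]
    · by_cases h2 : p ≤ x <;> simp [h1, h2]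
  have hlow : (low x c : ℝ) = low y c * E := by
    have h1 := low_mul_upp y (low_pos x c).ne'
    rw [low_low hyx] at h1
    rw [← h1]
    push_cast
    rfl
  have hEd : E ∣ upp y (low x M) := upp_dvd y (low_pos x M).ne' (low_dvd x hM.ne' hc)
  have h2 : nu (upp y (low x M)) E * mass M f y (E * T) ≤ mass M f x T := by
    have h1 : mass M f x T = Ex (upp y (low x M))
        (fun E' => mass (low x M) (fun n => f (n * T)) y E') := Ex_cut (low_pos x M) y _
    rw [h1]
    refine le_trans (le_of_eq ?_) (Finset.single_le_sum (f := fun E' => nu (upp y (low x M)) E' *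
      mass (low x M) (fun n => f (n * T)) y E')
      (fun E' _ => mul_nonneg (nu_nonneg _ _) (mass_nonneg _ (fun _ => hf _) _ _))
      (Nat.mem_divisors.2 ⟨hEd, (upp_pos _ _).ne'⟩))
    congr 1
    unfold mass
    rw [low_low hyx]
    congr 1
    funext n
    beta_reduce
    rw [mul_assoc]
  have hnu := nu_eq_Vm (upp_pos y (low x M)) hEd
  have hV : Vm (low x M) (low x c) ≤ Vm (upp y (low x M)) E := by
    rw [Vm_cut (fun p => p ≤ y) (low_pos x M)]
    have e1 : part (fun p => ¬ p ≤ y) (low x M) = upp y (low x M) := rfl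
    have e2 : part (fun p => ¬ p ≤ y) (low x c) = E := rfl
    rw [e1, e2]
    have h3 := Vm_le_one (part (fun p => p ≤ y) (low x M)) (part (fun p => p ≤ y) (low x c))
    have h4 := (Vm_pos (M := upp y (low x M)) E).le
    have h5 := (Vm_pos (M := part (fun p => p ≤ y) (low x M))
      (part (fun p => p ≤ y) (low x c))).le
    nlinarith
  have hm0 : 0 ≤ mass M f y (E * T) := mass_nonneg M hf _ _
  have hl0 : (0 : ℝ) ≤ low y c := Nat.cast_nonneg _
  have hE0' : (0 : ℝ) < E := by exact_mod_cast hE0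
  rw [hET, hlow]
  calc (low y c : ℝ) * mass M f y (E * T) * Vm (low x M) (low x c)
      ≤ (low y c : ℝ) * mass M f y (E * T) * Vm (upp y (low x M)) E :=
        mul_le_mul_of_nonneg_left hV (mul_nonneg hl0 hm0)
    _ = (low y c : ℝ) * E * (nu (upp y (low x M)) E * mass M f y (E * T)) := by
        rw [hnu]
        field_simp
    _ ≤ (low y c : ℝ) * E * mass M f x T :=
        mul_le_mul_of_nonneg_left h2 (mul_nonneg hl0 hE0'.le)

/-! ### Heavy exceptions -/

open Classical in
/-- Markov at one cut `y ≥ x` -/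
theorem cell_markov {M : ℕ} (hM : 0 < M) {F : FL M} {B : Finset ℕ} (hB : B ⊆ M.divisors)
    {A s : ℝ} (hS : NodeShares F B A s) {x0 : ℕ}
    (hq : ∀ q : ℕ, q.Prime → x0 < q → 1 / (q : ℝ) ≤ A * (q : ℝ) ^ (-s))
    {x y b : ℕ} (hb : b ∣ M) (hx0 : x0 ≤ y) (hxy : x ≤ y) {L h z : ℝ} (hL : 0 ≤ L)
    (hh : 0 ≤ h) (hz : 0 < z) :
    ∑ c ∈ (Cell F x b).filter (fun c => (F.uu y c : ℝ) ≤ h * L ∧
      z ≤ (low y c : ℝ) * mass M (ind B) y (upp y c)), nu M c ≤
      cm F x b * (L * ∑ c ∈ B, nu M c) * (h / z) := by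
  have hmean := cell_mean hM hB hS hq hb hx0 hxy
  have hcen : (0 : ℝ) < F.cen y b := by exact_mod_cast FL.cen_pos y b
  have hmn : ∀ c, 0 ≤ mass M (ind B) y (upp y c) := fun c =>
    mass_nonneg M (ind_nonneg B) _ _
  have h1 : (F.cen y b : ℝ) * z * ∑ c ∈ (Cell F x b).filter (fun c => (F.uu y c : ℝ) ≤ h * L ∧
      z ≤ (low y c : ℝ) * mass M (ind B) y (upp y c)), nu M c ≤
      h * L * ∑ c ∈ Cell F x b, nu M c * mass M (ind B) y (upp y c) := by
    rw [Finset.sum_filter, Finset.mul_sum, Finset.mul_sum]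
    refine Finset.sum_le_sum fun c hc => ?_
    have hcM : c ∣ M := (mem_Cell.1 hc).1.1
    have h0 := nu_nonneg M c
    split_ifs with h2
    · have h3 := (cell_cen hM hb hcM hxy hc).2
      have h4 : (F.uu y c : ℝ) = low y c * F.cen y b := by exact_mod_cast h3
      have h5 : (F.cen y b : ℝ) * z ≤ h * L * mass M (ind B) y (upp y c) := by
        calc (F.cen y b : ℝ) * z
            ≤ F.cen y b * ((low y c : ℝ) * mass M (ind B) y (upp y c)) :=
              mul_le_mul_of_nonneg_left h2.2 hcen.le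
          _ = (F.uu y c : ℝ) * mass M (ind B) y (upp y c) := by rw [h4]; ring
          _ ≤ _ := mul_le_mul_of_nonneg_right h2.1 (hmn c)
      calc (F.cen y b : ℝ) * z * nu M c ≤ h * L * mass M (ind B) y (upp y c) * nu M c :=
            mul_le_mul_of_nonneg_right h5 h0
        _ = _ := by ring
    · rw [mul_zero]
      exact mul_nonneg (mul_nonneg hh hL) (mul_nonneg h0 (hmn c))
  have h2 : (F.cen y b : ℝ) * z * ∑ c ∈ (Cell F x b).filter (fun c => (F.uu y c : ℝ) ≤ h * L ∧
      z ≤ (low y c : ℝ) * mass M (ind B) y (upp y c)), nu M c ≤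
      (F.cen y b : ℝ) * z * (cm F x b * (L * ∑ c ∈ B, nu M c) * (h / z)) := by
    refine h1.trans ((mul_le_mul_of_nonneg_left hmean (mul_nonneg hh hL)).trans (le_of_eq ?_))
    field_simp
  exact le_of_mul_le_mul_left h2 (mul_pos hcen hz)

/-- heavy exception: in one of the blocks `k0 ≤ k < K` with `uu (2^k) ≤ h k * L` some node mass
at a cut `2^l`, `l ≤ k`, is large -/
def ExcF {M : ℕ} (F : FL M) (f : ℕ → ℝ) (L : ℝ) (h H : ℕ → ℝ) (k0 K c : ℕ) : Prop :=
  ∃ k, k0 ≤ k ∧ k < K ∧ (F.uu (2 ^ k) c : ℝ) ≤ h k * L ∧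
    ∃ l ≤ k, H k ≤ (low (2 ^ l) c : ℝ) * mass M f (2 ^ l) (upp (2 ^ l) c)


end Crest.Agent.R4C.NodeMassx634
end

-- ▼ part R4C/NodeMassR_634

/-!
# Heavy exceptions of the label rule inside a pure node (helper634; row 4, GW section)

* `thr_of_not_exc` : outside `ExcF` the threshold of the rule is the `B`-free one.
* `exists_x0` : the hypothesis `hq` of `node_mass` for large primes.
* `Vm_low_ge`, `exc_cell_pow` : numeric form of `exc_cell`.
* `Cell_class` : in the prefix world of a core `G` (`PureCls_863`) a cell is a fibre of `low x`.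
* `exc_class` : `exc_cell_pow` in the prefix world.
-/

set_option autoImplicit false

open Finset

namespace Crest.Agent.R4C.NodeMassRx634

open Crest.Agent.R4C.Basex935 Crest.Agent.R4C.Cutx50 Crest.Agent.R4C.Lawx69
  Crest.Agent.R4C.FLDefx935 Crest.Agent.R4C.FLShx326 Crest.Agent.R4C.NodeMassx634
  Crest.Agent.R4C.Rulex945 Crest.Agent.R4C.PureClsx863
open Crest.Agent.R4C.FLExx326 (ind ind_nonneg)
open Crest.Agent.R4C.PrefixMx882 (free mem_free)

/-! ### The threshold of the rule -/

/-- lower end of the block `k`, to the power `U` -/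
noncomputable def HU (U : ℝ) (k : ℕ) : ℝ := (((2 : ℕ) ^ (k - 1) : ℕ) : ℝ) ^ U

lemma HU_pos (U : ℝ) (k : ℕ) : 0 < HU U k := by
  unfold HU
  positivity

/-- **outside the heavy exceptions the threshold is `≤ V^δ`** -/
theorem thr_of_not_exc {M : ℕ} {F : FL M} {f : ℕ → ℝ} (hf : ∀ b, 0 ≤ f b) {L δ ε : ℝ}
    (hε : 0 < ε) {h : ℕ → ℝ} {k0 K c i : ℕ}
    (hn : ¬ ExcF F f L h (HU (δ / ε)) k0 K c) (h1 : k0 ≤ i) (h2 : i < K)
    (h3 : (F.uu (2 ^ i) c : ℝ) ≤ h i * L) :
    thrS M f (fun i => 2 ^ i) δ ε c i ≤ (((2 : ℕ) ^ (i - 1) : ℕ) : ℝ) ^ δ := by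
  unfold thrS
  refine (min_le_left _ _).trans (max_le le_rfl ?_)
  obtain ⟨j, hj, e⟩ := exists_Th M f (fun i => 2 ^ i) c i
  have h4 : ThS M f (fun i => 2 ^ i) c i < HU (δ / ε) i := by
    by_contra hc
    rw [e] at hc
    exact hn ⟨i, h1, h2, h3, j, hj, not_lt.1 hc⟩
  have h5 : 0 ≤ ThS M f (fun i => 2 ^ i) c i := by
    rw [e]
    exact Th_nonneg M hf _ _
  calc ThS M f (fun i => 2 ^ i) c i ^ ε ≤ (HU (δ / ε) i) ^ ε :=
        Real.rpow_le_rpow h5 h4.le hε.le
    _ = _ := by
        unfold HU
        rw [← Real.rpow_mul (Nat.cast_nonneg _), div_mul_cancel₀ _ hε.ne']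

/-! ### Constants -/

/-- large primes satisfy `1/q ≤ A q^(-s)` -/
theorem exists_x0 {A s : ℝ} (hA : 0 < A) (hs : s < 1) :
    ∃ x0 : ℕ, ∀ q : ℕ, q.Prime → x0 < q → 1 / (q : ℝ) ≤ A * (q : ℝ) ^ (-s) := by
  refine ⟨⌈(1 / A) ^ (1 / (1 - s))⌉₊, fun q hq hx => ?_⟩
  have hq0 : (0 : ℝ) < q := by exact_mod_cast hq.pos
  have h1 : (1 / A) ^ (1 / (1 - s)) ≤ q :=
    (Nat.le_ceil _).trans (by exact_mod_cast hx.le)
  have hs' : 0 < 1 - s := by linarith
  have h2 : 1 / A ≤ (q : ℝ) ^ (1 - s) := by
    calc 1 / A = ((1 / A) ^ (1 / (1 - s))) ^ (1 - s) := by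
          rw [← Real.rpow_mul (by positivity), one_div_mul_cancel hs'.ne', Real.rpow_one]
      _ ≤ (q : ℝ) ^ (1 - s) := Real.rpow_le_rpow (by positivity) h1 hs'.le
  have h3 : (q : ℝ) ^ (1 - s) = (q : ℝ) * (q : ℝ) ^ (-s) := by
    rw [show 1 - s = 1 + (-s) by ring, Real.rpow_add hq0, Real.rpow_one]
  rw [h3, div_le_iff₀ hA] at h2
  rw [div_le_iff₀ hq0]
  linarith

/-- thinning factor of the prefix -/
theorem Vm_low_ge {M : ℕ} (hM : 0 < M) {b x k : ℕ} (hb : b ∣ M) (hk : 1 ≤ k) (hx : x ≤ 2 ^ k) :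
    1 / Vm (low x M) (low x b) ≤ Real.exp 13 * k := by
  have hY : (2 : ℝ) ≤ (2 : ℝ) ^ k := by
    calc (2 : ℝ) = 2 ^ 1 := by norm_num
      _ ≤ 2 ^ k := pow_le_pow_right₀ (by norm_num) hk
  have h1 := Crest.Agent.R4C.Pivotsx80.V_ge M b hY
  have h2 : Crest.Agent.R4C.Pivotsx80.V M ((2 : ℝ) ^ k) b ≤ Vm (low x M) (low x b) := by
    unfold low
    rw [Vm_part (fun p => p ≤ x) hM, free_eq hM hb]
    unfold Crest.Agent.R4C.Pivotsx80.V
    have hsub : (M / b).primeFactors.filter (fun p => p ≤ x) ⊆
        (M / b).primeFactors.filter (fun p : ℕ => (p : ℝ) ≤ (2 : ℝ) ^ k) := by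
      intro p hp
      rw [Finset.mem_filter] at hp ⊢
      refine ⟨hp.1, ?_⟩
      exact_mod_cast hp.2.trans hx
    rw [← Finset.prod_sdiff hsub]
    refine mul_le_of_le_one_left ?_ ?_
    · exact Finset.prod_nonneg fun p hp =>
        one_sub_inv_nonneg (Nat.prime_of_mem_primeFactors (Finset.mem_filter.1 hp).1)
    · refine Finset.prod_le_one (fun p hp => ?_) fun p _ => ?_
      · exact one_sub_inv_nonneg (Nat.prime_of_mem_primeFactors
          (Finset.mem_filter.1 (Finset.mem_sdiff.1 hp).1).1)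
      · have : (0 : ℝ) ≤ 1 / (p : ℝ) := by positivity
        linarith
  have hk0 : (0 : ℝ) < k := by exact_mod_cast hk
  have hlog : Real.log ((2 : ℝ) ^ k) ≤ k := by
    rw [Real.log_pow]
    have := Real.log_two_lt_d9
    nlinarith
  have hlog0 : 0 < Real.log ((2 : ℝ) ^ k) := Real.log_pos (by linarith)
  have h3 : Real.exp (-13) / k ≤ Vm (low x M) (low x b) :=
    (div_le_div_of_nonneg_left (Real.exp_pos _).le hlog0 hlog).trans (h1.trans h2)
  have h4 : 0 < Real.exp (-13) / k := div_pos (Real.exp_pos _) hk0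
  calc 1 / Vm (low x M) (low x b) ≤ 1 / (Real.exp (-13) / k) :=
        one_div_le_one_div_of_le h4 h3
    _ = Real.exp 13 * k := by
        rw [one_div_div, Real.exp_neg, div_inv_eq_mul, mul_comm]

/-- numeric sum -/
theorem exists_sum {σ D : ℝ} (hσ : 0 < σ) (hD : 0 ≤ D) : ∃ C : ℝ, 0 ≤ C ∧ ∀ k0 K : ℕ,
    ∑ k ∈ Finset.Ico k0 K, (2 : ℝ) ^ (-(σ * k)) * ((k : ℝ) + 1 + D * k0) ≤
      C * (2 : ℝ) ^ (-(σ * k0 / 2)) := by
  set r : ℝ := (2 : ℝ) ^ (-(σ / 2)) with hr
  have hr0 : 0 < r := by positivity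
  have hr1 : r < 1 := Real.rpow_lt_one_of_one_lt_of_neg (by norm_num) (by linarith)
  have hsum : Summable (fun k : ℕ => ((k : ℝ) + 1) * r ^ k) := by
    have h1 : Summable (fun k : ℕ => (k : ℝ) ^ 1 * r ^ k) :=
      summable_pow_mul_geometric_of_norm_lt_one 1 (by rw [Real.norm_of_nonneg hr0.le]; exact hr1)
    have h2 := summable_geometric_of_lt_one hr0.le hr1
    refine (h1.add h2).congr fun k => ?_
    ring
  have hpow : ∀ k : ℕ, (2 : ℝ) ^ (-(σ * k)) = r ^ k * r ^ k := by
    intro k
    rw [hr, ← Real.rpow_natCast, ← Real.rpow_mul (by norm_num), ← Real.rpow_add (by norm_num)]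
    congr 1
    ring
  have hpow0 : ∀ k : ℕ, (2 : ℝ) ^ (-(σ * k / 2)) = r ^ k := by
    intro k
    rw [hr, ← Real.rpow_natCast, ← Real.rpow_mul (by norm_num)]
    congr 1
    ring
  have ht : 0 ≤ ∑' k : ℕ, ((k : ℝ) + 1) * r ^ k := tsum_nonneg fun k => by positivity
  refine ⟨(1 + D) * ∑' k : ℕ, ((k : ℝ) + 1) * r ^ k, mul_nonneg (by linarith) ht,
    fun k0 K => ?_⟩
  rw [hpow0]
  calc ∑ k ∈ Finset.Ico k0 K, (2 : ℝ) ^ (-(σ * k)) * ((k : ℝ) + 1 + D * k0)
      ≤ ∑ k ∈ Finset.Ico k0 K, (1 + D) * r ^ k0 * (((k : ℝ) + 1) * r ^ k) := by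
        refine Finset.sum_le_sum fun k hk => ?_
        rw [Finset.mem_Ico] at hk
        have hk' : (k0 : ℝ) ≤ k := by exact_mod_cast hk.1
        have h1 : r ^ k ≤ r ^ k0 := pow_le_pow_of_le_one hr0.le hr1.le hk.1
        have h2 : (k : ℝ) + 1 + D * k0 ≤ (1 + D) * ((k : ℝ) + 1) := by nlinarith
        have h3 : 0 < r ^ k := by positivity
        rw [hpow]
        calc r ^ k * r ^ k * ((k : ℝ) + 1 + D * k0)
            ≤ r ^ k * r ^ k * ((1 + D) * ((k : ℝ) + 1)) :=
              mul_le_mul_of_nonneg_left h2 (by positivity)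
          _ = r ^ k * (r ^ k * ((1 + D) * ((k : ℝ) + 1))) := by ring
          _ ≤ r ^ k0 * (r ^ k * ((1 + D) * ((k : ℝ) + 1))) :=
              mul_le_mul_of_nonneg_right h1 (by positivity)
          _ = _ := by ring
    _ = (1 + D) * r ^ k0 * ∑ k ∈ Finset.Ico k0 K, ((k : ℝ) + 1) * r ^ k := by
        rw [Finset.mul_sum]
    _ ≤ (1 + D) * r ^ k0 * ∑' k : ℕ, ((k : ℝ) + 1) * r ^ k :=
        mul_le_mul_of_nonneg_left (hsum.sum_le_tsum _ fun k _ => by positivity) (by positivity)
    _ = _ := by ring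


/-! ### The prefix world of a core -/





end Crest.Agent.R4C.NodeMassRx634
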