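import Crest.Agent.R4C.GWzone_9

/-!
# Row 4, GW section: all zones, word-dependent W, telescoping  (helper9, note 3599)

`zone_W`   : one zone with word-dependent weight `W ∈ [0,1]` (constant in the zone), `min(W b, W c)`.
`zones_W`  : sum over the zones.
`gw_scalar`: scalar corollary (`B1 = B2`, `lam = 1`) with a budget per word.
`tele`     : `W_{j+1} ≤ W_j (1 - y_j)`, `W_0 ≤ 1` ⟹ `∑_j W_j (y_j + y_{j+1}) ≤ 3`.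
-/

set_option autoImplicit false
set_option linter.unusedSectionVars false

open Finset MeasureTheory

noncomputable section

namespace Crest.Agent.R4C.GWmzx9

open Crest.Agent.R4C.GWzonex9

variable {Ω N Z : Type*} [DecidableEq Ω] [DecidableEq N]






/-- data of the zones -/
structure ZD (Ω N Z : Type*) [DecidableEq Ω] [DecidableEq N] where
  Zs : Finset Z
  Nd : Z → Finset N
  S : Z → N → Finset Ω
  A : Z → N → Finset Ω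
  rk : Z → N → ℕ
  g : Z → N → ℝ
  Y : Z → Ω → ℝ
  κ : Z → ℝ
  W : Z → Ω → ℝ

/-- the words of a zone -/
def ZD.zone (D : ZD Ω N Z) (z : Z) : Finset Ω := (D.Nd z).biUnion (D.S z)

/-- the hypotheses (for a target set `B` of words) -/
structure ZD.Ok (D : ZD Ω N Z) (B : Finset Ω) (f : Ω → ℝ) (C1 : ℝ) : Prop where
  hf : ∀ w, 0 ≤ f w
  hC : 1 ≤ C1
  lam : ∀ z ∈ D.Zs, Lam (D.Nd z) (D.S z) (D.rk z)
  hAd : ∀ z ∈ D.Zs, ∀ n ∈ D.Nd z, ∀ n' ∈ D.Nd z, n ≠ n' → Disjoint (D.A z n) (D.A z n')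
  hAS : ∀ z ∈ D.Zs, ∀ n ∈ D.Nd z, D.A z n ⊆ D.S z n
  hY : ∀ z ∈ D.Zs, ∀ w, 0 ≤ D.Y z w
  hg : ∀ z ∈ D.Zs, ∀ n ∈ D.Nd z, 0 < D.g z n
  hκ : ∀ z ∈ D.Zs, 0 ≤ D.κ z
  hm : ∀ z ∈ D.Zs, ∀ n ∈ D.Nd z, ∑ w ∈ D.S z n ∩ B, f w ≤ D.g z n
  hyp : ∀ z ∈ D.Zs, ∀ n ∈ D.Nd z, ∀ s, 0 ≤ s → s ≤ 1 →
      ∑ w ∈ D.S z n ∩ B with D.Y z w ≤ s, f w ≤ C1 * (s + D.κ z) * D.g z n
  hW0 : ∀ z ∈ D.Zs, ∀ w, 0 ≤ D.W z w
  hW1 : ∀ z ∈ D.Zs, ∀ w, D.W z w ≤ 1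




end Crest.Agent.R4C.GWmzx9
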