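import Mathlib

/-!
# Row 4, GW section: ANTICHAIN LEMMA (zones, persisters, word-dependent W, prefix normalisation)

helper9, note 3599.  One zone = a laminar family of nodes `S n` (sets of words, `n ∈ Nd`, rank `rk`),
each inside a prefix fibre of mass `g n`.  A word changes at most at one node of the zone
(`A n ⊆ S n ∩ B1`, pairwise disjoint).  Hypothesis (prefix-normalised):
`ν{w ∈ n ∩ B_i : Y w ≤ s} ≤ C1 (s + κ) g n`.  Then for every `lam > 0`

`∑_n ν(A n) ν(S n ∩ B2) / g n ≤ 8 C1 (E1 / lam + lam E2)`, `E_i = ∑_{w ∈ B_i in the zone} ν w (Y w + κ)`.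
-/

set_option autoImplicit false
set_option linter.unusedSectionVars false

open Finset MeasureTheory

noncomputable section

namespace Crest.Agent.R4C.GWzonex9

/-! ### integrals of indicators -/

lemma ind_lt (W : ℝ) :
    (fun x : ℝ => if x < W then (1:ℝ) else 0) = (Set.Iio W).indicator (fun _ => (1:ℝ)) := by
  funext x
  by_cases hx : x < W
  · simp [hx]
  · simp [hx]

lemma int_lt (W : ℝ) (h0 : 0 ≤ W) (h1 : W ≤ 1) :
    ∫ x in Set.Ioc (0:ℝ) 1, (if x < W then (1:ℝ) else 0) = W := by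
  rw [ind_lt, setIntegral_indicator measurableSet_Iio, setIntegral_const, smul_eq_mul, mul_one]
  have h2 : (Set.Ioc (0:ℝ) 1 ∩ Set.Iio W : Set ℝ) = Set.Ioo 0 W := by
    ext x
    simp only [Set.mem_inter_iff, Set.mem_Ioc, Set.mem_Iio, Set.mem_Ioo]
    constructor
    · rintro ⟨⟨a, _⟩, c⟩; exact ⟨a, c⟩
    · rintro ⟨a, c⟩; exact ⟨⟨a, by linarith⟩, c⟩
  rw [h2]
  simp [Measure.real, h0]

lemma integrable_lt (W : ℝ) :
    IntegrableOn (fun x : ℝ => if x < W then (1:ℝ) else 0) (Set.Ioc 0 1) := by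
  rw [ind_lt]
  apply Integrable.indicator _ measurableSet_Iio
  exact integrableOn_const (by simp)




variable {Ω N Z : Type*} [DecidableEq Ω] [DecidableEq N]

/-- laminar family of nodes -/
structure Lam (Nd : Finset N) (S : N → Finset Ω) (rk : N → ℕ) : Prop where
  lam : ∀ n ∈ Nd, ∀ n' ∈ Nd, rk n ≤ rk n' → ¬ Disjoint (S n) (S n') → S n' ⊆ S n
  inj : ∀ n ∈ Nd, ∀ n' ∈ Nd, n ≠ n' → rk n = rk n' → Disjoint (S n) (S n')

open Classical in
/-- first nodes with property `P` -/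
def First (Nd : Finset N) (S : N → Finset Ω) (rk : N → ℕ) (P : N → Prop) : Finset N :=
  Nd.filter fun n => P n ∧ ∀ n' ∈ Nd, P n' → rk n' < rk n → Disjoint (S n') (S n)

lemma first_disj {Nd : Finset N} {S : N → Finset Ω} {rk : N → ℕ} (hL : Lam Nd S rk)
    (P : N → Prop) : ∀ n ∈ First Nd S rk P, ∀ n' ∈ First Nd S rk P, n ≠ n' →
      Disjoint (S n) (S n') := by
  classical
  intro n hn n' hn' hne
  unfold First at hn hn'
  rw [mem_filter] at hn hn'
  rcases lt_trichotomy (rk n) (rk n') with h | h | h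
  · exact hn'.2.2 n hn.1 hn.2.1 h
  · exact hL.inj n hn.1 n' hn'.1 hne h
  · exact (hn.2.2 n' hn'.1 hn'.2.1 h).symm

lemma first_cover {Nd : Finset N} {S : N → Finset Ω} {rk : N → ℕ} (hL : Lam Nd S rk)
    (P : N → Prop) {n : N} (hn : n ∈ Nd) (hP : P n) {w : Ω} (hw : w ∈ S n) :
    ∃ m ∈ First Nd S rk P, w ∈ S m := by
  classical
  let C := Nd.filter fun m => P m ∧ w ∈ S m
  have hC : C.Nonempty := ⟨n, by simp [C, hn, hP, hw]⟩
  obtain ⟨m, hm, hmin⟩ := exists_min_image C rk hC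
  have hm' : m ∈ Nd ∧ P m ∧ w ∈ S m := by simpa [C] using hm
  refine ⟨m, ?_, hm'.2.2⟩
  unfold First
  rw [mem_filter]
  refine ⟨hm'.1, hm'.2.1, fun n' hn' hPn' hlt => ?_⟩
  by_contra hnd
  have hsub := hL.lam n' hn' m hm'.1 hlt.le hnd
  have : n' ∈ C := by simp [C, hn', hPn', hsub hm'.2.2]
  have := hmin n' this
  omega







end Crest.Agent.R4C.GWzonex9
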