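import Crest.Agent.R4C.NHdef_656

/-!
# Row 4, GW section, vector case: depth of linked points, runs (helper617)

* `on_link` : `τ |u y - v y' - m| ≤ c`, `On K' y' τ` ⟹ `On ((u+v+c) K') y τ`;
* `on_run` : `p` prime, `On K1 (p y) t`, `On K2 y (t p)`, `K2 ≤ p`, `2 K1 K2 ≤ t` ⟹ `On K1 y (t p)`
  (the depth is constant, or jumps above `min(p, t/(2 K1))`);
* words: `on_before_ps`, `not_on_ps`.
-/

set_option autoImplicit false

namespace Crest.Agent.R4C.LinkOnx617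

open Finset Crest.Agent.R4C.GWhx656 Crest.Agent.R4C.NHx656

/-- depth of linked points -/
lemma on_link {K' y y' τ c : ℝ} {u v : ℕ} {m : ℤ} (hu : 1 ≤ u) (hτ : 0 < τ)
    (hl : τ * |u * y - v * y' - m| ≤ c) (h : On K' y' τ) : On ((u + v + c) * K') y τ := by
  obtain ⟨a, k, hk, hlt⟩ := h
  have hk0 : (0:ℝ) < k := by exact_mod_cast hk
  have hu0 : (0:ℝ) < u := by exact_mod_cast hu
  have hv0 : (0:ℝ) ≤ v := Nat.cast_nonneg v
  have hc : 0 ≤ c := le_trans (by positivity) hl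
  have hmx1 : 1 ≤ max 1 (τ * |y' - a / k|) := le_max_left _ _
  have hmx2 : τ * |y' - a / k| ≤ max 1 (τ * |y' - a / k|) := le_max_right _ _
  refine ⟨v * a + m * k, u * k, Nat.mul_pos (by omega) hk, ?_⟩
  have e1 : (u:ℝ) * (y - ((v * a + m * k : ℤ) : ℝ) / ((u * k : ℕ) : ℝ)) =
      (u * y - v * y' - m) + v * (y' - a / k) := by
    push_cast
    field_simp
    ring
  have e2 : (u:ℝ) * |y - ((v * a + m * k : ℤ) : ℝ) / ((u * k : ℕ) : ℝ)| ≤
      |u * y - v * y' - m| + v * |y' - a / k| := by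
    have h1 : (u:ℝ) * |y - ((v * a + m * k : ℤ) : ℝ) / ((u * k : ℕ) : ℝ)| =
        |(u:ℝ) * (y - ((v * a + m * k : ℤ) : ℝ) / ((u * k : ℕ) : ℝ))| := by
      rw [abs_mul, abs_of_pos hu0]
    rw [h1, e1]
    refine (abs_add_le _ _).trans ?_
    rw [abs_mul, abs_of_nonneg hv0]
  have e3 : (u:ℝ) * (τ * |y - ((v * a + m * k : ℤ) : ℝ) / ((u * k : ℕ) : ℝ)|) ≤
      c + v * max 1 (τ * |y' - a / k|) := by
    calc (u:ℝ) * (τ * |y - ((v * a + m * k : ℤ) : ℝ) / ((u * k : ℕ) : ℝ)|)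
        = τ * ((u:ℝ) * |y - ((v * a + m * k : ℤ) : ℝ) / ((u * k : ℕ) : ℝ)|) := by ring
      _ ≤ τ * (|u * y - v * y' - m| + v * |y' - a / k|) := mul_le_mul_of_nonneg_left e2 hτ.le
      _ = τ * |u * y - v * y' - m| + v * (τ * |y' - a / k|) := by ring
      _ ≤ c + v * max 1 (τ * |y' - a / k|) :=
          add_le_add hl (mul_le_mul_of_nonneg_left hmx2 hv0)
  have e4 : (u:ℝ) * max 1 (τ * |y - ((v * a + m * k : ℤ) : ℝ) / ((u * k : ℕ) : ℝ)|) ≤
      (u + v + c) * max 1 (τ * |y' - a / k|) := by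
    rw [mul_max_of_nonneg _ _ hu0.le]
    refine max_le ?_ (e3.trans ?_)
    · nlinarith
    · nlinarith
  calc ((u * k : ℕ) : ℝ) * max 1 (τ * |y - ((v * a + m * k : ℤ) : ℝ) / ((u * k : ℕ) : ℝ)|)
      = k * ((u:ℝ) * max 1 (τ * |y - ((v * a + m * k : ℤ) : ℝ) / ((u * k : ℕ) : ℝ)|)) := by
        rw [Nat.cast_mul]; ring
    _ ≤ k * ((u + v + c) * max 1 (τ * |y' - a / k|)) := mul_le_mul_of_nonneg_left e4 hk0.le
    _ = (u + v + c) * (k * max 1 (τ * |y' - a / k|)) := by ring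
    _ < (u + v + c) * K' := mul_lt_mul_of_pos_left hlt (by positivity)

/-- a fraction witnessing `On` can be taken in lowest terms -/
lemma on_reduced {K y τ : ℝ} (h : On K y τ) : ∃ (a : ℤ) (k : ℕ), 0 < k ∧ Int.gcd a k = 1 ∧
    (k : ℝ) * max 1 (τ * |y - a / k|) < K := by
  obtain ⟨a, k, hk, hlt⟩ := h
  have hk0 : (k:ℝ) ≠ 0 := by positivity
  set q : ℚ := (a:ℚ) / k with hq
  have hqr : (q:ℝ) = (a:ℝ) / k := by rw [hq]; push_cast; ring
  have hqe : (q.num : ℝ) / (q.den : ℝ) = (a:ℝ) / k := by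
    rw [← hqr]
    exact_mod_cast (Rat.num_div_den q)
  have hden : q.den ∣ k := by
    have h1 : ((q.den : ℕ) : ℤ) ∣ (k:ℤ) := by
      have h2 := Rat.den_dvd a (k:ℤ)
      have e : Rat.divInt a (k:ℤ) = q := by rw [Rat.divInt_eq_div, hq]; push_cast; rfl
      rwa [e] at h2
    exact_mod_cast h1
  refine ⟨q.num, q.den, q.den_pos, ?_, ?_⟩
  · have := q.reduced
    unfold Int.gcd
    rw [Int.natAbs_natCast]
    exact this
  · rw [hqe]
    refine lt_of_le_of_lt ?_ hlt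
    refine mul_le_mul_of_nonneg_right ?_ (by positivity)
    exact_mod_cast Nat.le_of_dvd hk hden



/-! ### words -/










end Crest.Agent.R4C.LinkOnx617
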