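import Crest.Agent.R4C.GWbirth_516
import Crest.Agent.R4C.GWhyp_656
import Crest.Agent.R4C.GWK_821
import Crest.Agent.R4C.NHdef_656
import Crest.Agent.R4C.NHU_656
import Crest.Agent.R4C.SP_726
import Crest.Agent.R4C.NHE_656
import Crest.Agent.R4C.CellLaw_276
import Crest.Agent.R4C.HDdef_529
import Crest.Agent.R4C.DictV_20

-- ▼ part R4C/GWbirth2_516
section

/-!
# Row 4, GW section: (F5)(a) for the gaps above a node (helper516), vector case

`bad_of_W` : for a node `i` of `w` and ANY two births `b1 < b2` of `w` after `i`: if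
`1 - Wp (cut i) (cut b2) w ≤ s ≤ 1/2` and the nominal coins which are not coins have mass `≤ u` then the
word above the node is `Bad` with `2 s + u`.
(`Y z w ≤ s`, three-gap payments `1 - Wp (cut (pz z)) (cut (second next birth)) w ≤ s` and second-order
events all reduce to this, `Wp_anti`.)
-/

set_option autoImplicit false

open Finset
open Crest.Agent.R4C.Basex935 Crest.Agent.R4C.Cutx50 Crest.Agent.R4C.PrefixMx882
open Crest.Agent.R4C.NHx656 Crest.Agent.R4C.GWdefx982 Crest.Agent.R4C.GWbirthx516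

namespace Crest.Agent.R4C.GWbirth2x516

variable {Z : World} {i : ℕ} {w : ℕ}


/-- **(F5)(a) for a node and two later births** -/
theorem bad_of_W (hZ : Z.Ok) (hcut2 : ∀ k, 2 ^ k ≤ Z.cut k) {δ : ℝ} (hδ : 0 ≤ δ)
    (hθ : ∀ k, Z.i0 ≤ k → 3 * ((2 : ℝ) ^ k) ^ δ ≤ Z.θ k) (hwN : w ∣ Z.N)
    (hsq : Squarefree (upp (Z.cut i) w)) (hi : Z.nd i w) {b1 b2 : ℕ} (hib1 : i < b1)
    (hnd1 : Z.nd b1 w) (hb12 : b1 < b2) (hbirth2 : Z.birth b2 w) {u : ℝ}
    (hcoin : ∀ r ∈ (upp (Z.cut i) w).primeFactors,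
      ∀ G ⊆ nc (cutR Z.cut) δ Z.γ (Z.tt i w) (upp (Z.cut i) Z.N).primeFactors
        (upp (Z.cut i) w).primeFactors r, (∀ q ∈ G, ¬ Z.coin w q) → ∑ q ∈ G, (1 : ℝ) / q ≤ u)
    {s : ℝ} (hs : s ≤ 1 / 2) (hY : 1 - Z.Wp (Z.cut i) (Z.cut b2) w ≤ s) :
    Bad (cutR Z.cut) δ Z.γ (Z.tt i w) (2 * s + u) (upp (Z.cut i) Z.N).primeFactors
      (upp (Z.cut i) w).primeFactors := by
  classical
  have hw : w ≠ 0 := (Nat.pos_of_dvd_of_pos hwN hZ.hN).ne'
  set S := (upp (Z.cut i) w).primeFactors with hS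
  set t := Z.tt i w with ht
  have hi1 : 1 ≤ i := by have := hZ.hi0; have := hi.1; omega
  have ht1 : (2 : ℝ) ^ i ≤ t := tt_ge hZ hi
  have ht2 : t < (2 : ℝ) ^ (i + 1) := tt_lt hZ hi
  have h2i : (2 : ℝ) ≤ 2 ^ i := by
    calc (2 : ℝ) = 2 ^ 1 := by norm_num
      _ ≤ 2 ^ i := pow_le_pow_right₀ (by norm_num) hi1
  have hSp : ∀ p ∈ S, p.Prime := fun p hp => Nat.prime_of_mem_primeFactors hp
  have hnd2 : Z.nd b2 w := hbirth2.1
  have hib2 : i < b2 := hib1.trans hb12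
  obtain ⟨hmnS, hmn1, _⟩ := mn_le_pow hZ hw hsq hi hnd1 hib1
  rw [← hS] at hmnS hmn1
  -- from the product to the sum
  have key : ∀ F : Finset ℕ, (∀ q ∈ F, q ∈ (upp (Z.cut i) Z.N).primeFactors ∧ ¬ q ∣ w ∧
      q ≤ Z.cut b2) → (∀ G ⊆ F, (∀ q ∈ G, ¬ Z.coin w q) → ∑ q ∈ G, (1 : ℝ) / q ≤ u) →
      ∑ q ∈ F, (1 : ℝ) / q ≤ 2 * s + u := by
    intro F hF hFu
    have h0 : ∑ q ∈ F.filter (fun q => Z.coin w q), (1 : ℝ) / q ≤ 2 * s := by
      refine prod_to_sum (fun q hq =>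
        (Nat.prime_of_mem_primeFactors (hF q (mem_filter.1 hq).1).1).two_le) hs ?_
      have hsub : F.filter (fun q => Z.coin w q) ⊆
          (free Z.N w).filter fun p => Z.cut i < p ∧ p ≤ Z.cut b2 ∧ Z.coin w p := by
        intro q hq
        obtain ⟨hqF, h4⟩ := mem_filter.1 hq
        obtain ⟨h1, h2, h3⟩ := hF q hqF
        rw [pf_upp, mem_filter] at h1
        rw [mem_filter, mem_free]
        refine ⟨⟨h1.1, ?_⟩, h1.2, h3, h4⟩
        rw [Nat.factorization_eq_zero_of_not_dvd h2]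
        exact (Nat.prime_of_mem_primeFactors h1.1).factorization_pos_of_dvd hZ.hN.ne'
          (Nat.dvd_of_mem_primeFactors h1.1)
      have h1 := prod_mono_sub hsub
      unfold World.Wp at hY
      linarith
    have h1 : ∑ q ∈ F.filter (fun q => ¬ Z.coin w q), (1 : ℝ) / q ≤ u :=
      hFu _ (filter_subset _ _) fun q hq => (mem_filter.1 hq).2
    rw [← sum_filter_add_sum_filter_not F (fun q => Z.coin w q)]
    exact add_le_add h0 h1
  -- a prime above the cut which is not a letter of `S` does not divide `w`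
  have hndvd : ∀ q ∈ (upp (Z.cut i) Z.N).primeFactors, q ∉ S → ¬ q ∣ w := by
    intro q hq hqS hdvd
    rw [pf_upp, mem_filter] at hq
    apply hqS
    rw [hS, pf_upp, mem_filter]
    exact ⟨Nat.mem_primeFactors.2 ⟨Nat.prime_of_mem_primeFactors hq.1, hdvd, hw⟩, hq.2⟩
  refine ⟨⟨_, hmnS⟩, ?_⟩
  by_cases hon : On (K1 δ S) (pt Z.γ S (mn S)) (sc t S (mn S))
  · -- the run exists
    right
    have hlost : Lost δ Z.γ t S := by
      by_contra hnl
      unfold Lost at hnl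
      push Not at hnl
      obtain ⟨r, hr, hrj, e1, e2⟩ := exists_last hZ hw hsq hi hnd2 hib2
      have h1 := hnl r hr
      rw [e1, e2] at h1
      exact not_birth hZ hwN hsq hδ hθ hi hnd1 hib1 hnd2 hb12 h1 hbirth2
    refine ⟨hon, hlost, ?_⟩
    set p := ps δ Z.γ t S with hp
    obtain ⟨hpS, hoff⟩ := ps_spec hlost
    rw [← hp] at hpS hoff
    set tJ : ℝ := t * ((∏ q ∈ S.filter (· < p), q : ℕ) : ℝ) with htJ
    by_cases hmat : (p : ℝ) ≤ cutR Z.cut tJ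
    · exact Or.inl hmat
    right
    rw [not_le] at hmat
    have hmat' : Z.cut (lv tJ) < p := by
      unfold cutR at hmat
      exact_mod_cast hmat
    -- `b2` is later than the index of `t_J`
    have hb2J : lv tJ < b2 := by
      by_contra hcon
      rw [not_lt] at hcon
      obtain ⟨r, hr, hrj, e1, e2⟩ := exists_last hZ hw hsq hi hnd2 hib2
      have hrp : r < p := lt_of_le_of_lt (hrj.trans (hZ.hcut hcon)) hmat'
      have h1 := on_of_lt_ps hr hrp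
      rw [← hS] at e1 e2
      rw [e1, e2] at h1
      exact not_birth hZ hwN hsq hδ hθ hi hnd1 hib1 hnd2 hb12 h1 hbirth2
    have hpb2 : p ≤ Z.cut b2 := by
      by_contra hcon
      rw [not_le] at hcon
      have h1 := tt_cut hw hZ.hcut hsq hib2.le
      rw [← hS, ← ht] at h1
      have h2 : (∏ q ∈ S.filter (· ≤ Z.cut b2), q) ≤ ∏ q ∈ S.filter (· < p), q := by
        refine Nat.le_of_dvd (Finset.prod_pos fun q hq => (hSp q (mem_filter.1 hq).1).pos)
          (prod_dvd_prod_of_subset _ _ _ fun q hq => ?_)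
        rw [mem_filter] at hq ⊢
        exact ⟨hq.1, lt_of_le_of_lt hq.2 hcon⟩
      have h3 : Z.tt b2 w ≤ tJ := by
        rw [h1, htJ]
        exact mul_le_mul_of_nonneg_left (by exact_mod_cast h2) (by linarith)
      have h4 := tt_ge hZ hnd2
      have h5 := lt_lv tJ
      have h6 : (2 : ℝ) ^ (lv tJ + 1) ≤ 2 ^ b2 := pow_le_pow_right₀ (by norm_num) hb2J
      linarith
    refine key _ (fun q hq => ?_) (hcoin p hpS)
    unfold nc at hq
    rw [mem_filter] at hq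
    obtain ⟨hqP, hq1, hq2, _⟩ := hq
    have hqS : q ∉ S := by
      intro hqS
      have h1 : (q : ℝ) ≤ ((∏ q ∈ S.filter (· < p), q : ℕ) : ℝ) := by
        exact_mod_cast le_prod_of_mem (fun q hq => (hSp q (mem_filter.1 hq).1).one_lt.le)
          (mem_filter.2 ⟨hqS, hq2⟩)
      have h2 : 2 * (q : ℝ) ≤ tJ := by
        rw [htJ]
        exact mul_le_mul (h2i.trans ht1) h1 (Nat.cast_nonneg _) (by linarith)
      have h3 := lt_lv tJ
      have h4 : (2 : ℝ) ^ (lv tJ + 1) = 2 * 2 ^ lv tJ := by ring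
      have h5 : (q : ℝ) < 2 ^ lv tJ := by linarith
      have h6 : ((2 ^ lv tJ : ℕ) : ℝ) ≤ (Z.cut (lv tJ) : ℝ) := by exact_mod_cast hcut2 _
      push_cast at h6
      have h7 : cutR Z.cut tJ < (q : ℝ) := hq1
      unfold cutR at h7
      linarith
    exact ⟨hqP, hndvd q hqP hqS, hq2.le.trans hpb2⟩
  · -- no run centre at the first letter
    left
    refine ⟨hon, key _ (fun q hq => ?_) (hcoin (mn S) hmnS)⟩
    unfold nc at hq
    rw [mem_filter] at hq
    obtain ⟨hqP, _, hq2, _⟩ := hq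
    have hqS : q ∉ S := fun h => by have := mn_le h; omega
    exact ⟨hqP, hndvd q hqP hqS, hq2.le.trans (hmn1.trans (hZ.hcut hb12.le))⟩


end Crest.Agent.R4C.GWbirth2x516
end

-- ▼ part R4C/CutSum_516
section

/-!
# Row 4: cut-sum lemma (helper516), for the classes (NC) and (a2) of BLOCK NH (656, note 3754)

Words = finite sets `S ⊆ P` of primes, natural law `GWhx656.law`.  `E` = a set of words, each with a
marked letter `pp S` which has a letter of the word below it.  `ins P E pp S1 ρ` = the letters `p`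
which can be inserted (as marked letter) in the rest `S1` directly above the letter `ρ` of `S1`.
If `∑_{p ∈ ins} 1/p ≤ g ρ` then `∑_{S ∈ E} law P S ≤ 2 ∑_{ρ ∈ P} g ρ / ρ`; for `g ρ = A ρ^{-c}` and
`P ⊆ [y, ∞)` this is `≤ (2/c) A (y-1)^{-c}`.
-/

set_option autoImplicit false

namespace Crest.Agent.R4C.CutSumx516

open Finset Crest.Agent.R4C.GWhx656

/-- removal of a part `τ S` of the word: fibre bound depending on the rest -/
lemma level_var {P : Finset ℕ} (hP : ∀ p ∈ P, 2 ≤ p) (E : Finset (Finset ℕ)) (hE : ∀ S ∈ E, S ⊆ P)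
    (τ : Finset ℕ → Finset ℕ) (hτ : ∀ S ∈ E, τ S ⊆ S) (A : Finset ℕ → ℝ)
    (hA : ∀ S0 ⊆ P, ∑ S ∈ E with S \ τ S = S0, ∏ p ∈ τ S, (1 / ((p : ℝ) - 1)) ≤ A S0) :
    ∑ S ∈ E, law P S ≤ ∑ S0 ∈ P.powerset, law P S0 * A S0 := by
  have h1 : ∀ S ∈ E, law P S = law P (S \ τ S) * ∏ p ∈ τ S, (1 / ((p : ℝ) - 1)) := by
    intro S hS
    rw [← law_union hP ((hτ S hS).trans (hE S hS)) sdiff_disjoint, sdiff_union_of_subset (hτ S hS)]
  rw [sum_congr rfl h1]
  have h2 : ∀ S ∈ E, S \ τ S ∈ P.powerset := fun S hS =>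
    mem_powerset.2 (sdiff_subset.trans (hE S hS))
  rw [← sum_fiberwise_of_maps_to h2]
  refine sum_le_sum fun S0 hS0 => ?_
  have e : ∑ S ∈ E with S \ τ S = S0, law P (S \ τ S) * ∏ p ∈ τ S, (1 / ((p : ℝ) - 1)) =
      law P S0 * ∑ S ∈ E with S \ τ S = S0, ∏ p ∈ τ S, (1 / ((p : ℝ) - 1)) := by
    rw [mul_sum]
    refine sum_congr rfl fun S hS => ?_
    rw [(mem_filter.1 hS).2]
  rw [e]
  exact mul_le_mul_of_nonneg_left (hA S0 (mem_powerset.1 hS0))
    (law_nonneg fun p hp => by have := hP p hp; omega)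

/-- mass of the words containing a letter -/
lemma sum_law_mem {P : Finset ℕ} {ρ : ℕ} (hρ : ρ ∈ P) :
    ∑ S ∈ P.powerset, (if ρ ∈ S then law P S else 0) = 1 / (ρ : ℝ) := by
  classical
  have hins : insert ρ (P.erase ρ) = P := insert_erase hρ
  have hnot : ρ ∉ P.erase ρ := notMem_erase _ _
  rw [← hins, sum_powerset_insert hnot]
  have h1 : ∑ S ∈ (P.erase ρ).powerset, (if ρ ∈ S then law (insert ρ (P.erase ρ)) S else 0) = 0 := by
    refine sum_eq_zero fun S hS => ?_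
    rw [if_neg fun h => hnot (mem_powerset.1 hS h)]
  have h2 : ∀ S ∈ (P.erase ρ).powerset,
      (if ρ ∈ insert ρ S then law (insert ρ (P.erase ρ)) (insert ρ S) else 0) =
        1 / (ρ : ℝ) * law (P.erase ρ) S := by
    intro S hS
    have hρS : ρ ∉ S := fun h => hnot (mem_powerset.1 hS h)
    rw [if_pos (mem_insert_self _ _)]
    unfold law
    have e : insert ρ (P.erase ρ) \ insert ρ S = P.erase ρ \ S := by
      ext q
      simp only [mem_sdiff, mem_insert, mem_erase]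
      tauto
    rw [e, prod_insert hρS]
    ring
  rw [h1, sum_congr rfl h2, ← mul_sum, sum_law, zero_add, mul_one]

/-- natural mean of an additive function of the word -/
lemma sum_law_sum (P : Finset ℕ) (g : ℕ → ℝ) :
    ∑ S ∈ P.powerset, law P S * ∑ ρ ∈ S, g ρ = ∑ ρ ∈ P, g ρ / (ρ : ℝ) := by
  classical
  have h1 : ∀ S ∈ P.powerset, law P S * ∑ ρ ∈ S, g ρ =
      ∑ ρ ∈ P, g ρ * (if ρ ∈ S then law P S else 0) := by
    intro S hS
    have hSP := mem_powerset.1 hS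
    rw [mul_sum]
    have e : ∑ ρ ∈ P, g ρ * (if ρ ∈ S then law P S else 0) =
        ∑ ρ ∈ P, (if ρ ∈ S then law P S * g ρ else 0) := by
      refine sum_congr rfl fun ρ _ => ?_
      split_ifs
      · ring
      · ring
    rw [e, ← sum_filter]
    refine sum_congr ?_ fun _ _ => rfl
    ext ρ
    rw [mem_filter]
    exact ⟨fun h => ⟨hSP h, h⟩, fun h => h.2⟩
  rw [sum_congr rfl h1, sum_comm]
  refine sum_congr rfl fun ρ hρ => ?_
  rw [← mul_sum, sum_law_mem hρ, mul_one_div]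

/-- the letters which can be inserted as marked letter directly above `ρ` in the rest `S1` -/
noncomputable def ins (P : Finset ℕ) (E : Finset (Finset ℕ)) (pp : Finset ℕ → ℕ) (S1 : Finset ℕ)
    (ρ : ℕ) : Finset ℕ := by
  classical
  exact P.filter fun p : ℕ => p ∉ S1 ∧ insert p S1 ∈ E ∧ pp (insert p S1) = p ∧ ρ < p ∧
    ∀ q ∈ S1, q < p → q ≤ ρ

lemma mem_ins {P : Finset ℕ} {E : Finset (Finset ℕ)} {pp : Finset ℕ → ℕ} {S1 : Finset ℕ}
    {ρ p : ℕ} : p ∈ ins P E pp S1 ρ ↔ p ∈ P ∧ p ∉ S1 ∧ insert p S1 ∈ E ∧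
      pp (insert p S1) = p ∧ ρ < p ∧ ∀ q ∈ S1, q < p → q ≤ ρ := by
  unfold ins
  rw [mem_filter]

/-- **cut-sum lemma, general rate** -/
theorem cut_sum_gen {P : Finset ℕ} (hP : ∀ p ∈ P, 2 ≤ p) {E : Finset (Finset ℕ)}
    (hE : ∀ S ∈ E, S ⊆ P) (pp : Finset ℕ → ℕ) (hpp : ∀ S ∈ E, pp S ∈ S)
    (hlow : ∀ S ∈ E, ∃ ρ ∈ S, ρ < pp S) (g : ℕ → ℝ)
    (hg : ∀ S1 ⊆ P, ∀ ρ ∈ S1, ∑ p ∈ ins P E pp S1 ρ, (1 : ℝ) / p ≤ g ρ) :
    ∑ S ∈ E, law P S ≤ 2 * ∑ ρ ∈ P, g ρ / (ρ : ℝ) := by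
  classical
  have h0 := level_var hP E hE (fun S => {pp S}) (fun S hS => singleton_subset_iff.2 (hpp S hS))
    (fun S0 => 2 * ∑ ρ ∈ S0, g ρ) ?_
  · refine h0.trans (le_of_eq ?_)
    rw [← sum_law_sum, mul_sum]
    refine sum_congr rfl fun S0 _ => ?_
    ring
  · intro S0 hS0
    set F := E.filter (fun S => S \ {pp S} = S0) with hF
    have hrec : ∀ S ∈ F, insert (pp S) S0 = S := by
      intro S hS
      have hS' := mem_filter.1 hS
      rw [← hS'.2, sdiff_singleton_eq_erase, insert_erase (hpp S hS'.1)]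
    have hinj : ∀ S ∈ F, ∀ S' ∈ F, pp S = pp S' → S = S' := by
      intro S hS S' hS' he
      rw [← hrec S hS, ← hrec S' hS', he]
    have hsub : F.image pp ⊆ S0.biUnion (fun ρ => ins P E pp S0 ρ) := by
      intro p hp
      obtain ⟨S, hS, rfl⟩ := mem_image.1 hp
      have hS' := mem_filter.1 hS
      obtain ⟨ρ0, hρ0, hρ0'⟩ := hlow S hS'.1
      have hr := hrec S hS
      have hρ0S : ρ0 ∈ S0 := by
        rw [← hS'.2, mem_sdiff, mem_singleton]
        exact ⟨hρ0, hρ0'.ne⟩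
      have hne : (S0.filter (· < pp S)).Nonempty := ⟨ρ0, mem_filter.2 ⟨hρ0S, hρ0'⟩⟩
      have hmax := max'_mem _ hne
      rw [mem_filter] at hmax
      rw [mem_biUnion]
      refine ⟨_, hmax.1, ?_⟩
      rw [mem_ins, hr]
      refine ⟨hE S hS'.1 (hpp S hS'.1), ?_, hS'.1, rfl, hmax.2, fun q hq hqp => ?_⟩
      · rw [← hS'.2, mem_sdiff, mem_singleton]
        exact fun h => h.2 rfl
      · exact le_max' _ _ (mem_filter.2 ⟨hq, hqp⟩)
    have hpos : ∀ p : ℕ, (0 : ℝ) ≤ 1 / (p : ℝ) := fun p => by positivity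
    calc ∑ S ∈ F, ∏ p ∈ ({pp S} : Finset ℕ), (1 / ((p : ℝ) - 1))
        = ∑ S ∈ F, od (pp S) := sum_congr rfl fun S _ => by rw [prod_singleton]; rfl
      _ = ∑ p ∈ F.image pp, od p := (sum_image (f := od) hinj).symm
      _ ≤ ∑ p ∈ F.image pp, 2 * (1 / (p : ℝ)) := by
          refine sum_le_sum fun p hp => od_le ?_
          obtain ⟨S, hS, rfl⟩ := mem_image.1 hp
          have hS' := mem_filter.1 hS
          exact hP _ (hE S hS'.1 (hpp S hS'.1))
      _ ≤ ∑ p ∈ S0.biUnion (fun ρ => ins P E pp S0 ρ), 2 * (1 / (p : ℝ)) :=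
          sum_le_sum_of_subset_of_nonneg hsub fun p _ _ => mul_nonneg zero_le_two (hpos p)
      _ ≤ ∑ ρ ∈ S0, ∑ p ∈ ins P E pp S0 ρ, 2 * (1 / (p : ℝ)) := by
          generalize hR : (fun ρ => ins P E pp S0 ρ) = R
          have : ∀ T : Finset ℕ, ∑ p ∈ T.biUnion R, 2 * (1 / (p : ℝ)) ≤
              ∑ ρ ∈ T, ∑ p ∈ R ρ, 2 * (1 / (p : ℝ)) := by
            intro T
            induction T using Finset.induction_on with
            | empty => simp
            | insert a T ha ih =>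
              rw [biUnion_insert, sum_insert ha]
              refine le_trans ?_ (add_le_add le_rfl ih)
              rw [← sum_union_inter]
              exact le_add_of_nonneg_right (sum_nonneg fun p _ => mul_nonneg zero_le_two (hpos p))
          have h := this S0
          rw [← hR] at h ⊢
          exact h
      _ ≤ ∑ ρ ∈ S0, 2 * g ρ := by
          refine sum_le_sum fun ρ hρ => ?_
          rw [← mul_sum]
          exact mul_le_mul_of_nonneg_left (hg S0 hS0 ρ hρ) zero_le_two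
      _ = 2 * ∑ ρ ∈ S0, g ρ := by rw [mul_sum]

/-! ### sums of negative powers -/

lemma rpow_step {c : ℝ} (hc : 0 < c) {n : ℕ} (hn : 2 ≤ n) :
    c * ((n : ℝ) ^ (-c) / n) ≤ ((n : ℝ) - 1) ^ (-c) - (n : ℝ) ^ (-c) := by
  have hn2 : (2 : ℝ) ≤ n := by exact_mod_cast hn
  have hn0 : (0 : ℝ) < n := by linarith
  have hn1 : (0 : ℝ) < (n : ℝ) - 1 := by linarith
  have e1 : ((n : ℝ) - 1) ^ (-c) = (n : ℝ) ^ (-c) * (1 - 1 / (n : ℝ)) ^ (-c) := by
    rw [← Real.mul_rpow hn0.le]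
    · congr 1
      field_simp
    · have : 1 / (n : ℝ) ≤ 1 := by rw [div_le_one hn0]; linarith
      linarith
  have hx : 0 < 1 - 1 / (n : ℝ) := by
    have : 1 / (n : ℝ) < 1 := by rw [div_lt_one hn0]; linarith
    linarith
  have e2 : 1 + c / n ≤ (1 - 1 / (n : ℝ)) ^ (-c) := by
    rw [Real.rpow_def_of_pos hx]
    have h1 := Real.log_le_sub_one_of_pos hx
    have h2 := Real.add_one_le_exp (Real.log (1 - 1 / (n : ℝ)) * -c)
    have h3 : c / n ≤ Real.log (1 - 1 / (n : ℝ)) * -c := by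
      have : c / n = c * (1 / (n : ℝ)) := by ring
      rw [this]
      nlinarith
    linarith
  have hp : 0 < (n : ℝ) ^ (-c) := Real.rpow_pos_of_pos hn0 _
  rw [e1]
  have h3 : (n : ℝ) ^ (-c) * (1 + c / n) ≤ (n : ℝ) ^ (-c) * (1 - 1 / (n : ℝ)) ^ (-c) :=
    mul_le_mul_of_nonneg_left e2 hp.le
  have h4 : c * ((n : ℝ) ^ (-c) / n) = (n : ℝ) ^ (-c) * (1 + c / n) - (n : ℝ) ^ (-c) := by ring
  rw [h4]
  linarith

/-- `∑_{n ≥ y} n^{-1-c} ≤ (1/c) (y-1)^{-c}` -/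
lemma sum_rpow_le {c : ℝ} (hc : 0 < c) {y : ℝ} (hy : 2 ≤ y) (P : Finset ℕ)
    (hPy : ∀ p ∈ P, y ≤ (p : ℝ)) : ∑ p ∈ P, (p : ℝ) ^ (-c) / p ≤ (y - 1) ^ (-c) / c := by
  set k : ℕ := ⌈y⌉₊ with hk
  have hky : y ≤ k := Nat.le_ceil y
  have hk2 : 2 ≤ k := by
    have : (2 : ℝ) ≤ k := hy.trans hky
    exact_mod_cast this
  have hk1 : (0 : ℝ) < (k : ℝ) - 1 := by linarith
  -- telescoping
  have htel : ∀ N : ℕ, ∑ n ∈ Finset.Ico k (k + N), (n : ℝ) ^ (-c) / n ≤
      (((k : ℝ) - 1) ^ (-c) - ((k : ℝ) + N - 1) ^ (-c)) / c := by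
    intro N
    induction N with
    | zero => simp
    | succ N ih =>
      rw [← add_assoc, Finset.sum_Ico_succ_top (by omega)]
      have h1 := rpow_step hc (n := k + N) (by omega)
      have h2 : ((k + N : ℕ) : ℝ) ^ (-c) / ((k + N : ℕ) : ℝ) ≤
          ((((k + N : ℕ) : ℝ) - 1) ^ (-c) - ((k + N : ℕ) : ℝ) ^ (-c)) / c := by
        rw [le_div_iff₀ hc]
        linarith
      calc _ ≤ (((k : ℝ) - 1) ^ (-c) - ((k : ℝ) + N - 1) ^ (-c)) / c +
            ((((k + N : ℕ) : ℝ) - 1) ^ (-c) - ((k + N : ℕ) : ℝ) ^ (-c)) / c := add_le_add ih h2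
        _ = _ := by
            push_cast
            rw [← add_div]
            congr 1
            ring_nf
  have hsub : P ⊆ Finset.Ico k (k + (P.sup id + 1)) := by
    intro p hp
    rw [Finset.mem_Ico]
    constructor
    · exact Nat.ceil_le.2 (hPy p hp)
    · have : p ≤ P.sup id := Finset.le_sup (f := id) hp
      omega
  calc ∑ p ∈ P, (p : ℝ) ^ (-c) / p ≤ ∑ n ∈ Finset.Ico k (k + (P.sup id + 1)), (n : ℝ) ^ (-c) / n :=
        sum_le_sum_of_subset_of_nonneg hsub fun n _ _ => by positivity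
    _ ≤ (((k : ℝ) - 1) ^ (-c) - ((k : ℝ) + (P.sup id + 1 : ℕ) - 1) ^ (-c)) / c := htel _
    _ ≤ ((k : ℝ) - 1) ^ (-c) / c := by
        refine div_le_div_of_nonneg_right ?_ hc.le
        have : 0 ≤ ((k : ℝ) + (P.sup id + 1 : ℕ) - 1) ^ (-c) := by
          apply Real.rpow_nonneg
          have : (0 : ℝ) ≤ (P.sup id + 1 : ℕ) := Nat.cast_nonneg _
          linarith
        linarith
    _ ≤ (y - 1) ^ (-c) / c := by
        refine div_le_div_of_nonneg_right ?_ hc.le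
        exact Real.rpow_le_rpow_of_nonpos (by linarith) (by linarith) (by linarith)

/-- **cut-sum lemma** -/
theorem cut_sum {c : ℝ} (hc : 0 < c) {P : Finset ℕ} {y A : ℝ} (hy : 2 ≤ y) (hA : 0 ≤ A)
    (hP : ∀ p ∈ P, 2 ≤ p) (hPy : ∀ p ∈ P, y ≤ (p : ℝ)) {E : Finset (Finset ℕ)}
    (hE : ∀ S ∈ E, S ⊆ P) (pp : Finset ℕ → ℕ) (hpp : ∀ S ∈ E, pp S ∈ S)
    (hlow : ∀ S ∈ E, ∃ ρ ∈ S, ρ < pp S)
    (hg : ∀ S1 ⊆ P, ∀ ρ ∈ S1, ∑ p ∈ ins P E pp S1 ρ, (1 : ℝ) / p ≤ A * (ρ : ℝ) ^ (-c)) :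
    ∑ S ∈ E, law P S ≤ (2 / c) * A * (y - 1) ^ (-c) := by
  refine (cut_sum_gen hP hE pp hpp hlow (fun ρ => A * (ρ : ℝ) ^ (-c)) hg).trans ?_
  have h1 := sum_rpow_le hc hy P hPy
  have e : ∑ ρ ∈ P, A * (ρ : ℝ) ^ (-c) / (ρ : ℝ) = A * ∑ ρ ∈ P, (ρ : ℝ) ^ (-c) / ρ := by
    rw [mul_sum]
    refine sum_congr rfl fun ρ _ => ?_
    ring
  rw [e]
  calc 2 * (A * ∑ ρ ∈ P, (ρ : ℝ) ^ (-c) / ρ) ≤ 2 * (A * ((y - 1) ^ (-c) / c)) := by
        refine mul_le_mul_of_nonneg_left ?_ zero_le_two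
        exact mul_le_mul_of_nonneg_left h1 hA
    _ = _ := by ring

end Crest.Agent.R4C.CutSumx516
end

-- ▼ part R4C/DBirth_617
section

/-!
# Row 4: displacement births are rare given the node (note 3568 (2)(a); helper617)

Label-free analytic input.  `θ = (letters above the smallest letter p) γ`, `A/k` its label,
`α` = position of the cell of the node, `D'/L = t p |θ - A/k|`.

`dbirth` : `1 ≤ K0 ≤ t`, `k ≤ t`, `t ^ 4 ≤ X`: the primes `p ∈ (X, X²]` with `‖p θ - α‖ ≤ 1/t` and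
`K0 ≤ t p |θ - A/k| ≤ p^(1/4)` have `∑ 1/p ≤ C / K0`.

* `sum_blocks` : from dyadic blocks to `(X, X²]` (any finite set of naturals).
-/

set_option autoImplicit false

namespace Crest.Agent.R4C.DBirthx617

open Finset Crest.Agent.R4P.BTs18 Crest.Agent.R4C.GWKx821

/-- dyadic blocks to `(X, X²]` -/
theorem sum_blocks {D X : ℝ} (hD : 0 ≤ D) (hX : 16 ≤ X) (F : Finset ℕ)
    (hF : ∀ p ∈ F, X < p ∧ (p:ℝ) ≤ X ^ 2)
    (hbl : ∀ Y : ℝ, X ≤ Y → ∀ G ⊆ F, (∀ p ∈ G, Y < p ∧ (p:ℝ) ≤ 2 * Y) →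
      (G.card : ℝ) ≤ D * (Y / Real.log Y)) :
    ∑ p ∈ F, (1:ℝ) / p ≤ 3 * D := by
  classical
  have hX0 : 0 < X := by linarith
  have hlogX : 0 < Real.log X := Real.log_pos (by linarith)
  set n : ℕ := ⌈Real.logb 2 X⌉₊ with hn
  have hXn : X ≤ 2 ^ n := by
    have h1 := Nat.le_ceil (Real.logb 2 X)
    have h2 : Real.logb 2 X ≤ n := h1
    rw [Real.logb_le_iff_le_rpow (by norm_num) hX0] at h2
    rwa [Real.rpow_natCast] at h2
  have hn1 : (n:ℝ) ≤ 3 * Real.log X := by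
    have h1 := Nat.ceil_lt_add_one (Real.logb_nonneg (by norm_num : (1:ℝ) < 2) (by linarith : 1 ≤ X))
    have h2 : Real.logb 2 X = Real.log X / Real.log 2 := rfl
    have h3 : Real.log X / Real.log 2 ≤ 3 / 2 * Real.log X := by
      rw [div_le_iff₀ (Real.log_pos (by norm_num))]
      have := Real.log_two_gt_d9
      nlinarith
    have h4 : 1 ≤ Real.log X := by
      rw [← Real.log_exp 1]
      exact Real.log_le_log (Real.exp_pos _) (by linarith [Real.exp_one_lt_d9])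
    linarith
  have hex : ∀ p ∈ F, ∃ i, (p:ℝ) ≤ 2 ^ (i + 1) * X := by
    intro p hp
    refine ⟨n, ?_⟩
    have h1 := (hF p hp).2
    have h2 : X ^ 2 ≤ 2 ^ n * X := by nlinarith
    have h3 : (2:ℝ) ^ (n + 1) * X = 2 * (2 ^ n * X) := by ring
    rw [h3]; nlinarith [show 0 ≤ (2:ℝ) ^ n * X by positivity]
  set f : ℕ → ℕ := fun p => if h : ∃ i, (p:ℝ) ≤ 2 ^ (i + 1) * X then Nat.find h else 0 with hf
  have hfs : ∀ p ∈ F, (p:ℝ) ≤ 2 * (2 ^ f p * X) ∧ 2 ^ f p * X < p ∧ f p < n := by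
    intro p hp
    have h := hex p hp
    have e : f p = Nat.find h := by rw [hf]; simp only [dif_pos h]
    rw [e]
    have h1 := Nat.find_spec h
    obtain ⟨h2, h3⟩ := hF p hp
    have hn0 : 0 < n := by
      rcases Nat.eq_zero_or_pos n with h0 | h0
      · rw [h0] at hXn; norm_num at hXn; linarith
      · exact h0
    refine ⟨by rw [pow_succ] at h1; linarith, ?_, ?_⟩
    · rcases Nat.eq_zero_or_pos (Nat.find h) with h0 | h0
      · rw [h0]; simpa using h2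
      · have h4 := Nat.find_min h (show Nat.find h - 1 < Nat.find h by omega)
        rw [show Nat.find h - 1 + 1 = Nat.find h by omega] at h4
        exact not_le.1 h4
    · have h4 : Nat.find h ≤ n - 1 := by
        refine Nat.find_min' h ?_
        rw [show n - 1 + 1 = n by omega]
        calc (p:ℝ) ≤ X ^ 2 := h3
          _ = X * X := by ring
          _ ≤ 2 ^ n * X := mul_le_mul_of_nonneg_right hXn hX0.le
      omega
  have h1 : ∑ p ∈ F, (1:ℝ) / p = ∑ i ∈ Finset.range n, ∑ p ∈ F.filter (fun p => f p = i), (1:ℝ) / p :=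
    (Finset.sum_fiberwise_of_maps_to (fun p hp => Finset.mem_range.2 (hfs p hp).2.2) _).symm
  rw [h1]
  have h2 : ∀ i ∈ Finset.range n, ∑ p ∈ F.filter (fun p => f p = i), (1:ℝ) / p ≤
      D * (1 / Real.log X) := by
    intro i _
    have hpi : (1:ℝ) ≤ 2 ^ i := one_le_pow₀ (by norm_num)
    set Y : ℝ := 2 ^ i * X with hY
    have hYX : X ≤ Y := by rw [hY]; nlinarith
    have hY0 : 0 < Y := by linarith
    have h3 := hbl Y hYX (F.filter (fun p => f p = i)) (Finset.filter_subset _ _) fun p hp => by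
        rw [Finset.mem_filter] at hp
        obtain ⟨h4, h5, _⟩ := hfs p hp.1
        rw [hp.2] at h4 h5
        exact ⟨h5, h4⟩
    have h4 : ∑ p ∈ F.filter (fun p => f p = i), (1:ℝ) / p ≤
        (F.filter (fun p => f p = i)).card * (1 / Y) := by
      rw [← nsmul_eq_mul]
      refine Finset.sum_le_card_nsmul _ _ _ fun p hp => ?_
      rw [Finset.mem_filter] at hp
      have h5 := (hfs p hp.1).2.1
      rw [hp.2] at h5
      exact one_div_le_one_div_of_le hY0 h5.le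
    calc _ ≤ _ := h4
      _ ≤ (D * (Y / Real.log Y)) * (1 / Y) :=
          mul_le_mul_of_nonneg_right h3 (by positivity)
      _ = D * (1 / Real.log Y) := by field_simp
      _ ≤ _ := by
          refine mul_le_mul_of_nonneg_left ?_ (by positivity)
          exact one_div_le_one_div_of_le hlogX (Real.log_le_log hX0 hYX)
  calc _ ≤ ∑ _i ∈ Finset.range n, D * (1 / Real.log X) := Finset.sum_le_sum h2
    _ = n * (D * (1 / Real.log X)) := by
        rw [Finset.sum_const, Finset.card_range, nsmul_eq_mul]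
    _ ≤ (3 * Real.log X) * (D * (1 / Real.log X)) :=
        mul_le_mul_of_nonneg_right hn1 (by positivity)
    _ = _ := by field_simp

set_option maxHeartbeats 1600000 in
/-- one dyadic block -/
theorem dbirth_block : ∃ C : ℝ, 0 < C ∧ ∀ (θ α t K0 Y : ℝ) (u : ℤ) (w : ℕ), 1 ≤ w → (w:ℝ) ≤ t →
    1 ≤ K0 → K0 ≤ t → t ^ 4 ≤ Y → 16 ≤ Y →
    ∀ F : Finset ℕ, (∀ p ∈ F, p.Prime ∧ Y < p ∧ (p:ℝ) ≤ 2 * Y ∧
      (∃ m : ℤ, |(p:ℝ) * θ - α - m| ≤ 1 / t) ∧ K0 ≤ t * p * |θ - u / w| ∧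
      t * p * |θ - u / w| ≤ (p:ℝ) ^ (1 / 4 : ℝ)) →
    (F.card : ℝ) ≤ C / K0 * (Y / Real.log Y) := by
  classical
  obtain ⟨C1, hC1, hap⟩ := ap_count
  refine ⟨84 * C1, by positivity, fun θ α t K0 Y u w hw1 hwt hK ht hY hY16 F hF => ?_⟩
  have ht1 : 1 ≤ t := hK.trans ht
  have ht0 : 0 < t := by linarith
  have hK0 : 0 < K0 := by linarith
  have hY0 : 0 < Y := by linarith
  set s : ℝ := Real.sqrt Y with hs
  set r : ℝ := Real.sqrt s with hr
  have hs2 : s ^ 2 = Y := Real.sq_sqrt hY0.le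
  have hs0 : 0 < s := Real.sqrt_pos.2 hY0
  have hr2 : r ^ 2 = s := Real.sq_sqrt hs0.le
  have hr0 : 0 < r := Real.sqrt_pos.2 hs0
  have hr4 : r ^ 4 = Y := by rw [← hs2, ← hr2]; ring
  have hs4 : 4 ≤ s := by
    rw [hs]; exact Real.le_sqrt_of_sq_le (by linarith)
  have hrr : 2 ≤ r := by
    rw [hr]; exact Real.le_sqrt_of_sq_le (by linarith)
  have htr : t ≤ r := by
    have h1 : t ^ 4 ≤ r ^ 4 := by rw [hr4]; exact hY
    exact le_of_pow_le_pow_left₀ (by norm_num) hr0.le h1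
  have hlogY : 0 < Real.log Y := Real.log_pos (by linarith)
  have hlogr : Real.log r = Real.log Y / 4 := by
    rw [← hr4, Real.log_pow]; push_cast; ring
  have hw0 : (0:ℝ) < w := by exact_mod_cast hw1
  have hwr : (w:ℝ) ≤ r := hwt.trans htr
  set β : ℝ := θ - u / w with hβ
  have hθ : θ = u / w + β := by rw [hβ]; ring
  rcases F.eq_empty_or_nonempty with rfl | ⟨p0, hp0⟩
  · simp only [Finset.card_empty, Nat.cast_zero]; positivity
  have hb : K0 / (2 * Y * t) ≤ |β| := by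
    obtain ⟨_, h2, h3, _, h4, _⟩ := hF p0 hp0
    rw [div_le_iff₀ (by positivity)]
    have h5 : t * (p0:ℝ) * |β| ≤ t * (2 * Y) * |β| :=
      mul_le_mul_of_nonneg_right (mul_le_mul_of_nonneg_left h3 ht0.le) (abs_nonneg _)
    linarith
  have hb0 : 0 < |β| := lt_of_lt_of_le (by positivity) hb
  set b : ℝ := |β| with hbdef
  have hφ : (0:ℝ) < Nat.totient w := by exact_mod_cast Nat.totient_pos.2 (by omega)
  -- upper bound of `b`
  have hbu : t * Y * b ≤ 2 * r := by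
    obtain ⟨_, h2, h3, _, _, h4⟩ := hF p0 hp0
    have h5 : t * Y * b ≤ t * p0 * b :=
      mul_le_mul_of_nonneg_right (mul_le_mul_of_nonneg_left h2.le ht0.le) hb0.le
    have h6 : (p0:ℝ) ^ (1 / 4 : ℝ) ≤ 2 * r := by
      have h7 : (p0:ℝ) ≤ (2 * r) ^ 4 := by
        have : (2 * r) ^ 4 = 16 * Y := by rw [mul_pow, hr4]; norm_num
        rw [this]; linarith
      calc (p0:ℝ) ^ (1 / 4 : ℝ) ≤ ((2 * r) ^ 4) ^ (1 / 4 : ℝ) :=
            Real.rpow_le_rpow (by positivity) h7 (by norm_num)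
        _ = 2 * r := by
            rw [← Real.rpow_natCast, ← Real.rpow_mul (by positivity)]
            norm_num
    linarith
  -- 1 / (t b) ≥ r w
  have hrw : r * w ≤ 1 / (t * b) := by
    rw [le_div_iff₀ (by positivity)]
    have h1 : t * b * Y ≤ 2 * r := by linarith
    have h2 : t * b * r ^ 4 ≤ 2 * r := by rw [hr4]; exact h1
    have h3 : t * b * r ^ 3 ≤ 2 := by
      have : t * b * r ^ 3 * r ≤ 2 * r := by nlinarith
      exact le_of_mul_le_mul_right this hr0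
    have h4 : r * w * (t * b) ≤ r * r * (t * b) :=
      mul_le_mul_of_nonneg_right (mul_le_mul_of_nonneg_left hwr hr0.le) (by positivity)
    have h5 : r * r * (t * b) * 2 ≤ t * b * r ^ 3 := by
      have h6 : 0 ≤ t * b * (r * r) := by positivity
      nlinarith
    linarith
  have hw1r : (1:ℝ) ≤ w := by exact_mod_cast hw1
  have hone : 1 ≤ 1 / (t * b) := by nlinarith
  choose! m hm using fun p (hp : p ∈ F) => (hF p hp).2.2.2.1
  set H : ℝ := 2 / (t * b) + 1 with hHdef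
  have hH0 : 0 < H := by positivity
  have e2 : 2 / (t * b) = 2 * (1 / (t * b)) := by ring
  have hH3 : H ≤ 3 * (1 / (t * b)) := by rw [hHdef, e2]; linarith
  have hrH : r * w ≤ H := by rw [hHdef, e2]; linarith [show 0 < 1 / (t * b) by positivity]
  have hwH2 : 2 * (w:ℝ) ≤ H := by nlinarith
  have hlogH : Real.log Y / 4 ≤ Real.log (H / w) := by
    rw [← hlogr]
    refine Real.log_le_log hr0 ?_
    rw [le_div_iff₀ hw0]; linarith
  set R1 : ℝ := C1 / Nat.totient w * (3 * (1 / (t * b)) * 4 / Real.log Y) with hR1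
  have hR10 : 0 ≤ R1 := by positivity
  -- the common equation
  have hkey : ∀ p ∈ F, |(p:ℝ) * β - (α + (m p - (p / w : ℕ) * u : ℤ) -
      ((p % w : ℕ) : ℝ) * (u / w))| ≤ 1 / t := by
    intro p hp
    have h1 := hm p hp
    have hdm := Nat.div_add_mod p w
    obtain ⟨k, hk⟩ : ∃ k, k = p / w := ⟨_, rfl⟩
    rw [← hk] at hdm ⊢
    have e1 : ((p % w : ℕ) : ℝ) = p - k * w := by
      have h2 : ((w * k + p % w : ℕ) : ℝ) = p := by rw [hdm]
      rw [Nat.cast_add, Nat.cast_mul] at h2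
      linarith
    have e3 : (p:ℝ) * β - (α + (m p - (k:ℕ) * u : ℤ) - ((p % w : ℕ) : ℝ) * (u / w)) =
        (p:ℝ) * θ - α - m p := by
      rw [e1, hθ]; push_cast; field_simp; ring
    rw [e3]; exact h1
  have h1 : (F.card : ℝ) ≤ ((Finset.range w).filter w.Coprime).card *
      ((Y * b + 3) * R1) := by
    refine card_le_real F _ (fun p => p % w) (fun p hp => ?_) _ fun c _ => ?_
    · obtain ⟨hpp, hYp, _⟩ := hF p hp
      rw [Finset.mem_filter, Finset.mem_range]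
      refine ⟨Nat.mod_lt _ (by omega), ?_⟩
      have h1 : Nat.Coprime p w := by
        rw [Nat.Prime.coprime_iff_not_dvd hpp]
        intro hd
        have h2 := Nat.le_of_dvd (by omega) hd
        have h3 : (p:ℝ) ≤ w := by exact_mod_cast h2
        have h4 : r ≤ Y := by
          rw [← hr4]
          nlinarith [pow_le_pow_left₀ (by norm_num : (0:ℝ) ≤ 2) hrr 3]
        linarith
      unfold Nat.Coprime at h1 ⊢
      rw [Nat.gcd_comm, ← Nat.gcd_rec, Nat.gcd_comm]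
      exact h1
    · set G := F.filter (fun p => p % w = c) with hG
      set f : ℕ → ℤ := fun p => m p - (p / w : ℕ) * u with hf
      have h2 : (G.card : ℝ) ≤ (G.image f).card * R1 := by
        refine card_le_real G _ f (fun p hp => Finset.mem_image_of_mem _ hp) _ fun j _ => ?_
        set E := G.filter (fun p => f p = j) with hE
        rcases E.eq_empty_or_nonempty with h0 | hne
        · rw [h0]; simpa using hR10
        set p1 := E.min' hne with hp1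
        have hp1E : p1 ∈ E := Finset.min'_mem _ _
        have hEF : ∀ p ∈ E, p ∈ F ∧ p % w = c ∧ f p = j := by
          intro p hp
          rw [hE, Finset.mem_filter, hG, Finset.mem_filter] at hp
          exact ⟨hp.1.1, hp.1.2, hp.2⟩
        obtain ⟨hp1F, hp1c, hp1j⟩ := hEF p1 hp1E
        have h3 := hap w p1 hw1 ((p1:ℝ) - 1) H (by
          have := (hF p1 hp1F).2.1
          linarith) hwH2 E fun p hp => ?_
        · refine h3.trans ?_
          rw [hR1]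
          refine mul_le_mul_of_nonneg_left ?_ (by positivity)
          have h4 : 0 < Real.log (H / w) := lt_of_lt_of_le (by positivity) hlogH
          calc H / Real.log (H / w) ≤ (3 * (1 / (t * b))) / (Real.log Y / 4) :=
                div_le_div₀ (by positivity) hH3 (by positivity) hlogH
            _ = _ := by field_simp
        · obtain ⟨hpF, hpc, hpj⟩ := hEF p hp
          have h4 := hkey p hpF
          have h5 := hkey p1 hp1F
          rw [hpc] at h4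
          rw [hp1c] at h5
          have e4 : (m p - (p / w : ℕ) * u : ℤ) = j := hpj
          have e5 : (m p1 - (p1 / w : ℕ) * u : ℤ) = j := hp1j
          rw [e4] at h4
          rw [e5] at h5
          have h6 : |((p:ℝ) - p1) * β| ≤ 2 / t := by
            have e6 : ((p:ℝ) - p1) * β = ((p:ℝ) * β - (α + j - (c:ℝ) * (u / w))) -
                ((p1:ℝ) * β - (α + j - (c:ℝ) * (u / w))) := by ring
            rw [e6]
            refine (abs_sub _ _).trans ?_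
            have e7 : 2 / t = 1 / t + 1 / t := by ring
            rw [e7]
            exact add_le_add h4 h5
          have hle : (p1:ℝ) ≤ p := by exact_mod_cast Finset.min'_le E p hp
          rw [abs_mul, abs_of_nonneg (by linarith : (0:ℝ) ≤ (p:ℝ) - p1)] at h6
          have h7 : (p:ℝ) - p1 ≤ 2 / (t * b) := by
            rw [le_div_iff₀ (by positivity)]
            rw [le_div_iff₀ ht0] at h6
            linarith
          refine ⟨(hF p hpF).1, by linarith, by rw [hHdef]; linarith, by rw [hpc, hp1c]⟩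
      have h3 : ((G.image f).card : ℝ) ≤ Y * b + 3 := by
        have h4 := card_int_le (G.image f) (3 / 2 * Y * β + (c:ℝ) * (u / w) - α)
          (Y * b / 2 + 1 / t) (by positivity) fun j hj => ?_
        · have h5 : 1 / t ≤ 1 := by rw [div_le_one ht0]; exact ht1
          linarith
        · obtain ⟨p, hp, rfl⟩ := Finset.mem_image.1 hj
          rw [hG, Finset.mem_filter] at hp
          have h5 := hkey p hp.1
          rw [hp.2] at h5
          obtain ⟨_, h6, h7, _⟩ := hF p hp.1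
          have h8 : |((p:ℝ) - 3 / 2 * Y) * β| ≤ Y * b / 2 := by
            rw [abs_mul]
            have h9 : |(p:ℝ) - 3 / 2 * Y| ≤ Y / 2 := by
              rw [abs_le]; constructor <;> linarith
            calc |(p:ℝ) - 3 / 2 * Y| * |β| ≤ Y / 2 * b :=
                  mul_le_mul_of_nonneg_right h9 (abs_nonneg _)
              _ = Y * b / 2 := by ring
          have e6 : ((f p : ℤ) : ℝ) - (3 / 2 * Y * β + (c:ℝ) * (u / w) - α) =
              ((p:ℝ) - 3 / 2 * Y) * β -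
              ((p:ℝ) * β - (α + (m p - (p / w : ℕ) * u : ℤ) - (c:ℝ) * (u / w))) := by
            rw [hf]; ring
          rw [e6]
          exact (abs_sub _ _).trans (add_le_add h8 h5)
      exact h2.trans (mul_le_mul_of_nonneg_right h3 hR10)
  rw [← Nat.totient_eq_card_coprime] at h1
  have h2 : 1 / (t * b) ≤ 2 * Y / K0 := by
    rw [div_le_div_iff₀ (by positivity) hK0]
    rw [div_le_iff₀ (by positivity)] at hb
    linarith
  calc (F.card : ℝ) ≤ Nat.totient w * ((Y * b + 3) * R1) := h1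
    _ = 12 * C1 * (Y / t + 3 * (1 / (t * b))) / Real.log Y := by
        rw [hR1]; field_simp; ring
    _ ≤ 12 * C1 * (Y / K0 + 3 * (2 * Y / K0)) / Real.log Y := by
        refine div_le_div_of_nonneg_right ?_ hlogY.le
        refine mul_le_mul_of_nonneg_left ?_ (by positivity)
        have h3 : Y / t ≤ Y / K0 := div_le_div_of_nonneg_left hY0.le hK0 ht
        linarith
    _ = 84 * C1 / K0 * (Y / Real.log Y) := by field_simp; ring

/-- **displacement births are rare**: primes `p ∈ (X, X²]` with `p θ` in an arc of length `2/t` and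
`K0 ≤ t p |θ - u/w| ≤ p^(1/4)`, `w ≤ t` -/
theorem dbirth : ∃ C : ℝ, 0 < C ∧ ∀ (θ α t K0 X : ℝ) (u : ℤ) (w : ℕ), 1 ≤ w → (w:ℝ) ≤ t →
    1 ≤ K0 → K0 ≤ t → t ^ 4 ≤ X → 16 ≤ X →
    ∀ F : Finset ℕ, (∀ p ∈ F, p.Prime ∧ X < p ∧ (p:ℝ) ≤ X ^ 2 ∧
      (∃ m : ℤ, |(p:ℝ) * θ - α - m| ≤ 1 / t) ∧ K0 ≤ t * p * |θ - u / w| ∧
      t * p * |θ - u / w| ≤ (p:ℝ) ^ (1 / 4 : ℝ)) →
    ∑ p ∈ F, (1:ℝ) / p ≤ C / K0 := by
  obtain ⟨C, hC, hbl⟩ := dbirth_block
  refine ⟨3 * C, by positivity, fun θ α t K0 X u w hw hwt hK ht htX hX F hF => ?_⟩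
  have hK0 : 0 < K0 := by linarith
  have h := sum_blocks (D := C / K0) (by positivity) hX F
    (fun p hp => ⟨(hF p hp).2.1, (hF p hp).2.2.1⟩) fun Y hXY G hG hGY => ?_
  · calc _ ≤ 3 * (C / K0) := h
      _ = 3 * C / K0 := by ring
  · exact hbl θ α t K0 Y u w hw hwt hK ht (htX.trans hXY) (hX.trans hXY) G fun p hp => by
      obtain ⟨h1, _, _, h2, h3, h4⟩ := hF p (hG hp)
      exact ⟨h1, (hGY p hp).1, (hGY p hp).2, h2, h3, h4⟩

end Crest.Agent.R4C.DBirthx617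
end

-- ▼ part R4C/DispRare_617
section

/-!
# Row 4, GW section: DispRare of BLOCK NH (note 3754 (4)); helper617

`OnD K y τ` : `y` has a fraction `a/k` with `k max(1, τ |y - a/k|) < K`.

`disprare` : `τ ≥ 16`, `K ≥ 1`, `K^64 ≤ τ`, `0 ≤ del ≤ 1/8`; `F` primes `> τ^8`, each `p ∈ F` with
`OnD K (p y) τ`, `¬ OnD K y (τ p)` and some `a/k`, `k^2 ≤ τ`, `k max(1, τ p |y - a/k|) < 3 p^del`:
then `∑_{p ∈ F} 1/p ≤ C τ^(-1/8)`.
-/

set_option autoImplicit false

namespace Crest.Agent.R4C.DispRarex617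

open Finset Crest.Agent.R4C.DBirthx617

/-- depth `< K` at scale `τ` -/
def OnD (K y τ : ℝ) : Prop :=
  ∃ (a : ℤ) (k : ℕ), 1 ≤ k ∧ (k:ℝ) * max 1 (τ * |y - a / k|) < K

/-- two fractions are equal or far apart -/
lemma frac_sep {a a' : ℤ} {k k' : ℕ} (hk : 1 ≤ k) (hk' : 1 ≤ k')
    (h : (a:ℝ) / k ≠ a' / k') : 1 / ((k:ℝ) * k') ≤ |(a:ℝ) / k - a' / k'| := by
  have hk0 : (0:ℝ) < k := by exact_mod_cast hk
  have hk0' : (0:ℝ) < k' := by exact_mod_cast hk'
  have e : (a:ℝ) / k - a' / k' = ((a * k' - a' * k : ℤ) : ℝ) / (k * k') := by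
    push_cast; field_simp
  have hne : (a * k' - a' * k : ℤ) ≠ 0 := by
    intro h0
    apply h
    rw [div_eq_div_iff hk0.ne' hk0'.ne']
    have : (a * k' : ℤ) = a' * k := by linarith
    exact_mod_cast this
  have h1 : (1:ℝ) ≤ |((a * k' - a' * k : ℤ) : ℝ)| := by
    rw [← Int.cast_abs]
    exact_mod_cast Int.one_le_abs hne
  rw [e, abs_div, abs_of_pos (mul_pos hk0 hk0')]
  exact div_le_div_of_nonneg_right h1 (by positivity)

/-- reduced form: `p a / k = a' / k'` with `p` prime `> k` gives `a/k = b/j`, `j ≤ k'` -/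
lemma reduce {a a' : ℤ} {k k' p : ℕ} (hk : 1 ≤ k) (hk' : 1 ≤ k') (hp : p.Prime) (hpk : k < p)
    (h : (p:ℝ) * (a / k) = a' / k') : ∃ (b : ℤ) (j : ℕ), 1 ≤ j ∧ j ≤ k' ∧ (a:ℝ) / k = b / j := by
  have hk0 : (k:ℝ) ≠ 0 := by positivity
  have hk0' : (k':ℝ) ≠ 0 := by positivity
  set q : ℚ := (a:ℚ) / k with hq
  have hqr : (q:ℝ) = (a:ℝ) / k := by rw [hq]; push_cast; ring
  refine ⟨q.num, q.den, q.den_pos, ?_, ?_⟩
  · have hden : q.den ∣ k := by
      have h1 : ((q.den : ℕ) : ℤ) ∣ (k:ℤ) := by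
        have h2 := Rat.den_dvd a (k:ℤ)
        have e : Rat.divInt a (k:ℤ) = q := by rw [Rat.divInt_eq_div, hq]; push_cast; rfl
        rwa [e] at h2
      exact_mod_cast h1
    have hpd : Nat.Coprime p q.den := by
      rw [Nat.Prime.coprime_iff_not_dvd hp]
      intro hd
      have := Nat.le_of_dvd (by omega) (hd.trans hden)
      omega
    -- p * num * k' = a' * den
    have h3 : (p:ℝ) * q.num * k' = a' * q.den := by
      have e1 : (a:ℝ) / k = (q.num : ℝ) / q.den := by rw [← hqr, Rat.cast_def]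
      rw [e1] at h
      have hd0 : (q.den : ℝ) ≠ 0 := by
        have := q.den_pos
        positivity
      field_simp at h
      linarith
    have h4 : (p:ℤ) * q.num * k' = a' * q.den := by exact_mod_cast h3
    have h5 : (q.den : ℤ) ∣ (p:ℤ) * q.num * k' := ⟨a', by rw [h4]; ring⟩
    have h6 : IsCoprime (q.den : ℤ) ((p:ℤ) * q.num) := by
      refine IsCoprime.mul_right ?_ ?_
      · exact (Nat.isCoprime_iff_coprime.2 hpd).symm
      · have h7 := q.reduced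
        rw [Int.isCoprime_iff_gcd_eq_one, Int.gcd_comm]
        unfold Nat.Coprime at h7
        rw [Int.gcd_def]
        simpa using h7
    have h7 : (q.den : ℤ) ∣ (k':ℤ) := h6.dvd_of_dvd_mul_left h5
    exact Nat.le_of_dvd (by omega) (by exact_mod_cast h7)
  · rw [← hqr, Rat.cast_def]

set_option maxHeartbeats 1000000 in
/-- **displacement births are rare** (BLOCK NH (4)) -/
theorem disprare : ∃ C : ℝ, 0 < C ∧ ∀ (y τ K del : ℝ), 16 ≤ τ → 1 ≤ K → K ^ 64 ≤ τ →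
    del ≤ 1 / 8 → ∀ F : Finset ℕ, (∀ p ∈ F, p.Prime ∧ τ ^ 8 < p ∧ OnD K (p * y) τ ∧
      ¬ OnD K y (τ * p) ∧ ∃ (a : ℤ) (k : ℕ), 1 ≤ k ∧ (k:ℝ) ^ 2 ≤ τ ∧
        (k:ℝ) * max 1 (τ * p * |y - a / k|) < 3 * (p:ℝ) ^ del) →
    ∑ p ∈ F, (1:ℝ) / p ≤ C * τ ^ (-(1 / 8) : ℝ) := by
  classical
  obtain ⟨C, hC, hdb⟩ := dbirth
  refine ⟨4 * C, by positivity, fun y τ K del hτ hK hKτ hdel F hF => ?_⟩
  have hτ0 : 0 < τ := by linarith
  have hK0 : 0 < K := by linarith
  have hτ1 : 1 ≤ τ := by linarith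
  rcases F.eq_empty_or_nonempty with rfl | ⟨p0, hp0⟩
  · simp only [Finset.sum_empty]; positivity
  -- powers of τ : r = τ^(1/64), τ = r^64
  set r : ℝ := τ ^ (1 / 64 : ℝ) with hr
  have hr0 : 0 < r := Real.rpow_pos_of_pos hτ0 _
  have hr64 : r ^ 64 = τ := by
    rw [hr, ← Real.rpow_natCast, ← Real.rpow_mul hτ0.le]; norm_num
  have hr1 : 1 ≤ r := Real.one_le_rpow hτ1 (by norm_num)
  have hKr : K ≤ r := by
    have : K ^ 64 ≤ r ^ 64 := by rw [hr64]; exact hKτ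
    exact le_of_pow_le_pow_left₀ (by norm_num) hr0.le this
  have hr16 : 2 ≤ r ^ 16 := by
    have h1 : (2:ℝ) ^ 4 ≤ (r ^ 16) ^ 4 := by
      rw [← pow_mul, show 16 * 4 = 64 by norm_num, hr64]; linarith
    exact le_of_pow_le_pow_left₀ (by norm_num) (by positivity) h1
  have hpow : ∀ {m n : ℕ}, m ≤ n → r ^ m ≤ r ^ n := fun h => pow_le_pow_right₀ hr1 h
  -- facts for one prime
  have hp1 : ∀ p ∈ F, r ^ 512 < p := by
    intro p hp
    have := (hF p hp).2.1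
    rw [← hr64, ← pow_mul] at this
    exact this
  choose! a k hk1 hk2 hk3 using fun p (hp : p ∈ F) => (hF p hp).2.2.2.2
  have hk32 : ∀ p ∈ F, (k p : ℝ) ≤ r ^ 32 := by
    intro p hp
    have h1 : (k p : ℝ) ^ 2 ≤ (r ^ 32) ^ 2 := by
      rw [← pow_mul, show 32 * 2 = 64 by norm_num, hr64]; exact hk2 p hp
    exact le_of_pow_le_pow_left₀ (by norm_num) (by positivity) h1
  have hkp : ∀ p ∈ F, k p < p := by
    intro p hp
    have h1 : ((k p : ℕ) : ℝ) < p :=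
      lt_of_le_of_lt ((hk32 p hp).trans (hpow (by norm_num))) (hp1 p hp)
    exact_mod_cast h1
  -- 3 p^del ≤ p^(1/4) / r^?
  have hpd : ∀ p ∈ F, 3 * (p:ℝ) ^ del ≤ (p:ℝ) ^ (1 / 4 : ℝ) := by
    intro p hp
    have hpp : 0 < (p:ℝ) := lt_trans (by positivity) (hp1 p hp)
    have hpge : (1:ℝ) ≤ p := (one_le_pow₀ hr1).trans (hp1 p hp).le
    have h1 : (3:ℝ) ≤ (p:ℝ) ^ (1 / 8 : ℝ) := by
      have h2 : (r ^ 512) ^ (1 / 8 : ℝ) ≤ (p:ℝ) ^ (1 / 8 : ℝ) :=
        Real.rpow_le_rpow (by positivity) (hp1 p hp).le (by norm_num)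
      have h3 : (r ^ 512) ^ (1 / 8 : ℝ) = τ := by
        rw [← Real.rpow_natCast, ← Real.rpow_mul hr0.le, ← hr64, ← Real.rpow_natCast]
        norm_num
      rw [h3] at h2
      linarith
    have h4 : (p:ℝ) ^ del ≤ (p:ℝ) ^ (1 / 8 : ℝ) := Real.rpow_le_rpow_of_exponent_le hpge hdel
    calc 3 * (p:ℝ) ^ del ≤ (p:ℝ) ^ (1 / 8 : ℝ) * (p:ℝ) ^ (1 / 8 : ℝ) :=
          mul_le_mul h1 h4 (by positivity) (by positivity)
      _ = (p:ℝ) ^ (1 / 4 : ℝ) := by rw [← Real.rpow_add hpp]; norm_num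
  -- upper bound of the displacement
  have hup : ∀ p ∈ F, τ * p * |y - a p / k p| ≤ (p:ℝ) ^ (1 / 4 : ℝ) := by
    intro p hp
    have h1 := hk3 p hp
    have h2 : (1:ℝ) ≤ k p := by exact_mod_cast hk1 p hp
    have h3 := le_max_right 1 (τ * p * |y - a p / k p|)
    have h4 := le_max_left 1 (τ * p * |y - a p / k p|)
    have h5 := hpd p hp
    have h6 : 1 * max 1 (τ * p * |y - a p / k p|) ≤ k p * max 1 (τ * p * |y - a p / k p|) :=
      mul_le_mul_of_nonneg_right h2 (by linarith)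
    linarith
  -- the fractions coincide
  have hpr : ∀ p ∈ F, (p:ℝ) ^ (1 / 4 : ℝ) * r ^ 384 ≤ p := by
    intro p hp
    have hpp : 0 < (p:ℝ) := lt_trans (by positivity) (hp1 p hp)
    have h2 : (r ^ 512) ^ (3 / 4 : ℝ) ≤ (p:ℝ) ^ (3 / 4 : ℝ) :=
      Real.rpow_le_rpow (by positivity) (hp1 p hp).le (by norm_num)
    have h3 : (r ^ 512) ^ (3 / 4 : ℝ) = r ^ 384 := by
      rw [← Real.rpow_natCast, ← Real.rpow_mul hr0.le, ← Real.rpow_natCast]
      norm_num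
    rw [h3] at h2
    calc (p:ℝ) ^ (1 / 4 : ℝ) * r ^ 384 ≤ (p:ℝ) ^ (1 / 4 : ℝ) * (p:ℝ) ^ (3 / 4 : ℝ) :=
          mul_le_mul_of_nonneg_left h2 (by positivity)
      _ = p := by rw [← Real.rpow_add hpp]; norm_num
  have hη : ∀ p ∈ F, |y - a p / k p| * r ^ 448 ≤ 1 := by
    intro p hp
    have hpp : 0 < (p:ℝ) := lt_trans (by positivity) (hp1 p hp)
    have h1 := hup p hp
    have h2 := hpr p hp
    have h3 : τ * p * |y - a p / k p| * r ^ 384 ≤ p :=
      (mul_le_mul_of_nonneg_right h1 (by positivity)).trans h2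
    have h4 : (|y - a p / k p| * r ^ 448) * p ≤ 1 * p := by
      calc (|y - a p / k p| * r ^ 448) * p = (r ^ 64) * p * |y - a p / k p| * r ^ 384 := by ring
        _ = τ * p * |y - a p / k p| * r ^ 384 := by rw [hr64]
        _ ≤ 1 * p := by linarith
    exact le_of_mul_le_mul_right h4 hpp
  have heq : ∀ p ∈ F, (a p : ℝ) / k p = a p0 / k p0 := by
    intro p hp
    by_contra hne
    have h1 := frac_sep (hk1 p hp) (hk1 p0 hp0) hne
    have h2 : |(a p : ℝ) / k p - a p0 / k p0| ≤ |y - a p / k p| + |y - a p0 / k p0| := by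
      have e : (a p : ℝ) / k p - a p0 / k p0 = (y - a p0 / k p0) - (y - a p / k p) := by ring
      rw [e]
      refine (abs_sub _ _).trans (by linarith)
    have h3 := hη p hp
    have h4 := hη p0 hp0
    have hkk : (k p : ℝ) * k p0 ≤ r ^ 64 := by
      calc (k p : ℝ) * k p0 ≤ r ^ 32 * r ^ 32 :=
            mul_le_mul (hk32 p hp) (hk32 p0 hp0) (by positivity) (by positivity)
        _ = r ^ 64 := by ring
    have hkk0 : 0 < (k p : ℝ) * k p0 := by
      have h5 : (1:ℝ) ≤ k p := by exact_mod_cast hk1 p hp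
      have h6 : (1:ℝ) ≤ k p0 := by exact_mod_cast hk1 p0 hp0
      nlinarith
    have h5 : 1 / r ^ 64 ≤ 1 / ((k p : ℝ) * k p0) := one_div_le_one_div_of_le hkk0 hkk
    have h6 : 1 / r ^ 64 ≤ |y - a p / k p| + |y - a p0 / k p0| := h5.trans (h1.trans h2)
    rw [div_le_iff₀ (by positivity)] at h6
    have h7 : (|y - a p / k p| + |y - a p0 / k p0|) * r ^ 448 ≤ 2 := by nlinarith
    have h8 : r ^ 384 ≤ 2 := by
      calc r ^ 384 = 1 * r ^ 384 := by ring
        _ ≤ ((|y - a p / k p| + |y - a p0 / k p0|) * r ^ 64) * r ^ 384 :=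
            mul_le_mul_of_nonneg_right h6 (by positivity)
        _ = (|y - a p / k p| + |y - a p0 / k p0|) * r ^ 448 := by ring
        _ ≤ 2 := h7
    have h9 : (2:ℝ) < r ^ 384 := by
      calc (2:ℝ) < 2 * 2 := by norm_num
        _ ≤ r ^ 16 * r ^ 16 := mul_le_mul hr16 hr16 (by norm_num) (by positivity)
        _ = r ^ 32 := by ring
        _ ≤ r ^ 384 := hpow (by norm_num)
    linarith
  set u : ℤ := a p0 with hu
  set w : ℕ := k p0 with hw
  have hw1 : 1 ≤ w := hk1 p0 hp0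
  have hwr : (w:ℝ) ≤ r ^ 32 := hk32 p0 hp0
  set η : ℝ := |y - u / w| with hηd
  have hηp : ∀ p ∈ F, τ * p * η ≤ (p:ℝ) ^ (1 / 4 : ℝ) := by
    intro p hp
    have h1 := hup p hp
    rw [heq p hp] at h1
    exact h1
  -- lower bound of the displacement
  have hlow : ∀ p ∈ F, r ^ 16 ≤ τ * p * η := by
    intro p hp
    obtain ⟨hpp, _, ⟨a', k', hk', hon⟩, hnot, _⟩ := hF p hp
    have hk'0 : (0:ℝ) < k' := by exact_mod_cast hk'
    have hm1 := le_max_left 1 (τ * |p * y - a' / k'|)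
    have hm2 := le_max_right 1 (τ * |p * y - a' / k'|)
    have hk'K : (k':ℝ) < K := by nlinarith
    have hd : τ * |p * y - a' / k'| * k' < K := by nlinarith
    by_cases hE : (p:ℝ) * (u / w) = a' / k'
    · exfalso
      obtain ⟨b, j, hj1, hjk, hbj⟩ := reduce hw1 hk' hpp (by
        have h1 : ((w : ℕ) : ℝ) < p :=
          lt_of_le_of_lt (hwr.trans (hpow (by norm_num))) (hp1 p hp)
        exact_mod_cast h1) hE
      apply hnot
      refine ⟨b, j, hj1, ?_⟩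
      have hp0' : (0:ℝ) < p := by exact_mod_cast hpp.pos
      have e1 : τ * p * |y - b / j| = τ * |p * y - a' / k'| := by
        rw [← hbj, ← hE]
        have : (p:ℝ) * y - p * (u / w) = p * (y - u / w) := by ring
        rw [this, abs_mul, abs_of_pos hp0']
        ring
      rw [e1]
      refine lt_of_le_of_lt ?_ hon
      refine mul_le_mul_of_nonneg_right ?_ (by linarith)
      exact_mod_cast hjk
    · have hE' : (((p:ℤ) * u : ℤ) : ℝ) / w ≠ a' / k' := by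
        intro h0; apply hE; rw [← h0]; push_cast; ring
      have h1 := frac_sep hw1 hk' hE'
      have hpp0 : (0:ℝ) < p := by exact_mod_cast hpp.pos
      have h2 : |(((p:ℤ) * u : ℤ) : ℝ) / w - a' / k'| ≤ p * η + |p * y - a' / k'| := by
        have e : (((p:ℤ) * u : ℤ) : ℝ) / w - a' / k' =
            (p * y - a' / k') - p * (y - u / w) := by push_cast; ring
        rw [e]
        refine (abs_sub _ _).trans ?_
        rw [abs_mul, abs_of_pos hpp0]
        linarith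
      have hw0 : (0:ℝ) < w := by exact_mod_cast hw1
      -- multiply by τ w k'
      have h3 : 1 ≤ (p * η + |p * y - a' / k'|) * (w * k') := by
        have h4 := h1.trans h2
        rwa [div_le_iff₀ (by positivity)] at h4
      have h4 : τ ≤ (τ * p * η) * (w * k') + w * (τ * |p * y - a' / k'| * k') := by
        nlinarith
      have h5 : w * (τ * |p * y - a' / k'| * k') ≤ r ^ 32 * K :=
        mul_le_mul hwr hd.le (by positivity) (by positivity)
      have h6 : (τ * p * η) * (w * k') ≤ (τ * p * η) * (r ^ 32 * K) := by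
        refine mul_le_mul_of_nonneg_left ?_ (by positivity)
        exact mul_le_mul hwr hk'K.le (by positivity) (by positivity)
      have h7 : r ^ 32 * K ≤ r ^ 33 := by
        calc r ^ 32 * K ≤ r ^ 32 * r := mul_le_mul_of_nonneg_left hKr (by positivity)
          _ = r ^ 33 := by ring
      have h8 : (τ * p * η) * (r ^ 32 * K) ≤ (τ * p * η) * r ^ 33 :=
        mul_le_mul_of_nonneg_left h7 (by positivity)
      have h9 : r ^ 64 ≤ (τ * p * η) * r ^ 33 + r ^ 33 := by rw [hr64]; linarith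
      have h10 : r ^ 31 ≤ τ * p * η + 1 := by
        have : r ^ 31 * r ^ 33 ≤ (τ * p * η + 1) * r ^ 33 := by
          calc r ^ 31 * r ^ 33 = r ^ 64 := by ring
            _ ≤ _ := by linarith
        exact le_of_mul_le_mul_right this (by positivity)
      have h11 : r ^ 16 + 1 ≤ r ^ 31 := by
        have h12 : (3 / 2 : ℝ) ≤ r ^ 15 := by
          have h13 : (3 / 2 : ℝ) ^ 16 ≤ (r ^ 15) ^ 16 := by
            calc (3 / 2 : ℝ) ^ 16 ≤ 2 ^ 15 := by norm_num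
              _ ≤ (r ^ 16) ^ 15 := pow_le_pow_left₀ (by norm_num) hr16 15
              _ = (r ^ 15) ^ 16 := by ring
          exact le_of_pow_le_pow_left₀ (by norm_num) (by positivity) h13
        have e : r ^ 31 = r ^ 16 * r ^ 15 := by ring
        rw [e]
        nlinarith
      linarith
  have hη0 : 0 < η := by
    have h1 := hlow p0 hp0
    have h2 : 0 < τ * p0 * η := lt_of_lt_of_le (by positivity) h1
    have h3 : 0 < (p0:ℝ) := lt_trans (by positivity) (hp1 p0 hp0)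
    exact (pos_iff_pos_of_mul_pos h2).1 (by positivity)
  -- the window
  set E : ℝ := 1 / (τ * η) with hE
  have hE0 : 0 < E := by positivity
  have hE384 : r ^ 384 ≤ E := by
    have h1 := hηp p0 hp0
    have h2 := hpr p0 hp0
    have h3 : 0 < (p0:ℝ) := lt_trans (by positivity) (hp1 p0 hp0)
    rw [hE, le_div_iff₀ (by positivity)]
    have h4 : (r ^ 384 * (τ * η)) * p0 ≤ 1 * p0 := by
      calc (r ^ 384 * (τ * η)) * p0 = τ * p0 * η * r ^ 384 := by ring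
        _ ≤ (p0:ℝ) ^ (1 / 4 : ℝ) * r ^ 384 := mul_le_mul_of_nonneg_right h1 (by positivity)
        _ ≤ 1 * p0 := by linarith
    exact le_of_mul_le_mul_right h4 h3
  have hE1 : 1 ≤ E := (one_le_pow₀ hr1).trans hE384
  set X : ℝ := r ^ 16 * E / 2 with hX
  have hXE : r ^ 384 ≤ X := by
    have h1 : 2 * E ≤ r ^ 16 * E := mul_le_mul_of_nonneg_right hr16 hE0.le
    rw [hX]; linarith
  set t : ℝ := τ / K with ht
  have ht0 : 0 < t := by positivity
  have htτ : t ≤ τ := div_le_self hτ0.le hK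
  have htX : t ^ 4 ≤ X := by
    calc t ^ 4 ≤ τ ^ 4 := pow_le_pow_left₀ ht0.le htτ 4
      _ = r ^ 256 := by rw [← hr64]; ring
      _ ≤ r ^ 384 := hpow (by norm_num)
      _ ≤ X := hXE
  have hX16 : 16 ≤ X := by
    calc (16:ℝ) ≤ τ := hτ
      _ = r ^ 64 := hr64.symm
      _ ≤ r ^ 384 := hpow (by norm_num)
      _ ≤ X := hXE
  have hwin : ∀ p ∈ F, X < p ∧ (p:ℝ) ≤ X ^ 2 := by
    intro p hp
    have hpp : 0 < (p:ℝ) := lt_trans (by positivity) (hp1 p hp)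
    have h1 := hlow p hp
    have h2 := hηp p hp
    have hτη : 0 < τ * η := by positivity
    have h3 : r ^ 16 * E ≤ p := by
      rw [hE, mul_one_div, div_le_iff₀ hτη]; linarith
    constructor
    · have : 0 < r ^ 16 * E := by positivity
      rw [hX]; linarith
    · have h4 : (τ * p * η) ^ 4 ≤ p := by
        calc (τ * p * η) ^ 4 ≤ ((p:ℝ) ^ (1 / 4 : ℝ)) ^ 4 :=
              pow_le_pow_left₀ (by positivity) h2 4
          _ = p := by
              rw [← Real.rpow_natCast, ← Real.rpow_mul hpp.le]; norm_num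
      have h5 : (p:ℝ) ^ 3 ≤ E ^ 4 := by
        have h6 : (p:ℝ) ^ 3 * (τ * η) ^ 4 ≤ 1 := by
          have h7 : ((p:ℝ) ^ 3 * (τ * η) ^ 4) * (p:ℝ) ≤ 1 * (p:ℝ) := by
            have e7 : ((p:ℝ) ^ 3 * (τ * η) ^ 4) * (p:ℝ) = (τ * (p:ℝ) * η) ^ 4 := by ring
            rw [e7, one_mul]; exact h4
          exact le_of_mul_le_mul_right h7 hpp
        rw [hE, div_pow, one_pow, le_div_iff₀ (by positivity)]
        exact h6
      have h6 : (p:ℝ) ^ 3 ≤ (X ^ 2) ^ 3 := by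
        refine h5.trans ?_
        have e : (X ^ 2) ^ 3 = (r ^ 16) ^ 6 * E ^ 6 / 64 := by rw [hX]; ring
        rw [e]
        have h7 : (64:ℝ) ≤ (r ^ 16) ^ 6 := by
          calc (64:ℝ) = 2 ^ 6 := by norm_num
            _ ≤ (r ^ 16) ^ 6 := pow_le_pow_left₀ (by norm_num) hr16 6
        have h8 : E ^ 4 ≤ E ^ 6 := pow_le_pow_right₀ hE1 (by norm_num)
        have h9 : 64 * E ^ 6 ≤ (r ^ 16) ^ 6 * E ^ 6 :=
          mul_le_mul_of_nonneg_right h7 (by positivity)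
        linarith
      exact le_of_pow_le_pow_left₀ (by norm_num) (by positivity) h6
  -- the classes
  choose! a' k' hk'1 hon using fun p (hp : p ∈ F) => (hF p hp).2.2.1
  set N : ℕ := ⌈K⌉₊ with hN
  have hNK : (N:ℝ) ≤ 2 * K := by
    have := Nat.ceil_lt_add_one hK0.le
    linarith
  have hk'K : ∀ p ∈ F, (k' p : ℝ) < K := by
    intro p hp
    have h1 := hon p hp
    have h2 := le_max_left 1 (τ * |p * y - a' p / k' p|)
    have h3 : (1:ℝ) ≤ k' p := by exact_mod_cast hk'1 p hp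
    nlinarith
  have hd : ∀ p ∈ F, |p * y - a' p / k' p| ≤ 1 / t := by
    intro p hp
    have h1 := hon p hp
    have h2 := le_max_right 1 (τ * |p * y - a' p / k' p|)
    have h3 : (1:ℝ) ≤ k' p := by exact_mod_cast hk'1 p hp
    have h4 : 0 ≤ τ * |p * y - a' p / k' p| := by positivity
    rw [ht, one_div_div, le_div_iff₀ hτ0]
    nlinarith
  set cls : ℕ → ℕ × ℕ := fun p => (k' p, (a' p % (k' p : ℤ)).toNat) with hcls
  have hmem : ∀ p ∈ F, cls p ∈ Finset.range N ×ˢ Finset.range N := by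
    intro p hp
    have h1 : k' p < N := Nat.lt_ceil.2 (hk'K p hp)
    have hkz : (0:ℤ) < k' p := by exact_mod_cast hk'1 p hp
    have h2 : a' p % (k' p : ℤ) < k' p := Int.emod_lt_of_pos _ hkz
    have h3 : 0 ≤ a' p % (k' p : ℤ) := Int.emod_nonneg _ hkz.ne'
    rw [Finset.mem_product, Finset.mem_range, Finset.mem_range]
    refine ⟨h1, ?_⟩
    show (a' p % (k' p : ℤ)).toNat < N
    omega
  have hK16 : K ≤ r ^ 16 := hKr.trans (by
    calc r = r ^ 1 := (pow_one r).symm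
      _ ≤ r ^ 16 := hpow (by norm_num))
  have hcl : ∀ x ∈ Finset.range N ×ˢ Finset.range N,
      ∑ p ∈ F.filter (fun p => cls p = x), (1:ℝ) / p ≤ C / (r ^ 16 / K) := by
    rintro ⟨j, c⟩ _
    refine hdb y ((c:ℝ) / j) t (r ^ 16 / K) X u w hw1 ?_ ?_ ?_ htX hX16 _ fun p hp => ?_
    · rw [ht, le_div_iff₀ hK0]
      calc (w:ℝ) * K ≤ r ^ 32 * r := mul_le_mul hwr hKr hK0.le (by positivity)
        _ = r ^ 33 := by ring
        _ ≤ r ^ 64 := hpow (by norm_num)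
        _ = τ := hr64
    · rw [le_div_iff₀ hK0]; linarith
    · rw [ht]
      refine div_le_div_of_nonneg_right ?_ hK0.le
      rw [← hr64]; exact hpow (by norm_num)
    · rw [Finset.mem_filter] at hp
      obtain ⟨hpF, hpc⟩ := hp
      have hj : k' p = j := congrArg Prod.fst hpc
      have hc : (a' p % (k' p : ℤ)).toNat = c := congrArg Prod.snd hpc
      have hkz : (0:ℤ) < k' p := by exact_mod_cast hk'1 p hpF
      have h3 : 0 ≤ a' p % (k' p : ℤ) := Int.emod_nonneg _ hkz.ne'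
      refine ⟨(hF p hpF).1, (hwin p hpF).1, (hwin p hpF).2, ⟨a' p / (k' p : ℤ), ?_⟩, ?_, ?_⟩
      · have e1 : (a' p : ℝ) = (k' p : ℝ) * ((a' p / (k' p : ℤ) : ℤ) : ℝ) + c := by
          have h4 := Int.mul_ediv_add_emod (a' p) (k' p : ℤ)
          have h5 : ((c:ℕ):ℤ) = a' p % (k' p : ℤ) := by rw [← hc]; omega
          rw [← h5] at h4
          exact_mod_cast h4.symm
        have hk0 : (k' p : ℝ) ≠ 0 := by
          have := hk'1 p hpF
          positivity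
        have e2 : (p:ℝ) * y - (c:ℝ) / j - ((a' p / (k' p : ℤ) : ℤ) : ℝ) =
            p * y - a' p / k' p := by
          rw [e1, ← hj]; field_simp; ring
        rw [e2]
        exact hd p hpF
      · have h4 := hlow p hpF
        have e : t * p * |y - u / w| = (τ * p * η) / K := by rw [ht]; ring
        rw [e]
        exact div_le_div_of_nonneg_right h4 hK0.le
      · have h4 := hηp p hpF
        have e : t * p * |y - u / w| = (τ * p * η) / K := by rw [ht]; ring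
        rw [e]
        exact (div_le_self (by positivity) hK).trans h4
  have hsum : ∑ p ∈ F, (1:ℝ) / p ≤ (N:ℝ) ^ 2 * (C / (r ^ 16 / K)) := by
    rw [← Finset.sum_fiberwise_of_maps_to hmem]
    refine (Finset.sum_le_sum hcl).trans (le_of_eq ?_)
    rw [Finset.sum_const, Finset.card_product, Finset.card_range, nsmul_eq_mul]
    push_cast; ring
  have hτ8 : τ ^ (-(1 / 8) : ℝ) = 1 / r ^ 8 := by
    rw [Real.rpow_neg hτ0.le, ← hr64, ← Real.rpow_natCast r 64, ← Real.rpow_mul hr0.le,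
      ← Real.rpow_natCast r 8, one_div]
    norm_num
  rw [hτ8]
  have hNK2 : (N:ℝ) ^ 2 ≤ (2 * K) ^ 2 := pow_le_pow_left₀ (by positivity) hNK 2
  calc ∑ p ∈ F, (1:ℝ) / p ≤ (N:ℝ) ^ 2 * (C / (r ^ 16 / K)) := hsum
    _ ≤ (2 * K) ^ 2 * (C / (r ^ 16 / K)) := mul_le_mul_of_nonneg_right hNK2 (by positivity)
    _ = 4 * C * K ^ 3 / r ^ 16 := by field_simp; ring
    _ ≤ 4 * C * r ^ 3 / r ^ 16 := by
        refine div_le_div_of_nonneg_right ?_ (by positivity)
        exact mul_le_mul_of_nonneg_left (pow_le_pow_left₀ hK0.le hKr 3) (by positivity)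
    _ ≤ 4 * C * r ^ 8 / r ^ 16 := by
        refine div_le_div_of_nonneg_right ?_ (by positivity)
        exact mul_le_mul_of_nonneg_left (hpow (by norm_num)) (by positivity)
    _ = 4 * C * (1 / r ^ 8) := by field_simp

/-- **DispRare** in the literal form of note 3754 (4), over `NHx656.On` -/
theorem disprare_on : ∃ C c : ℝ, 0 < C ∧ 0 < c ∧ ∀ (y τ K del : ℝ), 16 ≤ τ → 1 ≤ K →
    K ^ 64 ≤ τ → del ≤ 1 / 8 → ∀ F : Finset ℕ, (∀ p ∈ F, p.Prime ∧ τ ^ 8 < p ∧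
      NHx656.On K (p * y) τ ∧ ¬ NHx656.On K y (τ * p) ∧
      ∃ (a : ℤ) (k : ℕ), 0 < k ∧ (k:ℝ) ≤ τ ^ (1 / 2 : ℝ) ∧
        (k:ℝ) * max 1 (τ * p * |y - a / k|) < 3 * (p:ℝ) ^ del) →
    ∑ p ∈ F, (1:ℝ) / p ≤ C * τ ^ (-c) := by
  obtain ⟨C, hC, h⟩ := disprare
  refine ⟨C, 1 / 8, hC, by norm_num, fun y τ K del hτ hK hKτ hdel F hF => ?_⟩
  refine h y τ K del hτ hK hKτ hdel F fun p hp => ?_
  obtain ⟨h1, h2, h3, h4, a, k, h5, h6, h7⟩ := hF p hp
  refine ⟨h1, h2, h3, h4, a, k, h5, ?_, h7⟩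
  have hτ0 : 0 ≤ τ := by linarith
  calc (k:ℝ) ^ 2 ≤ (τ ^ (1 / 2 : ℝ)) ^ 2 := pow_le_pow_left₀ (by positivity) h6 2
    _ = τ := by
        rw [← Real.rpow_natCast, ← Real.rpow_mul hτ0]; norm_num

end Crest.Agent.R4C.DispRarex617
end

-- ▼ part R4C/NCA2_516
section

/-!
# Row 4: classes (NC) and (a2) of BLOCK NH (656, note 3754), marked-letter form (helper516)

Marked letter `mk S ∈ S`, `below` / `above` = the letters of `S` below / above it.
`On K y τ` : the point `y` has a fraction of depth `< K` at scale `τ`.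
`SPst B` = statement of SP_726, `DRst` = statement of DispRare_617 (both proved: `spst`, `drst`).
* `nc_marked` : from `SPst B`, the words with a marked letter `p ≤ τ^B`, `τ = t * ∏ below`,
  `On K (p y) τ`, `¬ On K y (τ p)` (`y = ∏ above * γ`, `K` a function of the letters below) have
  natural mass `≤ C y0^{-c}` (`P ⊆ [y0, ∞)`).
* `a2_marked` : the same from `DRst` for `p > τ^8` with a label `k ≤ √τ` of depth `< 3 p^del`.
* `spst` : `SPst B` holds (SP_726).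
* `nc` : natural mass of the runs with `ps ≤ cut t_J` is `≤ C y^{-c}` (NHdef_656 / NHU_656 language).
* `a2` : natural mass of the runs with `ps > cut t_J` and a label `k ≤ √t_J` of depth `< 3 ps^δ`.
-/

set_option autoImplicit false

namespace Crest.Agent.R4C.NCA2x516

open Finset Crest.Agent.R4C.GWhx656 Crest.Agent.R4C.CutSumx516 Crest.Agent.R4C.NHx656

/-- statement of SP_726 -/
def SPst (B : ℝ) : Prop := ∃ C c : ℝ, 0 < C ∧ 0 < c ∧ ∀ (y τ K X : ℝ) (F : Finset ℕ),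
  2 ≤ X → X ≤ τ ^ B → 1 ≤ K → K ^ 64 ≤ min τ X →
  (∀ p ∈ F, p.Prime ∧ X < (p : ℝ) ∧ (p : ℝ) ≤ X ^ 2 ∧ On K (p * y) τ ∧ ¬ On K y (τ * p)) →
  ∑ p ∈ F, (1 : ℝ) / p ≤ C * (min τ X) ^ (-c)

/-- statement of DispRare_617 -/
def DRst : Prop := ∃ C c τ0 : ℝ, 0 < C ∧ 0 < c ∧ ∀ (y τ K del : ℝ) (F : Finset ℕ),
  τ0 ≤ τ → 1 ≤ K → K ^ 64 ≤ τ → del ≤ 1 / 8 →
  (∀ p ∈ F, p.Prime ∧ τ ^ 8 < (p : ℝ) ∧ On K (p * y) τ ∧ ¬ On K y (τ * p) ∧
    ∃ (a : ℤ) (k : ℕ), 0 < k ∧ (k : ℝ) ≤ τ ^ (1 / 2 : ℝ) ∧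
      (k : ℝ) * max 1 (τ * p * |y - a / k|) < 3 * (p : ℝ) ^ del) →
  ∑ p ∈ F, (1 : ℝ) / p ≤ C * τ ^ (-c)

/-! ### block sums -/

lemma two_pow_ge (j : ℕ) : j + 1 ≤ 2 ^ j := Nat.lt_two_pow_self

/-- sum over the loglog blocks of `(ρ, τ^B]` -/
lemma block_sum {B c : ℝ} (hB : 1 ≤ B) (hc : 0 < c) : ∃ C' : ℝ, 0 < C' ∧
    ∀ (D : ℝ) (F : Finset ℕ) (ρ τ : ℝ), 0 ≤ D → 2 ≤ ρ → ρ ≤ τ →
      (∀ p ∈ F, ρ < (p : ℝ) ∧ (p : ℝ) ≤ τ ^ B) →
      (∀ X : ℝ, ρ ≤ X → X ≤ τ ^ B →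
        ∑ p ∈ F.filter (fun p : ℕ => X < (p : ℝ) ∧ (p : ℝ) ≤ X ^ 2), (1 : ℝ) / p ≤
          D * (min τ X) ^ (-c)) →
      ∑ p ∈ F, (1 : ℝ) / p ≤ C' * D * ρ ^ (-(c / 2)) := by
  classical
  have h2c : (2 : ℝ) ^ (-c) < 1 := Real.rpow_lt_one_of_one_lt_of_neg (by norm_num) (by linarith)
  have h2c0 : 0 < (2 : ℝ) ^ (-c) := Real.rpow_pos_of_pos (by norm_num) _
  refine ⟨(4 * B / c + 1) + 1 / (1 - (2 : ℝ) ^ (-c)), by
    have : 0 < 1 - (2 : ℝ) ^ (-c) := by linarith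
    positivity, ?_⟩
  intro D F ρ τ hD hρ hρτ hF hX
  have hρ1 : 1 ≤ ρ := by linarith
  have hρ0 : 0 < ρ := by linarith
  have hτ0 : 0 < τ := by linarith
  have hτ1 : 1 ≤ τ := by linarith
  -- the step
  set term : ℕ → ℝ := fun j => D * (τ ^ (-c) + (ρ ^ (2 ^ j)) ^ (-c)) with hterm
  have hstep : ∀ N : ℕ, (∀ j < N, ρ ^ (2 ^ j) ≤ τ ^ B) →
      ∑ p ∈ F.filter (fun p : ℕ => (p : ℝ) ≤ ρ ^ (2 ^ N)), (1 : ℝ) / p ≤
        ∑ j ∈ range N, term j := by
    intro N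
    induction N with
    | zero =>
      intro _
      have : F.filter (fun p : ℕ => (p : ℝ) ≤ ρ ^ (2 ^ 0)) = ∅ := by
        rw [filter_eq_empty_iff]
        intro p hp
        rw [pow_zero, pow_one, not_le]
        exact (hF p hp).1
      rw [this]
      simp
    | succ N ih =>
      intro hN
      have ih' := ih fun j hj => hN j (by omega)
      have hXN := hX (ρ ^ (2 ^ N)) (le_self_pow₀ hρ1 (by positivity)) (hN N (by omega))
      rw [sum_range_succ]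
      have hsub : F.filter (fun p : ℕ => (p : ℝ) ≤ ρ ^ (2 ^ (N + 1))) ⊆
          F.filter (fun p : ℕ => (p : ℝ) ≤ ρ ^ (2 ^ N)) ∪
          F.filter (fun p : ℕ => ρ ^ (2 ^ N) < (p : ℝ) ∧ (p : ℝ) ≤ (ρ ^ (2 ^ N)) ^ 2) := by
        intro p hp
        rw [mem_filter] at hp
        rw [mem_union, mem_filter, mem_filter]
        rcases le_or_gt (p : ℝ) (ρ ^ (2 ^ N)) with h | h
        · exact Or.inl ⟨hp.1, h⟩
        · refine Or.inr ⟨hp.1, h, ?_⟩
          rw [← pow_mul, ← pow_succ]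
          exact hp.2
      calc ∑ p ∈ F.filter (fun p : ℕ => (p : ℝ) ≤ ρ ^ (2 ^ (N + 1))), (1 : ℝ) / p
          ≤ ∑ p ∈ F.filter (fun p : ℕ => (p : ℝ) ≤ ρ ^ (2 ^ N)) ∪
            F.filter (fun p : ℕ => ρ ^ (2 ^ N) < (p : ℝ) ∧ (p : ℝ) ≤ (ρ ^ (2 ^ N)) ^ 2),
            (1 : ℝ) / p := sum_le_sum_of_subset_of_nonneg hsub fun _ _ _ => by positivity
        _ ≤ ∑ p ∈ F.filter (fun p : ℕ => (p : ℝ) ≤ ρ ^ (2 ^ N)), (1 : ℝ) / p +
            ∑ p ∈ F.filter (fun p : ℕ => ρ ^ (2 ^ N) < (p : ℝ) ∧ (p : ℝ) ≤ (ρ ^ (2 ^ N)) ^ 2),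
            (1 : ℝ) / p := by
            rw [← sum_union_inter]
            exact le_add_of_nonneg_right (sum_nonneg fun _ _ => by positivity)
        _ ≤ ∑ j ∈ range N, term j + term N := by
            refine add_le_add ih' (hXN.trans ?_)
            refine mul_le_mul_of_nonneg_left ?_ hD
            have hX0 : 0 < ρ ^ (2 ^ N) := by positivity
            rcases le_total τ (ρ ^ (2 ^ N)) with h | h
            · rw [min_eq_left h]
              exact le_add_of_nonneg_right (Real.rpow_nonneg hX0.le _)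
            · rw [min_eq_right h]
              exact le_add_of_nonneg_left (Real.rpow_nonneg hτ0.le _)
  -- choice of `N`
  have hex : ∃ N : ℕ, τ ^ B ≤ ρ ^ (2 ^ N) := by
    obtain ⟨n, hn⟩ := pow_unbounded_of_one_lt (τ ^ B) (by linarith : 1 < ρ)
    exact ⟨n, hn.le.trans (pow_le_pow_right₀ hρ1 Nat.lt_two_pow_self.le)⟩
  set N := Nat.find hex with hN
  have hN1 : τ ^ B ≤ ρ ^ (2 ^ N) := Nat.find_spec hex
  have hN2 : ∀ j < N, ρ ^ (2 ^ j) ≤ τ ^ B := fun j hj => (not_le.1 (Nat.find_min hex hj)).le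
  have hall : F.filter (fun p : ℕ => (p : ℝ) ≤ ρ ^ (2 ^ N)) = F := by
    rw [filter_eq_self]
    intro p hp
    exact (hF p hp).2.trans hN1
  have h1 := hstep N hN2
  rw [hall] at h1
  -- number of blocks
  have hl2 : (1 / 2 : ℝ) ≤ Real.log ρ := by
    have h := Real.log_le_log (by norm_num : (0 : ℝ) < 2) hρ
    linarith [Real.log_two_gt_d9]
  have hlτ : 0 ≤ Real.log τ := Real.log_nonneg hτ1
  have hNle : (N : ℝ) ≤ 2 * B * Real.log τ + 1 := by
    rcases Nat.eq_zero_or_pos N with h0 | h0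
    · rw [h0]
      have : 0 ≤ 2 * B * Real.log τ := by positivity
      push_cast
      linarith
    · have h2 := hN2 (N - 1) (by omega)
      have h3 := Real.log_le_log (by positivity) h2
      rw [Real.log_pow, Real.log_rpow hτ0] at h3
      have h4 : (N : ℝ) ≤ ((2 ^ (N - 1) : ℕ) : ℝ) := by
        have := two_pow_ge (N - 1)
        have h5 : N ≤ 2 ^ (N - 1) := by omega
        exact_mod_cast h5
      have h5 : (N : ℝ) * (1 / 2) ≤ ((2 ^ (N - 1) : ℕ) : ℝ) * Real.log ρ :=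
        mul_le_mul h4 hl2 (by norm_num) (Nat.cast_nonneg _)
      linarith
  -- first sum
  have hs1 : (N : ℝ) * τ ^ (-c) ≤ (4 * B / c + 1) * ρ ^ (-(c / 2)) := by
    have h2 : Real.log τ ≤ τ ^ (c / 2) / (c / 2) := Real.log_le_rpow_div hτ0.le (by linarith)
    have h3 : 1 ≤ τ ^ (c / 2) := Real.one_le_rpow hτ1 (by linarith)
    have h4 : (N : ℝ) ≤ (4 * B / c + 1) * τ ^ (c / 2) := by
      calc (N : ℝ) ≤ 2 * B * Real.log τ + 1 := hNle
        _ ≤ 2 * B * (τ ^ (c / 2) / (c / 2)) + τ ^ (c / 2) :=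
            add_le_add (mul_le_mul_of_nonneg_left h2 (by linarith)) h3
        _ = _ := by field_simp; ring
    have h5 : τ ^ (c / 2) * τ ^ (-c) = τ ^ (-(c / 2)) := by
      rw [← Real.rpow_add hτ0]
      congr 1
      ring
    have h6 : τ ^ (-(c / 2)) ≤ ρ ^ (-(c / 2)) :=
      Real.rpow_le_rpow_of_nonpos hρ0 hρτ (by linarith)
    calc (N : ℝ) * τ ^ (-c) ≤ (4 * B / c + 1) * τ ^ (c / 2) * τ ^ (-c) :=
          mul_le_mul_of_nonneg_right h4 (Real.rpow_nonneg hτ0.le _)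
      _ = (4 * B / c + 1) * τ ^ (-(c / 2)) := by rw [mul_assoc, h5]
      _ ≤ _ := mul_le_mul_of_nonneg_left h6 (by positivity)
  -- second sum
  have hs2 : ∑ j ∈ range N, (ρ ^ (2 ^ j)) ^ (-c) ≤ 1 / (1 - (2 : ℝ) ^ (-c)) * ρ ^ (-(c / 2)) := by
    have h2 : ∀ j ∈ range N, (ρ ^ (2 ^ j)) ^ (-c) ≤ ρ ^ (-(c / 2)) * ((2 : ℝ) ^ (-c)) ^ j := by
      intro j _
      calc (ρ ^ (2 ^ j)) ^ (-c) ≤ (ρ ^ (j + 1)) ^ (-c) := by
            refine Real.rpow_le_rpow_of_nonpos (by positivity) ?_ (by linarith)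
            exact pow_le_pow_right₀ hρ1 (two_pow_ge j)
        _ = ρ ^ (-c) * (ρ ^ (-c)) ^ j := by
            rw [← Real.rpow_natCast, ← Real.rpow_natCast, ← Real.rpow_mul hρ0.le,
              ← Real.rpow_mul hρ0.le, ← Real.rpow_add hρ0]
            congr 1
            push_cast
            ring
        _ ≤ ρ ^ (-(c / 2)) * ((2 : ℝ) ^ (-c)) ^ j := by
            refine mul_le_mul ?_ ?_ (by positivity) (by positivity)
            · exact Real.rpow_le_rpow_of_exponent_le hρ1 (by linarith)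
            · refine pow_le_pow_left₀ (by positivity) ?_ _
              exact Real.rpow_le_rpow_of_nonpos (by norm_num) hρ (by linarith)
    refine (sum_le_sum h2).trans ?_
    rw [← mul_sum, mul_comm]
    refine mul_le_mul_of_nonneg_right ?_ (by positivity)
    have h3 : (1 - (2 : ℝ) ^ (-c)) * ∑ j ∈ range N, ((2 : ℝ) ^ (-c)) ^ j =
        1 - ((2 : ℝ) ^ (-c)) ^ N := mul_neg_geom_sum _ _
    rw [le_div_iff₀ (by linarith), mul_comm, h3]
    have : 0 ≤ ((2 : ℝ) ^ (-c)) ^ N := by positivity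
    linarith
  calc ∑ p ∈ F, (1 : ℝ) / p ≤ ∑ j ∈ range N, term j := h1
    _ = D * ((N : ℝ) * τ ^ (-c) + ∑ j ∈ range N, (ρ ^ (2 ^ j)) ^ (-c)) := by
        rw [hterm, ← mul_sum, sum_add_distrib, sum_const, card_range, nsmul_eq_mul]
    _ ≤ D * ((4 * B / c + 1) * ρ ^ (-(c / 2)) + 1 / (1 - (2 : ℝ) ^ (-c)) * ρ ^ (-(c / 2))) :=
        mul_le_mul_of_nonneg_left (add_le_add hs1 hs2) hD
    _ = _ := by ring

/-! ### marked letters -/

/-- letters below `p` -/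
def below (S : Finset ℕ) (p : ℕ) : Finset ℕ := S.filter (· < p)

/-- letters above `p` -/
def above (S : Finset ℕ) (p : ℕ) : Finset ℕ := S.filter (p < ·)

/-- product of the letters -/
noncomputable def pr (S : Finset ℕ) : ℝ := ∏ p ∈ S, (p : ℝ)

lemma one_le_pr {S : Finset ℕ} (h : ∀ p ∈ S, 1 ≤ p) : 1 ≤ pr S := by
  unfold pr
  have h1 := Finset.prod_le_prod (s := S) (f := fun _ : ℕ => (1 : ℝ)) (g := fun p : ℕ => (p : ℝ))
    (fun _ _ => zero_le_one) (fun p hp => by exact_mod_cast h p hp)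
  simpa using h1

lemma le_pr {S : Finset ℕ} (h : ∀ p ∈ S, 1 ≤ p) {q : ℕ} (hq : q ∈ S) : (q : ℝ) ≤ pr S := by
  unfold pr
  rw [← mul_prod_erase S (fun p : ℕ => (p : ℝ)) hq]
  have h1 : 1 ≤ ∏ p ∈ S.erase q, (p : ℝ) := one_le_pr fun p hp => h p (mem_of_mem_erase hp)
  have h2 : (0 : ℝ) ≤ q := Nat.cast_nonneg _
  nlinarith

/-- for a letter inserted directly above `ρ`: the letters below -/
lemma below_insert {P : Finset ℕ} {E : Finset (Finset ℕ)} {mk : Finset ℕ → ℕ} {S1 : Finset ℕ}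
    {ρ p : ℕ} (hp : p ∈ ins P E mk S1 ρ) : below (insert p S1) p = S1.filter (· ≤ ρ) := by
  rw [mem_ins] at hp
  obtain ⟨_, h2, _, _, h5, h6⟩ := hp
  unfold below
  ext q
  simp only [mem_filter, mem_insert]
  constructor
  · rintro ⟨rfl | h, hq⟩
    · exact absurd hq (lt_irrefl _)
    · exact ⟨h, h6 q h hq⟩
  · rintro ⟨h, hq⟩
    exact ⟨Or.inr h, lt_of_le_of_lt hq h5⟩

/-- for a letter inserted directly above `ρ`: the letters above -/
lemma above_insert {P : Finset ℕ} {E : Finset (Finset ℕ)} {mk : Finset ℕ → ℕ} {S1 : Finset ℕ}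
    {ρ p : ℕ} (hp : p ∈ ins P E mk S1 ρ) : above (insert p S1) p = S1.filter (ρ < ·) := by
  rw [mem_ins] at hp
  obtain ⟨_, h2, _, _, h5, h6⟩ := hp
  unfold above
  ext q
  simp only [mem_filter, mem_insert]
  constructor
  · rintro ⟨rfl | h, hq⟩
    · exact absurd hq (lt_irrefl _)
    · exact ⟨h, h5.trans hq⟩
  · rintro ⟨h, hq⟩
    refine ⟨Or.inr h, ?_⟩
    rcases lt_trichotomy p q with h' | h' | h'
    · exact h'
    · exact absurd h (h' ▸ h2)
    · exact absurd hq (not_lt.2 (h6 q h h'))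

/-- common part of the two classes: the marked letter `p` of `S`, `τ = t * ∏ below`, `y = ∏ above * γ`,
`K` = a function of the letters below -/
structure Mk (t γ : ℝ) (K' : Finset ℕ → ℝ) (S : Finset ℕ) (p : ℕ) : Prop where
  mem : p ∈ S
  ne : (below S p).Nonempty
  K64 : ∀ q ∈ below S p, K' (below S p) ^ 64 ≤ (q : ℝ)
  on : On (K' (below S p)) (p * (pr (above S p) * γ)) (t * pr (below S p))
  off : ¬ On (K' (below S p)) (pr (above S p) * γ) (t * pr (below S p) * p)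

lemma rpow_sub_one_le {c y : ℝ} (hc : 0 < c) (hy : 2 ≤ y) :
    (y - 1) ^ (-c) ≤ 2 ^ c * y ^ (-c) := by
  have h1 : y / 2 ≤ y - 1 := by linarith
  have h2 : (y - 1) ^ (-c) ≤ (y / 2) ^ (-c) :=
    Real.rpow_le_rpow_of_nonpos (by linarith) h1 (by linarith)
  refine h2.trans (le_of_eq ?_)
  rw [Real.div_rpow (by linarith) (by norm_num), Real.rpow_neg (by norm_num : (0 : ℝ) ≤ 2) c,
    div_inv_eq_mul, mul_comm]

/-- **class (NC), marked form** -/
theorem nc_marked {B : ℝ} (hB : 1 ≤ B) (hSP : SPst B) : ∃ C c : ℝ, 0 < C ∧ 0 < c ∧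
    ∀ (P : Finset ℕ) (y t γ : ℝ) (E : Finset (Finset ℕ)) (mk : Finset ℕ → ℕ)
      (K' : Finset ℕ → ℝ), 2 ≤ y → 1 ≤ t → (∀ p ∈ P, p.Prime) → (∀ p ∈ P, y ≤ (p : ℝ)) →
      (∀ S ∈ E, S ⊆ P) → (∀ S ∈ E, Mk t γ K' S (mk S)) →
      (∀ S ∈ E, (mk S : ℝ) ≤ (t * pr (below S (mk S))) ^ B) →
      ∑ S ∈ E, law P S ≤ C * y ^ (-c) := by
  classical
  obtain ⟨C, c, hC, hc, hSP⟩ := hSP
  obtain ⟨C', hC', hblk⟩ := block_sum hB hc
  refine ⟨(2 / (c / 2)) * (C' * C) * 2 ^ (c / 2), c / 2, by positivity, by positivity, ?_⟩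
  intro P y t γ E mk K' hy ht hPp hPy hE hMk hle
  have hP2 : ∀ p ∈ P, 2 ≤ p := fun p hp => (hPp p hp).two_le
  have hlow : ∀ S ∈ E, ∃ ρ ∈ S, ρ < mk S := by
    intro S hS
    obtain ⟨q, hq⟩ := (hMk S hS).ne
    exact ⟨q, (mem_filter.1 hq).1, (mem_filter.1 hq).2⟩
  have hfib : ∀ S1 ⊆ P, ∀ ρ ∈ S1, ∑ p ∈ ins P E mk S1 ρ, (1 : ℝ) / p ≤
      (C' * C) * (ρ : ℝ) ^ (-(c / 2)) := by
    intro S1 hS1 ρ hρ
    set F := ins P E mk S1 ρ with hF
    rcases F.eq_empty_or_nonempty with h0 | ⟨p0, hp0⟩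
    · rw [h0, sum_empty]
      positivity
    set τ : ℝ := t * pr (S1.filter (· ≤ ρ)) with hτ
    set Y : ℝ := pr (S1.filter (ρ < ·)) * γ with hY
    set K : ℝ := K' (S1.filter (· ≤ ρ)) with hK
    have hρy : y ≤ (ρ : ℝ) := hPy ρ (hS1 hρ)
    have hρm : ρ ∈ S1.filter (· ≤ ρ) := mem_filter.2 ⟨hρ, le_rfl⟩
    have h1S : ∀ p ∈ S1.filter (· ≤ ρ), 1 ≤ p := fun p hp => by
      have := hP2 p (hS1 (mem_filter.1 hp).1); omega
    have hρτ : (ρ : ℝ) ≤ τ := by
      have h1 := le_pr h1S hρm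
      have h2 : 0 ≤ pr (S1.filter (· ≤ ρ)) := zero_le_one.trans (one_le_pr h1S)
      rw [hτ]
      nlinarith
    -- data of a member
    have hdat : ∀ p ∈ F, ((p : ℝ) ≤ τ ^ B) ∧ On K (p * Y) τ ∧ ¬ On K Y (τ * p) ∧
        K ^ 64 ≤ (ρ : ℝ) ∧ (ρ : ℝ) < p ∧ p.Prime := by
      intro p hp
      have hm := mem_ins.1 hp
      have hb := below_insert hp
      have ha := above_insert hp
      have h1 := hMk _ hm.2.2.1
      have h2 := hle _ hm.2.2.1
      rw [hm.2.2.2.1] at h1 h2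
      obtain ⟨_, _, h3, h4, h5⟩ := h1
      rw [hb] at h2 h3 h4 h5
      rw [ha] at h4 h5
      exact ⟨h2, h4, h5, h3 ρ hρm, by exact_mod_cast hm.2.2.2.2.1, hPp p hm.1⟩
    have hK64 : K ^ 64 ≤ (ρ : ℝ) := (hdat p0 hp0).2.2.2.1
    have hK1 : 1 ≤ K := (hdat p0 hp0).2.1.one_lt.le
    refine hblk C F ρ τ hC.le (hy.trans hρy) hρτ
      (fun p hp => ⟨(hdat p hp).2.2.2.2.1, (hdat p hp).1⟩) ?_
    intro X hX hXB
    refine hSP Y τ K X _ ((hy.trans hρy).trans hX) hXB hK1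
      (le_min (hK64.trans hρτ) (hK64.trans hX)) fun p hp => ?_
    obtain ⟨hp1, hp2, hp3⟩ := mem_filter.1 hp
    obtain ⟨_, h4, h5, _, _, h6⟩ := hdat p hp1
    exact ⟨h6, hp2, hp3, h4, h5⟩
  have h := cut_sum (c := c / 2) (by positivity) hy (by positivity : 0 ≤ C' * C) hP2 hPy hE mk
    (fun S hS => (hMk S hS).mem) hlow hfib
  refine h.trans ?_
  calc 2 / (c / 2) * (C' * C) * (y - 1) ^ (-(c / 2))
      ≤ 2 / (c / 2) * (C' * C) * (2 ^ (c / 2) * y ^ (-(c / 2))) :=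
        mul_le_mul_of_nonneg_left (rpow_sub_one_le (by positivity) hy) (by positivity)
    _ = _ := by ring

/-- **class (a2), marked form** -/
theorem a2_marked (hDR : DRst) : ∃ C c y0 : ℝ, 0 < C ∧ 0 < c ∧ 2 ≤ y0 ∧
    ∀ (P : Finset ℕ) (y t γ del : ℝ) (E : Finset (Finset ℕ)) (mk : Finset ℕ → ℕ)
      (K' : Finset ℕ → ℝ), y0 ≤ y → 1 ≤ t → del ≤ 1 / 8 → (∀ p ∈ P, p.Prime) → (∀ p ∈ P, y ≤ (p : ℝ)) →
      (∀ S ∈ E, S ⊆ P) → (∀ S ∈ E, Mk t γ K' S (mk S)) →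
      (∀ S ∈ E, (t * pr (below S (mk S))) ^ 8 < (mk S : ℝ) ∧
        ∃ (a : ℤ) (k : ℕ), 0 < k ∧ (k : ℝ) ≤ (t * pr (below S (mk S))) ^ (1 / 2 : ℝ) ∧
          (k : ℝ) * max 1 (t * pr (below S (mk S)) * mk S *
            |pr (above S (mk S)) * γ - a / k|) < 3 * (mk S : ℝ) ^ del) →
      ∑ S ∈ E, law P S ≤ C * y ^ (-c) := by
  classical
  obtain ⟨C, c, τ0, hC, hc, hDR⟩ := hDR
  refine ⟨(2 / c) * C * 2 ^ c, c, max 2 τ0, by positivity, hc, le_max_left _ _, ?_⟩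
  intro P y t γ del E mk K' hy0 ht hdel hPp hPy hE hMk hle
  have hy : 2 ≤ y := (le_max_left _ _).trans hy0
  have hyτ : τ0 ≤ y := (le_max_right _ _).trans hy0
  have hP2 : ∀ p ∈ P, 2 ≤ p := fun p hp => (hPp p hp).two_le
  have hlow : ∀ S ∈ E, ∃ ρ ∈ S, ρ < mk S := by
    intro S hS
    obtain ⟨q, hq⟩ := (hMk S hS).ne
    exact ⟨q, (mem_filter.1 hq).1, (mem_filter.1 hq).2⟩
  have hfib : ∀ S1 ⊆ P, ∀ ρ ∈ S1, ∑ p ∈ ins P E mk S1 ρ, (1 : ℝ) / p ≤
      C * (ρ : ℝ) ^ (-c) := by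
    intro S1 hS1 ρ hρ
    set F := ins P E mk S1 ρ with hF
    rcases F.eq_empty_or_nonempty with h0 | ⟨p0, hp0⟩
    · rw [h0, sum_empty]
      positivity
    set τ : ℝ := t * pr (S1.filter (· ≤ ρ)) with hτ
    set Y : ℝ := pr (S1.filter (ρ < ·)) * γ with hY
    set K : ℝ := K' (S1.filter (· ≤ ρ)) with hK
    have hρy : y ≤ (ρ : ℝ) := hPy ρ (hS1 hρ)
    have hρm : ρ ∈ S1.filter (· ≤ ρ) := mem_filter.2 ⟨hρ, le_rfl⟩
    have h1S : ∀ p ∈ S1.filter (· ≤ ρ), 1 ≤ p := fun p hp => by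
      have := hP2 p (hS1 (mem_filter.1 hp).1); omega
    have hρτ : (ρ : ℝ) ≤ τ := by
      have h1 := le_pr h1S hρm
      have h2 : 0 ≤ pr (S1.filter (· ≤ ρ)) := zero_le_one.trans (one_le_pr h1S)
      rw [hτ]
      nlinarith
    have hdat : ∀ p ∈ F, On K (p * Y) τ ∧ ¬ On K Y (τ * p) ∧ K ^ 64 ≤ (ρ : ℝ) ∧ p.Prime ∧
        τ ^ 8 < (p : ℝ) ∧ ∃ (a : ℤ) (k : ℕ), 0 < k ∧ (k : ℝ) ≤ τ ^ (1 / 2 : ℝ) ∧
          (k : ℝ) * max 1 (τ * p * |Y - a / k|) < 3 * (p : ℝ) ^ del := by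
      intro p hp
      have hm := mem_ins.1 hp
      have hb := below_insert hp
      have ha := above_insert hp
      have h1 := hMk _ hm.2.2.1
      have h2 := hle _ hm.2.2.1
      rw [hm.2.2.2.1] at h1 h2
      obtain ⟨_, _, h3, h4, h5⟩ := h1
      rw [hb] at h2 h3 h4 h5
      rw [ha] at h2 h4 h5
      exact ⟨h4, h5, h3 ρ hρm, hPp p hm.1, h2.1, h2.2⟩
    have hK64 : K ^ 64 ≤ (ρ : ℝ) := (hdat p0 hp0).2.2.1
    have hK1 : 1 ≤ K := (hdat p0 hp0).1.one_lt.le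
    have h := hDR Y τ K del F (hyτ.trans (hρy.trans hρτ)) hK1 (hK64.trans hρτ) hdel fun p hp => by
      obtain ⟨h4, h5, _, h6, h7, h8⟩ := hdat p hp
      exact ⟨h6, h7, h4, h5, h8⟩
    refine h.trans (mul_le_mul_of_nonneg_left ?_ hC.le)
    exact Real.rpow_le_rpow_of_nonpos (by linarith) hρτ (by linarith)
  have h := cut_sum hc hy hC.le hP2 hPy hE mk (fun S hS => (hMk S hS).mem) hlow hfib
  refine h.trans ?_
  calc 2 / c * C * (y - 1) ^ (-c) ≤ 2 / c * C * (2 ^ c * y ^ (-c)) :=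
        mul_le_mul_of_nonneg_left (rpow_sub_one_le hc hy) (by positivity)
    _ = _ := by ring

/-! ### in the language of NHdef_656 -/

/-- SP_726 -/
theorem spst {B : ℝ} (hB : 1 ≤ B) : SPst B := by
  obtain ⟨C, hC, h⟩ := SPx726.sp B hB
  refine ⟨C, 1 / 4, hC, by norm_num, ?_⟩
  intro y τ K X F hX hXB hK hmin hF
  have h1 : K ^ 64 ≤ τ := hmin.trans (min_le_left _ _)
  have h2 : K ^ 64 ≤ X := hmin.trans (min_le_right _ _)
  have h3 : 1 ≤ K ^ 64 := one_le_pow₀ hK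
  exact h y τ K X (h3.trans h1) hX hXB h1 h2 F hF

/-- DispRare_617 -/
theorem drst : DRst := by
  obtain ⟨C, c, hC, hc, h⟩ := DispRarex617.disprare_on
  exact ⟨C, c, 16, hC, hc, fun y τ K del F hτ hK hKτ hdel hF => h y τ K del hτ hK hKτ hdel F hF⟩

lemma cast_pr (S : Finset ℕ) : ((∏ p ∈ S, p : ℕ) : ℝ) = pr S := by
  unfold pr
  push_cast
  rfl

variable {δ γ t : ℝ} {S : Finset ℕ}

lemma mn_below (h : Run δ γ t S) : mn (below S (ps δ γ t S)) = mn S := by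
  have h1 : mn S ∈ below S (ps δ γ t S) := mem_filter.2 ⟨mn_mem h.1, h.lt⟩
  have h2 : mn (below S (ps δ γ t S)) ≤ mn S := mn_le h1
  have h3 : mn (below S (ps δ γ t S)) ∈ S := (mem_filter.1 (mn_mem ⟨_, h1⟩)).1
  have h4 := mn_le h3
  omega

lemma K1_below (h : Run δ γ t S) : K1 δ (below S (ps δ γ t S)) = K1 δ S := by
  unfold K1
  rw [mn_below h]

/-- the marked letter `ps` of a run -/
lemma mk_of_run (h : Run δ γ t S)
    (h64 : ∀ q ∈ S, K1 δ S ^ 64 ≤ (q : ℝ)) : Mk t γ (K1 δ) S (ps δ γ t S) := by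
  set p := ps δ γ t S with hp
  obtain ⟨hpS, hoff⟩ := ps_spec h.2.2
  rw [← hp] at hpS hoff
  have hne : (below S p).Nonempty := ⟨mn S, mem_filter.2 ⟨mn_mem h.1, h.lt⟩⟩
  set r := (below S p).max' hne with hr
  have hrm := mem_filter.1 (max'_mem _ hne)
  rw [← hr] at hrm
  have hon := on_of_lt_ps hrm.1 hrm.2
  -- the letters `≤ r` are the letters `< p`
  have e1 : S.filter (· ≤ r) = below S p := by
    unfold below
    ext x
    simp only [mem_filter]
    constructor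
    · rintro ⟨h1, h2⟩
      exact ⟨h1, lt_of_le_of_lt h2 hrm.2⟩
    · rintro ⟨h1, h2⟩
      exact ⟨h1, le_max' _ _ (mem_filter.2 ⟨h1, h2⟩)⟩
  have e2 : S.filter (r < ·) = insert p (above S p) := by
    unfold above
    ext x
    simp only [mem_filter, mem_insert]
    constructor
    · rintro ⟨h1, h2⟩
      rcases lt_trichotomy p x with h3 | h3 | h3
      · exact Or.inr ⟨h1, h3⟩
      · exact Or.inl h3.symm
      · have h4 : x ≤ r := le_max' (below S p) x (mem_filter.2 ⟨h1, h3⟩)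
        omega
    · rintro (rfl | ⟨h1, h2⟩)
      · exact ⟨hpS, hrm.2⟩
      · exact ⟨h1, hrm.2.trans h2⟩
  have e3 : S.filter (· ≤ p) = insert p (below S p) := by
    unfold below
    ext x
    simp only [mem_filter, mem_insert]
    constructor
    · rintro ⟨h1, h2⟩
      rcases lt_or_eq_of_le h2 with h3 | h3
      · exact Or.inr ⟨h1, h3⟩
      · exact Or.inl h3
    · rintro (rfl | ⟨h1, h2⟩)
      · exact ⟨hpS, le_rfl⟩
      · exact ⟨h1, h2.le⟩
  have n1 : p ∉ above S p := fun hx => lt_irrefl _ (mem_filter.1 hx).2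
  have n2 : p ∉ below S p := fun hx => lt_irrefl _ (mem_filter.1 hx).2
  have hK : K1 δ (below S p) = K1 δ S := K1_below h
  refine ⟨hpS, hne, ?_, ?_, ?_⟩
  · intro q hq
    rw [hK]
    exact h64 q (mem_filter.1 hq).1
  · rw [hK]
    unfold pt sc at hon
    rw [e1, e2, prod_insert n1] at hon
    push_cast at hon
    rw [mul_assoc] at hon
    exact hon
  · rw [hK]
    unfold pt sc at hoff
    rw [e3, prod_insert n2] at hoff
    push_cast at hoff
    have e4 : t * ((p : ℝ) * ∏ q ∈ below S p, (q : ℝ)) = t * pr (below S p) * p := by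
      unfold pr
      ring
    rw [e4] at hoff
    exact hoff

/-- `K1^64 ≤` every letter for large letters -/
lemma K1_pow_le (hδ : δ ≤ 1 / 128) (hS : S.Nonempty) {y : ℝ} (hy : (3 : ℝ) ^ 128 ≤ y)
    (hSy : ∀ p ∈ S, y ≤ (p : ℝ)) : ∀ q ∈ S, K1 δ S ^ 64 ≤ (q : ℝ) := by
  intro q hq
  have h1 : (mn S : ℝ) ≤ q := by exact_mod_cast mn_le hq
  refine le_trans ?_ h1
  have hm : (3 : ℝ) ^ 128 ≤ (mn S : ℝ) := hy.trans (hSy _ (mn_mem hS))
  have hm1 : (1 : ℝ) ≤ (mn S : ℝ) := by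
    have : (1 : ℝ) ≤ 3 ^ 128 := by norm_num
    linarith
  have hm0 : (0 : ℝ) ≤ (mn S : ℝ) := by linarith
  unfold K1
  calc (3 * (mn S : ℝ) ^ δ) ^ 64 ≤ (3 * (mn S : ℝ) ^ (1 / 128 : ℝ)) ^ 64 := by
        refine pow_le_pow_left₀ (by positivity) ?_ _
        exact mul_le_mul_of_nonneg_left (Real.rpow_le_rpow_of_exponent_le hm1 hδ) (by norm_num)
    _ = 3 ^ 64 * (mn S : ℝ) ^ (1 / 2 : ℝ) := by
        rw [mul_pow, ← Real.rpow_natCast ((mn S : ℝ) ^ (1 / 128 : ℝ)), ← Real.rpow_mul hm0]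
        norm_num
    _ ≤ (mn S : ℝ) ^ (1 / 2 : ℝ) * (mn S : ℝ) ^ (1 / 2 : ℝ) := by
        refine mul_le_mul_of_nonneg_right ?_ (by positivity)
        calc (3 : ℝ) ^ 64 = ((3 : ℝ) ^ 128) ^ (1 / 2 : ℝ) := by
              rw [← Real.rpow_natCast, ← Real.rpow_natCast, ← Real.rpow_mul (by norm_num)]
              norm_num
          _ ≤ _ := Real.rpow_le_rpow (by norm_num) hm (by norm_num)
    _ = (mn S : ℝ) := by
        rw [← Real.rpow_add (by linarith)]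
        norm_num

/-- **class (NC)**: the runs lost at a letter `ps ≤ cut t_J`, `t_J = t ∏_{q < ps} q` -/
theorem nc {B : ℝ} (hB : 1 ≤ B) : ∃ C c : ℝ, 0 < C ∧ 0 < c ∧
    ∀ (δ γ t y : ℝ) (cut : ℝ → ℝ) (P : Finset ℕ) (E : Finset (Finset ℕ)),
      δ ≤ 1 / 128 → (3 : ℝ) ^ 128 ≤ y → 1 ≤ t → (∀ τ, 1 ≤ τ → cut τ ≤ τ ^ B) →
      (∀ p ∈ P, p.Prime) → (∀ p ∈ P, y ≤ (p : ℝ)) → (∀ S ∈ E, S ⊆ P) →
      (∀ S ∈ E, Run δ γ t S ∧
        (ps δ γ t S : ℝ) ≤ cut (t * ((∏ q ∈ S.filter (· < ps δ γ t S), q : ℕ) : ℝ))) →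
      ∑ S ∈ E, law P S ≤ C * y ^ (-c) := by
  obtain ⟨C, c, hC, hc, h⟩ := nc_marked hB (spst hB)
  refine ⟨C, c, hC, hc, ?_⟩
  intro δ γ t y cut P E hδ hy ht hcut hPp hPy hE hrun
  have hy2 : 2 ≤ y := le_trans (by norm_num) hy
  refine h P y t γ E (ps δ γ t) (K1 δ) hy2 ht hPp hPy hE ?_ ?_
  · intro S hS
    have h1 := hrun S hS
    exact mk_of_run h1.1
      (K1_pow_le hδ h1.1.1 hy fun p hp => hPy p (hE S hS hp))
  · intro S hS
    obtain ⟨h1, h2⟩ := hrun S hS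
    have h3 : 1 ≤ pr (below S (ps δ γ t S)) := one_le_pr fun p hp =>
      (hPp p (hE S hS (mem_filter.1 hp).1)).one_lt.le
    have h4 : 1 ≤ t * pr (below S (ps δ γ t S)) := by nlinarith
    have h5 := h2.trans (hcut _ (by rw [cast_pr]; exact h4))
    rw [cast_pr] at h5
    exact h5

/-- **class (a2)**: the runs lost at a letter `ps > cut t_J` where the point has a label with small
denominator `k ≤ √t_J` and depth `< 3 ps^δ` -/
theorem a2 : ∃ C c y0 : ℝ, 0 < C ∧ 0 < c ∧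
    ∀ (δ γ t y : ℝ) (cut : ℝ → ℝ) (P : Finset ℕ) (E : Finset (Finset ℕ)),
      δ ≤ 1 / 128 → y0 ≤ y → 1 ≤ t → (∀ τ, y ≤ τ → τ ^ 8 ≤ cut τ) →
      (∀ p ∈ P, p.Prime) → (∀ p ∈ P, y ≤ (p : ℝ)) → (∀ S ∈ E, S ⊆ P) →
      (∀ S ∈ E, Run δ γ t S ∧
        cut (t * ((∏ q ∈ S.filter (· < ps δ γ t S), q : ℕ) : ℝ)) < (ps δ γ t S : ℝ) ∧
        ∃ (a : ℤ) (k : ℕ), 0 < k ∧
          (k : ℝ) ≤ (t * ((∏ q ∈ S.filter (· < ps δ γ t S), q : ℕ) : ℝ)) ^ (1 / 2 : ℝ) ∧
          (k : ℝ) * max 1 (sc t S (ps δ γ t S) * |pt γ S (ps δ γ t S) - a / k|) <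
            3 * (ps δ γ t S : ℝ) ^ δ) →
      ∑ S ∈ E, law P S ≤ C * y ^ (-c) := by
  obtain ⟨C, c, y0, hC, hc, hy02, h⟩ := a2_marked drst
  refine ⟨C, c, max y0 (3 ^ 128), hC, hc, ?_⟩
  intro δ γ t y cut P E hδ hy ht hcut hPp hPy hE hrun
  have hy1 : y0 ≤ y := (le_max_left _ _).trans hy
  have hy2 : (3 : ℝ) ^ 128 ≤ y := (le_max_right _ _).trans hy
  refine h P y t γ δ E (ps δ γ t) (K1 δ) hy1 ht (hδ.trans (by norm_num)) hPp hPy hE ?_ ?_
  · intro S hS
    have h1 := hrun S hS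
    exact mk_of_run h1.1
      (K1_pow_le hδ h1.1.1 hy2 fun p hp => hPy p (hE S hS hp))
  · intro S hS
    obtain ⟨h1, h2, a, k, h3, h4, h5⟩ := hrun S hS
    set p := ps δ γ t S with hp
    have hpS : p ∈ S := (ps_spec h1.2.2).1
    have hb1 : ∀ q ∈ below S p, 1 ≤ q := fun q hq =>
      (hPp q (hE S hS (mem_filter.1 hq).1)).one_lt.le
    have hmn : mn S ∈ below S p := mem_filter.2 ⟨mn_mem h1.1, h1.lt⟩
    have hpr : (mn S : ℝ) ≤ pr (below S p) := le_pr hb1 hmn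
    have hyt : y ≤ t * pr (below S p) := by
      have h6 : y ≤ (mn S : ℝ) := hPy _ (hE S hS (mn_mem h1.1))
      have h7 : 0 ≤ pr (below S p) := zero_le_one.trans (one_le_pr hb1)
      nlinarith
    rw [cast_pr] at h2 h4
    refine ⟨(hcut _ hyt).trans_lt h2, a, k, h3, h4, ?_⟩
    have e3 : S.filter (· ≤ p) = insert p (below S p) := by
      unfold below
      ext x
      simp only [mem_filter, mem_insert]
      constructor
      · rintro ⟨h1, h2⟩
        rcases lt_or_eq_of_le h2 with h3 | h3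
        · exact Or.inr ⟨h1, h3⟩
        · exact Or.inl h3
      · rintro (rfl | ⟨h1, h2⟩)
        · exact ⟨hpS, le_rfl⟩
        · exact ⟨h1, h2.le⟩
    have n2 : p ∉ below S p := fun hx => lt_irrefl _ (mem_filter.1 hx).2
    have e4 : sc t S p = t * pr (below S p) * p := by
      unfold sc
      rw [e3, prod_insert n2]
      push_cast
      unfold pr
      ring
    have e5 : pt γ S p = pr (above S p) * γ := by
      unfold pt
      rw [cast_pr]
      rfl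
    rw [e4, e5] at h5
    exact h5

end Crest.Agent.R4C.NCA2x516
end

-- ▼ part R4C/NH_656
section

/-!
# Row 4, block NH: natural hypothesis of the GW section (helper656)

`nh`: the words `S ⊆ P` in the cell of the node (targets `Λ`, depth `≥ K0` at scale `t`) which are
BAD (the run centre does not exist at the first letter and the gap before it is light, or it is lost
at `ps` and the gap before `ps` is empty or light (natural coins, mass `≤ s`)) have natural mass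
`≤ C (s + |Λ| / √√K0 + y^{-c})`.
-/

set_option autoImplicit false

namespace Crest.Agent.R4C.NHx656

open Finset Crest.Agent.R4C.GWhx656 Crest.Agent.R4C.GWhBx656

lemma reduce_frac (a : ℤ) {k : ℕ} (hk : 0 < k) : ∃ (a' : ℤ) (k' : ℕ), 0 < k' ∧
    IsCoprime a' (k' : ℤ) ∧ k' ≤ k ∧ (a : ℝ) / k = a' / k' := by
  set q : ℚ := Rat.divInt a k with hq
  refine ⟨q.num, q.den, q.den_pos, ?_, ?_, ?_⟩
  · rw [Int.isCoprime_iff_gcd_eq_one]
    exact q.reduced
  · have h := Rat.den_dvd a (k : ℤ)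
    rw [← hq] at h
    exact Nat.le_of_dvd hk (Int.natCast_dvd_natCast.1 h)
  · have h1 : ((q : ℚ) : ℝ) = (a : ℝ) / k := by
      rw [hq, Rat.divInt_eq_div]
      push_cast
      rfl
    rw [← h1, Rat.cast_def]

/-- **BLOCK NH** -/
theorem nh (A δ : ℝ) (hA : 1 ≤ A) (hδ0 : 0 < δ) (hδ : δ ≤ 1 / 128) : ∃ C c y0 : ℝ,
    0 < C ∧ 0 < c ∧ 2 ≤ y0 ∧ ∀ (cut : ℝ → ℝ) (P : Finset ℕ) (γ t s K0 y : ℝ) (Λ : Finset ℝ),
      y0 ≤ y → 0 ≤ s → 1 ≤ K0 → Real.sqrt K0 ≤ t → t ^ 4 ≤ y →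
      (∀ τ, 1 ≤ τ → 1 ≤ cut τ ∧ cut τ ≤ τ ^ A) → (∀ τ, y ≤ τ → τ ^ 8 ≤ cut τ) →
      (∀ p ∈ P, p.Prime) → (∀ p ∈ P, y ≤ (p : ℝ)) → (∀ p ∈ P, cut t < (p : ℝ)) →
      ∀ E : Finset (Finset ℕ), (∀ S ∈ E, S ⊆ P ∧ Cell γ t K0 Λ S ∧ Bad cut δ γ t s P S) →
      ∑ S ∈ E, law P S ≤ C * (s + Λ.card / Real.sqrt (Real.sqrt K0) + y ^ (-c)) := by
  classical
  obtain ⟨Cb, hCb, hb⟩ := classEb A hA
  obtain ⟨Ca, hCa, ha⟩ := classEa A hA
  obtain ⟨Cn, cn, hCn, hcn, hn⟩ := NCA2x516.nc hA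
  obtain ⟨C2, c2, y2, hC2, hc2, h2⟩ := NCA2x516.a2
  set c := min 1 (min cn c2) with hc
  have hc0 : 0 < c := lt_min one_pos (lt_min hcn hc2)
  refine ⟨9 + Ca + Cb + Cn + C2 + 1, c, max (3 ^ 128) y2, by positivity, hc0,
    le_trans (by norm_num) (le_max_left _ _), ?_⟩
  intro cut P γ t s K0 y Λ hy0 hs hK0 hKt hty hcut hcut8 hP hPy hPc E hE
  have hy128 : (3 : ℝ) ^ 128 ≤ y := (le_max_left _ _).trans hy0
  have hyy2 : y2 ≤ y := (le_max_right _ _).trans hy0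
  have hy324 : 324 ≤ y := le_trans (by norm_num) hy128
  have hs1 : 1 ≤ Real.sqrt K0 := by rw [Real.one_le_sqrt]; exact hK0
  have ht1 : 1 ≤ t := hs1.trans hKt
  have hP2 : ∀ p ∈ P, 1 ≤ p := fun p hp => (hP p hp).one_lt.le
  have hlaw0 : ∀ S, 0 ≤ law P S := fun S => law_nonneg hP2
  -- the classes
  set E1 := P.powerset.filter fun S => S.Nonempty ∧ ∑ q ∈ P with q < mn S, (1 : ℝ) / q ≤ s with hE1
  set EN := P.powerset.filter fun S => Run δ γ t S ∧
    (ps δ γ t S : ℝ) ≤ cut (t * ((∏ q ∈ S.filter (· < ps δ γ t S), q : ℕ) : ℝ)) with hEN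
  set E2 := P.powerset.filter fun S => Run δ γ t S ∧
    cut (t * ((∏ q ∈ S.filter (· < ps δ γ t S), q : ℕ) : ℝ)) < (ps δ γ t S : ℝ) ∧
        ∃ (a : ℤ) (k : ℕ), 0 < k ∧
          (k : ℝ) ≤ (t * ((∏ q ∈ S.filter (· < ps δ γ t S), q : ℕ) : ℝ)) ^ (1 / 2 : ℝ) ∧
          (k : ℝ) * max 1 (sc t S (ps δ γ t S) * |pt γ S (ps δ γ t S) - a / k|) <
            3 * (ps δ γ t S : ℝ) ^ δ with hE2
  set Eb := P.powerset.filter fun S => Cell γ t K0 Λ S ∧ Run δ γ t S ∧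
    ∑ q ∈ nc cut δ γ t P S (ps δ γ t S), (1 : ℝ) / q ≤ s ∧
    ¬ On (3 * (ps δ γ t S : ℝ) ^ δ) (pt γ S (ps δ γ t S)) (sc t S (ps δ γ t S)) with hEb
  set Ea := P.powerset.filter fun S => Cell γ t K0 Λ S ∧ Run δ γ t S ∧
    ∑ q ∈ nc cut δ γ t P S (ps δ γ t S), (1 : ℝ) / q ≤ s ∧
    ∃ (a : ℤ) (k : ℕ), 0 < k ∧ IsCoprime a (k : ℤ) ∧
      (k : ℝ) * max 1 (sc t S (ps δ γ t S) * |pt γ S (ps δ γ t S) - a / k|) <
        3 * (ps δ γ t S : ℝ) ^ δ ∧ scb t S (ps δ γ t S) < (k : ℝ) ^ 2 with hEa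
  have hcover : E ⊆ E1 ∪ (EN ∪ (E2 ∪ (Eb ∪ Ea))) := by
    intro S hS
    obtain ⟨hSP, hcell, hne, hbad⟩ := hE S hS
    have hSpow : S ∈ P.powerset := mem_powerset.2 hSP
    rcases hbad with ⟨hnon, hlt⟩ | ⟨hon, hlost, hlt⟩
    · refine mem_union_left _ (mem_filter.2 ⟨hSpow, hne, ?_⟩)
      refine le_trans (sum_le_sum_of_subset_of_nonneg ?_ fun _ _ _ => by positivity) hlt
      intro q hq
      rw [mem_filter] at hq
      rw [mem_nc]
      have h1 : scb t S (mn S) = t := by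
        unfold scb
        have h2 : S.filter (· < mn S) = ∅ := by
          ext p
          simp only [mem_filter, notMem_empty, iff_false, not_and, not_lt]
          exact fun h => mn_le h
        rw [h2]
        simp
      refine ⟨hq.1, ?_, hq.2, fun h => hnon ?_⟩
      · rw [h1]; exact hPc q hq.1
      · exact h.mono (K_mono hδ0.le hq.2.le)
    · have hrun : Run δ γ t S := ⟨hne, hon, hlost⟩
      refine mem_union_right _ ?_
      by_cases hnc : (ps δ γ t S : ℝ) ≤ cut (t * ((∏ q ∈ S.filter (· < ps δ γ t S), q : ℕ) : ℝ))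
      · exact mem_union_left _ (mem_filter.2 ⟨hSpow, hrun, hnc⟩)
      refine mem_union_right _ ?_
      have hlt' := hlt.resolve_left hnc
      by_cases hon' : On (3 * (ps δ γ t S : ℝ) ^ δ) (pt γ S (ps δ γ t S)) (sc t S (ps δ γ t S))
      · obtain ⟨a, k, hk, hk2⟩ := hon'
        obtain ⟨a', k', hk', hco, hkk, he⟩ := reduce_frac a hk
        have hk3 : (k' : ℝ) * max 1 (sc t S (ps δ γ t S) * |pt γ S (ps δ γ t S) - a' / k'|) <
            3 * (ps δ γ t S : ℝ) ^ δ := by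
          rw [← he]
          refine lt_of_le_of_lt ?_ hk2
          refine mul_le_mul_of_nonneg_right (by exact_mod_cast hkk) ?_
          exact le_trans zero_le_one (le_max_left _ _)
        by_cases hbig : scb t S (ps δ γ t S) < (k' : ℝ) ^ 2
        · exact mem_union_right _ (mem_union_right _ (mem_filter.2
            ⟨hSpow, hcell, hrun, hlt', a', k', hk', hco, hk3, hbig⟩))
        · refine mem_union_left _ (mem_filter.2 ⟨hSpow, hrun, not_le.1 hnc, a', k', hk', ?_, hk3⟩)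
          have h3 : (k' : ℝ) ^ 2 ≤ scb t S (ps δ γ t S) := not_lt.1 hbig
          have h4 : (k' : ℝ) = ((k' : ℝ) ^ 2) ^ (1 / 2 : ℝ) := by
            rw [← Real.rpow_natCast, ← Real.rpow_mul (Nat.cast_nonneg _)]
            norm_num
          rw [h4]
          exact Real.rpow_le_rpow (by positivity) h3 (by norm_num)
      · exact mem_union_right _ (mem_union_left _ (mem_filter.2
            ⟨hSpow, hcell, hrun, hlt', hon'⟩))
  have hunion : ∀ F G : Finset (Finset ℕ), ∑ S ∈ F ∪ G, law P S ≤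
      ∑ S ∈ F, law P S + ∑ S ∈ G, law P S := by
    intro F G
    rw [← sum_union_inter]
    exact le_add_of_nonneg_right (sum_nonneg fun S _ => hlaw0 S)
  have hy1 : 1 ≤ y := by linarith
  have hypow : ∀ c' : ℝ, c ≤ c' → y ^ (-c') ≤ y ^ (-c) := fun c' hc' =>
    Real.rpow_le_rpow_of_exponent_le hy1 (by linarith)
  have hyinv : 1 / y ≤ y ^ (-c) := by
    refine le_trans (le_of_eq ?_) (hypow 1 (min_le_left _ _))
    rw [Real.rpow_neg_one, one_div]
  have hb1 : ∑ S ∈ E1, law P S ≤ s + 1 / y := Ownx114.own hP (by linarith) hPy hs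
  have hb2 : ∑ S ∈ EN, law P S ≤ Cn * y ^ (-cn) :=
    hn δ γ t y cut P EN hδ hy128 ht1 (fun τ hτ => (hcut τ hτ).2) hP hPy
      (fun S hS => mem_powerset.1 (mem_filter.1 hS).1) fun S hS => (mem_filter.1 hS).2
  have hb3 : ∑ S ∈ E2, law P S ≤ C2 * y ^ (-c2) :=
    h2 δ γ t y cut P E2 hδ hyy2 ht1 hcut8 hP hPy
      (fun S hS => mem_powerset.1 (mem_filter.1 hS).1) fun S hS => (mem_filter.1 hS).2
  have hb4 : ∑ S ∈ Eb, law P S ≤ 4 * s + Cb * (Λ.card / Real.sqrt (Real.sqrt K0) + 1 / y) :=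
    hb P Eb cut δ γ t s K0 y Λ hδ0.le hP hPy hK0 hKt hty (by linarith) hs
      (fun τ hτ => hcut τ (ht1.trans hτ))
      (fun S hS => mem_powerset.1 (mem_filter.1 hS).1) (fun S hS => (mem_filter.1 hS).2.1)
      (fun S hS => (mem_filter.1 hS).2.2.1) (fun S hS => (mem_filter.1 hS).2.2.2.1)
      fun S hS => (mem_filter.1 hS).2.2.2.2
  have hb5 : ∑ S ∈ Ea, law P S ≤ 4 * s + Ca * (Λ.card / Real.sqrt (Real.sqrt K0) + 1 / y) :=
    ha P Ea cut δ γ t s K0 y Λ hδ0 (by linarith) hP hPy hK0 hKt hty hy324 hs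
      (fun τ hτ => hcut τ (ht1.trans hτ))
      (fun S hS => mem_powerset.1 (mem_filter.1 hS).1) (fun S hS => (mem_filter.1 hS).2.1)
      (fun S hS => (mem_filter.1 hS).2.2.1) (fun S hS => (mem_filter.1 hS).2.2.2.1)
      fun S hS => (mem_filter.1 hS).2.2.2.2
  have hb2' : Cn * y ^ (-cn) ≤ Cn * y ^ (-c) :=
    mul_le_mul_of_nonneg_left (hypow _ ((min_le_right _ _).trans (min_le_left _ _))) hCn.le
  have hb3' : C2 * y ^ (-c2) ≤ C2 * y ^ (-c) :=
    mul_le_mul_of_nonneg_left (hypow _ ((min_le_right _ _).trans (min_le_right _ _))) hC2.le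
  set κ := (Λ.card : ℝ) / Real.sqrt (Real.sqrt K0) with hκ
  have hκ0 : 0 ≤ κ := by positivity
  set u := y ^ (-c) with hu
  have hu0 : 0 ≤ u := by positivity
  have hb4' : Cb * (κ + 1 / y) ≤ Cb * (κ + u) :=
    mul_le_mul_of_nonneg_left (by linarith) hCb.le
  have hb5' : Ca * (κ + 1 / y) ≤ Ca * (κ + u) :=
    mul_le_mul_of_nonneg_left (by linarith) hCa.le
  have htot : ∑ S ∈ E, law P S ≤ (s + 1 / y) + (Cn * u + (C2 * u +
      ((4 * s + Cb * (κ + u)) + (4 * s + Ca * (κ + u))))) := by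
    refine (sum_le_sum_of_subset_of_nonneg hcover fun S _ _ => hlaw0 S).trans ?_
    have h1 := hunion E1 (EN ∪ (E2 ∪ (Eb ∪ Ea)))
    have h2 := hunion EN (E2 ∪ (Eb ∪ Ea))
    have h3 := hunion E2 (Eb ∪ Ea)
    have h4 := hunion Eb Ea
    linarith
  refine htot.trans ?_
  have e1 : (9 + Ca + Cb + Cn + C2 + 1) * (s + κ + u) =
      9 * s + u + Cn * u + C2 * u + Cb * (κ + u) + Ca * (κ + u) +
      (Ca + Cb + Cn + C2 + 1) * s + (9 + Cn + C2 + 1) * κ + 9 * u := by ring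
  rw [e1]
  have h5 : 0 ≤ (Ca + Cb + Cn + C2 + 1) * s := by positivity
  have h6 : 0 ≤ (9 + Cn + C2 + 1) * κ := by positivity
  linarith

end Crest.Agent.R4C.NHx656
end

-- ▼ part R4C/NHnu_656
section

/-!
# Row 4, block NH, `nu` form (helper656)
-/

set_option autoImplicit false

namespace Crest.Agent.R4C.NHx656

open Finset Crest.Agent.R4C.GWhx656 Crest.Agent.R4C.GWhBx656
open Crest.Agent.R4C.Basex935 Crest.Agent.R4C.Cutx50 Crest.Agent.R4C.FLDefx935
open Crest.Agent.R4C.PureL2x232 Crest.Agent.R4C.PureClsx863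

open Classical in
/-- **BLOCK NH, `nu` form** -/
theorem nh_nu (A δ : ℝ) (hA : 1 ≤ A) (hδ0 : 0 < δ) (hδ : δ ≤ 1 / 128) : ∃ C c y0 : ℝ,
    0 < C ∧ 0 < c ∧ 2 ≤ y0 ∧ ∀ (cut : ℝ → ℝ) (N y : ℕ) (γ t s K0 : ℝ) (Λ : Finset ℝ) (E : ℕ → Prop),
      0 < N → y0 ≤ y → 0 ≤ s → 1 ≤ K0 → Real.sqrt K0 ≤ t → t ^ 4 ≤ y →
      (∀ τ, 1 ≤ τ → 1 ≤ cut τ ∧ cut τ ≤ τ ^ A) → (∀ τ, (y : ℝ) ≤ τ → τ ^ 8 ≤ cut τ) →
      cut t ≤ y → (∀ p ∈ N.primeFactors, y < p) →
      (∀ S ⊆ N.primeFactors, E (∏ p ∈ S, p) →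
        Cell γ t K0 Λ S ∧ Bad cut δ γ t s N.primeFactors S) →
      ∑ u ∈ N.divisors with E u, nu N u ≤
        C * (s + Λ.card / Real.sqrt (Real.sqrt K0) + (y : ℝ) ^ (-c)) := by
  obtain ⟨C, c, y0, hC, hc, hy0, h⟩ := nh A δ hA hδ0 hδ
  refine ⟨C + 2, min c 1, y0, by positivity, lt_min hc one_pos, hy0, ?_⟩
  intro cut N y γ t s K0 Λ E hN hy hs hK0 hKt hty hcut hcut8 hct hP hE
  have hy2 : (2 : ℝ) ≤ y := hy0.trans hy
  have hy1 : 1 ≤ y := by
    have : (1 : ℝ) ≤ y := by linarith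
    exact_mod_cast this
  have hy1' : (1 : ℝ) ≤ y := by exact_mod_cast hy1
  have h1 := h cut N.primeFactors γ t s K0 y Λ hy hs hK0 hKt hty hcut hcut8
    (fun p hp => Nat.prime_of_mem_primeFactors hp)
    (fun p hp => by exact_mod_cast (hP p hp).le)
    (fun p hp => hct.trans_lt (by exact_mod_cast hP p hp))
    (N.primeFactors.powerset.filter fun S => E (∏ p ∈ S, p)) (fun S hS => by
      obtain ⟨h1, h2⟩ := mem_filter.1 hS
      have h3 := mem_powerset.1 h1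
      obtain ⟨h4, h5⟩ := hE S h3 h2
      exact ⟨h3, h4, h5⟩)
  have h2 := CellLawx276.nu_pred_y hN hy1 hP E h1
  refine h2.trans ?_
  have h3 : (y : ℝ) ^ (-c) ≤ (y : ℝ) ^ (-(min c 1)) :=
    Real.rpow_le_rpow_of_exponent_le hy1' (by linarith [min_le_left c 1])
  have h4 : 1 / (y : ℝ) ≤ (y : ℝ) ^ (-(min c 1)) := by
    have e1 : 1 / (y : ℝ) = (y : ℝ) ^ (-(1 : ℝ)) := by rw [Real.rpow_neg_one, one_div]
    rw [e1]
    exact Real.rpow_le_rpow_of_exponent_le hy1' (by linarith [min_le_right c 1])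
  have h5 : (2 : ℝ) / y = 2 * (1 / y) := by ring
  rw [h5]
  set κ := (Λ.card : ℝ) / Real.sqrt (Real.sqrt K0) with hκ
  have hκ0 : 0 ≤ κ := by positivity
  set u := (y : ℝ) ^ (-(min c 1)) with hu
  have h6 : C * (s + κ + (y : ℝ) ^ (-c)) ≤ C * (s + κ + u) :=
    mul_le_mul_of_nonneg_left (by linarith) hC.le
  nlinarith

open Classical in
/-- **BLOCK NH at a node**: words of `N` with fixed part `n` below `y` -/
theorem nh_node (A δ : ℝ) (hA : 1 ≤ A) (hδ0 : 0 < δ) (hδ : δ ≤ 1 / 128) : ∃ C c y0 : ℝ,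
    0 < C ∧ 0 < c ∧ 2 ≤ y0 ∧ ∀ (cut : ℝ → ℝ) (N y n : ℕ) (γ t s K0 : ℝ) (Λ : Finset ℝ)
      (E : ℕ → Prop),
      0 < N → n ∣ low y N → y0 ≤ y → 0 ≤ s → 1 ≤ K0 → Real.sqrt K0 ≤ t → t ^ 4 ≤ y →
      (∀ τ, 1 ≤ τ → 1 ≤ cut τ ∧ cut τ ≤ τ ^ A) → (∀ τ, (y : ℝ) ≤ τ → τ ^ 8 ≤ cut τ) →
      cut t ≤ y →
      (∀ S ⊆ (upp y N).primeFactors, E (∏ p ∈ S, p) →
        Cell γ t K0 Λ S ∧ Bad cut δ γ t s (upp y N).primeFactors S) →
      ∑ w ∈ N.divisors with (low y w = n ∧ E (upp y w)), nu N w ≤ nu (low y N) n *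
        (C * (s + Λ.card / Real.sqrt (Real.sqrt K0) + (y : ℝ) ^ (-c))) := by
  obtain ⟨C, c, y0, hC, hc, hy0, h⟩ := nh_nu A δ hA hδ0 hδ
  refine ⟨C, c, y0, hC, hc, hy0, ?_⟩
  intro cut N y n γ t s K0 Λ E hN hn hy hs hK0 hKt hty hcut hcut8 hct hE
  rw [CellLawx276.cell_low hN y hn E]
  exact mul_le_mul_of_nonneg_left (h cut (upp y N) y γ t s K0 Λ E (upp_pos _ _) hy hs hK0 hKt hty
    hcut hcut8 hct (fun p hp => CellLawx276.prime_upp hp) hE) (nu_nonneg _ _)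

end Crest.Agent.R4C.NHx656
end

-- ▼ part R4C/HypT_516
section

/-!
# Row 4, GW section: natural hypothesis per prefix with finitely many targets (helper516)

`BadW Z δ i u s K0 Λ w` : `i` is a node index of `w`, the point `yy i w` is within `1/tt` of a target
`α ∈ Λ` mod 1, has depth `≥ K0`, two later births `b1 < b2` exist and the coins of `w` in
`(cut i, cut b2]` have loss `≤ s`; nominal coins which are not coins have mass `≤ u`.

`hypT` : the natural mass of these words with `low (cut i) w = n` is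
`≤ C (s + u + |Λ| K0^{-1/4} + (cut i)^{-c}) nu(n)`.
-/

set_option autoImplicit false

open Finset
open Crest.Agent.R4C.Basex935 Crest.Agent.R4C.Cutx50 Crest.Agent.R4C.PrefixMx882
open Crest.Agent.R4C.NHx656 Crest.Agent.R4C.GWdefx982 Crest.Agent.R4C.GWbirthx516
open Crest.Agent.R4C.GWbirth2x516

namespace Crest.Agent.R4C.HypTx516

/-- bad word at the node `i` -/
structure BadW (Z : World) (δ : ℝ) (i : ℕ) (u s K0 : ℝ) (Λ : Finset ℝ) (w : ℕ) : Prop where
  nd : Z.nd i w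
  tgt : ∃ α ∈ Λ, ∃ m : ℤ, |Z.yy i w - α - m| ≤ 1 / Z.tt i w
  off : ¬ On K0 (Z.yy i w) (Z.tt i w)
  pay : ∃ b1 b2, i < b1 ∧ Z.nd b1 w ∧ b1 < b2 ∧ Z.birth b2 w ∧
    1 - Z.Wp (Z.cut i) (Z.cut b2) w ≤ s
  err : Squarefree (upp (Z.cut i) w) → ∀ r ∈ (upp (Z.cut i) w).primeFactors,
    ∀ G ⊆ nc (cutR Z.cut) δ Z.γ (Z.tt i w) (upp (Z.cut i) Z.N).primeFactors
      (upp (Z.cut i) w).primeFactors r, (∀ q ∈ G, ¬ Z.coin w q) → ∑ q ∈ G, (1 : ℝ) / q ≤ u

section cutR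

variable {A : ℕ} {cut : ℕ → ℕ}

lemma cutR_eq (hcut : ∀ k, cut k = 2 ^ (A * k)) (τ : ℝ) : cutR cut τ = ((2 : ℝ) ^ lv τ) ^ A := by
  unfold cutR
  rw [hcut]
  push_cast
  rw [← pow_mul, mul_comm]

lemma cutR_bounds (hcut : ∀ k, cut k = 2 ^ (A * k)) {τ : ℝ} (hτ : 1 ≤ τ) :
    1 ≤ cutR cut τ ∧ cutR cut τ ≤ τ ^ (A : ℝ) := by
  rw [cutR_eq hcut, Real.rpow_natCast]
  exact ⟨one_le_pow₀ (one_le_pow₀ (by norm_num)),
    pow_le_pow_left₀ (by positivity) (lv_le hτ) _⟩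

lemma cutR_ge (hA : 16 ≤ A) (hcut : ∀ k, cut k = 2 ^ (A * k)) {τ : ℝ} (hτ : 4 ≤ τ) :
    τ ^ 8 ≤ cutR cut τ := by
  rw [cutR_eq hcut]
  have h1 : τ / 2 ≤ 2 ^ lv τ := by
    have := lt_lv τ
    rw [pow_succ] at this
    linarith
  have h2 : 1 ≤ τ / 2 := by linarith
  calc τ ^ 8 ≤ ((τ / 2) ^ 2) ^ 8 := pow_le_pow_left₀ (by linarith) (by nlinarith) _
    _ = (τ / 2) ^ 16 := by rw [← pow_mul]
    _ ≤ (τ / 2) ^ A := pow_le_pow_right₀ h2 hA
    _ ≤ (2 ^ lv τ) ^ A := pow_le_pow_left₀ (by linarith) h1 _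

lemma lv_eq {τ : ℝ} {i : ℕ} (h1 : (2 : ℝ) ^ i ≤ τ) (h2 : τ < 2 ^ (i + 1)) : lv τ = i := by
  have h3 := lt_lv τ
  have h0 : (1 : ℝ) ≤ τ := le_trans (one_le_pow₀ (by norm_num)) h1
  have h4 := lv_le h0
  have h5 : i < lv τ + 1 :=
    (pow_lt_pow_iff_right₀ (by norm_num : (1 : ℝ) < 2)).1 (lt_of_le_of_lt h1 h3)
  have h6 : lv τ < i + 1 :=
    (pow_lt_pow_iff_right₀ (by norm_num : (1 : ℝ) < 2)).1 (lt_of_le_of_lt h4 h2)
  omega

end cutR

/-- **natural hypothesis per prefix, finitely many targets** -/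
theorem hypT (A : ℕ) (hA : 32 ≤ A) : ∃ C c y0 : ℝ, 0 < C ∧ 0 < c ∧ 2 ≤ y0 ∧
    ∀ (Z : World), Z.Ok → (∀ k, Z.cut k = 2 ^ (A * k)) →
      (∀ k, Z.i0 ≤ k → 3 * ((2 : ℝ) ^ k) ^ (1 / (4 * (A : ℝ))) ≤ Z.θ k) →
      ∀ (i n : ℕ) (s u K0 : ℝ) (Λ : Finset ℝ), y0 ≤ (Z.cut i : ℝ) → n ∣ low (Z.cut i) Z.N →
        0 ≤ s → s ≤ 1 / 2 → 0 ≤ u → 1 ≤ K0 → Real.sqrt K0 ≤ 2 ^ i →
        ∀ D : Finset ℕ, D ⊆ Z.N.divisors →
        (∀ w ∈ D, low (Z.cut i) w = n ∧ BadW Z (1 / (4 * (A : ℝ))) i u s K0 Λ w) →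
        ∑ w ∈ D, nu Z.N w ≤
          C * (s + u + Λ.card / Real.sqrt (Real.sqrt K0) + (Z.cut i : ℝ) ^ (-c)) *
            nu (low (Z.cut i) Z.N) n := by
  classical
  have hA0 : (0 : ℝ) < A := by
    have : 0 < A := by omega
    exact_mod_cast this
  have hA32 : (32 : ℝ) ≤ A := by exact_mod_cast hA
  set δ : ℝ := 1 / (4 * (A : ℝ)) with hδ
  have hδ0 : 0 < δ := by positivity
  have hδ1 : δ ≤ 1 / 128 := by
    rw [hδ]
    exact one_div_le_one_div_of_le (by norm_num) (by linarith)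
  obtain ⟨C, c, y0, hC, hc, hy0, h⟩ := nh_node (A : ℝ) δ (by linarith) hδ0 hδ1
  refine ⟨2 * C, c, max y0 4, by positivity, hc, hy0.trans (le_max_left _ _), ?_⟩
  intro Z hZ hcut hθ i n s u K0 Λ hy hn hs hs2 hu hK0 hKi D hDN hD
  have hy1 : y0 ≤ (Z.cut i : ℝ) := (le_max_left _ _).trans hy
  have hy4 : (4 : ℝ) ≤ (Z.cut i : ℝ) := (le_max_right _ _).trans hy
  have hK00 : 0 < Real.sqrt (Real.sqrt K0) := by
    rw [Real.sqrt_pos, Real.sqrt_pos]; linarith
  have hnu0 : 0 ≤ nu (low (Z.cut i) Z.N) n := nu_nonneg _ _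
  have hrpow : 0 ≤ (Z.cut i : ℝ) ^ (-c) := Real.rpow_nonneg (by linarith) _
  rcases D.eq_empty_or_nonempty with h0 | ⟨w0, hw0⟩
  · rw [h0, sum_empty]
    positivity
  obtain ⟨hl0, hb0⟩ := hD w0 hw0
  set t : ℝ := ((Z.G0 * n : ℕ) : ℝ) / Z.L with ht
  have htt : ∀ w, low (Z.cut i) w = n → Z.tt i w = t := by
    intro w hw
    unfold World.tt World.e
    rw [hw]
  have ht1 : (2 : ℝ) ^ i ≤ t := by rw [← htt w0 hl0]; exact tt_ge hZ hb0.nd
  have ht2 : t < (2 : ℝ) ^ (i + 1) := by rw [← htt w0 hl0]; exact tt_lt hZ hb0.nd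
  have hi1 : 1 ≤ i := by have := hZ.hi0; have := hb0.nd.1; omega
  have ht0 : (0 : ℝ) < t := lt_of_lt_of_le (by positivity) ht1
  have hcutR : cutR Z.cut t = (Z.cut i : ℝ) := by
    unfold cutR
    rw [lv_eq ht1 ht2]
  have ht4 : t ^ 4 ≤ (Z.cut i : ℝ) := by
    have h1 : t ^ 4 ≤ ((2 : ℝ) ^ (i + 1)) ^ 4 := pow_le_pow_left₀ ht0.le ht2.le _
    have h2 : ((2 : ℝ) ^ (i + 1)) ^ 4 ≤ (2 : ℝ) ^ (A * i) := by
      rw [← pow_mul]
      refine pow_le_pow_right₀ (by norm_num) ?_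
      nlinarith
    rw [hcut]
    push_cast
    exact h1.trans h2
  obtain ⟨E, hE⟩ : ∃ E : ℕ → Prop, ∀ v, E v ↔ n * v ∈ D := ⟨_, fun _ => Iff.rfl⟩
  have hn0 : 0 < n := Nat.pos_of_dvd_of_pos hn (low_pos _ _)
  have hNne : Z.N ≠ 0 := hZ.hN.ne'
  have hmain := h (cutR Z.cut) Z.N (Z.cut i) n Z.γ t (2 * s + u) K0 Λ E hZ.hN hn hy1 (by linarith)
    hK0 (hKi.trans ht1) ht4 (fun τ hτ => cutR_bounds hcut hτ)
    (fun τ hτ => cutR_ge (by omega) hcut (hy4.trans hτ)) hcutR.le ?_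
  · refine (Finset.sum_le_sum_of_subset_of_nonneg ?_
      (fun w _ _ => nu_nonneg _ _)).trans (hmain.trans ?_)
    · intro w hw
      rw [mem_filter]
      obtain ⟨h1, _⟩ := hD w hw
      have hwN := hDN hw
      have hw0 : w ≠ 0 := by
        intro h; rw [h] at hwN; simp at hwN
      refine ⟨hwN, h1, ?_⟩
      rw [hE]
      have h2 := low_mul_upp (Z.cut i) hw0
      rw [h1] at h2
      rw [h2]
      exact hw
    · have h1 : 2 * s + u + Λ.card / Real.sqrt (Real.sqrt K0) + (Z.cut i : ℝ) ^ (-c) ≤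
          2 * (s + u + Λ.card / Real.sqrt (Real.sqrt K0) + (Z.cut i : ℝ) ^ (-c)) := by
        have h2 : (0 : ℝ) ≤ Λ.card / Real.sqrt (Real.sqrt K0) := by positivity
        linarith
      calc nu (low (Z.cut i) Z.N) n * (C * (2 * s + u + Λ.card / Real.sqrt (Real.sqrt K0) +
            (Z.cut i : ℝ) ^ (-c)))
          ≤ nu (low (Z.cut i) Z.N) n * (C * (2 * (s + u + Λ.card / Real.sqrt (Real.sqrt K0) +
            (Z.cut i : ℝ) ^ (-c)))) :=
            mul_le_mul_of_nonneg_left (mul_le_mul_of_nonneg_left h1 hC.le) hnu0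
        _ = _ := by ring
  · intro S hS hES
    have hSp : ∀ p ∈ S, p.Prime := fun p hp => Nat.prime_of_mem_primeFactors (hS hp)
    have hSd : ∏ p ∈ S, p ∣ upp (Z.cut i) Z.N :=
      (prod_dvd_prod_of_subset S (upp (Z.cut i) Z.N).primeFactors (fun p => p) hS).trans
        (Nat.prod_primeFactors_dvd _)
    set w := n * ∏ p ∈ S, p with hwdef
    have hwD : w ∈ D := (hE _).1 hES
    have hwN : w ∣ Z.N := by
      have h1 := Nat.mul_dvd_mul hn hSd
      rwa [low_mul_upp (Z.cut i) hNne] at h1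
    have hupp : upp (Z.cut i) w = ∏ p ∈ S, p := upp_of_mul hn hSd
    have hlow : low (Z.cut i) w = n := low_of_mul hn hSd
    have hpf : (upp (Z.cut i) w).primeFactors = S := by
      rw [hupp]; exact Nat.primeFactors_prod hSp
    have hsq : Squarefree (upp (Z.cut i) w) := by
      rw [hupp]
      refine Finset.squarefree_prod_of_pairwise_isCoprime (fun p hp q hq hpq => ?_)
        fun p hp => (hSp p hp).prime.squarefree
      exact Nat.coprime_iff_isRelPrime.1 ((Nat.coprime_primes (hSp p hp) (hSp q hq)).2 hpq)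
    obtain ⟨_, hb⟩ := hD w hwD
    have hyy : Z.yy i w = ((∏ p ∈ S, p : ℕ) : ℝ) * Z.γ := by
      unfold World.yy
      rw [hupp]
    have e1 := htt w hlow
    refine ⟨⟨?_, ?_⟩, ?_⟩
    · obtain ⟨α, hα, m, hm⟩ := hb.tgt
      rw [hyy, e1] at hm
      exact ⟨α, hα, m, hm⟩
    · have h1 := hb.off
      rw [hyy, e1] at h1
      exact h1
    · obtain ⟨b1, b2, hib, hnd1, hb12, hbi2, hpay⟩ := hb.pay
      have h1 := bad_of_W hZ (fun k => by
          rw [hcut]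
          exact Nat.pow_le_pow_right (by norm_num) (Nat.le_mul_of_pos_left k (by omega)))
        hδ0.le hθ hwN hsq hb.nd hib hnd1 hb12 hbi2 (hb.err hsq) hs2 hpay
      rw [e1, hpf] at h1
      exact h1

end Crest.Agent.R4C.HypTx516
end

-- ▼ part R4C/HypTW_516
section

/-!
# Row 4, GW section: the natural hypothesis per prefix in the form of `HDdef_529` (helper516)

`Err Z δ KE` : at every node `i` of every word the nominal coins which are not coins have mass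
`≤ KE/(i+1)`.  `hypT_world` : `Z.Ok`, `cut k = 2^(A k)`, `3 (2^k)^{1/(4A)} ≤ θ k`, `m ≤ i0`, `Err`
imply `HDx529.HypT Z C1 c KE` (`C1`, `c`, `m` depend on `A` only).
-/

set_option autoImplicit false

open Finset
open Crest.Agent.R4C.Basex935 Crest.Agent.R4C.Cutx50 Crest.Agent.R4C.PrefixMx882
open Crest.Agent.R4C.NHx656 Crest.Agent.R4C.GWdefx982 Crest.Agent.R4C.GWbirthx516
open Crest.Agent.R4C.GWbirth2x516 Crest.Agent.R4C.HypTx516

namespace Crest.Agent.R4C.HypTWx516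

/-- the nominal coins which are not coins have mass `≤ KE/(i+1)` at every node -/
def Err (Z : World) (δ KE : ℝ) : Prop := ∀ i w, w ∣ Z.N → Z.nd i w →
  Squarefree (upp (Z.cut i) w) → ∀ r ∈ (upp (Z.cut i) w).primeFactors,
    ∀ G ⊆ nc (cutR Z.cut) δ Z.γ (Z.tt i w) (upp (Z.cut i) Z.N).primeFactors
      (upp (Z.cut i) w).primeFactors r, (∀ q ∈ G, ¬ Z.coin w q) →
      ∑ q ∈ G, (1 : ℝ) / q ≤ KE / ((i : ℝ) + 1)

/-- **the natural hypothesis per prefix, world form** -/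
theorem hypT_world (A : ℕ) (hA : 32 ≤ A) : ∃ (C1 c : ℝ) (m : ℕ), 0 < C1 ∧ 0 < c ∧
    ∀ (Z : World), Z.Ok → (∀ k, Z.cut k = 2 ^ (A * k)) →
      (∀ k, Z.i0 ≤ k → 3 * ((2 : ℝ) ^ k) ^ (1 / (4 * (A : ℝ))) ≤ Z.θ k) → m ≤ Z.i0 →
      ∀ KE : ℝ, 0 ≤ KE → Err Z (1 / (4 * (A : ℝ))) KE → HDx529.HypT Z C1 c KE := by
  classical
  obtain ⟨C, c, y0, hC, hc, hy0, h⟩ := hypT A hA
  have hA0 : (0 : ℝ) < A := by
    have : 0 < A := by omega
    exact_mod_cast this
  have hA1 : (1 : ℝ) ≤ A := by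
    have : 1 ≤ A := by omega
    exact_mod_cast this
  obtain ⟨m, hm⟩ := pow_unbounded_of_one_lt y0 (by norm_num : (1 : ℝ) < 2)
  refine ⟨2 * C, min (1 / 4) c, m, by positivity, lt_min (by norm_num) hc, ?_⟩
  intro Z hZ hcut hθ hmi KE hKE hErr i n Λ K0 s hi hK0 hKi hs hs2
  set D := HDx529.badT Z i n Λ K0 s with hD
  have hnu0 : 0 ≤ nu (low (Z.cut i) Z.N) n := nu_nonneg _ _
  have hc0 : 0 < min (1 / 4) c := lt_min (by norm_num) hc
  have hE0 : 0 ≤ KE / ((i : ℝ) + 1) := by positivity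
  have hK00 : 0 < K0 := by linarith
  rcases D.eq_empty_or_nonempty with h0 | ⟨w0, hw0⟩
  · rw [h0, sum_empty]
    have : 0 ≤ K0 ^ (-(min (1 / 4) c)) := Real.rpow_nonneg hK00.le _
    positivity
  have hmem : ∀ w ∈ D, w ∣ Z.N ∧ Z.nd i w ∧ low (Z.cut i) w = n ∧
      (∃ α ∈ Λ, ∃ m : ℤ, |Z.yy i w - α - m| ≤ 1 / Z.tt i w) ∧
      ¬ On K0 (Z.yy i w) (Z.tt i w) ∧
      ∃ b1 b2, i < b1 ∧ b1 < b2 ∧ Z.nd b1 w ∧ Z.birth b2 w ∧
        1 - Z.Wp (Z.cut i) (Z.cut b2) w ≤ s := by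
    intro w hw
    rw [hD] at hw
    unfold HDx529.badT at hw
    rw [mem_filter, Nat.mem_divisors] at hw
    exact ⟨hw.1.1, hw.2⟩
  obtain ⟨hwN0, _, hl0, ⟨α0, hα0, _⟩, _, _⟩ := hmem w0 hw0
  have hn : n ∣ low (Z.cut i) Z.N := by
    rw [← hl0]
    exact low_dvd _ hZ.hN.ne' hwN0
  have hΛ : (1 : ℝ) ≤ Λ.card := by
    have : 0 < Λ.card := card_pos.2 ⟨α0, hα0⟩
    exact_mod_cast this
  have h2i : (2 : ℝ) ^ m ≤ 2 ^ i := pow_le_pow_right₀ (by norm_num) (hmi.trans hi)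
  have hcuti : (Z.cut i : ℝ) = ((2 : ℝ) ^ i) ^ A := by
    rw [hcut]; push_cast; rw [← pow_mul, mul_comm]
  have h2i1 : (1 : ℝ) ≤ 2 ^ i := one_le_pow₀ (by norm_num)
  have h2A : (2 : ℝ) ^ i ≤ (Z.cut i : ℝ) := by
    rw [hcuti]
    exact le_self_pow₀ h2i1 (by omega)
  have hy : y0 ≤ (Z.cut i : ℝ) := by linarith
  have hsq : Real.sqrt K0 ≤ 2 ^ i := by
    refine le_trans ?_ hKi
    rw [Real.sqrt_le_left (by linarith)]
    nlinarith
  have h1 := h Z hZ hcut hθ i n s (KE / ((i : ℝ) + 1)) K0 Λ hy hn hs hs2 hE0 hK0 hsq D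
    (fun w hw => Nat.mem_divisors.2 ⟨(hmem w hw).1, hZ.hN.ne'⟩) (fun w hw => by
      obtain ⟨a1, a2, a3, a4, a5, b1, b2, a6, a7, a8, a9, a10⟩ := hmem w hw
      exact ⟨a3, a2, a4, a5, ⟨b1, b2, a6, a8, a7, a9, a10⟩, hErr i w a1 a2⟩)
  refine h1.trans (mul_le_mul_of_nonneg_right ?_ hnu0)
  have e1 : Real.sqrt (Real.sqrt K0) = K0 ^ ((1 : ℝ) / 4) := by
    rw [Real.sqrt_eq_rpow, Real.sqrt_eq_rpow, ← Real.rpow_mul hK00.le]
    norm_num
  have h2 : (Λ.card : ℝ) / Real.sqrt (Real.sqrt K0) ≤ Λ.card * K0 ^ (-(min (1 / 4) c)) := by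
    rw [e1, div_eq_mul_inv, ← Real.rpow_neg hK00.le]
    refine mul_le_mul_of_nonneg_left ?_ (by positivity)
    exact Real.rpow_le_rpow_of_exponent_le hK0 (by linarith [min_le_left (1 / 4) c])
  have h3 : (Z.cut i : ℝ) ^ (-c) ≤ Λ.card * K0 ^ (-(min (1 / 4) c)) := by
    calc (Z.cut i : ℝ) ^ (-c) ≤ K0 ^ (-c) :=
          Real.rpow_le_rpow_of_nonpos hK00 (hKi.trans h2A) (by linarith)
      _ ≤ K0 ^ (-(min (1 / 4) c)) :=
          Real.rpow_le_rpow_of_exponent_le hK0 (by linarith [min_le_right (1 / 4) c])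
      _ ≤ Λ.card * K0 ^ (-(min (1 / 4) c)) :=
          le_mul_of_one_le_left (Real.rpow_nonneg hK00.le _) hΛ
  have h4 : s + KE / ((i : ℝ) + 1) + Λ.card / Real.sqrt (Real.sqrt K0) + (Z.cut i : ℝ) ^ (-c) ≤
      2 * (s + Λ.card * K0 ^ (-(min (1 / 4) c)) + KE / ((i : ℝ) + 1)) := by linarith
  calc C * (s + KE / ((i : ℝ) + 1) + Λ.card / Real.sqrt (Real.sqrt K0) + (Z.cut i : ℝ) ^ (-c))
      ≤ C * (2 * (s + Λ.card * K0 ^ (-(min (1 / 4) c)) + KE / ((i : ℝ) + 1))) :=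
        mul_le_mul_of_nonneg_left h4 hC.le
    _ = _ := by ring

end Crest.Agent.R4C.HypTWx516
end

-- ▼ part R4C/ErrN_516

/-!
# Row 4, GW section: nominal coins of `nc` which are not coins of `DictV_20.nomC` (helper516)

* `window_sum` : primes in `(2^a, 2^b]` have mass `≤ 9 (b - a) / a`;
* `err_of_WV` : in a world with the coins `nomC P δ s` the hypothesis `Err` of `HypTW_516` holds with
  `KE = 18 (s + 1)`;
* `hypT_WV` : `HDx529.HypT Z C1 c (18 (s+1))`.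
-/

set_option autoImplicit false

open Finset
open Crest.Agent.R4C.Basex935 Crest.Agent.R4C.Cutx50 Crest.Agent.R4C.PrefixMx882
open Crest.Agent.R4C.NHx656 Crest.Agent.R4C.GWdefx982 Crest.Agent.R4C.GWbirthx516
open Crest.Agent.R4C.HypTx516 Crest.Agent.R4C.HypTWx516
open Crest.Agent.R4C.Rulex945 (Par)
open Crest.Agent.R4C.DictVx20 (nomC WV)

namespace Crest.Agent.R4C.ErrNx516

/-- primes of a dyadic window -/
lemma window_sum {a b : ℕ} (ha : 1 ≤ a) (hab : a ≤ b) (T : Finset ℕ)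
    (hT : ∀ q ∈ T, q.Prime ∧ 2 ^ a < q ∧ q ≤ 2 ^ b) :
    ∑ q ∈ T, (1 : ℝ) / q ≤ 9 * ((b : ℝ) - a) / a := by
  classical
  have ha0 : (0 : ℝ) < a := by exact_mod_cast ha
  induction b, hab using Nat.le_induction generalizing T with
  | base =>
    have : T = ∅ := by
      rw [eq_empty_iff_forall_notMem]
      intro q hq
      have := hT q hq
      omega
    rw [this]
    simp
  | succ b hab ih =>
    have h1 := ih (T.filter (fun q => q ≤ 2 ^ b)) fun q hq => by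
      rw [mem_filter] at hq
      exact ⟨(hT q hq.1).1, (hT q hq.1).2.1, hq.2⟩
    have h2 : ∑ q ∈ T.filter (fun q => ¬ q ≤ 2 ^ b), (1 : ℝ) / q ≤
        6 / Real.log ((2 ^ (b + 1) : ℕ) : ℝ) := by
      refine F5bx20.sum_half (r := 2 ^ (b + 1)) ?_ _ fun q hq => ?_
      · calc 2 = 2 ^ 1 := by norm_num
          _ ≤ 2 ^ (b + 1) := Nat.pow_le_pow_right (by norm_num) (by omega)
      · rw [mem_filter] at hq
        have h3 := hT q hq.1
        refine ⟨h3.1, ?_, h3.2.2⟩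
        rw [pow_succ]
        omega
    have h3 : 6 / Real.log ((2 ^ (b + 1) : ℕ) : ℝ) ≤ 9 / a := by
      have e1 : Real.log ((2 ^ (b + 1) : ℕ) : ℝ) = (b + 1 : ℝ) * Real.log 2 := by
        push_cast
        rw [Real.log_pow]
        push_cast
        ring
      have h4 := Real.log_two_gt_d9
      have h5 : (a : ℝ) ≤ b := by exact_mod_cast hab
      rw [e1, div_le_div_iff₀ (by positivity) ha0]
      nlinarith
    rw [← sum_filter_add_sum_filter_not T (fun q => q ≤ 2 ^ b)]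
    have h6 : 9 * (((b + 1 : ℕ) : ℝ) - a) / a = 9 * ((b : ℝ) - a) / a + 9 / a := by
      push_cast
      ring
    rw [h6]
    exact add_le_add h1 (h2.trans h3)

variable {Z : World} {P : Par} {δ : ℝ} {s A : ℕ}

/-- **the error hypothesis in the world of the nominal coins** -/
theorem err_of_WV (hZ : Z.Ok) (hW : WV Z P δ s) (hA : 1 ≤ A) (hcut : ∀ k, P.cut k = 2 ^ (A * k))
    (hY : P.Y = fun k => 2 ^ k) : Err Z δ (18 * ((s : ℝ) + 1)) := by
  classical
  intro i w hwN hnd hsq r hr G hG hGc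
  have hYm : StrictMono P.Y := by
    rw [hY]
    exact fun a b h => Nat.pow_lt_pow_right (by norm_num) h
  have hrp := Nat.prime_of_mem_primeFactors hr
  have hri : Z.cut i < r := GWbirthx33.lt_of_mem hr
  have hrw : r ∣ w := (Nat.dvd_of_mem_primeFactors hr).trans (upp_dvd_self _ _)
  have hi1 : 1 ≤ i := by have := hZ.hi0; have := hnd.1; omega
  have hi0 : (0 : ℝ) < i := by exact_mod_cast hi1
  have hZc : ∀ k, Z.cut k = 2 ^ (A * k) := fun k => by rw [hW.cut, hcut]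
  set S := (upp (Z.cut i) w).primeFactors with hS
  set τ : ℝ := Z.tt i w * ((∏ p ∈ S.filter (· < r), p : ℕ) : ℝ) with hτ
  have hSp : ∀ p ∈ S, p.Prime := fun p hp => Nat.prime_of_mem_primeFactors hp
  have h1S : (1 : ℝ) ≤ ((∏ p ∈ S.filter (· < r), p : ℕ) : ℝ) := by
    have : 0 < ∏ p ∈ S.filter (· < r), p :=
      prod_pos fun p hp => (hSp p (mem_filter.1 hp).1).pos
    exact_mod_cast this
  have htt : (2 : ℝ) ^ i ≤ Z.tt i w := GWbirthx516.tt_ge hZ hnd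
  have hτ2 : (2 : ℝ) ^ i ≤ τ := by
    have : (0 : ℝ) < Z.tt i w := lt_of_lt_of_le (by positivity) htt
    rw [hτ]
    nlinarith
  -- the prefix below `r`
  have hτe : τ = ((Z.G0 * low (r - 1) w : ℕ) : ℝ) / Z.L := by
    have e1 : low (r - 1) w = low (Z.cut i) w * ∏ p ∈ S.filter (· < r), p := by
      rw [DictAx20.low_prod hsq (by omega : Z.cut i ≤ r - 1)]
      congr 1
      refine prod_congr ?_ fun _ _ => rfl
      ext p
      simp only [mem_filter]
      have := hrp.pos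
      constructor
      · rintro ⟨h1, h2⟩; exact ⟨h1, by omega⟩
      · rintro ⟨h1, h2⟩; exact ⟨h1, by omega⟩
    rw [hτ, e1]
    unfold World.tt World.e
    push_cast
    ring
  have hpt : pt Z.γ S r = (upp r w : ℝ) * P.γ := by
    unfold pt
    rw [← hW.γ, DictAx20.upp_prod hsq hri.le]
  have hsc : sc (Z.tt i w) S r = ((Z.G0 * low r w : ℕ) : ℝ) / Z.L := by
    unfold sc
    rw [DictAx20.low_prod hsq hri.le]
    unfold World.tt World.e
    push_cast
    ring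
  set j := lv τ with hj
  have hij : i ≤ j := by
    have h1 : (1 : ℝ) ≤ τ := le_trans (one_le_pow₀ (by norm_num)) hτ2
    have h2 := lt_lv τ
    have h3 : (2 : ℝ) ^ i < 2 ^ (lv τ + 1) := lt_of_le_of_lt hτ2 h2
    have h4 : i < lv τ + 1 := (pow_lt_pow_iff_right₀ (by norm_num : (1 : ℝ) < 2)).1 h3
    omega
  have hj0 : (0 : ℝ) < j := by
    have : 0 < j := by omega
    exact_mod_cast this
  have hA0 : (0 : ℝ) < A := by exact_mod_cast hA
  -- a nominal coin outside the window and the block of `r` is a coin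
  have key : ∀ q ∈ G, q.Prime ∧ Z.cut j < q ∧ q < r ∧ (q ≤ Z.cut (j + s) ∨ r ≤ 2 * q) := by
    intro q hq
    have h1 := hG hq
    unfold nc at h1
    rw [mem_filter] at h1
    obtain ⟨h2, h3, h4, h5⟩ := h1
    have hqp := Nat.prime_of_mem_primeFactors h2
    have h6 : Z.cut j < q := by
      have : (Z.cut j : ℝ) < q := h3
      exact_mod_cast this
    refine ⟨hqp, h6, h4, ?_⟩
    by_contra hcon
    push Not at hcon
    obtain ⟨h7, h8⟩ := hcon
    apply hGc q hq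
    rw [hW.coin]
    refine ⟨r, hrp, hrw, h4, ?_, ?_, ?_⟩
    · have e : Nat.log 2 ⌊((Z.G0 * low (r - 1) w : ℕ) : ℝ) / Z.L⌋₊ = j := by
        rw [← hτe]
        rfl
      rw [e, ← hW.cut]
      exact h7
    · -- the block of `q`
      have h9 : P.Y (P.blk q - 1) < q :=
        DictAx20.Y_lt (by rw [hY]; norm_num) hqp.two_le
      rw [hY] at h9 ⊢
      simp only at h9 ⊢
      rcases Nat.eq_zero_or_pos (P.blk q) with h10 | h10
      · rw [h10]
        have := hrp.two_le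
        rw [pow_zero]
        omega
      · have e : P.blk q = (P.blk q - 1) + 1 := by omega
        rw [e, pow_succ]
        omega
    · rw [← hpt, ← hsc]
      exact h5
  have hGsub : G ⊆ G.filter (fun q => q ≤ Z.cut (j + s)) ∪ G.filter (fun q => r ≤ 2 * q) := by
    intro q hq
    rw [mem_union, mem_filter, mem_filter]
    rcases (key q hq).2.2.2 with h | h
    · exact Or.inl ⟨hq, h⟩
    · exact Or.inr ⟨hq, h⟩
  have h1 : ∑ q ∈ G.filter (fun q => q ≤ Z.cut (j + s)), (1 : ℝ) / q ≤ 9 * s / i := by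
    have h2 := window_sum (a := A * j) (b := A * (j + s))
      (Nat.mul_pos hA (by omega)) (Nat.mul_le_mul_left _ (by omega))
      (G.filter (fun q => q ≤ Z.cut (j + s))) fun q hq => by
        rw [mem_filter] at hq
        have h3 := key q hq.1
        refine ⟨h3.1, ?_, ?_⟩
        · rw [← hZc]; exact h3.2.1
        · rw [← hZc]; exact hq.2
    refine h2.trans ?_
    have e : 9 * (((A * (j + s) : ℕ) : ℝ) - ((A * j : ℕ) : ℝ)) / ((A * j : ℕ) : ℝ) = 9 * s / j := by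
      push_cast
      field_simp
      ring
    rw [e]
    have hij' : (i : ℝ) ≤ j := by exact_mod_cast hij
    exact div_le_div_of_nonneg_left (by positivity) hi0 hij'
  have h2 : ∑ q ∈ G.filter (fun q => r ≤ 2 * q), (1 : ℝ) / q ≤ 9 / i := by
    have h3 := F5bx20.sum_half hrp.two_le (G.filter (fun q => r ≤ 2 * q)) fun q hq => by
      rw [mem_filter] at hq
      have h4 := key q hq.1
      exact ⟨h4.1, hq.2, h4.2.2.1.le⟩
    refine h3.trans ?_
    have h5 : (2 : ℝ) ^ (A * i) ≤ r := by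
      have : Z.cut i ≤ r := hri.le
      rw [hZc] at this
      exact_mod_cast this
    have h6 : (A : ℝ) * i * Real.log 2 ≤ Real.log r := by
      have := Real.log_le_log (by positivity) h5
      rw [Real.log_pow] at this
      push_cast at this
      exact this
    have h7 : (0.6931471803 : ℝ) < Real.log 2 := Real.log_two_gt_d9
    have h8 : (1 : ℝ) ≤ A := by exact_mod_cast hA
    have h9 : (i : ℝ) * Real.log 2 ≤ Real.log r := by
      refine le_trans ?_ h6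
      have : 0 ≤ (i : ℝ) * Real.log 2 := by positivity
      nlinarith
    rw [div_le_div_iff₀ (by nlinarith) hi0]
    nlinarith
  calc ∑ q ∈ G, (1 : ℝ) / q
      ≤ ∑ q ∈ G.filter (fun q => q ≤ Z.cut (j + s)) ∪ G.filter (fun q => r ≤ 2 * q),
        (1 : ℝ) / q := sum_le_sum_of_subset_of_nonneg hGsub fun _ _ _ => by positivity
    _ ≤ ∑ q ∈ G.filter (fun q => q ≤ Z.cut (j + s)), (1 : ℝ) / q +
        ∑ q ∈ G.filter (fun q => r ≤ 2 * q), (1 : ℝ) / q := by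
        rw [← sum_union_inter]
        exact le_add_of_nonneg_right (sum_nonneg fun _ _ => by positivity)
    _ ≤ 9 * s / i + 9 / i := add_le_add h1 h2
    _ ≤ 18 * ((s : ℝ) + 1) / ((i : ℝ) + 1) := by
        have hi1' : (1 : ℝ) ≤ i := by exact_mod_cast hi1
        rw [← add_div, div_le_div_iff₀ hi0 (by positivity)]
        have : (0 : ℝ) ≤ s := Nat.cast_nonneg _
        nlinarith

/-- **the natural hypothesis per prefix in the world of the nominal coins** -/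
theorem hypT_WV (A : ℕ) (hA : 32 ≤ A) : ∃ (C1 c : ℝ) (m : ℕ), 0 < C1 ∧ 0 < c ∧
    ∀ (Z : World) (P : Par) (s : ℕ), Z.Ok → WV Z P (1 / (4 * (A : ℝ))) s →
      (∀ k, P.cut k = 2 ^ (A * k)) → (P.Y = fun k => 2 ^ k) →
      (∀ k, Z.i0 ≤ k → 3 * ((2 : ℝ) ^ k) ^ (1 / (4 * (A : ℝ))) ≤ Z.θ k) → m ≤ Z.i0 →
      HDx529.HypT Z C1 c (18 * ((s : ℝ) + 1)) := by
  obtain ⟨C1, c, m, hC, hc, h⟩ := hypT_world A hA
  refine ⟨C1, c, m, hC, hc, fun Z P s hZ hW hcut hY hθ hm => ?_⟩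
  exact h Z hZ (fun k => by rw [hW.cut, hcut]) hθ hm _ (by positivity)
    (err_of_WV hZ hW (by omega) hcut hY)

end Crest.Agent.R4C.ErrNx516
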