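import Crest.Agent.R4C.Multi_251
import Crest.Agent.R4C.Base_935
import Crest.Agent.R4C.HVWt_19
import Crest.Agent.R4C.FLDef_935

-- ▼ part R4C/MultiB_251
section

/-!
# Row 4: the one-prime inequality, form with existence of constants

`κ ∈ (1/2,1)`, `0 < δ < 1-κ`, `om w = w^(1-κ-δ)` (`w = 1/p`), `x1 w = A0 * w^(1-δ/(1-κ))`,
`A0 = (32/κ)^(1/(1-κ))`.
-/

set_option autoImplicit false

open Finset

namespace Crest.Agent.R4C.Multix251

/-- `Adm κ ω` for all small `ω` -/
theorem adm_ex {κ : ℝ} (h1 : 1/2 < κ) (h2 : κ < 1) :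
    ∃ ω0 > 0, ∀ ω, 0 < ω → ω ≤ ω0 → Adm κ ω := by
  have hk : 0 < κ := by linarith
  have hη : 0 < 2 * κ - 1 := by linarith
  have hk8 : (0:ℝ) < κ / 8 := by positivity
  set E := (κ / 8) ^ (1 / (2 * κ - 1)) with hE
  have hE0 : 0 < E := by positivity
  refine ⟨min (1/32) (min (κ / 128) (min ((2 * κ - 1) / 1024) ((2 * κ - 1) * E / 16))), ?_, ?_⟩
  · refine lt_min (by norm_num) (lt_min (by positivity) (lt_min (by positivity) (by positivity)))
  intro ω h0 hω
  rw [le_min_iff, le_min_iff, le_min_iff] at hω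
  obtain ⟨a, b, c, d⟩ := hω
  refine ⟨h1, h2, h0, a, ?_, ?_, ?_⟩
  · rw [div_le_iff₀ hk]; linarith
  · rw [div_le_iff₀ hη]; linarith
  · have e : 16 * ω / (2 * κ - 1) ≤ E := by
      rw [div_le_iff₀ hη]; linarith
    calc (16 * ω / (2 * κ - 1)) ^ (2 * κ - 1) ≤ E ^ (2 * κ - 1) :=
          Real.rpow_le_rpow (by positivity) e hη.le
      _ = κ / 8 := by
          rw [hE, ← Real.rpow_mul hk8.le, one_div_mul_cancel hη.ne', Real.rpow_one]

/-- `A0 = (32/κ)^(1/(1-κ))` -/
noncomputable def A0 (κ : ℝ) : ℝ := (32 / κ) ^ (1 / (1 - κ))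

lemma A0_pos {κ : ℝ} (h : 0 < κ) : 0 < A0 κ := by unfold A0; positivity

lemma Z1_eq {κ δ w : ℝ} (h1 : 0 < κ) (h2 : κ < 1) (hw : 0 < w) :
    Z1 κ (w ^ (1 - κ - δ)) = A0 κ * w ^ (1 - δ / (1 - κ)) := by
  have h3 : 0 < 1 - κ := by linarith
  unfold Z1 A0
  have hw1 : 0 ≤ w ^ (1 - κ - δ) := Real.rpow_nonneg hw.le _
  rw [mul_div_right_comm, Real.mul_rpow (by positivity) hw1, ← Real.rpow_mul hw.le]
  congr 2
  field_simp

/-- the same, as the threshold function `x1` -/
noncomputable def x1 (κ δ w : ℝ) : ℝ := A0 κ * w ^ (1 - δ / (1 - κ))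

noncomputable def om (κ δ w : ℝ) : ℝ := w ^ (1 - κ - δ)

lemma om_pos {κ δ w : ℝ} (hw : 0 < w) : 0 < om κ δ w := Real.rpow_pos_of_pos hw _

lemma x1_pos {κ δ w : ℝ} (hκ : 0 < κ) (hw : 0 < w) : 0 < x1 κ δ w :=
  mul_pos (A0_pos hκ) (Real.rpow_pos_of_pos hw _)

/-- admissibility for small `w` -/
theorem adm_om_ex {κ δ : ℝ} (h1 : 1/2 < κ) (h2 : κ < 1) (hδ : δ < 1 - κ) :
    ∃ w0 > 0, ∀ w, 0 < w → w ≤ w0 → Adm κ (om κ δ w) := by
  obtain ⟨ω0, hω0, H⟩ := adm_ex h1 h2
  have he : 0 < 1 - κ - δ := by linarith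
  refine ⟨ω0 ^ (1 / (1 - κ - δ)), Real.rpow_pos_of_pos hω0 _, fun w hw hw0 => ?_⟩
  refine H _ (om_pos hw) ?_
  unfold om
  calc w ^ (1 - κ - δ) ≤ (ω0 ^ (1 / (1 - κ - δ))) ^ (1 - κ - δ) :=
        Real.rpow_le_rpow hw.le hw0 he.le
    _ = ω0 := by rw [← Real.rpow_mul hω0.le, one_div_mul_cancel he.ne', Real.rpow_one]

/-- **Lemma M, requested form (817)**; `x`, `y` nonneg on `range n` only.  Everything about the
prime: either a common centre, or a gain `κ/2 * x1`.  Moreover in the first case the blocks with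
both exponents `≠ v0` cost at most `3 x1^(2κ)`. -/
theorem multi_range {κ δ : ℝ} (h1 : 1/2 < κ) (h2 : κ < 1) (hδ : δ < 1 - κ) :
    ∃ w0 > 0, ∀ w, 0 < w → w ≤ w0 → ∀ (n : ℕ) (x y : ℕ → ℝ),
      (∀ v ∈ range n, 0 ≤ x v) → (∀ v ∈ range n, 0 ≤ y v) →
      ∑ v ∈ range n, x v = 1 → ∑ v ∈ range n, y v = 1 →
      (∃ v0 < n, 1 - x v0 ≤ x1 κ δ w ∧ 1 - y v0 ≤ x1 κ δ w ∧
        ∑ v ∈ (range n).erase v0, (x v * y v) ^ κ
          + ∑ v ∈ (range n).erase v0, ∑ v' ∈ ((range n).erase v0).filter (· ≠ v),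
              om κ δ w ^ (Nat.dist v v') * (x v * y v') ^ κ ≤ 3 * x1 κ δ w ^ (2 * κ)) ∨
        ∑ v ∈ range n, (x v * y v) ^ κ
          + ∑ v ∈ range n, ∑ v' ∈ (range n).filter (· ≠ v),
              om κ δ w ^ (Nat.dist v v') * (x v * y v') ^ κ ≤ 1 - κ / 2 * x1 κ δ w := by
  obtain ⟨w0, hw0, H⟩ := adm_om_ex h1 h2 hδ
  refine ⟨w0, hw0, fun w hw hww n x y hx hy hx1 hy1 => ?_⟩
  have hA := H w hw hww
  have hZe : Z1 κ (om κ δ w) = x1 κ δ w := Z1_eq (by linarith) h2 hw
  set x' : ℕ → ℝ := fun v => |x v| with hx'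
  set y' : ℕ → ℝ := fun v => |y v| with hy'
  have ex : ∀ v ∈ range n, x' v = x v := fun v hv => abs_of_nonneg (hx v hv)
  have ey : ∀ v ∈ range n, y' v = y v := fun v hv => abs_of_nonneg (hy v hv)
  have ed : ∀ s : Finset ℕ, s ⊆ range n → diag κ s x' y' = ∑ v ∈ s, (x v * y v) ^ κ := by
    intro s hs
    unfold diag
    refine sum_congr rfl fun v hv => ?_
    rw [ex v (hs hv), ey v (hs hv)]
  have ec : ∀ s : Finset ℕ, s ⊆ range n → cross κ (om κ δ w) s s x' y' =
      ∑ v ∈ s, ∑ v' ∈ s.filter (· ≠ v), om κ δ w ^ (Nat.dist v v') * (x v * y v') ^ κ := by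
    intro s hs
    unfold cross
    refine sum_congr rfl fun v hv => sum_congr rfl fun v' hv' => ?_
    rw [ex v (hs hv), ey v' (hs (mem_filter.1 hv').1)]
  have h := multi hA (range n) x' y' (fun v => abs_nonneg _) (fun v => abs_nonneg _)
    (by rw [sum_congr rfl ex, hx1]) (by rw [sum_congr rfl ey, hy1])
  rw [hZe] at h
  rcases h with ⟨v0, hv0, hX, hY⟩ | h
  · left
    refine ⟨v0, mem_range.1 hv0, ?_, ?_, ?_⟩
    · have := add_sum_erase (range n) x' hv0
      rw [sum_congr rfl ex, hx1, ex v0 hv0] at this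
      linarith
    · have := add_sum_erase (range n) y' hv0
      rw [sum_congr rfl ey, hy1, ey v0 hv0] at this
      linarith
    · have := removed_le h1.le hA.ω0.le (by linarith [hA.ω1]) (range n) x' y'
        (fun v => abs_nonneg _) (fun v => abs_nonneg _) v0 hX hY
      rwa [ed _ (erase_subset _ _), ec _ (erase_subset _ _)] at this
  · right
    rwa [ed _ subset_rfl, ec _ subset_rfl] at h

end Crest.Agent.R4C.Multix251
end

-- ▼ part R4C/FLam_326
section

/-!
# Row 4: the F-Λ tree (helper514, note 2743, Lemma 1), general `M`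

The primes of a list `ps` are read one after the other.  At a prime `p` and a node (= a function
`f` on the divisors of `M`, restricted to the letters of the branched primes) either some letter
`v0` carries all but a share `x1 p` of the mass (`p` is PASSIVE with centre `v0`: nothing happens)
or the node BRANCHES according to the letter `v_p(b)`.

`Good` pairs: same letters at the branched primes, and at the passive primes at least one of the two
letters is the centre.  `bad_energy`: the pairs which are not good cost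
`≤ C X^η (E f)^(1+η) (∑ x1(p)^(1+η) + max p^(-δ))`.
-/

set_option autoImplicit false

open Finset

namespace Crest.Agent.R4C.FLamx326

open Crest.Agent.R4C.Basex935 Crest.Agent.R4C.Multix251

/-- expectation under the exact type law -/
noncomputable def Ex (M : ℕ) (f : ℕ → ℝ) : ℝ := ∑ b ∈ M.divisors, nu M b * f b

/-- pair energy at scale `X ≤ gcd < 2X` -/
noncomputable def En (M : ℕ) (X : ℝ) (F : ℕ → ℕ → ℝ) : ℝ :=
  frm M (fun b c => if X ≤ (Nat.gcd b c : ℝ) ∧ (Nat.gcd b c : ℝ) < 2 * X then F b c else 0)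

/-- the input: two function exact-gcd HVW at a fixed scale -/
def HVW (κ C : ℝ) : Prop :=
  ∀ M : ℕ, 0 < M → ∀ X : ℝ, 0 < X → ∀ f g : ℕ → ℝ,
    (∀ b, 0 ≤ f b) → (∀ b, f b ≤ 1) → (∀ b, 0 ≤ g b) → (∀ b, g b ≤ 1) →
    En M X (fun b c => f b * g c) ≤ C * X ^ (2 * κ - 1) * (Ex M f * Ex M g) ^ κ

/-- restriction to the letter `v` at `p` -/
def res (f : ℕ → ℝ) (p v : ℕ) : ℕ → ℝ := fun b => if b.factorization p = v then f b else 0

/-- restriction to the letters `≠ v` at `p` -/
def off (f : ℕ → ℝ) (p v : ℕ) : ℕ → ℝ := fun b => if b.factorization p = v then 0 else f b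

lemma res_nonneg {f : ℕ → ℝ} (hf : ∀ b, 0 ≤ f b) (p v b : ℕ) : 0 ≤ res f p v b := by
  unfold res; split_ifs <;> simp [hf]

lemma res_le_one {f : ℕ → ℝ} (hf : ∀ b, f b ≤ 1) (p v b : ℕ) : res f p v b ≤ 1 := by
  unfold res; split_ifs <;> simp [hf]

lemma off_nonneg {f : ℕ → ℝ} (hf : ∀ b, 0 ≤ f b) (p v b : ℕ) : 0 ≤ off f p v b := by
  unfold off; split_ifs <;> simp [hf]

lemma off_le_one {f : ℕ → ℝ} (hf : ∀ b, f b ≤ 1) (p v b : ℕ) : off f p v b ≤ 1 := by
  unfold off; split_ifs <;> simp [hf]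

lemma Ex_nonneg {M : ℕ} {f : ℕ → ℝ} (hf : ∀ b, 0 ≤ f b) : 0 ≤ Ex M f :=
  sum_nonneg fun b _ => mul_nonneg (nu_nonneg M b) (hf b)


lemma frm_mono {M : ℕ} {F G : ℕ → ℕ → ℝ}
    (h : ∀ b c, b ∣ M → c ∣ M → F b c ≤ G b c) : frm M F ≤ frm M G := by
  unfold frm
  refine sum_le_sum fun b hb => sum_le_sum fun c hc => ?_
  have := nu_nonneg M b
  have := nu_nonneg M c
  exact mul_le_mul_of_nonneg_left
    (h b c (Nat.dvd_of_mem_divisors hb) (Nat.dvd_of_mem_divisors hc)) (by positivity)

lemma frm_add (M : ℕ) (F G : ℕ → ℕ → ℝ) :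
    frm M (fun b c => F b c + G b c) = frm M F + frm M G := by
  unfold frm
  rw [← sum_add_distrib]
  refine sum_congr rfl fun b _ => ?_
  rw [← sum_add_distrib]
  refine sum_congr rfl fun c _ => ?_
  ring

lemma frm_sum (M : ℕ) {ι : Type*} (s : Finset ι) (F : ι → ℕ → ℕ → ℝ) :
    frm M (fun b c => ∑ i ∈ s, F i b c) = ∑ i ∈ s, frm M (F i) := by
  classical
  induction s using Finset.induction_on with
  | empty =>
    unfold frm
    simp
  | insert i s hi ih =>
    rw [sum_insert hi, ← ih, ← frm_add]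
    congr 1
    funext b c
    rw [sum_insert hi]


lemma En_mono {M : ℕ} {X : ℝ} {F G : ℕ → ℕ → ℝ}
    (h : ∀ b c, b ∣ M → c ∣ M → F b c ≤ G b c) : En M X F ≤ En M X G := by
  refine frm_mono fun b c hb hc => ?_
  split_ifs
  · exact h b c hb hc
  · exact le_rfl

lemma En_add (M : ℕ) (X : ℝ) (F G : ℕ → ℕ → ℝ) :
    En M X (fun b c => F b c + G b c) = En M X F + En M X G := by
  unfold En
  rw [← frm_add]
  congr 1
  funext b c
  split_ifs <;> simp

lemma En_sum (M : ℕ) (X : ℝ) {ι : Type*} (s : Finset ι) (F : ι → ℕ → ℕ → ℝ) :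
    En M X (fun b c => ∑ i ∈ s, F i b c) = ∑ i ∈ s, En M X (F i) := by
  unfold En
  rw [← frm_sum]
  congr 1
  funext b c
  split_ifs <;> simp

/-- letters at `p` of a divisor of `M` -/
lemma letter_le {M b : ℕ} (hM : 0 < M) (hb : b ∣ M) (p : ℕ) :
    b.factorization p ≤ M.factorization p :=
  (Nat.factorization_le_iff_dvd (Nat.pos_of_dvd_of_pos hb hM).ne' hM.ne').2 hb p

lemma Ex_split {M : ℕ} (hM : 0 < M) (f : ℕ → ℝ) (p : ℕ) :
    Ex M f = ∑ v ∈ range (M.factorization p + 1), Ex M (res f p v) := by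
  unfold Ex
  rw [sum_comm]
  refine sum_congr rfl fun b hb => ?_
  rw [← mul_sum]
  congr 1
  unfold res
  rw [sum_ite_eq]
  rw [if_pos]
  rw [mem_range]
  have := letter_le hM (Nat.dvd_of_mem_divisors hb) p
  omega

lemma Ex_off {M : ℕ} (f : ℕ → ℝ) (p v : ℕ) : Ex M f = Ex M (res f p v) + Ex M (off f p v) := by
  unfold Ex
  rw [← sum_add_distrib]
  refine sum_congr rfl fun b _ => ?_
  unfold res off
  split_ifs <;> ring


lemma nup_pos {p : ℕ} (hp : p.Prime) (a v : ℕ) : 0 < nup p a v := by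
  have h2 : (2 : ℝ) ≤ p := by exact_mod_cast hp.two_le
  have h : (1 : ℝ) / p ≤ 1 / 2 := by
    apply one_div_le_one_div_of_le (by norm_num) h2
  have h0 : (0 : ℝ) < 1 / p := by positivity
  unfold nup
  split_ifs
  · have : (0 : ℝ) < 1 - 1 / p := by linarith
    positivity
  · positivity

lemma fact_pow_mul {p : ℕ} (hp : p.Prime) {b : ℕ} (hb : ¬ p ∣ b) (v : ℕ) :
    (p ^ v * b).factorization p = v := by
  have hb0 : b ≠ 0 := fun h => hb (h ▸ dvd_zero p)
  rw [Nat.factorization_mul (pow_ne_zero _ hp.ne_zero) hb0, Finsupp.add_apply,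
    hp.factorization_pow, Finsupp.single_eq_same, Nat.factorization_eq_zero_of_not_dvd hb, add_zero]

lemma alg_key {κ : ℝ} {P m X Y : ℝ} (hP : 0 < P) (hm : 0 < m) (hX : 0 < X) :
    P * m * ((X / P) ^ (2 * κ - 1) * Y ^ κ) =
      X ^ (2 * κ - 1) * (P ^ 2 * m) ^ (1 - κ) * (m ^ κ * Y ^ κ) := by
  have h1 : (X / P) ^ (2 * κ - 1) = X ^ (2 * κ - 1) / P ^ (2 * κ - 1) :=
    Real.div_rpow hX.le hP.le _
  have h2 : (P ^ 2 * m) ^ (1 - κ) = P ^ (2 * (1 - κ)) * m ^ (1 - κ) := by
    rw [Real.mul_rpow (by positivity) hm.le, ← Real.rpow_natCast P 2, ← Real.rpow_mul hP.le]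
    norm_num
  have h3 : P ^ (2 * (1 - κ)) = P / P ^ (2 * κ - 1) := by
    rw [show 2 * (1 - κ) = 1 - (2 * κ - 1) by ring, Real.rpow_sub hP, Real.rpow_one]
  have h4 : m ^ (1 - κ) * m ^ κ = m := by
    rw [← Real.rpow_add hm]; norm_num
  have h5 : P ^ (2 * κ - 1) ≠ 0 := (Real.rpow_pos_of_pos hP _).ne'
  rw [h1, h2, h3]
  have h6 : X ^ (2 * κ - 1) * (P / P ^ (2 * κ - 1) * m ^ (1 - κ)) * (m ^ κ * Y ^ κ) =
      X ^ (2 * κ - 1) * (P / P ^ (2 * κ - 1)) * (m ^ (1 - κ) * m ^ κ) * Y ^ κ := by ring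
  rw [h6, h4]
  field_simp

/-- crossing pairs: letters `v`, `v'` at `p` gain `p^{-(1-κ)|v-v'|}` -/
theorem cross_bound {κ C : ℝ} (hH : HVW κ C) (hκ1 : κ < 1) (hC : 0 ≤ C)
    {M : ℕ} (hM : 0 < M) {X : ℝ} (hX : 0 < X) {f g : ℕ → ℝ}
    (hf : ∀ b, 0 ≤ f b) (hf1 : ∀ b, f b ≤ 1) (hg : ∀ b, 0 ≤ g b) (hg1 : ∀ b, g b ≤ 1)
    {p : ℕ} (hp : p.Prime) (v v' : ℕ) :
    En M X (fun b c => res f p v b * res g p v' c) ≤
      C * X ^ (2 * κ - 1) * (((1 / (p : ℝ)) ^ (1 - κ)) ^ (Nat.dist v v') *
        (Ex M (res f p v) * Ex M (res g p v')) ^ κ) := by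
  classical
  obtain ⟨a, M1, hnd, hMe⟩ := Nat.exists_eq_pow_mul_and_not_dvd hM.ne' p hp.ne_one
  have hM1 : 0 < M1 := by
    rcases Nat.eq_zero_or_pos M1 with h | h
    · rw [h] at hnd; exact absurd (dvd_zero _) hnd
    · exact h
  have hp0 : (0 : ℝ) < p := by exact_mod_cast hp.pos
  have hnn : ∀ w, ¬ p ∣ w → ∀ u, (p ^ u * w).factorization p = u := fun w hw u =>
    fact_pow_mul hp hw u
  have hnd' : ∀ b ∈ M1.divisors, ¬ p ∣ b := fun b hb h =>
    hnd (h.trans (Nat.dvd_of_mem_divisors hb))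
  have rhs0 : 0 ≤ C * X ^ (2 * κ - 1) * (((1 / (p : ℝ)) ^ (1 - κ)) ^ (Nat.dist v v') *
        (Ex M (res f p v) * Ex M (res g p v')) ^ κ) := by
    have h1 := Ex_nonneg (M := M) (res_nonneg hf p v)
    have h2 := Ex_nonneg (M := M) (res_nonneg hg p v')
    have h3 : 0 ≤ (Ex M (res f p v) * Ex M (res g p v')) ^ κ :=
      Real.rpow_nonneg (mul_nonneg h1 h2) _
    have h4 : 0 ≤ X ^ (2 * κ - 1) := Real.rpow_nonneg hX.le _
    positivity
  have e1 : En M X (fun b c => res f p v b * res g p v' c) =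
      ∑ u ∈ range (a + 1), ∑ u' ∈ range (a + 1), if u = v ∧ u' = v' then
        (p : ℝ) ^ (min v v') * nup p a v * nup p a v' *
        En M1 (X / (p : ℝ) ^ (min v v')) (fun b c => f (p ^ v * b) * g (p ^ v' * c)) else 0 := by
    unfold En
    rw [hMe, frm_split hp a hM1 hnd]
    refine sum_congr rfl fun u _ => sum_congr rfl fun u' _ => ?_
    split_ifs with h
    · obtain ⟨rfl, rfl⟩ := h
      congr 1
      unfold frm
      refine sum_congr rfl fun b hb => sum_congr rfl fun c hc => ?_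
      congr 1
      have hPm : (0 : ℝ) < (p : ℝ) ^ (min u u') := by positivity
      have e2 : ((Nat.gcd (p ^ u * b) (p ^ u' * c) : ℕ) : ℝ) =
          (p : ℝ) ^ (min u u') * (Nat.gcd b c : ℝ) := by
        rw [gcd_split hp u u' (hnd' b hb) (hnd' c hc)]
        push_cast
        ring
      have e3 : (X ≤ ((Nat.gcd (p ^ u * b) (p ^ u' * c) : ℕ) : ℝ) ∧
          ((Nat.gcd (p ^ u * b) (p ^ u' * c) : ℕ) : ℝ) < 2 * X) ↔
          (X / (p : ℝ) ^ (min u u') ≤ (Nat.gcd b c : ℝ) ∧
            (Nat.gcd b c : ℝ) < 2 * (X / (p : ℝ) ^ (min u u'))) := by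
        rw [e2, div_le_iff₀ hPm, ← mul_div_assoc, lt_div_iff₀ hPm, mul_comm (Nat.gcd b c : ℝ)]
      have e4 : res f p u (p ^ u * b) = f (p ^ u * b) := by
        unfold res; rw [if_pos (hnn b (hnd' b hb) u)]
      have e5 : res g p u' (p ^ u' * c) = g (p ^ u' * c) := by
        unfold res; rw [if_pos (hnn c (hnd' c hc) u')]
      dsimp only
      by_cases h6 : X / (p : ℝ) ^ (min u u') ≤ (Nat.gcd b c : ℝ) ∧
            (Nat.gcd b c : ℝ) < 2 * (X / (p : ℝ) ^ (min u u'))
      · rw [if_pos h6, if_pos (e3.2 h6), e4, e5]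
      · rw [if_neg h6, if_neg (fun h => h6 (e3.1 h))]
    · have : frm M1 (fun b c => (fun b c => if X ≤ (Nat.gcd b c : ℝ) ∧ (Nat.gcd b c : ℝ) < 2 * X
          then (fun b c => res f p v b * res g p v' c) b c else 0) (p ^ u * b) (p ^ u' * c)) = 0 := by
        unfold frm
        refine sum_eq_zero fun b hb => sum_eq_zero fun c hc => ?_
        have h7 : res f p v (p ^ u * b) * res g p v' (p ^ u' * c) = 0 := by
          unfold res
          rw [hnn b (hnd' b hb) u, hnn c (hnd' c hc) u']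
          by_cases h8 : u = v
          · rw [if_neg (fun h9 => h ⟨h8, h9⟩), mul_zero]
          · rw [if_neg h8, zero_mul]
        simp only [h7, ite_self, mul_zero]
      rw [this, mul_zero]
  by_cases hva : v ∈ range (a + 1) ∧ v' ∈ range (a + 1)
  · obtain ⟨hv, hv'⟩ := hva
    have e2 : En M X (fun b c => res f p v b * res g p v' c) =
        (p : ℝ) ^ (min v v') * nup p a v * nup p a v' *
        En M1 (X / (p : ℝ) ^ (min v v')) (fun b c => f (p ^ v * b) * g (p ^ v' * c)) := by
      rw [e1, sum_eq_single v, sum_eq_single v', if_pos ⟨rfl, rfl⟩]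
      · intro b _ hb
        rw [if_neg (fun h => hb h.2)]
      · intro h; exact absurd hv' h
      · intro b _ hb
        refine sum_eq_zero fun c _ => ?_
        rw [if_neg (fun h => hb h.1)]
      · intro h; exact absurd hv h
    have eE : ∀ (F : ℕ → ℝ) (u : ℕ), u ∈ range (a + 1) →
        Ex M (res F p u) = nup p a u * Ex M1 (fun b => F (p ^ u * b)) := by
      intro F u hu
      unfold Ex
      rw [hMe, sum_split hp a hM1 hnd, sum_eq_single u]
      · rw [mul_sum]
        refine sum_congr rfl fun b hb => ?_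
        have hcop : Nat.Coprime (p ^ a) M1 :=
          Nat.Coprime.pow_left a ((Nat.Prime.coprime_iff_not_dvd hp).2 hnd)
        rw [mem_range] at hu
        rw [nu_mul hcop (pow_dvd_pow p (by omega)) (Nat.dvd_of_mem_divisors hb),
          nu_prime_pow hp (by omega)]
        unfold res
        rw [if_pos (hnn b (hnd' b hb) u)]
        ring
      · intro w _ hw
        refine sum_eq_zero fun b hb => ?_
        unfold res
        rw [if_neg (by rw [hnn b (hnd' b hb) w]; exact hw), mul_zero]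
      · intro h; exact absurd hu h
    rw [e2, eE f v hv, eE g v' hv']
    set P : ℝ := (p : ℝ) ^ (min v v') with hPdef
    have hP : 0 < P := by positivity
    set n := nup p a v with hn
    set n' := nup p a v' with hn'
    have hnp : 0 < n := nup_pos hp a v
    have hnp' : 0 < n' := nup_pos hp a v'
    have hE1 : 0 ≤ Ex M1 (fun b => f (p ^ v * b)) := Ex_nonneg fun b => hf _
    have hE2 : 0 ≤ Ex M1 (fun b => g (p ^ v' * b)) := Ex_nonneg fun b => hg _
    set E1 := Ex M1 (fun b => f (p ^ v * b)) with hE1d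
    set E2 := Ex M1 (fun b => g (p ^ v' * b)) with hE2d
    have hmain := hH M1 hM1 (X / P) (by positivity) (fun b => f (p ^ v * b))
      (fun b => g (p ^ v' * b)) (fun b => hf _) (fun b => hf1 _) (fun b => hg _) (fun b => hg1 _)
    have hnle : P ^ 2 * (n * n') ≤ (1 / (p : ℝ)) ^ (Nat.dist v v') := by
      rw [mem_range] at hv hv'
      have h1 : n ≤ (1 / (p : ℝ)) ^ v := nup_le hp.pos a v (by omega)
      have h2 : n' ≤ (1 / (p : ℝ)) ^ v' := nup_le hp.pos a v' (by omega)
      have h3 : n * n' ≤ (1 / (p : ℝ)) ^ v * (1 / (p : ℝ)) ^ v' :=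
        mul_le_mul h1 h2 hnp'.le (by positivity)
      calc P ^ 2 * (n * n') ≤ P ^ 2 * ((1 / (p : ℝ)) ^ v * (1 / (p : ℝ)) ^ v') :=
            mul_le_mul_of_nonneg_left h3 (by positivity)
        _ = (1 / (p : ℝ)) ^ (Nat.dist v v') := by
            rw [← pow_add, hPdef, ← pow_mul]
            have h4 : v + v' = min v v' * 2 + Nat.dist v v' := by
              rcases le_total v v' with h | h
              · rw [min_eq_left h, Nat.dist_eq_sub_of_le h]; omega
              · rw [min_eq_right h, Nat.dist_comm, Nat.dist_eq_sub_of_le h]; omega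
            rw [h4, pow_add, ← mul_assoc]
            have h5 : (p : ℝ) ^ (min v v' * 2) * (1 / (p : ℝ)) ^ (min v v' * 2) = 1 := by
              rw [← mul_pow, mul_one_div_cancel hp0.ne', one_pow]
            rw [h5, one_mul]
    have hX1 : 0 ≤ X ^ (2 * κ - 1) := Real.rpow_nonneg hX.le _
    calc P * n * n' * En M1 (X / P) (fun b c => f (p ^ v * b) * g (p ^ v' * c))
        ≤ P * n * n' * (C * (X / P) ^ (2 * κ - 1) * (E1 * E2) ^ κ) :=
          mul_le_mul_of_nonneg_left hmain (by positivity)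
      _ = C * (P * (n * n') * ((X / P) ^ (2 * κ - 1) * (E1 * E2) ^ κ)) := by ring
      _ = C * (X ^ (2 * κ - 1) * (P ^ 2 * (n * n')) ^ (1 - κ) *
            ((n * n') ^ κ * (E1 * E2) ^ κ)) := by
          rw [alg_key hP (by positivity) hX]
      _ ≤ C * (X ^ (2 * κ - 1) * ((1 / (p : ℝ)) ^ (Nat.dist v v')) ^ (1 - κ) *
            ((n * n') ^ κ * (E1 * E2) ^ κ)) := by
          have h1 : (P ^ 2 * (n * n')) ^ (1 - κ) ≤ ((1 / (p : ℝ)) ^ (Nat.dist v v')) ^ (1 - κ) :=
            Real.rpow_le_rpow (by positivity) hnle (by linarith)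
          have h2 : 0 ≤ (n * n') ^ κ * (E1 * E2) ^ κ :=
            mul_nonneg (Real.rpow_nonneg (by positivity) _) (Real.rpow_nonneg (by positivity) _)
          gcongr
      _ = C * X ^ (2 * κ - 1) * (((1 / (p : ℝ)) ^ (1 - κ)) ^ (Nat.dist v v') *
            (n * E1 * (n' * E2)) ^ κ) := by
          have h1 : ((1 / (p : ℝ)) ^ (Nat.dist v v')) ^ (1 - κ) =
              ((1 / (p : ℝ)) ^ (1 - κ)) ^ (Nat.dist v v') := by
            rw [← Real.rpow_natCast, ← Real.rpow_natCast, ← Real.rpow_mul (by positivity),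
              ← Real.rpow_mul (by positivity), mul_comm]
          have h2 : (n * E1 * (n' * E2)) ^ κ = (n * n') ^ κ * (E1 * E2) ^ κ := by
            rw [← Real.mul_rpow (by positivity) (by positivity)]
            congr 1
            ring
          rw [h1, h2]
          ring
  · have e3 : En M X (fun b c => res f p v b * res g p v' c) = 0 := by
      rw [e1]
      refine sum_eq_zero fun u hu => sum_eq_zero fun u' hu' => ?_
      rw [if_neg]
      rintro ⟨rfl, rfl⟩
      exact hva ⟨hu, hu'⟩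
    rw [e3]
    exact rhs0


/-! ### The tree -/

/-- the centre of `p` at the node `f` (`none` = the node branches) -/
noncomputable def cen (M : ℕ) (x : ℕ → ℝ) (f : ℕ → ℝ) (p : ℕ) : Option ℕ := by
  classical
  exact if h : ∃ v0, Ex M (off f p v0) ≤ x p * Ex M f then some (Nat.find h) else none

lemma cen_some {M : ℕ} {x f : ℕ → ℝ} {p v0 : ℕ} (h : cen M x f p = some v0) :
    Ex M (off f p v0) ≤ x p * Ex M f := by
  classical
  unfold cen at h
  split_ifs at h with h1
  rw [Option.some.injEq] at h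
  rw [← h]
  exact Nat.find_spec h1

lemma cen_none {M : ℕ} {x f : ℕ → ℝ} {p : ℕ} (h : cen M x f p = none) (v0 : ℕ) :
    x p * Ex M f < Ex M (off f p v0) := by
  classical
  unfold cen at h
  split_ifs at h with h1
  push Not at h1
  exact h1 v0

/-- good pairs -/
def Good (M : ℕ) (x : ℕ → ℝ) : List ℕ → (ℕ → ℝ) → ℕ → ℕ → Prop
  | [], _, _, _ => True
  | p :: ps, f, b, c =>
    match cen M x f p with
    | some v0 => (b.factorization p = v0 ∨ c.factorization p = v0) ∧ Good M x ps f b c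
    | none => b.factorization p = c.factorization p ∧
        Good M x ps (res f p (b.factorization p)) b c

/-- the node of `b` -/
noncomputable def node (M : ℕ) (x : ℕ → ℝ) : List ℕ → (ℕ → ℝ) → ℕ → (ℕ → ℝ)
  | [], f, _ => f
  | p :: ps, f, b =>
    match cen M x f p with
    | some _ => node M x ps f b
    | none => node M x ps (res f p (b.factorization p)) b

/-- the status (centre / branched = `none`) of the prime `r` along the path of `b` -/
noncomputable def st (M : ℕ) (x : ℕ → ℝ) : List ℕ → (ℕ → ℝ) → ℕ → ℕ → Option ℕ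
  | [], _, _, _ => none
  | p :: ps, f, b, r =>
    if r = p then cen M x f p else
    match cen M x f p with
    | some _ => st M x ps f b r
    | none => st M x ps (res f p (b.factorization p)) b r

/-- the potential `∑_leaves (E f_leaf)^{2κ}` -/
noncomputable def V (M : ℕ) (x : ℕ → ℝ) (κ : ℝ) : List ℕ → (ℕ → ℝ) → ℝ
  | [], f => Ex M f ^ (2 * κ)
  | p :: ps, f =>
    match cen M x f p with
    | some _ => V M x κ ps f
    | none => ∑ v ∈ range (M.factorization p + 1), V M x κ ps (res f p v)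

lemma good_some {M : ℕ} {x f : ℕ → ℝ} {p v0 : ℕ} {ps : List ℕ} (h : cen M x f p = some v0)
    (b c : ℕ) : Good M x (p :: ps) f b c ↔
      ((b.factorization p = v0 ∨ c.factorization p = v0) ∧ Good M x ps f b c) := by
  simp [Good, h]

lemma good_none {M : ℕ} {x f : ℕ → ℝ} {p : ℕ} {ps : List ℕ} (h : cen M x f p = none)
    (b c : ℕ) : Good M x (p :: ps) f b c ↔
      (b.factorization p = c.factorization p ∧
        Good M x ps (res f p (b.factorization p)) b c) := by
  simp [Good, h]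

lemma node_some {M : ℕ} {x f : ℕ → ℝ} {p v0 : ℕ} {ps : List ℕ} (h : cen M x f p = some v0)
    (b : ℕ) : node M x (p :: ps) f b = node M x ps f b := by
  simp [node, h]

lemma node_none {M : ℕ} {x f : ℕ → ℝ} {p : ℕ} {ps : List ℕ} (h : cen M x f p = none)
    (b : ℕ) : node M x (p :: ps) f b = node M x ps (res f p (b.factorization p)) b := by
  simp [node, h]

lemma st_self {M : ℕ} {x f : ℕ → ℝ} {p : ℕ} {ps : List ℕ} (b : ℕ) :
    st M x (p :: ps) f b p = cen M x f p := by
  simp [st]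

lemma st_some {M : ℕ} {x f : ℕ → ℝ} {p v0 : ℕ} {ps : List ℕ} (h : cen M x f p = some v0)
    (b : ℕ) {r : ℕ} (hr : r ≠ p) : st M x (p :: ps) f b r = st M x ps f b r := by
  simp [st, h, hr]

lemma st_none {M : ℕ} {x f : ℕ → ℝ} {p : ℕ} {ps : List ℕ} (h : cen M x f p = none)
    (b : ℕ) {r : ℕ} (hr : r ≠ p) :
    st M x (p :: ps) f b r = st M x ps (res f p (b.factorization p)) b r := by
  simp [st, h, hr]

lemma V_some {M : ℕ} {x f : ℕ → ℝ} {κ : ℝ} {p v0 : ℕ} {ps : List ℕ}
    (h : cen M x f p = some v0) : V M x κ (p :: ps) f = V M x κ ps f := by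
  simp [V, h]

lemma V_none {M : ℕ} {x f : ℕ → ℝ} {κ : ℝ} {p : ℕ} {ps : List ℕ}
    (h : cen M x f p = none) : V M x κ (p :: ps) f =
      ∑ v ∈ range (M.factorization p + 1), V M x κ ps (res f p v) := by
  simp [V, h]

lemma V_nonneg {M : ℕ} {x : ℕ → ℝ} {κ : ℝ} (ps : List ℕ) :
    ∀ {f : ℕ → ℝ}, (∀ b, 0 ≤ f b) → 0 ≤ V M x κ ps f := by
  induction ps with
  | nil => intro f hf; exact Real.rpow_nonneg (Ex_nonneg hf) _
  | cons p ps ih =>
    intro f hf
    cases h : cen M x f p with
    | some v0 => rw [V_some h]; exact ih hf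
    | none => rw [V_none h]; exact sum_nonneg fun v _ => ih (res_nonneg hf p v)

/-! ### Structure of good pairs -/



/-- branched prime: same letter; passive prime: one of the letters is the centre -/
theorem good_letters {M : ℕ} {x : ℕ → ℝ} (ps : List ℕ) :
    ∀ {f : ℕ → ℝ} {b c : ℕ}, Good M x ps f b c → ∀ r ∈ ps,
      (st M x ps f b r = none → b.factorization r = c.factorization r) ∧
      (∀ v0, st M x ps f b r = some v0 → b.factorization r = v0 ∨ c.factorization r = v0) := by
  induction ps with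
  | nil => intro f b c _ r hr; exact absurd hr (List.not_mem_nil)
  | cons p ps ih =>
    intro f b c hg r hr
    by_cases hrp : r = p
    · subst hrp
      rw [st_self]
      cases h : cen M x f r with
      | some v0 =>
        rw [good_some h] at hg
        refine ⟨fun h1 => by simp at h1, fun v h1 => ?_⟩
        rw [Option.some.injEq] at h1
        rw [← h1]
        exact hg.1
      | none =>
        rw [good_none h] at hg
        exact ⟨fun _ => hg.1, fun v h1 => by simp at h1⟩
    · have hr' : r ∈ ps := by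
        rcases List.mem_cons.1 hr with h | h
        · exact absurd h hrp
        · exact h
      cases h : cen M x f p with
      | some v0 =>
        rw [good_some h] at hg
        rw [st_some h b hrp]
        exact ih hg.2 r hr'
      | none =>
        rw [good_none h] at hg
        rw [st_none h b hrp]
        exact ih hg.2 r hr'

end Crest.Agent.R4C.FLamx326
private theorem rz_e43867bebc : type_of% @_root_.Crest.Agent.R4C.FLamx326.Good.eq_def := @_root_.Crest.Agent.R4C.FLamx326.Good.eq_def -- L386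
private theorem rz_06db00b8b4 : type_of% @_root_.Crest.Agent.R4C.FLamx326.Good.eq_1 := @_root_.Crest.Agent.R4C.FLamx326.Good.eq_1 -- L386
private theorem rz_5f307a4b3b : type_of% @_root_.Crest.Agent.R4C.FLamx326.V.eq_def := @_root_.Crest.Agent.R4C.FLamx326.V.eq_def -- L412
private theorem rz_abc9b2f31b : type_of% @_root_.Crest.Agent.R4C.FLamx326.V.eq_1 := @_root_.Crest.Agent.R4C.FLamx326.V.eq_1 -- L412
private theorem rz_e14298d117 : type_of% @_root_.Crest.Agent.R4C.FLamx326.node.eq_def := @_root_.Crest.Agent.R4C.FLamx326.node.eq_def -- L395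
private theorem rz_6ba0ec98d9 : type_of% @_root_.Crest.Agent.R4C.FLamx326.node.eq_1 := @_root_.Crest.Agent.R4C.FLamx326.node.eq_1 -- L395
private theorem rz_6389e58e5c : type_of% @_root_.Crest.Agent.R4C.FLamx326.st.eq_def := @_root_.Crest.Agent.R4C.FLamx326.st.eq_def -- L403
private theorem rz_04296f0bf7 : type_of% @_root_.Crest.Agent.R4C.FLamx326.st.eq_1 := @_root_.Crest.Agent.R4C.FLamx326.st.eq_1 -- L403
end

-- ▼ part R4C/FLamE_326
section

/-!
# Row 4: the F-Λ tree, energy of the bad pairs (helper514, note 2743, Lemma 1), general `M`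
-/

set_option autoImplicit false

open Finset

namespace Crest.Agent.R4C.FLamx326

open Crest.Agent.R4C.Basex935 Crest.Agent.R4C.Multix251

/-- indicator of the bad pairs, weighted by `f` -/
noncomputable def bad (M : ℕ) (x : ℕ → ℝ) (ps : List ℕ) (f : ℕ → ℝ) (b c : ℕ) : ℝ := by
  classical
  exact if Good M x ps f b c then 0 else f b * f c

lemma bad_nonneg {M : ℕ} {x : ℕ → ℝ} {ps : List ℕ} {f : ℕ → ℝ} (hf : ∀ b, 0 ≤ f b) (b c : ℕ) :
    0 ≤ bad M x ps f b c := by
  classical
  unfold bad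
  split_ifs
  · exact le_rfl
  · exact mul_nonneg (hf b) (hf c)

lemma bad_le {M : ℕ} {x : ℕ → ℝ} {ps : List ℕ} {f : ℕ → ℝ} (hf : ∀ b, 0 ≤ f b) (b c : ℕ) :
    bad M x ps f b c ≤ f b * f c := by
  classical
  unfold bad
  split_ifs
  · exact mul_nonneg (hf b) (hf c)
  · exact le_rfl

lemma bad_nil {M : ℕ} {x : ℕ → ℝ} {f : ℕ → ℝ} (b c : ℕ) : bad M x [] f b c = 0 := by
  classical
  unfold bad
  rw [if_pos]
  trivial

/-- passive prime -/
lemma bad_some {M : ℕ} {x : ℕ → ℝ} {ps : List ℕ} {f : ℕ → ℝ} (hf : ∀ b, 0 ≤ f b) {p v0 : ℕ}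
    (h : cen M x f p = some v0) (b c : ℕ) :
    bad M x (p :: ps) f b c ≤ off f p v0 b * off f p v0 c + bad M x ps f b c := by
  classical
  have h0 := mul_nonneg (off_nonneg hf p v0 b) (off_nonneg hf p v0 c)
  have h1 := bad_nonneg (M := M) (x := x) (ps := ps) hf b c
  have h2 := mul_nonneg (hf b) (hf c)
  by_cases hg : Good M x (p :: ps) f b c
  · have : bad M x (p :: ps) f b c = 0 := by unfold bad; rw [if_pos hg]
    linarith
  · have e : bad M x (p :: ps) f b c = f b * f c := by unfold bad; rw [if_neg hg]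
    rw [good_some h] at hg
    by_cases hb : b.factorization p = v0 ∨ c.factorization p = v0
    · have hg' : ¬ Good M x ps f b c := fun h3 => hg ⟨hb, h3⟩
      have : bad M x ps f b c = f b * f c := by unfold bad; rw [if_neg hg']
      linarith
    · push Not at hb
      have : off f p v0 b * off f p v0 c = f b * f c := by
        unfold off; rw [if_neg hb.1, if_neg hb.2]
      linarith

/-- branched prime -/
lemma bad_none {M : ℕ} (hM : 0 < M) {x : ℕ → ℝ} {ps : List ℕ} {f : ℕ → ℝ} (hf : ∀ b, 0 ≤ f b)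
    {p : ℕ} (h : cen M x f p = none) {b c : ℕ} (hb : b ∣ M) (hc : c ∣ M) :
    bad M x (p :: ps) f b c ≤
      ∑ v ∈ range (M.factorization p + 1),
        ∑ v' ∈ (range (M.factorization p + 1)).filter (· ≠ v), res f p v b * res f p v' c +
      ∑ v ∈ range (M.factorization p + 1), bad M x ps (res f p v) b c := by
  classical
  have hbr : b.factorization p ∈ range (M.factorization p + 1) := by
    rw [mem_range]; have := letter_le hM hb p; omega
  have hcr : c.factorization p ∈ range (M.factorization p + 1) := by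
    rw [mem_range]; have := letter_le hM hc p; omega
  have h0 : 0 ≤ ∑ v ∈ range (M.factorization p + 1),
        ∑ v' ∈ (range (M.factorization p + 1)).filter (· ≠ v), res f p v b * res f p v' c :=
    sum_nonneg fun v _ => sum_nonneg fun v' _ =>
      mul_nonneg (res_nonneg hf p v b) (res_nonneg hf p v' c)
  have h1 : 0 ≤ ∑ v ∈ range (M.factorization p + 1), bad M x ps (res f p v) b c :=
    sum_nonneg fun v _ => bad_nonneg (res_nonneg hf p v) b c
  by_cases hg : Good M x (p :: ps) f b c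
  · have : bad M x (p :: ps) f b c = 0 := by unfold bad; rw [if_pos hg]
    linarith
  · have e : bad M x (p :: ps) f b c = f b * f c := by unfold bad; rw [if_neg hg]
    rw [good_none h] at hg
    by_cases hl : b.factorization p = c.factorization p
    · have hg' : ¬ Good M x ps (res f p (b.factorization p)) b c := fun h3 => hg ⟨hl, h3⟩
      have h2 : bad M x ps (res f p (b.factorization p)) b c ≤
          ∑ v ∈ range (M.factorization p + 1), bad M x ps (res f p v) b c :=
        single_le_sum (f := fun v => bad M x ps (res f p v) b c)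
          (fun v _ => bad_nonneg (res_nonneg hf p v) b c) hbr
      have h3 : bad M x ps (res f p (b.factorization p)) b c = f b * f c := by
        unfold bad
        rw [if_neg hg']
        unfold res
        rw [if_pos rfl, if_pos hl.symm]
      linarith
    · have h2 : res f p (b.factorization p) b * res f p (c.factorization p) c ≤
          ∑ v ∈ range (M.factorization p + 1),
            ∑ v' ∈ (range (M.factorization p + 1)).filter (· ≠ v),
              res f p v b * res f p v' c := by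
        refine le_trans ?_ (single_le_sum (f := fun v =>
          ∑ v' ∈ (range (M.factorization p + 1)).filter (· ≠ v), res f p v b * res f p v' c)
          (fun v _ => sum_nonneg fun v' _ =>
            mul_nonneg (res_nonneg hf p v b) (res_nonneg hf p v' c)) hbr)
        exact single_le_sum (f := fun v' => res f p (b.factorization p) b * res f p v' c)
          (fun v' _ => mul_nonneg (res_nonneg hf p _ b) (res_nonneg hf p v' c))
          (mem_filter.2 ⟨hcr, fun h => hl h.symm⟩)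
      have h3 : res f p (b.factorization p) b * res f p (c.factorization p) c = f b * f c := by
        unfold res; rw [if_pos rfl, if_pos rfl]
      linarith

/-- one prime: the crossing energy of a branched prime is paid by the drop of `∑ (E f_v)^{2κ}` -/
lemma branch_ineq {κ δ : ℝ} (hκ : 1 / 2 < κ) (hκ1 : κ < 1) (hδ0 : 0 < δ)
    {w D : ℝ} (hw : 0 < w) (hw1 : w ≤ 1) (hD : w ^ δ ≤ D)
    (hmul : ∀ (n : ℕ) (x y : ℕ → ℝ),
      (∀ v ∈ range n, 0 ≤ x v) → (∀ v ∈ range n, 0 ≤ y v) →
      ∑ v ∈ range n, x v = 1 → ∑ v ∈ range n, y v = 1 →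
      (∃ v0 < n, 1 - x v0 ≤ x1 κ δ w ∧ 1 - y v0 ≤ x1 κ δ w ∧
        ∑ v ∈ (range n).erase v0, (x v * y v) ^ κ
          + ∑ v ∈ (range n).erase v0, ∑ v' ∈ ((range n).erase v0).filter (· ≠ v),
              om κ δ w ^ (Nat.dist v v') * (x v * y v') ^ κ ≤ 3 * x1 κ δ w ^ (2 * κ)) ∨
        ∑ v ∈ range n, (x v * y v) ^ κ
          + ∑ v ∈ range n, ∑ v' ∈ (range n).filter (· ≠ v),
              om κ δ w ^ (Nat.dist v v') * (x v * y v') ^ κ ≤ 1 - κ / 2 * x1 κ δ w)
    {n : ℕ} {E : ℝ} {e : ℕ → ℝ} (hE : 0 < E) (he : ∀ v, 0 ≤ e v)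
    (hsum : ∑ v ∈ range n, e v = E)
    (hbr : ∀ v0 < n, x1 κ δ w * E < E - e v0) :
    ∑ v ∈ range n, ∑ v' ∈ (range n).filter (· ≠ v),
        (w ^ (1 - κ)) ^ (Nat.dist v v') * (e v * e v') ^ κ ≤
      D * (E ^ (2 * κ) - ∑ v ∈ range n, e v ^ (2 * κ)) := by
  have hx0 : ∀ v ∈ range n, 0 ≤ e v / E := fun v _ => div_nonneg (he v) hE.le
  have hs1 : ∑ v ∈ range n, e v / E = 1 := by
    rw [← sum_div, hsum, div_self hE.ne']
  have hE2 : 0 < E ^ (2 * κ) := Real.rpow_pos_of_pos hE _
  rcases hmul n (fun v => e v / E) (fun v => e v / E) hx0 hx0 hs1 hs1 with h | h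
  · exfalso
    obtain ⟨v0, hv0, h1, _⟩ := h
    have h2 := hbr v0 hv0
    have h3 : E - e v0 ≤ x1 κ δ w * E := by
      have : 1 - e v0 / E = (E - e v0) / E := by field_simp
      rw [this, div_le_iff₀ hE] at h1
      exact h1
    linarith
  · have hx1 : 0 < x1 κ δ w := x1_pos (by linarith) hw
    have hpw : ∀ v v', (e v / E * (e v' / E)) ^ κ = (e v * e v') ^ κ / E ^ (2 * κ) := by
      intro v v'
      have : e v / E * (e v' / E) = (e v * e v') / (E ^ 2) := by
        field_simp
      rw [this, Real.div_rpow (mul_nonneg (he v) (he v')) (by positivity)]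
      congr 1
      rw [← Real.rpow_natCast E 2, ← Real.rpow_mul hE.le]
      norm_num
    have hdg : ∀ v, (e v / E * (e v / E)) ^ κ = e v ^ (2 * κ) / E ^ (2 * κ) := by
      intro v
      rw [hpw v v]
      congr 1
      rw [← sq, ← Real.rpow_natCast (e v) 2, ← Real.rpow_mul (he v)]
      norm_num
    have hD0 : 0 ≤ D := le_trans (Real.rpow_nonneg hw.le _) hD
    have hw01 : w ^ δ ≤ 1 := Real.rpow_le_one hw.le hw1 hδ0.le
    have hwd : 0 ≤ w ^ δ := Real.rpow_nonneg hw.le _
    have hom : 0 ≤ om κ δ w := (om_pos hw).le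
    have hterm : ∀ v, ∀ v' ∈ (range n).filter (· ≠ v),
        (w ^ (1 - κ)) ^ (Nat.dist v v') * (e v * e v') ^ κ ≤
        D * (E ^ (2 * κ) * (om κ δ w ^ (Nat.dist v v') * ((e v / E * (e v' / E)) ^ κ))) := by
      intro v v' hv'
      rw [mem_filter] at hv'
      have hd : 1 ≤ Nat.dist v v' := Nat.dist_pos_of_ne (fun h => hv'.2 h.symm)
      have h1 : w ^ (1 - κ) = w ^ δ * om κ δ w := by
        unfold om
        rw [← Real.rpow_add hw]
        congr 1
        ring
      have h2 : (w ^ δ) ^ (Nat.dist v v') ≤ w ^ δ := by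
        calc (w ^ δ) ^ (Nat.dist v v') ≤ (w ^ δ) ^ 1 := pow_le_pow_of_le_one hwd hw01 hd
          _ = w ^ δ := pow_one _
      rw [hpw, h1, mul_pow]
      have h3 : E ^ (2 * κ) * (om κ δ w ^ (Nat.dist v v') * ((e v * e v') ^ κ / E ^ (2 * κ))) =
          om κ δ w ^ (Nat.dist v v') * (e v * e v') ^ κ := by
        field_simp
      rw [h3, mul_assoc]
      refine mul_le_mul_of_nonneg_right (h2.trans hD) ?_
      exact mul_nonneg (pow_nonneg hom _) (Real.rpow_nonneg (mul_nonneg (he v) (he v')) _)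
    calc ∑ v ∈ range n, ∑ v' ∈ (range n).filter (· ≠ v),
          (w ^ (1 - κ)) ^ (Nat.dist v v') * (e v * e v') ^ κ
        ≤ ∑ v ∈ range n, ∑ v' ∈ (range n).filter (· ≠ v),
          D * (E ^ (2 * κ) * (om κ δ w ^ (Nat.dist v v') * ((e v / E * (e v' / E)) ^ κ))) :=
          sum_le_sum fun v _ => sum_le_sum fun v' hv' => hterm v v' hv'
      _ = D * (E ^ (2 * κ) * ∑ v ∈ range n, ∑ v' ∈ (range n).filter (· ≠ v),
          om κ δ w ^ (Nat.dist v v') * ((e v / E * (e v' / E)) ^ κ)) := by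
          rw [mul_sum, mul_sum]
          refine sum_congr rfl fun v _ => ?_
          rw [mul_sum, mul_sum]
      _ ≤ D * (E ^ (2 * κ) * (1 - ∑ v ∈ range n, (e v / E * (e v / E)) ^ κ)) := by
          refine mul_le_mul_of_nonneg_left (mul_le_mul_of_nonneg_left ?_ hE2.le) hD0
          have : 0 < κ / 2 * x1 κ δ w := mul_pos (by linarith) hx1
          linarith
      _ = D * (E ^ (2 * κ) - ∑ v ∈ range n, e v ^ (2 * κ)) := by
          congr 1
          rw [mul_sub, mul_one, mul_sum]
          congr 1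
          refine sum_congr rfl fun v _ => ?_
          rw [hdg]
          field_simp


/-- **energy of the bad pairs**, potential form -/
theorem bad_energy_pot {κ δ C D : ℝ} (hH : HVW κ C) (hC : 0 ≤ C) (hκ : 1 / 2 < κ) (hκ1 : κ < 1)
    (hδ0 : 0 < δ) {M : ℕ} (hM : 0 < M) {X : ℝ} (hX : 0 < X) {x : ℕ → ℝ}
    (hx0 : ∀ p, 0 ≤ x p) (ps : List ℕ) :
    (∀ p ∈ ps, p.Prime) → (∀ p ∈ ps, x1 κ δ (1 / (p : ℝ)) ≤ x p) →
    (∀ p ∈ ps, (1 / (p : ℝ)) ^ δ ≤ D) →
    (∀ p ∈ ps, ∀ (n : ℕ) (y z : ℕ → ℝ),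
      (∀ v ∈ range n, 0 ≤ y v) → (∀ v ∈ range n, 0 ≤ z v) →
      ∑ v ∈ range n, y v = 1 → ∑ v ∈ range n, z v = 1 →
      (∃ v0 < n, 1 - y v0 ≤ x1 κ δ (1 / (p : ℝ)) ∧ 1 - z v0 ≤ x1 κ δ (1 / (p : ℝ)) ∧
        ∑ v ∈ (range n).erase v0, (y v * z v) ^ κ
          + ∑ v ∈ (range n).erase v0, ∑ v' ∈ ((range n).erase v0).filter (· ≠ v),
              om κ δ (1 / (p : ℝ)) ^ (Nat.dist v v') * (y v * z v') ^ κ ≤
            3 * x1 κ δ (1 / (p : ℝ)) ^ (2 * κ)) ∨
        ∑ v ∈ range n, (y v * z v) ^ κ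
          + ∑ v ∈ range n, ∑ v' ∈ (range n).filter (· ≠ v),
              om κ δ (1 / (p : ℝ)) ^ (Nat.dist v v') * (y v * z v') ^ κ ≤
            1 - κ / 2 * x1 κ δ (1 / (p : ℝ))) →
    ∀ f : ℕ → ℝ, (∀ b, 0 ≤ f b) → (∀ b, f b ≤ 1) →
      En M X (bad M x ps f) ≤ C * X ^ (2 * κ - 1) *
        ((ps.map (fun p => x p ^ (2 * κ))).sum * Ex M f ^ (2 * κ) +
          D * (Ex M f ^ (2 * κ) - V M x κ ps f)) := by
  classical
  induction ps with
  | nil =>
    intro _ _ _ _ f _ _
    have h1 : En M X (bad M x [] f) = 0 := by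
      have : bad M x [] f = fun _ _ => 0 := by
        funext b c
        exact bad_nil b c
      rw [this]
      unfold En frm
      simp
    rw [h1]
    simp [V]
  | cons p ps ih =>
    intro hpr hxp hDp hmul f hf hf1
    have ih' := ih (fun q hq => hpr q (List.mem_cons_of_mem _ hq))
      (fun q hq => hxp q (List.mem_cons_of_mem _ hq))
      (fun q hq => hDp q (List.mem_cons_of_mem _ hq))
      (fun q hq => hmul q (List.mem_cons_of_mem _ hq))
    have hp : p.Prime := hpr p List.mem_cons_self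
    have hp0 : (0 : ℝ) < p := by exact_mod_cast hp.pos
    have hw : (0 : ℝ) < 1 / p := by positivity
    have hw1 : (1 : ℝ) / p ≤ 1 := by
      rw [div_le_one hp0]
      exact_mod_cast hp.one_lt.le
    have hE0 : 0 ≤ Ex M f := Ex_nonneg hf
    have hX1 : 0 ≤ C * X ^ (2 * κ - 1) := mul_nonneg hC (Real.rpow_nonneg hX.le _)
    have hD0 : 0 ≤ D := le_trans (Real.rpow_nonneg hw.le _) (hDp p List.mem_cons_self)
    set S : ℝ := (ps.map (fun p => x p ^ (2 * κ))).sum with hS
    have hS0 : 0 ≤ S := by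
      rw [hS]
      apply List.sum_nonneg
      intro y hy
      rw [List.mem_map] at hy
      obtain ⟨q, _, rfl⟩ := hy
      exact Real.rpow_nonneg (hx0 q) _
    have hmap : ((p :: ps).map (fun p => x p ^ (2 * κ))).sum = x p ^ (2 * κ) + S := by
      rw [List.map_cons, List.sum_cons]
    rw [hmap]
    cases h : cen M x f p with
    | some v0 =>
      rw [V_some h]
      have h1 : En M X (bad M x (p :: ps) f) ≤
          En M X (fun b c => off f p v0 b * off f p v0 c) + En M X (bad M x ps f) := by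
        rw [← En_add]
        exact En_mono fun b c _ _ => bad_some hf h b c
      have h2 := hH M hM X hX (off f p v0) (off f p v0) (off_nonneg hf p v0)
        (off_le_one hf1 p v0) (off_nonneg hf p v0) (off_le_one hf1 p v0)
      have h3 := ih' f hf hf1
      have hO0 : 0 ≤ Ex M (off f p v0) := Ex_nonneg (off_nonneg hf p v0)
      have h4 : (Ex M (off f p v0) * Ex M (off f p v0)) ^ κ ≤ x p ^ (2 * κ) * Ex M f ^ (2 * κ) := by
        rw [← sq, ← Real.rpow_natCast _ 2, ← Real.rpow_mul hO0, ← Real.mul_rpow (hx0 p) hE0]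
        have : ((2 : ℕ) : ℝ) * κ = 2 * κ := by norm_num
        rw [this]
        exact Real.rpow_le_rpow hO0 (cen_some h) (by linarith)
      have h5 : C * X ^ (2 * κ - 1) * (Ex M (off f p v0) * Ex M (off f p v0)) ^ κ ≤
          C * X ^ (2 * κ - 1) * (x p ^ (2 * κ) * Ex M f ^ (2 * κ)) :=
        mul_le_mul_of_nonneg_left h4 hX1
      calc En M X (bad M x (p :: ps) f)
          ≤ C * X ^ (2 * κ - 1) * (x p ^ (2 * κ) * Ex M f ^ (2 * κ)) +
            C * X ^ (2 * κ - 1) * (S * Ex M f ^ (2 * κ) +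
              D * (Ex M f ^ (2 * κ) - V M x κ ps f)) := by linarith
        _ = _ := by ring
    | none =>
      rw [V_none h]
      set n := M.factorization p + 1 with hn
      have hEpos : 0 < Ex M f := by
        rcases hE0.lt_or_eq with h1 | h1
        · exact h1
        · exfalso
          have h2 := cen_none h 0
          have h3 := Ex_off (M := M) f p 0
          have h4 : 0 ≤ Ex M (res f p 0) := Ex_nonneg (res_nonneg hf p 0)
          rw [← h1, mul_zero] at h2
          linarith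
      have hsplit : ∑ v ∈ range n, Ex M (res f p v) = Ex M f := (Ex_split hM f p).symm
      have he : ∀ v, 0 ≤ Ex M (res f p v) := fun v => Ex_nonneg (res_nonneg hf p v)
      have h1 : En M X (bad M x (p :: ps) f) ≤
          ∑ v ∈ range n, ∑ v' ∈ (range n).filter (· ≠ v),
            En M X (fun b c => res f p v b * res f p v' c) +
          ∑ v ∈ range n, En M X (bad M x ps (res f p v)) := by
        calc En M X (bad M x (p :: ps) f)
            ≤ En M X (fun b c => ∑ v ∈ range n, ∑ v' ∈ (range n).filter (· ≠ v),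
                res f p v b * res f p v' c + ∑ v ∈ range n, bad M x ps (res f p v) b c) :=
              En_mono fun b c hb hc => bad_none hM hf h hb hc
          _ = _ := by
              rw [En_add, En_sum, En_sum M X (range n) (fun v b c => bad M x ps (res f p v) b c)]
              congr 1
              refine sum_congr rfl fun v _ => ?_
              rw [En_sum]
      have h2 : ∑ v ∈ range n, ∑ v' ∈ (range n).filter (· ≠ v),
            En M X (fun b c => res f p v b * res f p v' c) ≤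
          C * X ^ (2 * κ - 1) * (D * (Ex M f ^ (2 * κ) -
            ∑ v ∈ range n, Ex M (res f p v) ^ (2 * κ))) := by
        calc ∑ v ∈ range n, ∑ v' ∈ (range n).filter (· ≠ v),
              En M X (fun b c => res f p v b * res f p v' c)
            ≤ ∑ v ∈ range n, ∑ v' ∈ (range n).filter (· ≠ v),
              C * X ^ (2 * κ - 1) * (((1 / (p : ℝ)) ^ (1 - κ)) ^ (Nat.dist v v') *
                (Ex M (res f p v) * Ex M (res f p v')) ^ κ) :=
              sum_le_sum fun v _ => sum_le_sum fun v' _ =>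
                cross_bound hH hκ1 hC hM hX hf hf1 hf hf1 hp v v'
          _ = C * X ^ (2 * κ - 1) * ∑ v ∈ range n, ∑ v' ∈ (range n).filter (· ≠ v),
              ((1 / (p : ℝ)) ^ (1 - κ)) ^ (Nat.dist v v') *
                (Ex M (res f p v) * Ex M (res f p v')) ^ κ := by
              rw [mul_sum]
              refine sum_congr rfl fun v _ => ?_
              rw [mul_sum]
          _ ≤ _ := by
              refine mul_le_mul_of_nonneg_left ?_ hX1
              refine branch_ineq hκ hκ1 hδ0 hw hw1 (hDp p List.mem_cons_self)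
                (hmul p List.mem_cons_self) hEpos he hsplit ?_
              intro v0 _
              have h3 := cen_none h v0
              have h4 := Ex_off (M := M) f p v0
              have h5 : x1 κ δ (1 / (p : ℝ)) * Ex M f ≤ x p * Ex M f :=
                mul_le_mul_of_nonneg_right (hxp p List.mem_cons_self) hE0
              linarith
      have h3 : ∑ v ∈ range n, En M X (bad M x ps (res f p v)) ≤
          C * X ^ (2 * κ - 1) * (S * ∑ v ∈ range n, Ex M (res f p v) ^ (2 * κ) +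
            D * (∑ v ∈ range n, Ex M (res f p v) ^ (2 * κ) -
              ∑ v ∈ range n, V M x κ ps (res f p v))) := by
        calc ∑ v ∈ range n, En M X (bad M x ps (res f p v))
            ≤ ∑ v ∈ range n, C * X ^ (2 * κ - 1) * (S * Ex M (res f p v) ^ (2 * κ) +
              D * (Ex M (res f p v) ^ (2 * κ) - V M x κ ps (res f p v))) :=
              sum_le_sum fun v _ => ih' (res f p v) (res_nonneg hf p v) (res_le_one hf1 p v)
          _ = _ := by
              rw [← mul_sum, sum_add_distrib, ← mul_sum, ← mul_sum, sum_sub_distrib]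
      have h4 : ∑ v ∈ range n, Ex M (res f p v) ^ (2 * κ) ≤ Ex M f ^ (2 * κ) := by
        have h5 : ∀ v ∈ range n, Ex M (res f p v) ^ (2 * κ) ≤
            Ex M (res f p v) * Ex M f ^ (2 * κ - 1) := by
          intro v hv
          have h6 : Ex M (res f p v) ≤ Ex M f := by
            rw [← hsplit]
            exact single_le_sum (f := fun v => Ex M (res f p v)) (fun v _ => he v) hv
          rcases (he v).lt_or_eq with h7 | h7
          · have h8 : Ex M (res f p v) ^ (2 * κ) =
                Ex M (res f p v) * Ex M (res f p v) ^ (2 * κ - 1) := by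
              rw [← Real.rpow_one_add' h7.le (by linarith)]
              congr 1
              ring
            rw [h8]
            exact mul_le_mul_of_nonneg_left (Real.rpow_le_rpow h7.le h6 (by linarith)) h7.le
          · rw [← h7, Real.zero_rpow (by linarith), zero_mul]
        calc ∑ v ∈ range n, Ex M (res f p v) ^ (2 * κ)
            ≤ ∑ v ∈ range n, Ex M (res f p v) * Ex M f ^ (2 * κ - 1) := sum_le_sum h5
          _ = Ex M f * Ex M f ^ (2 * κ - 1) := by rw [← sum_mul, hsplit]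
          _ = Ex M f ^ (2 * κ) := by
              rw [← Real.rpow_one_add' hE0 (by linarith)]
              congr 1
              ring
      have h5 : S * ∑ v ∈ range n, Ex M (res f p v) ^ (2 * κ) ≤
          (x p ^ (2 * κ) + S) * Ex M f ^ (2 * κ) := by
        have h6 : S * ∑ v ∈ range n, Ex M (res f p v) ^ (2 * κ) ≤ S * Ex M f ^ (2 * κ) :=
          mul_le_mul_of_nonneg_left h4 hS0
        have h7 : 0 ≤ x p ^ (2 * κ) * Ex M f ^ (2 * κ) :=
          mul_nonneg (Real.rpow_nonneg (hx0 p) _) (Real.rpow_nonneg hE0 _)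
        linarith
      calc En M X (bad M x (p :: ps) f)
          ≤ C * X ^ (2 * κ - 1) * (D * (Ex M f ^ (2 * κ) -
              ∑ v ∈ range n, Ex M (res f p v) ^ (2 * κ))) +
            C * X ^ (2 * κ - 1) * (S * ∑ v ∈ range n, Ex M (res f p v) ^ (2 * κ) +
            D * (∑ v ∈ range n, Ex M (res f p v) ^ (2 * κ) -
              ∑ v ∈ range n, V M x κ ps (res f p v))) := by linarith
        _ = C * X ^ (2 * κ - 1) * (S * ∑ v ∈ range n, Ex M (res f p v) ^ (2 * κ) +
            D * (Ex M f ^ (2 * κ) - ∑ v ∈ range n, V M x κ ps (res f p v))) := by ring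
        _ ≤ _ := by
            refine mul_le_mul_of_nonneg_left ?_ hX1
            linarith

end Crest.Agent.R4C.FLamx326
end

-- ▼ part R4C/FLamB_326
section

/-!
# Row 4: the F-Λ tree (helper514, note 2743): Lemma 1 with explicit thresholds, general `M`

* `bad_energy` : pairs with a bad prime `> y` at scale `X ≤ gcd < 2X` cost
  `≤ C X^η y^(-c) (E f)^(1+η)`, `η = 2κ-1`;
* `bad_energy_t` : window form, `y = t^A`: `≤ C t^(-1) m^(1+η)`;
* `good_append`, `node_append`, `st_append`: cutting the list of primes;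
* `gcd_dvd_uu` : for a good pair `gcd b c ∣ u(b)`, `u(b)` = the centre-capped part of `b`.
-/

set_option autoImplicit false

open Finset

namespace Crest.Agent.R4C.FLamx326

open Crest.Agent.R4C.Basex935 Crest.Agent.R4C.Multix251

theorem hvw_ex {κ : ℝ} (hκ : 1 / 2 < κ) (hκ1 : κ < 1) : ∃ C : ℝ, 0 < C ∧ HVW κ C := by
  obtain ⟨C, hC, h⟩ := ThmRx19.hvw_b hκ hκ1
  refine ⟨C, hC, ?_⟩
  intro M hM X hX f g hf hf1 hg hg1
  have h1 := h M X f g hM.ne' hX hf hf1 hg hg1
  have h2 : En M X (fun b c => f b * g c) = ∑ b ∈ M.divisors, ∑ c ∈ M.divisors,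
        (if X ≤ (Nat.gcd b c : ℝ) ∧ (Nat.gcd b c : ℝ) < 2 * X then
          (Nat.gcd b c : ℝ) * nu M b * nu M c * (f b * g c)
        else 0) := by
    unfold En frm
    refine sum_congr rfl fun b _ => sum_congr rfl fun c _ => ?_
    by_cases hXg : X ≤ (Nat.gcd b c : ℝ) ∧ (Nat.gcd b c : ℝ) < 2 * X
    · simp only [if_pos hXg]
    · simp only [if_neg hXg, mul_zero]
  rw [h2]
  refine h1.trans (le_of_eq ?_)
  unfold Ex
  rw [← Real.mul_rpow]
  · exact sum_nonneg fun b _ => mul_nonneg (nu_nonneg M b) (hf b)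
  · exact sum_nonneg fun b _ => mul_nonneg (nu_nonneg M b) (hg b)

/-- the exponent `δ` -/
noncomputable def dl (κ : ℝ) : ℝ := (1 - κ) * (2 * κ - 1) / (4 * κ)

lemma dl_pos {κ : ℝ} (hκ : 1 / 2 < κ) (hκ1 : κ < 1) : 0 < dl κ := by
  unfold dl
  have h1 : 0 < 1 - κ := by linarith
  have h2 : 0 < 2 * κ - 1 := by linarith
  positivity

lemma dl_lt {κ : ℝ} (hκ : 1 / 2 < κ) (hκ1 : κ < 1) : dl κ < 1 - κ := by
  unfold dl
  have h1 : 0 < 1 - κ := by linarith
  rw [div_lt_iff₀ (by linarith)]
  nlinarith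

/-- the threshold for passive primes, `A0 p^{-(1-δ')}` -/
noncomputable def xth (κ : ℝ) (p : ℕ) : ℝ := x1 κ (dl κ) (1 / (p : ℝ))

lemma xth_nonneg {κ : ℝ} (hκ : 1 / 2 < κ) (p : ℕ) : 0 ≤ xth κ p := by
  unfold xth x1
  exact mul_nonneg (A0_pos (by linarith)).le (Real.rpow_nonneg (by positivity) _)

lemma xth_pow {κ : ℝ} (hκ : 1 / 2 < κ) (hκ1 : κ < 1) {p : ℕ} (hp : 0 < p) :
    xth κ p ^ (2 * κ) = A0 κ ^ (2 * κ) * (p : ℝ) ^ (-(κ + 1 / 2)) := by
  unfold xth x1
  have hp0 : (0 : ℝ) < p := by exact_mod_cast hp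
  rw [Real.mul_rpow (A0_pos (by linarith)).le (Real.rpow_nonneg (by positivity) _),
    ← Real.rpow_mul (by positivity)]
  congr 1
  rw [one_div, Real.inv_rpow hp0.le, ← Real.rpow_neg hp0.le]
  congr 1
  unfold dl
  have h1 : 1 - κ ≠ 0 := by linarith
  have h2 : κ ≠ 0 := by linarith
  field_simp
  ring

/-- sum of `n^{-s}` over a nodup list of integers `> y` -/
lemma sum_list_rpow {s : ℝ} (hs : 1 < s) :
    ∃ Z : ℝ, 0 < Z ∧ ∀ (y : ℝ), 1 ≤ y → ∀ ps : List ℕ, ps.Nodup → (∀ p ∈ ps, y < (p : ℝ)) →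
      (ps.map (fun p : ℕ => (p : ℝ) ^ (-s))).sum ≤ Z * y ^ (-((s - 1) / 2)) := by
  have hsum : Summable (fun n : ℕ => (n : ℝ) ^ (-((s + 1) / 2))) :=
    Real.summable_nat_rpow.2 (by linarith)
  refine ⟨∑' n : ℕ, (n : ℝ) ^ (-((s + 1) / 2)) + 1, ?_, ?_⟩
  · have : 0 ≤ ∑' n : ℕ, (n : ℝ) ^ (-((s + 1) / 2)) :=
      tsum_nonneg fun n => Real.rpow_nonneg (Nat.cast_nonneg n) _
    linarith
  intro y hy ps hnd hps
  classical
  have h1 : (ps.map (fun p : ℕ => (p : ℝ) ^ (-s))).sum =
      ∑ p ∈ ps.toFinset, (p : ℝ) ^ (-s) := (List.sum_toFinset _ hnd).symm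
  rw [h1]
  have h2 : ∀ p ∈ ps.toFinset, (p : ℝ) ^ (-s) ≤
      (p : ℝ) ^ (-((s + 1) / 2)) * y ^ (-((s - 1) / 2)) := by
    intro p hp
    rw [List.mem_toFinset] at hp
    have hyp := hps p hp
    have hp0 : (0 : ℝ) < p := by linarith
    have h3 : (p : ℝ) ^ (-s) = (p : ℝ) ^ (-((s + 1) / 2)) * (p : ℝ) ^ (-((s - 1) / 2)) := by
      rw [← Real.rpow_add hp0]
      congr 1
      ring
    rw [h3]
    refine mul_le_mul_of_nonneg_left ?_ (Real.rpow_nonneg hp0.le _)
    exact Real.rpow_le_rpow_of_nonpos (by linarith) hyp.le (by linarith)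
  have h4 : 0 ≤ y ^ (-((s - 1) / 2)) := Real.rpow_nonneg (by linarith) _
  calc ∑ p ∈ ps.toFinset, (p : ℝ) ^ (-s)
      ≤ ∑ p ∈ ps.toFinset, (p : ℝ) ^ (-((s + 1) / 2)) * y ^ (-((s - 1) / 2)) := sum_le_sum h2
    _ = (∑ p ∈ ps.toFinset, (p : ℝ) ^ (-((s + 1) / 2))) * y ^ (-((s - 1) / 2)) := by
        rw [sum_mul]
    _ ≤ (∑' n : ℕ, (n : ℝ) ^ (-((s + 1) / 2)) + 1) * y ^ (-((s - 1) / 2)) := by
        refine mul_le_mul_of_nonneg_right ?_ h4
        have := hsum.sum_le_tsum ps.toFinset (fun n _ => Real.rpow_nonneg (Nat.cast_nonneg n) _)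
        linarith

/-- **LEMMA 1 of 2743**: energy of the pairs having a bad prime `> y` -/
theorem bad_energy {κ : ℝ} (hκ : 1 / 2 < κ) (hκ1 : κ < 1) :
    ∃ C c y0 : ℝ, 0 < C ∧ 0 < c ∧ 1 ≤ y0 ∧
      ∀ (M : ℕ) (X y : ℝ) (ps : List ℕ) (f : ℕ → ℝ), 0 < M → 0 < X → y0 ≤ y →
        ps.Nodup → (∀ p ∈ ps, p.Prime) → (∀ p ∈ ps, y < (p : ℝ)) →
        (∀ b, 0 ≤ f b) → (∀ b, f b ≤ 1) →
        En M X (bad M (xth κ) ps f) ≤ C * X ^ (2 * κ - 1) * y ^ (-c) * Ex M f ^ (2 * κ) := by
  obtain ⟨C, hC, hH⟩ := hvw_ex hκ hκ1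
  obtain ⟨w0, hw0, hmul⟩ := multi_range hκ hκ1 (dl_lt hκ hκ1)
  obtain ⟨Z, hZ, hsum⟩ := sum_list_rpow (s := κ + 1 / 2) (by linarith)
  have hdl := dl_pos hκ hκ1
  have hA : 0 < A0 κ := A0_pos (by linarith)
  have hA2 : 0 < A0 κ ^ (2 * κ) := Real.rpow_pos_of_pos hA _
  refine ⟨C * (A0 κ ^ (2 * κ) * Z + 1), min ((κ + 1 / 2 - 1) / 2) (dl κ), max 1 (1 / w0), ?_, ?_,
    le_max_left _ _, ?_⟩
  · positivity
  · exact lt_min (by linarith) hdl
  intro M X y ps f hM hX hy hnd hpr hps hf hf1
  set c := min ((κ + 1 / 2 - 1) / 2) (dl κ) with hc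
  have hy1 : 1 ≤ y := (le_max_left _ _).trans hy
  have hyw : 1 / w0 ≤ y := (le_max_right _ _).trans hy
  have hy0 : 0 < y := by linarith
  have hple : ∀ p ∈ ps, (1 : ℝ) / p ≤ 1 / y := fun p hp =>
    one_div_le_one_div_of_le hy0 (hps p hp).le
  have hpw : ∀ p ∈ ps, (0 : ℝ) < 1 / p ∧ (1 : ℝ) / p ≤ w0 := by
    intro p hp
    have hp0 : (0 : ℝ) < p := lt_trans hy0 (hps p hp)
    refine ⟨by positivity, (hple p hp).trans ?_⟩
    rw [div_le_iff₀ hy0]
    rw [div_le_iff₀ hw0] at hyw
    linarith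
  have hmain := bad_energy_pot (κ := κ) (δ := dl κ) (D := (1 / y) ^ dl κ) hH hC.le hκ hκ1
    hdl hM hX (x := xth κ) (xth_nonneg hκ) ps hpr (fun p _ => le_rfl)
    (fun p hp => Real.rpow_le_rpow (hpw p hp).1.le (hple p hp) hdl.le)
    (fun p hp n y' z h1 h2 h3 h4 => hmul (1 / (p : ℝ)) (hpw p hp).1 (hpw p hp).2 n y' z h1 h2 h3 h4)
    f hf hf1
  have hV : 0 ≤ V M (xth κ) κ ps f := V_nonneg ps hf
  have hE : 0 ≤ Ex M f ^ (2 * κ) := Real.rpow_nonneg (Ex_nonneg hf) _
  have hX1 : 0 ≤ C * X ^ (2 * κ - 1) := mul_nonneg hC.le (Real.rpow_nonneg hX.le _)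
  have hD0 : 0 ≤ (1 / y) ^ dl κ := Real.rpow_nonneg (by positivity) _
  have hDc : (1 / y) ^ dl κ ≤ y ^ (-c) := by
    rw [one_div, Real.inv_rpow hy0.le, ← Real.rpow_neg hy0.le]
    exact Real.rpow_le_rpow_of_exponent_le hy1 (by linarith [min_le_right ((κ + 1 / 2 - 1) / 2) (dl κ)])
  have hS : (ps.map (fun p => xth κ p ^ (2 * κ))).sum ≤ A0 κ ^ (2 * κ) * Z * y ^ (-c) := by
    have e1 : (ps.map (fun p => xth κ p ^ (2 * κ))) =
        ps.map (fun p : ℕ => A0 κ ^ (2 * κ) * (p : ℝ) ^ (-(κ + 1 / 2))) := by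
      apply List.map_congr_left
      intro p hp
      exact xth_pow hκ hκ1 (hpr p hp).pos
    rw [e1, List.sum_map_mul_left, mul_assoc]
    refine mul_le_mul_of_nonneg_left ((hsum y hy1 ps hnd hps).trans ?_) hA2.le
    refine mul_le_mul_of_nonneg_left ?_ hZ.le
    exact Real.rpow_le_rpow_of_exponent_le hy1 (by linarith [min_le_left ((κ + 1 / 2 - 1) / 2) (dl κ)])
  refine hmain.trans ?_
  have h1 : (ps.map (fun p => xth κ p ^ (2 * κ))).sum * Ex M f ^ (2 * κ) +
      (1 / y) ^ dl κ * (Ex M f ^ (2 * κ) - V M (xth κ) κ ps f) ≤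
      (A0 κ ^ (2 * κ) * Z + 1) * y ^ (-c) * Ex M f ^ (2 * κ) := by
    have h2 : (ps.map (fun p => xth κ p ^ (2 * κ))).sum * Ex M f ^ (2 * κ) ≤
        A0 κ ^ (2 * κ) * Z * y ^ (-c) * Ex M f ^ (2 * κ) := mul_le_mul_of_nonneg_right hS hE
    have h3 : (1 / y) ^ dl κ * (Ex M f ^ (2 * κ) - V M (xth κ) κ ps f) ≤
        (1 / y) ^ dl κ * Ex M f ^ (2 * κ) := mul_le_mul_of_nonneg_left (by linarith) hD0
    have h4 : (1 / y) ^ dl κ * Ex M f ^ (2 * κ) ≤ y ^ (-c) * Ex M f ^ (2 * κ) :=
      mul_le_mul_of_nonneg_right hDc hE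
    nlinarith
  calc C * X ^ (2 * κ - 1) * ((ps.map (fun p => xth κ p ^ (2 * κ))).sum * Ex M f ^ (2 * κ) +
      (1 / y) ^ dl κ * (Ex M f ^ (2 * κ) - V M (xth κ) κ ps f))
      ≤ C * X ^ (2 * κ - 1) * ((A0 κ ^ (2 * κ) * Z + 1) * y ^ (-c) * Ex M f ^ (2 * κ)) :=
        mul_le_mul_of_nonneg_left h1 hX1
    _ = _ := by ring


/-! ### Cutting the list -/



theorem st_append_left {M : ℕ} {x : ℕ → ℝ} (ps qs : List ℕ) :
    ∀ (f : ℕ → ℝ) (b r : ℕ), r ∈ ps → st M x (ps ++ qs) f b r = st M x ps f b r := by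
  induction ps with
  | nil => intro f b r hr; exact absurd hr List.not_mem_nil
  | cons p ps ih =>
    intro f b r hr
    rw [List.cons_append]
    by_cases hrp : r = p
    · rw [hrp, st_self, st_self]
    have hr' : r ∈ ps := (List.mem_cons.1 hr).resolve_left hrp
    cases h : cen M x f p with
    | some v0 => rw [st_some h b hrp, st_some h b hrp]; exact ih f b r hr'
    | none => rw [st_none h b hrp, st_none h b hrp]; exact ih _ b r hr'

theorem st_append_right {M : ℕ} {x : ℕ → ℝ} (ps qs : List ℕ) :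
    ∀ (f : ℕ → ℝ) (b r : ℕ), r ∉ ps →
      st M x (ps ++ qs) f b r = st M x qs (node M x ps f b) b r := by
  induction ps with
  | nil => intro f b r _; rfl
  | cons p ps ih =>
    intro f b r hr
    rw [List.cons_append]
    have hrp : r ≠ p := fun h => hr (h ▸ List.mem_cons_self)
    have hr' : r ∉ ps := fun h => hr (List.mem_cons_of_mem _ h)
    cases h : cen M x f p with
    | some v0 => rw [st_some h b hrp, node_some h]; exact ih f b r hr'
    | none => rw [st_none h b hrp, node_none h]; exact ih _ b r hr'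






/-! ### The capped part `u(b)` and `Λ(b)` -/

/-- capped exponent of `b` at `r` -/
noncomputable def cap (M : ℕ) (x : ℕ → ℝ) (ps : List ℕ) (f : ℕ → ℝ) (b r : ℕ) : ℕ :=
  match st M x ps f b r with
  | some v0 => min (b.factorization r) v0
  | none => b.factorization r

/-- `u(b)`: `b` with the exponents at passive primes capped by the centre -/
noncomputable def uu (M : ℕ) (x : ℕ → ℝ) (ps : List ℕ) (f : ℕ → ℝ) (b : ℕ) : ℕ :=
  ∏ r ∈ b.primeFactors, r ^ cap M x ps f b r

lemma cap_le {M : ℕ} {x : ℕ → ℝ} (ps : List ℕ) (f : ℕ → ℝ) (b r : ℕ) :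
    cap M x ps f b r ≤ b.factorization r := by
  unfold cap
  split
  · exact min_le_left _ _
  · exact le_rfl

lemma uu_ne_zero {M : ℕ} {x : ℕ → ℝ} (ps : List ℕ) (f : ℕ → ℝ) (b : ℕ) :
    uu M x ps f b ≠ 0 := by
  unfold uu
  rw [prod_ne_zero_iff]
  intro r hr
  exact pow_ne_zero _ (Nat.prime_of_mem_primeFactors hr).ne_zero

lemma uu_fact {M : ℕ} {x : ℕ → ℝ} (ps : List ℕ) (f : ℕ → ℝ) (b r : ℕ) :
    (uu M x ps f b).factorization r = if r.Prime then cap M x ps f b r else 0 := by
  split_ifs with hr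
  · unfold uu
    rw [Nat.factorization_prod_apply (fun s hs => pow_ne_zero _
      (Nat.prime_of_mem_primeFactors hs).ne_zero)]
    have h1 : ∀ s ∈ b.primeFactors, (s ^ cap M x ps f b s).factorization r =
        if s = r then cap M x ps f b s else 0 := by
      intro s hs
      rw [(Nat.prime_of_mem_primeFactors hs).factorization_pow, Finsupp.single_apply]
    rw [sum_congr rfl h1, sum_ite_eq']
    split_ifs with h2
    · rfl
    · have h3 : b.factorization r = 0 := by
        rw [← Finsupp.notMem_support_iff, Nat.support_factorization]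
        exact h2
      have := cap_le (M := M) (x := x) ps f b r
      omega
  · exact Nat.factorization_eq_zero_of_not_prime _ hr

theorem uu_dvd {M : ℕ} {x : ℕ → ℝ} (ps : List ℕ) (f : ℕ → ℝ) {b : ℕ} (hb : b ≠ 0) :
    uu M x ps f b ∣ b := by
  rw [← Nat.factorization_le_iff_dvd (uu_ne_zero ps f b) hb]
  intro r
  rw [uu_fact]
  split_ifs
  · exact cap_le ps f b r
  · exact Nat.zero_le _



end Crest.Agent.R4C.FLamx326
end

-- ▼ part R4C/FLEx_326

/-!
# Row 4: the F-Λ structure exists (Lemma 1 of 2743 in helper935's interface)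

`flam_strong : 0 < η → η < 1 → FLamStrong η` and `flam_statement : … → FLamStatement η`.
-/

set_option autoImplicit false

open Finset

namespace Crest.Agent.R4C.FLExx326

open Crest.Agent.R4C.Basex935 Crest.Agent.R4C.Multix251 Crest.Agent.R4C.FLamx326
  Crest.Agent.R4C.FLDefx935

/-- the primes of `M` in decreasing order -/
def PL (M : ℕ) : List ℕ := ((List.range (M + 1)).reverse).filter (fun p => p ∈ M.primeFactors)

lemma mem_PL {M p : ℕ} : p ∈ PL M ↔ p ∈ M.primeFactors := by
  unfold PL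
  rw [List.mem_filter, List.mem_reverse, List.mem_range]
  constructor
  · intro h
    simpa using h.2
  · intro h
    refine ⟨?_, by simpa using h⟩
    have h1 := Nat.dvd_of_mem_primeFactors h
    have h2 : M ≠ 0 := fun h0 => by rw [h0] at h; simp at h
    have := Nat.le_of_dvd (Nat.pos_of_ne_zero h2) h1
    omega

lemma PL_pairwise (M : ℕ) : (PL M).Pairwise (fun a b => b < a) := by
  unfold PL
  refine List.Pairwise.filter _ ?_
  rw [List.pairwise_reverse]
  exact List.pairwise_lt_range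

lemma PL_nodup (M : ℕ) : (PL M).Nodup :=
  (PL_pairwise M).imp (fun h => (ne_of_lt h).symm)

/-- a decreasing list is cut at `x` by filtering -/
lemma split_list (x : ℕ) : ∀ l : List ℕ, l.Pairwise (fun a b => b < a) →
    l = l.filter (fun p => x < p) ++ l.filter (fun p => ¬ x < p) := by
  intro l
  induction l with
  | nil => intro _; simp
  | cons a l ih =>
    intro h
    rw [List.pairwise_cons] at h
    by_cases hx : x < a
    · rw [List.filter_cons_of_pos (by simpa using hx),
        List.filter_cons_of_neg (by simpa using hx), List.cons_append, ← ih h.2]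
    · have h1 : l.filter (fun p => x < p) = [] := by
        rw [List.filter_eq_nil_iff]
        intro b hb
        have := h.1 b hb
        simp only [decide_eq_true_eq]
        omega
      have h2 : l.filter (fun p => ¬ x < p) = l := by
        rw [List.filter_eq_self]
        intro b hb
        have := h.1 b hb
        simp only [decide_eq_true_eq]
        omega
      rw [List.filter_cons_of_neg (by simpa using hx),
        List.filter_cons_of_pos (by simpa using hx), h1, h2]
      rfl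

/-- centres are letters of `M` -/
lemma cen_le {M : ℕ} (hM : 0 < M) {x f : ℕ → ℝ} (hf : ∀ b, 0 ≤ f b) {p v : ℕ}
    (h : cen M x f p = some v) : v ≤ M.factorization p := by
  classical
  by_contra hv
  push Not at hv
  have h1 := cen_some h
  have h2 : Ex M (off f p v) = Ex M f := by
    unfold Ex
    refine sum_congr rfl fun b hb => ?_
    have h3 := letter_le hM (Nat.dvd_of_mem_divisors hb) p
    unfold off
    rw [if_neg (by omega)]
  have h4 : Ex M (off f p 0) ≤ Ex M f := by
    have := Ex_off (M := M) f p 0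
    have h5 := Ex_nonneg (M := M) (res_nonneg hf p 0)
    linarith
  have h5 : Ex M (off f p 0) ≤ x p * Ex M f := by
    rw [h2] at h1
    exact h4.trans h1
  unfold cen at h
  have hex : ∃ v0, Ex M (off f p v0) ≤ x p * Ex M f := ⟨0, h5⟩
  rw [dif_pos hex, Option.some.injEq] at h
  have h6 : Nat.find hex ≤ 0 := Nat.find_min' hex h5
  omega

lemma st_le {M : ℕ} (hM : 0 < M) {x : ℕ → ℝ} (ps : List ℕ) :
    ∀ {f : ℕ → ℝ}, (∀ b, 0 ≤ f b) → ∀ {b r v : ℕ}, st M x ps f b r = some v →
      v ≤ M.factorization r := by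
  induction ps with
  | nil => intro f _ b r v h; simp [st] at h
  | cons p ps ih =>
    intro f hf b r v h
    by_cases hr : r = p
    · subst hr
      rw [st_self] at h
      exact cen_le hM hf h
    · cases hc : cen M x f p with
      | some v0 =>
        rw [st_some hc b hr] at h
        exact ih hf h
      | none =>
        rw [st_none hc b hr] at h
        exact ih (res_nonneg hf p _) h

lemma st_coh {M : ℕ} {x : ℕ → ℝ} {p : ℕ} (ps : List ℕ) :
    ps.Pairwise (fun a b => b < a) → p ∈ ps → ∀ {f : ℕ → ℝ} {b c : ℕ},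
      (∀ q ∈ ps, p < q → st M x ps f b q = none → b.factorization q = c.factorization q) →
      st M x ps f b p = st M x ps f c p := by
  induction ps with
  | nil => intro _ h; exact absurd h List.not_mem_nil
  | cons q qs ih =>
    intro hpw hp f b c h
    rw [List.pairwise_cons] at hpw
    by_cases hpq : p = q
    · rw [hpq, st_self, st_self]
    have hp' : p ∈ qs := (List.mem_cons.1 hp).resolve_left hpq
    have hlt : p < q := hpw.1 p hp'
    cases hc : cen M x f q with
    | some v0 =>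
      rw [st_some hc b hpq, st_some hc c hpq]
      refine ih hpw.2 hp' fun r hr hpr hst => ?_
      have hrq : r ≠ q := (hpw.1 r hr).ne
      refine h r (List.mem_cons_of_mem _ hr) hpr ?_
      rw [st_some hc b hrq]
      exact hst
    | none =>
      have e : b.factorization q = c.factorization q :=
        h q List.mem_cons_self hlt (by rw [st_self]; exact hc)
      rw [st_none hc b hpq, st_none hc c hpq, ← e]
      refine ih hpw.2 hp' fun r hr hpr hst => ?_
      have hrq : r ≠ q := (hpw.1 r hr).ne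
      refine h r (List.mem_cons_of_mem _ hr) hpr ?_
      rw [st_none hc b hrq]
      exact hst

open Classical in
/-- the status function -/
noncomputable def stat (M : ℕ) (x : ℕ → ℝ) (f : ℕ → ℝ) (b p : ℕ) : Option ℕ :=
  if p ∈ M.primeFactors then st M x (PL M) f b p else some 0

/-- the F-Λ structure of a function `f ≥ 0` -/
noncomputable def mkFL {M : ℕ} (hM : 0 < M) (x : ℕ → ℝ) (f : ℕ → ℝ) (hf : ∀ b, 0 ≤ f b) :
    FL M where
  ctr := stat M x f
  coh := by
    intro b c p _ _ _ h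
    unfold stat
    by_cases hp : p ∈ M.primeFactors
    · rw [if_pos hp, if_pos hp]
      refine st_coh (PL M) (PL_pairwise M) (mem_PL.2 hp) fun q hq hpq hst => ?_
      have hq' := mem_PL.1 hq
      refine h q (Nat.prime_of_mem_primeFactors hq') hpq ?_
      unfold stat
      rw [if_pos hq']
      exact hst
    · rw [if_neg hp, if_neg hp]
  le := by
    intro b p v _ _ h
    unfold stat at h
    by_cases hp : p ∈ M.primeFactors
    · rw [if_pos hp] at h
      exact st_le hM _ hf h
    · rw [if_neg hp, Option.some.injEq] at h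
      omega

/-- good pairs of the tree cut at `x` are good pairs of `mkFL` -/
lemma good_of_Good {M : ℕ} (hM : 0 < M) {x : ℕ → ℝ} {f : ℕ → ℝ} (hf : ∀ b, 0 ≤ f b)
    {z b c : ℕ} (hb : b ∣ M) (hg : Good M x ((PL M).filter (fun p => z < p)) f b c) :
    (mkFL hM x f hf).good z b c := by
  have hsp := split_list z (PL M) (PL_pairwise M)
  have key : ∀ q, q ∈ M.primeFactors → z < q → q ∈ (PL M).filter (fun p => z < p) ∧
      st M x (PL M) f b q = st M x ((PL M).filter (fun p => z < p)) f b q := by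
    intro q hq hz
    have h1 : q ∈ (PL M).filter (fun p => z < p) := by
      rw [List.mem_filter]
      exact ⟨mem_PL.2 hq, by simpa using hz⟩
    refine ⟨h1, ?_⟩
    conv_lhs => rw [hsp]
    exact st_append_left _ _ f b q h1
  constructor
  · intro q _ hz h
    change stat M x f b q = none at h
    unfold stat at h
    by_cases hq : q ∈ M.primeFactors
    · rw [if_pos hq] at h
      obtain ⟨h1, h2⟩ := key q hq hz
      rw [h2] at h
      exact (good_letters _ hg q h1).1 h
    · rw [if_neg hq] at h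
      simp at h
  · intro q _ hz v h
    change stat M x f b q = some v at h
    unfold stat at h
    by_cases hq : q ∈ M.primeFactors
    · rw [if_pos hq] at h
      obtain ⟨h1, h2⟩ := key q hq hz
      rw [h2] at h
      exact (good_letters _ hg q h1).2 v h
    · rw [if_neg hq, Option.some.injEq] at h
      left
      rw [← h]
      exact FL.fact_zero hM hb hq

open Classical in
/-- indicator -/
noncomputable def ind (B : Finset ℕ) (b : ℕ) : ℝ := if b ∈ B then 1 else 0

lemma ind_nonneg (B : Finset ℕ) (b : ℕ) : 0 ≤ ind B b := by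
  unfold ind; split_ifs <;> norm_num

lemma ind_le_one (B : Finset ℕ) (b : ℕ) : ind B b ≤ 1 := by
  unfold ind; split_ifs <;> norm_num

lemma Ex_ind {M : ℕ} {B : Finset ℕ} (hB : B ⊆ M.divisors) :
    Ex M (ind B) = ∑ b ∈ B, nu M b := by
  classical
  unfold Ex ind
  rw [← sum_subset hB]
  · refine sum_congr rfl fun b hb => ?_
    rw [if_pos hb, mul_one]
  · intro b _ hb
    rw [if_neg hb, mul_zero]

/-- bad energy of `mkFL` against the tree -/
lemma badEn_le {M : ℕ} (hM : 0 < M) {B : Finset ℕ} (hB : B ⊆ M.divisors) (x : ℕ → ℝ)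
    {L t : ℝ} (hL : 0 < L) (z : ℕ) :
    badEn (mkFL hM x (ind B) (ind_nonneg B)) B L t z ≤
      L * En M (t * L) (bad M x ((PL M).filter (fun p => z < p)) (ind B)) := by
  classical
  unfold badEn
  refine mul_le_mul_of_nonneg_left ?_ hL.le
  unfold En frm
  have h0 : ∀ b c : ℕ, 0 ≤ (Nat.gcd b c : ℝ) * nu M b * nu M c *
      (if t * L ≤ (Nat.gcd b c : ℝ) ∧ (Nat.gcd b c : ℝ) < 2 * (t * L) then
        bad M x ((PL M).filter (fun p => z < p)) (ind B) b c else 0) := by
    intro b c
    have h1 := nu_nonneg M b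
    have h2 := nu_nonneg M c
    have h3 := bad_nonneg (M := M) (x := x) (ps := (PL M).filter (fun p => z < p))
      (ind_nonneg B) b c
    split_ifs
    · positivity
    · simp
  calc ∑ b ∈ B, ∑ c ∈ B, (if t * L ≤ (Nat.gcd b c : ℝ) ∧ (Nat.gcd b c : ℝ) < 2 * t * L ∧
          ¬ (mkFL hM x (ind B) (ind_nonneg B)).good z b c then
          (Nat.gcd b c : ℝ) * nu M b * nu M c else 0)
      ≤ ∑ b ∈ B, ∑ c ∈ B, (Nat.gcd b c : ℝ) * nu M b * nu M c *
        (if t * L ≤ (Nat.gcd b c : ℝ) ∧ (Nat.gcd b c : ℝ) < 2 * (t * L) then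
        bad M x ((PL M).filter (fun p => z < p)) (ind B) b c else 0) := by
        refine sum_le_sum fun b hb => sum_le_sum fun c hc => ?_
        by_cases h : t * L ≤ (Nat.gcd b c : ℝ) ∧ (Nat.gcd b c : ℝ) < 2 * t * L ∧
          ¬ (mkFL hM x (ind B) (ind_nonneg B)).good z b c
        · rw [if_pos h, if_pos ⟨h.1, by rw [← mul_assoc]; exact h.2.1⟩]
          have hng : ¬ Good M x ((PL M).filter (fun p => z < p)) (ind B) b c := fun hg =>
            h.2.2 (good_of_Good hM (ind_nonneg B) (Nat.dvd_of_mem_divisors (hB hb)) hg)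
          have e : bad M x ((PL M).filter (fun p => z < p)) (ind B) b c = 1 := by
            have e1 : ind B b = 1 := by unfold ind; rw [if_pos hb]
            have e2 : ind B c = 1 := by unfold ind; rw [if_pos hc]
            unfold bad
            rw [if_neg hng, e1, e2, mul_one]
          rw [e, mul_one]
        · rw [if_neg h]
          exact h0 b c
    _ ≤ ∑ b ∈ M.divisors, ∑ c ∈ B, (Nat.gcd b c : ℝ) * nu M b * nu M c *
        (if t * L ≤ (Nat.gcd b c : ℝ) ∧ (Nat.gcd b c : ℝ) < 2 * (t * L) then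
        bad M x ((PL M).filter (fun p => z < p)) (ind B) b c else 0) :=
        sum_le_sum_of_subset_of_nonneg hB fun b _ _ => sum_nonneg fun c _ => h0 b c
    _ ≤ _ := sum_le_sum fun b _ => sum_le_sum_of_subset_of_nonneg hB fun c _ _ => h0 b c



end Crest.Agent.R4C.FLExx326
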