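import Crest.Agent.R4C.GWdef_982

/-!
# Row 4, GW section: assembly of the scalar case from the facts F1, F4, F5 (helper982)

* `Facts Z C1 T` : laminarity, masses, budget, natural hypothesis;
* `zd_ok` : `ZD.Ok`; `gw_zones` : the abstract lemma for the world `Z`;
* `gw_pairs` : a nonnegative pair weight `K` such that every pair with `K w w' ≠ 0` lies in a common
  node, one of the two words leaves the zone there, and
  `K w w' ≤ Cw * (nu w * nu w' / g) * min (W z w) (W z w')`, has total `≤ 32 Cw C1 T Σ_B nu`.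
-/

set_option autoImplicit false

open Finset
open Crest.Agent.R4C.Basex935 Crest.Agent.R4C.Cutx50 Crest.Agent.R4C.PrefixMx882
open Crest.Agent.R4C.GWdefx982

namespace Crest.Agent.R4C.GWasmx982

variable (Z : World)

/-- the natural hypothesis (F5) -/
def HYP (C1 : ℝ) : Prop := ∀ z ∈ Z.Zs, ∀ ν ∈ Z.Nd z, ∀ s : ℝ, 0 ≤ s → s ≤ 1 →
  ∑ w ∈ (Z.S ν).filter (fun w => Z.Y z w ≤ s), nu Z.N w ≤ C1 * (s + Z.kap z) * Z.g ν

open Classical in
/-- the facts used by the assembly -/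
structure Facts (C1 T : ℝ) : Prop where
  lam : ∀ z ∈ Z.Zs, GWzonex9.Lam (Z.Nd z) Z.S (fun ν => ν.1)
  mass : ∀ z ∈ Z.Zs, ∀ ν ∈ Z.Nd z, ∑ w ∈ Z.S ν, nu Z.N w ≤ Z.g ν
  gpos : ∀ z ∈ Z.Zs, ∀ ν ∈ Z.Nd z, 0 < Z.g ν
  budget : ∀ w ∈ Z.N.divisors,
    ∑ z ∈ Z.Zs.filter (fun z => w ∈ Z.zd.zone z), Z.W z w * (Z.Y z w + Z.kap z) ≤ T
  hyp : HYP Z C1

variable {Z}

/-! ### coins -/


lemma Wp_le_one (a b w : ℕ) : Z.Wp a b w ≤ 1 := by
  classical
  unfold World.Wp
  refine prod_le_one (fun p hp => ?_) fun p hp => ?_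
  · have h1 := (mem_filter.1 hp).1
    unfold free at h1
    have hpp := Nat.prime_of_mem_primeFactors (mem_filter.1 h1).1
    have h2 : (1 : ℝ) ≤ p := by exact_mod_cast hpp.one_lt.le
    have h3 : (1 : ℝ) / p ≤ 1 := by rw [div_le_one (by linarith)]; exact h2
    linarith
  · have h4 : (0 : ℝ) ≤ 1 / (p : ℝ) := by positivity
    linarith



/-! ### the abstract lemma -/




lemma A_disj {z : Node} (hL : GWzonex9.Lam (Z.Nd z) Z.S (fun ν => ν.1)) :
    ∀ n ∈ Z.Nd z, ∀ n' ∈ Z.Nd z, n ≠ n' → Disjoint (Z.A z n) (Z.A z n') := by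
  classical
  have key : ∀ n ∈ Z.Nd z, ∀ n' ∈ Z.Nd z, n.1 < n'.1 → Disjoint (Z.A z n) (Z.A z n') := by
    intro n _ n' hn' hlt
    rw [disjoint_left]
    intro w h1 h2
    unfold World.A at h1 h2
    rw [mem_sdiff] at h1 h2
    apply h1.2
    rw [mem_biUnion]
    exact ⟨n', mem_filter.2 ⟨hn', hlt⟩, h2.1⟩
  intro n hn n' hn' hne
  rcases lt_trichotomy n.1 n'.1 with h | h | h
  · exact key n hn n' hn' h
  · refine (hL.inj n hn n' hn' hne h).mono ?_ ?_
    · unfold World.A; exact sdiff_subset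
    · unfold World.A; exact sdiff_subset
  · exact (key n' hn' n hn h).symm





end Crest.Agent.R4C.GWasmx982
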