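import Crest.Agent.R4C.LBx_500
import Crest.Agent.R4C.BoxUniq_60
import Crest.Agent.R4C.HyOf_281
import Crest.Agent.R4C.LBoxDef_662

-- ▼ part R4C/LCovB_11
section

/-!
# Row 4, class (L): symmetry, uniqueness and existence of the box data of a pair (helper11)

* `Al_symm`, `alSet_symm`, `AlLe_symm`, `X1_symm`, `BigW_symm`, `NoEx_symm`, **`LP_symm`** :
  exchange of `b, c` (`h ↦ -h`, `f ↔ f'`);
* `centre_eq` : two centres of one word with depths in `[K, 2K)` (measured at their levels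
  `t, t₁`) are equal, and so are their `k0`;
* **`BxL_unique`** : the data `f, f', h` and the twists of a pair in a box are unique;
* **`BxL_of_LP`** : a pair of class (L) with deep side `b`, good at the block start and not smooth
  lies in a box; `box_of_LP` : both sides.
-/

set_option autoImplicit false

namespace Crest.Agent.R4C.LCovBx11

open Crest.Agent.R4C.FLDefx935 Crest.Agent.R4C.BoostCx972 Crest.Agent.R4C.CrCoinx935
  Crest.Agent.R4C.CrCountx935 Crest.Agent.R4C.Bridgex882 Crest.Agent.R4C.PrefixMx882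
  Crest.Agent.R4C.S7cx14 Crest.Agent.R4C.S7dx14 Crest.Agent.R4C.Cutx50
  Crest.Agent.R4C.PairRx14 Crest.Agent.R4C.Rulex945 Crest.Agent.R4C.Sharedx11
  Crest.Agent.R4C.Splitx945 Crest.Agent.R4C.BoxUniqx60 Crest.Agent.R4C.LBxx500
  Crest.Agent.R4C.NonPureBlkx559

variable {M : ℕ} {F : FL M} {P : Par}

/-! ### symmetry -/

lemma gap_symm' {f f' : ℚ} {s s' : ℕ} {h : ℤ} (h0 : BoostCx972.gap f f' s s' h = 0) :
    BoostCx972.gap f' f s' s (-h) = 0 := by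
  unfold BoostCx972.gap at h0 ⊢
  push_cast
  linear_combination -h0

lemma Al_symm {b c s s' p : ℕ} {h : ℤ} {f f' : ℚ} (ha : Al F P b c s s' h p f f') :
    Al F P c b s' s (-h) p f' f :=
  ⟨ha.prime, ha.ns', ha.ns, ha.used', ha.used, ha.den', ha.den, gap_symm' ha.pt⟩

lemma alSet_symm (b c s s' : ℕ) (h : ℤ) :
    alSet F P c b s' s (-h) = alSet F P b c s s' h := by
  classical
  ext p
  unfold alSet
  rw [Finset.mem_filter, Finset.mem_filter, Finset.union_comm]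
  refine and_congr_right fun _ => ⟨?_, ?_⟩
  · rintro ⟨f, f', ha⟩
    have := Al_symm ha
    rw [neg_neg] at this
    exact ⟨f', f, this⟩
  · rintro ⟨f, f', ha⟩
    exact ⟨f', f, Al_symm ha⟩

lemma AlLe_symm {b c x : ℕ} {h : ℤ} (ha : AlLe F P b c h x) : AlLe F P c b (-h) x := by
  intro q hq
  rw [Nat.gcd_comm c b, alSet_symm] at hq
  exact ha q hq

lemma X1_symm (b c : ℕ) : X1 P c b = X1 P b c := by
  unfold X1
  rw [Nat.gcd_comm]

lemma BigW_symm {t b c : ℕ} {f f' : ℚ} (h : BigW F P t b c f f') : BigW F P t c b f' f := by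
  obtain ⟨h1, h2⟩ := h
  refine ⟨?_, ?_⟩
  · rw [Nat.gcd_comm c b, mul_comm (low (P.cut t) (c / Nat.gcd b c) : ℝ)]
    exact h2
  · rw [Nat.gcd_comm c b, mul_comm (low (P.cut t) (c / Nat.gcd b c) : ℝ)]
    exact h1


/-- **symmetry of the pairs of class (L)** -/
theorem LP_symm {t b c p : ℕ} {h : ℤ} {f f' : ℚ} (hb : b ∣ M) (hc : c ∣ M)
    (hP : LP F P t b c h f f' p) : LP F P t c b (-h) f' f p where
  good := FL.good_symm hb hc hP.good
  pt := by rw [Nat.gcd_comm c b]; exact gap_symm' hP.pt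
  db := hP.dc
  dc := hP.db
  ib := hP.ic
  ic := hP.ib
  tc := hP.tc.symm
  prime := hP.prime
  le := hP.le
  deep := by rw [Nat.gcd_comm c b]; exact hP.deep.symm
  top := fun r hr h1 h2 => ⟨(hP.top r hr h1 h2).2, (hP.top r hr h1 h2).1⟩
  topk := fun r hr h1 h2 => by
    rw [Nat.gcd_comm c b]
    exact ⟨(hP.topk r hr h1 h2).2, (hP.topk r hr h1 h2).1⟩
  big := BigW_symm hP.big
  al := AlLe_symm hP.al
  m0 := hP.m0
  scl := by rw [Nat.gcd_comm c b]; exact hP.scl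
  near := by rw [X1_symm]; exact hP.near

/-- the link, symmetric -/
lemma lnk_symm {b c : ℕ} {h : ℤ} {γ L : ℝ}
    (hl : |(((b / Nat.gcd b c : ℕ) : ℝ) - ((c / Nat.gcd b c : ℕ) : ℝ)) * γ + h| <
      L / (Nat.gcd b c : ℕ)) :
    |(((c / Nat.gcd c b : ℕ) : ℝ) - ((b / Nat.gcd c b : ℕ) : ℝ)) * γ + ((-h : ℤ) : ℝ)| <
      L / (Nat.gcd c b : ℕ) := by
  rw [Nat.gcd_comm c b]
  refine lt_of_eq_of_lt ?_ hl
  rw [← abs_neg]
  congr 1
  push_cast
  ring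

/-! ### uniqueness -/

/-- the offset is determined by the common point -/
lemma gap_unique {f f' : ℚ} {s s' : ℕ} {h h₁ : ℤ} (h0 : BoostCx972.gap f f' s s' h = 0)
    (h1 : BoostCx972.gap f f' s s' h₁ = 0) : h = h₁ := by
  unfold BoostCx972.gap at h0 h1
  have h2 : (h : ℚ) = h₁ := by linarith
  exact_mod_cast h2

lemma Ix_dep {t d : ℕ} {f : ℚ} (h : Ix F P t d f) :
    ∃ m, t ≤ m ∧ TC F P m d f ∧ dep F P m d f = dep F P t d f := by
  obtain ⟨m, h1, h2, h3⟩ := h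
  refine ⟨m, h1, h2, ?_⟩
  unfold dep
  rw [h3]

/-- one order of the levels -/
lemma centre_eq_aux (hL : 0 < P.L) (hM : 0 < M) (hcut : Monotone P.cut)
    (hE : ∀ m, P.m0 ≤ m → 4 * P.E m ^ 8 < 2 ^ m) {K : ℝ} {d t t₁ : ℕ} {f f₁ : ℚ} (hd : d ∣ M)
    (ht : P.m0 ≤ t) (hc1 : 1 ≤ P.cut t) (htt : t ≤ t₁) (hi : Ix F P t d f)
    (hi₁ : Ix F P t₁ d f₁) (hdE : dep F P t d f ≤ P.E t ^ 4) (hK : K ≤ dep F P t d f)
    (hK₁ : dep F P t₁ d f₁ < 2 * K) :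
    f = f₁ ∧ k0 F (P.cut t) d f = k0 F (P.cut t₁) d f₁ := by
  obtain ⟨m, hm, tm, em⟩ := Ix_dep hi
  obtain ⟨m₁, hm₁, tm₁, em₁⟩ := Ix_dep hi₁
  set Et := P.E t with hEt
  have d1 : dep F P m d f ≤ Et ^ 4 := em ▸ hdE
  have d2 : dep F P m₁ d f₁ ≤ 2 * Et ^ 4 := by
    rw [em₁]
    linarith
  have hfe : f = f₁ := by
    rcases le_total m m₁ with h12 | h12
    · refine box_unique (R := 1) hL hM hcut hd hd le_rfl h12 (SameUp.refl _ _) le_rfl (by simp)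
        tm.scl d1 d2 ?_
      calc 2 * 1 * Et ^ 4 * (2 * Et ^ 4) = 4 * Et ^ 8 := by ring
        _ < 2 ^ t := hE t ht
        _ ≤ 2 ^ m := pow_le_pow_right₀ (by norm_num) hm
    · refine (box_unique (R := 1) hL hM hcut hd hd le_rfl h12 (SameUp.refl _ _) le_rfl (by simp)
        tm₁.scl d2 d1 ?_).symm
      calc 2 * 1 * (2 * Et ^ 4) * Et ^ 4 = 4 * Et ^ 8 := by ring
        _ < 2 ^ t := hE t ht
        _ ≤ 2 ^ m₁ := pow_le_pow_right₀ (by norm_num) (htt.trans hm₁)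
  refine ⟨hfe, ?_⟩
  rw [← hfe]
  rcases k0_jump' (F := F) hM hd (hcut htt) f with h1 | h1
  · exact h1
  exfalso
  -- the depth would be multiplied by `cut t + 1 ≥ 2`
  have h2 : (2 : ℝ) * k0 F (P.cut t) d f ≤ k0 F (P.cut t₁) d f := by
    have h3 : 2 * k0 F (P.cut t) d f ≤ (P.cut t + 1) * k0 F (P.cut t) d f :=
      Nat.mul_le_mul_right _ (by omega)
    exact_mod_cast h3.trans h1
  have h4 : 2 * dep F P t d f ≤ dep F P t₁ d f := by
    unfold dep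
    have h5 : (0 : ℝ) ≤ max 1 ((d : ℝ) * |P.γ - f| / P.L) := zero_le_one.trans (le_max_left _ _)
    calc 2 * ((k0 F (P.cut t) d f : ℝ) * max 1 ((d : ℝ) * |P.γ - f| / P.L))
        = (2 * k0 F (P.cut t) d f) * max 1 ((d : ℝ) * |P.γ - f| / P.L) := by ring
      _ ≤ _ := mul_le_mul_of_nonneg_right h2 h5
  rw [← hfe] at hK₁
  linarith

/-- **the centre of a word with depth in `[K, 2K)` is unique** (over all levels), and so is `k0` -/
theorem centre_eq (hL : 0 < P.L) (hM : 0 < M) (hcut : Monotone P.cut)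
    (hE : ∀ m, P.m0 ≤ m → 4 * P.E m ^ 8 < 2 ^ m) {K : ℝ} {d t t₁ : ℕ} {f f₁ : ℚ} (hd : d ∣ M)
    (ht : P.m0 ≤ t) (ht₁ : P.m0 ≤ t₁) (hc : 1 ≤ P.cut t) (hc₁ : 1 ≤ P.cut t₁)
    (hi : Ix F P t d f) (hi₁ : Ix F P t₁ d f₁)
    (hdE : dep F P t d f ≤ P.E t ^ 4) (hdE₁ : dep F P t₁ d f₁ ≤ P.E t₁ ^ 4)
    (hK : K ≤ dep F P t d f) (hK' : dep F P t d f < 2 * K) (hK₁ : K ≤ dep F P t₁ d f₁)
    (hK₁' : dep F P t₁ d f₁ < 2 * K) :
    f = f₁ ∧ k0 F (P.cut t) d f = k0 F (P.cut t₁) d f₁ := by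
  rcases le_total t t₁ with h | h
  · exact centre_eq_aux hL hM hcut hE hd ht hc h hi hi₁ hdE hK hK₁'
  · obtain ⟨h1, h2⟩ := centre_eq_aux hL hM hcut hE hd ht₁ hc₁ h hi₁ hi hdE₁ hK₁ hK'
    exact ⟨h1.symm, h2.symm⟩

lemma one_le_cut {jB : ℕ → ℕ} {j0 : ℕ} (H : HyB M P jB j0) {t : ℕ} (ht : P.m0 ≤ t) :
    1 ≤ P.cut t := by
  have h1 := H.jBE t ht
  have h2 : (1 : ℝ) ≤ P.E t ^ 4 := one_le_pow₀ (H.E_one t)
  have h3 : (1 : ℝ) ≤ (Xj (jB t) : ℕ) := h2.trans h1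
  have h4 : 1 ≤ Xj (jB t) := by exact_mod_cast h3
  exact h4.trans (H.jB1 t ht)


/-! ### existence -/

lemma exists_dyadic {x : ℝ} (hx : 1 ≤ x) : ∃ n : ℕ, (2 : ℝ) ^ n ≤ x ∧ x < 2 * 2 ^ n := by
  obtain ⟨n, h1, h2⟩ := exists_nat_pow_near hx (by norm_num : (1 : ℝ) < 2)
  exact ⟨n, h1, by rw [pow_succ] at h2; linarith⟩

lemma exists_dyadic_nat {x : ℕ} (hx : 1 ≤ x) : ∃ n : ℕ, 2 ^ n ≤ x ∧ x < 2 * 2 ^ n := by
  refine ⟨Nat.log 2 x, Nat.pow_log_le_self 2 (by omega), ?_⟩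
  have := Nat.lt_pow_succ_log_self (by norm_num : 1 < 2) x
  rw [pow_succ] at this
  omega

lemma tw_pos (y t b c : ℕ) (f f' : ℚ) : 1 ≤ tw F P y t b c f f' := upp_pos _ _



lemma Lnk_symm {γ L : ℝ} {b c : ℕ} {h : ℤ} (hl : h ∈ Lnk γ L b c) : -h ∈ Lnk γ L c b := by
  have h1 : |(((b / Nat.gcd b c : ℕ) : ℝ) - ((c / Nat.gcd b c : ℕ) : ℝ)) * γ + h| <
      L / (Nat.gcd b c : ℕ) := mem_Hf.1 hl
  exact mem_Hf.2 (lnk_symm h1)


end Crest.Agent.R4C.LCovBx11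
end

-- ▼ part R4C/HyBOf_11

/-!
# Row 4, class (L): `HyB` for the parameters of the spine (helper11)

* `hyB_of_num`, **`hyB_of`** : `HyB M (ParOf ..) (jBA A) 1` (`jBA A t = log2 (A t)`);
* `act_par` : `p ≤ cut m → Y (blk p) ≤ cut m` for `ParOf`.
-/

set_option autoImplicit false

namespace Crest.Agent.R4C.HyBOfx11

open Crest.Agent.R4C.Spinex946 Crest.Agent.R4C.Splitx945 Crest.Agent.R4C.Rulex945
  Crest.Agent.R4C.FLDefx935 Crest.Agent.R4C.Cutx50 Crest.Agent.R4C.HyOfx281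
  Crest.Agent.R4C.LBxx500 Crest.Agent.R4C.NonPureBlkx559
open Crest.Agent.R4C.FLExx326 (ind)
open Crest.Agent.R4C.LBoxDefx662 (jBA)

section par

variable {cp : ℝ} {A m0 : ℕ} {γ L : ℝ} {M : ℕ} {B : Finset ℕ}

lemma pow_jBA_le {t : ℕ} (h : A * t ≠ 0) : 2 ^ jBA A t ≤ A * t := Nat.pow_log_le_self 2 h

lemma lt_pow_jBA (t : ℕ) : A * t < 2 ^ (jBA A t + 1) :=
  Nat.lt_pow_succ_log_self (by norm_num) _

/-- `64 E⁸ < 2^m` -/
lemma sixtyfour_E8_lt (hc : cp ≤ 1 / 200) {m : ℕ} (hm : 8 ≤ m) :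
    64 * (ParOf cp A m0 γ L M B).E m ^ 8 < 2 ^ m := by
  have hm' : (8 : ℝ) ≤ m := by exact_mod_cast hm
  rw [E_pow]
  calc 64 * (2 : ℝ) ^ (cp * m * (8 : ℕ)) = (2 : ℝ) ^ (6 : ℝ) * (2 : ℝ) ^ (cp * m * (8 : ℕ)) := by
        norm_num
    _ = (2 : ℝ) ^ (6 + cp * m * (8 : ℕ)) := by rw [Real.rpow_add (by norm_num)]
    _ < (2 : ℝ) ^ (m : ℝ) := Real.rpow_lt_rpow_of_exponent_lt (by norm_num) (by
        have h1 : cp * m ≤ 1 / 200 * m := mul_le_mul_of_nonneg_right hc (by linarith)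
        push_cast; linarith)
    _ = 2 ^ m := Real.rpow_natCast 2 m

lemma Xj_jBA_le (hA : 1 ≤ A) {t : ℕ} (ht : 1 ≤ t) : Xj (jBA A t) ≤ 2 ^ (A * t) := by
  have h0 : A * t ≠ 0 := (Nat.mul_pos (by omega) (by omega)).ne'
  unfold Xj
  exact (Nat.sub_le _ _).trans (Nat.pow_le_pow_right (by norm_num) (pow_jBA_le h0))

/-- `2^(A t / 2 - 1) ≤ Xj (jBA A t)` -/
lemma le_Xj_jBA (hA : 1 ≤ A) {t : ℕ} (ht : 2 ≤ t) :
    (2 : ℝ) ^ ((A * t : ℝ) / 2 - 1) ≤ (Xj (jBA A t) : ℕ) := by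
  have h1 : A * t < 2 * 2 ^ jBA A t := by
    have := lt_pow_jBA (A := A) t
    rw [pow_succ] at this
    omega
  have h1R : ((A : ℝ) * t) / 2 ≤ ((2 ^ jBA A t : ℕ) : ℝ) := by
    have h2 : ((A * t : ℕ) : ℝ) < ((2 * 2 ^ jBA A t : ℕ) : ℝ) := by exact_mod_cast h1
    push_cast at h2 ⊢
    linarith
  set n := 2 ^ jBA A t with hn
  have hn1 : 1 ≤ n := Nat.one_le_two_pow
  have e1 : Xj (jBA A t) = 2 ^ n - 1 := rfl
  have e2 : ((2 ^ n - 1 : ℕ) : ℝ) = (2 : ℝ) ^ n - 1 := by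
    rw [Nat.cast_sub Nat.one_le_two_pow]; push_cast; ring
  have e3 : (2 : ℝ) ^ n = 2 * (2 : ℝ) ^ ((n : ℝ) - 1) := by
    rw [Real.rpow_sub (by norm_num), Real.rpow_one, Real.rpow_natCast]; ring
  have h3 : (1 : ℝ) ≤ (2 : ℝ) ^ ((n : ℝ) - 1) := by
    refine Real.one_le_rpow (by norm_num) ?_
    have : (1 : ℝ) ≤ n := by exact_mod_cast hn1
    linarith
  rw [e1, e2, e3]
  have h4 : (2 : ℝ) ^ (((A : ℝ) * t) / 2 - 1) ≤ (2 : ℝ) ^ ((n : ℝ) - 1) :=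
    Real.rpow_le_rpow_of_exponent_le (by norm_num) (by linarith)
  linarith

lemma E4_le_Xj (hc : cp ≤ 1 / 200) (hA : 1 ≤ A) {t : ℕ} (ht : 4 ≤ t) :
    (ParOf cp A m0 γ L M B).E t ^ 4 ≤ (Xj (jBA A t) : ℕ) := by
  refine le_trans ?_ (le_Xj_jBA hA (by omega))
  rw [E_pow]
  refine Real.rpow_le_rpow_of_exponent_le (by norm_num) ?_
  have ht' : (4 : ℝ) ≤ t := by exact_mod_cast ht
  have hA' : (1 : ℝ) ≤ A := by exact_mod_cast hA
  have h1 : cp * t ≤ 1 / 200 * t := mul_le_mul_of_nonneg_right hc (by linarith)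
  have h2 : (t : ℝ) ≤ A * t := by nlinarith
  push_cast
  linarith

/-- activity of the blocks for `ParOf` -/
lemma act_par (m p : ℕ) (hp : p ≤ (ParOf cp A m0 γ L M B).cut m) :
    (ParOf cp A m0 γ L M B).Y ((ParOf cp A m0 γ L M B).blk p) ≤
      (ParOf cp A m0 γ L M B).cut m := by
  have hY : StrictMono (ParOf cp A m0 γ L M B).Y :=
    fun a b hab => Nat.pow_lt_pow_right (by norm_num) hab
  exact Par.act_of_le hY (rfl : (ParOf cp A m0 γ L M B).cut m =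
    (ParOf cp A m0 γ L M B).Y (A * m)) hp

end par

theorem hyB_of_num {cp η : ℝ} {A m0 : ℕ} (h : Num cp η A m0) {γ L : ℝ} {M : ℕ} {B : Finset ℕ}
    (hM : 0 < M) (hL : 0 < L) : HyB M (ParOf cp A m0 γ L M B) (jBA A) 1 where
  hM := hM
  hL := hL
  hN := Nat.le_ceil _
  cut_mono := fun a b hab => Nat.pow_le_pow_right (by norm_num) (Nat.mul_le_mul_left A hab)
  E_one := fun m => Real.one_le_rpow (by norm_num) (mul_nonneg h.cp_pos.le (Nat.cast_nonneg m))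
  hE := fun m hm => sixtyfour_E8_lt h.cp_le (by
    have h1 : m0 ≤ m := hm
    have := h.m0_14
    omega)
  jB0 := fun t ht => by
    have h1 : m0 ≤ t := ht
    have h2 := h.m0_14
    have h3 : 2 ≤ A * t := by
      have := Nat.mul_le_mul h.A_one (show 2 ≤ t by omega)
      omega
    exact Nat.le_log_of_pow_le (by norm_num) (by simpa using h3)
  jB1 := fun t ht => Xj_jBA_le h.A_one (by
    have h1 : m0 ≤ t := ht
    have h2 := h.m0_14
    omega)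
  jBE := fun t ht => E4_le_Xj h.cp_le h.A_one (by
    have h1 : m0 ≤ t := ht
    have h2 := h.m0_14
    omega)

/-- **`HyB` for the parameters of the spine** -/
theorem hyB_of : Ev fun cp η A m0 => ∀ (γ L : ℝ) (M : ℕ) (B : Finset ℕ) (F : FL M),
    Setup η L M B F → HyB M (ParOf cp A m0 γ L M B) (jBA A) 1 :=
  evNum.mono fun _ _ _ _ h _ _ _ _ _ S => hyB_of_num h S.hM S.hL

end Crest.Agent.R4C.HyBOfx11
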