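import Mathlib

/-!
# Row 4, BLOCK S4 (note 2774): centres = reduced fractions (helper74)

`b : ℕ` an item (`b = M / q`), `f : ℚ` a fraction close to `γ`.
* `bet b f = gcd b f.den` (β), `kk b f = f.den / β` (k), `gg b f = b / β` (g_f(b)),
  `dd γ b f = b |γ - f|` (D_f(b)), `zz b f n = b (f + n)` (z), `WW f n = P + Q n`.
* `tr s s' h f = (s f + h)/s'` : the transferred centre (`b = g s`, `b' = g s'`, `h = s n - s' n'`).
-/

set_option autoImplicit false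

namespace Crest.Agent.R4C.S4x74

/-- `β = gcd(b, den f)` -/
def bet (b : ℕ) (f : ℚ) : ℕ := Nat.gcd b f.den

/-- `k = den f / β` -/
def kk (b : ℕ) (f : ℚ) : ℕ := f.den / bet b f

/-- `g_f(b) = b / β` -/
def gg (b : ℕ) (f : ℚ) : ℕ := b / bet b f

/-- displacement `D_f(b) = b |γ - f|` -/
noncomputable def dd (γ : ℝ) (b : ℕ) (f : ℚ) : ℝ := b * |γ - (f : ℝ)|

/-- the point `z = b (f + n)` -/
def zz (b : ℕ) (f : ℚ) (n : ℤ) : ℚ := b * (f + n)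

/-- `W = P + Q n` -/
def WW (f : ℚ) (n : ℤ) : ℤ := f.num + f.den * n

/-- transferred centre -/
def tr (s s' : ℕ) (h : ℤ) (f : ℚ) : ℚ := (s * f + h) / s'


lemma bet_pos (b : ℕ) (f : ℚ) : 0 < bet b f := Nat.gcd_pos_of_pos_right _ f.den_pos

lemma bet_dvd (b : ℕ) (f : ℚ) : bet b f ∣ b := Nat.gcd_dvd_left _ _

lemma bet_dvd_den (b : ℕ) (f : ℚ) : bet b f ∣ f.den := Nat.gcd_dvd_right _ _

lemma kk_mul_bet (b : ℕ) (f : ℚ) : kk b f * bet b f = f.den :=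
  Nat.div_mul_cancel (bet_dvd_den b f)

lemma gg_mul_bet (b : ℕ) (f : ℚ) : gg b f * bet b f = b :=
  Nat.div_mul_cancel (bet_dvd b f)

lemma kk_pos (b : ℕ) (f : ℚ) : 0 < kk b f :=
  Nat.div_pos (Nat.le_of_dvd f.den_pos (bet_dvd_den b f)) (bet_pos b f)

lemma gg_pos {b : ℕ} (hb : 0 < b) (f : ℚ) : 0 < gg b f :=
  Nat.div_pos (Nat.le_of_dvd hb (bet_dvd b f)) (bet_pos b f)




lemma dd_nonneg (γ : ℝ) (b : ℕ) (f : ℚ) : 0 ≤ dd γ b f := by unfold dd; positivity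




lemma zz_eq (b : ℕ) (f : ℚ) (n : ℤ) :
    zz b f n = (((gg b f : ℤ) * WW f n : ℤ) : ℚ) / ((kk b f : ℤ) : ℚ) := by
  have hk : ((kk b f : ℕ) : ℚ) ≠ 0 := by exact_mod_cast (kk_pos b f).ne'
  have hB : ((bet b f : ℕ) : ℚ) ≠ 0 := by exact_mod_cast (bet_pos b f).ne'
  have hd : (f.den : ℚ) ≠ 0 := by exact_mod_cast f.den_pos.ne'
  have h1 : (f.den : ℚ) = kk b f * bet b f := by exact_mod_cast (kk_mul_bet b f).symm
  have h2 : (b : ℚ) = gg b f * bet b f := by exact_mod_cast (gg_mul_bet b f).symm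
  have h3 : f * f.den = f.num := Rat.mul_den_eq_num f
  have h4 : f + n = (WW f n : ℚ) / f.den := by
    unfold WW
    push_cast
    rw [eq_div_iff hd, add_mul, h3]
    ring
  unfold zz
  rw [h4, h1, h2]
  push_cast
  field_simp






/-! ### points of different centres -/

lemma diff_dvd (b b' : ℕ) (f f' : ℚ) (n n' : ℤ) :
    ∃ m : ℤ, (zz b f n - zz b' f' n') * ((kk b f : ℚ) * kk b' f') =
      (Nat.gcd (gg b f) (gg b' f') : ℕ) * (m : ℚ) := by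
  obtain ⟨c, hc⟩ := Nat.gcd_dvd_left (gg b f) (gg b' f')
  obtain ⟨c', hc'⟩ := Nat.gcd_dvd_right (gg b f) (gg b' f')
  refine ⟨c * WW f n * kk b' f' - c' * WW f' n' * kk b f, ?_⟩
  have hk : ((kk b f : ℕ) : ℚ) ≠ 0 := by exact_mod_cast (kk_pos b f).ne'
  have hk' : ((kk b' f' : ℕ) : ℚ) ≠ 0 := by exact_mod_cast (kk_pos b' f').ne'
  have e1 : ((gg b f : ℕ) : ℚ) = (Nat.gcd (gg b f) (gg b' f') : ℕ) * c := by exact_mod_cast hc
  have e2 : ((gg b' f' : ℕ) : ℚ) = (Nat.gcd (gg b f) (gg b' f') : ℕ) * c' := by exact_mod_cast hc'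
  rw [zz_eq, zz_eq]
  push_cast
  have e3 : ((gg b f : ℕ) : ℚ) * WW f n / kk b f - (gg b' f' : ℕ) * WW f' n' / kk b' f' =
      ((gg b f : ℕ) * WW f n * kk b' f' - (gg b' f' : ℕ) * WW f' n' * kk b f) /
        (kk b f * kk b' f') := by
    field_simp
  rw [e3, div_mul_cancel₀ _ (mul_ne_zero hk hk'), e1, e2]
  simp only [← e1, ← e2]
  ring_nf
  rw [e1, e2]
  ring

/-- two points closer than `gcd / (k k')` are equal -/
lemma zz_eq_of_close {b b' : ℕ} {f f' : ℚ} {n n' : ℤ}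
    (hc : ((kk b f : ℝ) * kk b' f') * |((zz b f n : ℚ) : ℝ) - ((zz b' f' n' : ℚ) : ℝ)| <
      (Nat.gcd (gg b f) (gg b' f') : ℕ)) : zz b f n = zz b' f' n' := by
  obtain ⟨m, hm⟩ := diff_dvd b b' f f' n n'
  have hm' : (((zz b f n : ℚ) : ℝ) - ((zz b' f' n' : ℚ) : ℝ)) * ((kk b f : ℝ) * kk b' f') =
      (Nat.gcd (gg b f) (gg b' f') : ℕ) * (m : ℝ) := by exact_mod_cast hm
  have hk : (0 : ℝ) < kk b f := by exact_mod_cast kk_pos b f
  have hk' : (0 : ℝ) < kk b' f' := by exact_mod_cast kk_pos b' f'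
  have h1 : ((kk b f : ℝ) * kk b' f') * |((zz b f n : ℚ) : ℝ) - ((zz b' f' n' : ℚ) : ℝ)| =
      (Nat.gcd (gg b f) (gg b' f') : ℕ) * |(m : ℝ)| := by
    rw [← abs_of_pos (mul_pos hk hk'), ← abs_mul, mul_comm, hm', abs_mul, Nat.abs_cast]
  rw [h1] at hc
  have hG : (0 : ℝ) < (Nat.gcd (gg b f) (gg b' f') : ℕ) := by
    by_contra h0
    have h0' : ((Nat.gcd (gg b f) (gg b' f') : ℕ) : ℝ) = 0 :=
      le_antisymm (not_lt.1 h0) (by positivity)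
    rw [h0'] at hc
    simp at hc
  have h2 : |(m : ℝ)| < 1 := by
    by_contra h3
    have := mul_le_mul_of_nonneg_left (not_lt.1 h3) hG.le
    linarith
  have h4 : m = 0 := by
    have : |m| < 1 := by exact_mod_cast h2
    exact Int.abs_lt_one_iff.1 this
  rw [h4] at hm
  simp only [Int.cast_zero, mul_zero, mul_eq_zero] at hm
  have hkq : ((kk b f : ℕ) : ℚ) ≠ 0 := by exact_mod_cast (kk_pos b f).ne'
  have hkq' : ((kk b' f' : ℕ) : ℚ) ≠ 0 := by exact_mod_cast (kk_pos b' f').ne'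
  rcases hm with h5 | h5 | h5
  · exact sub_eq_zero.1 h5
  · exact absurd h5 hkq
  · exact absurd h5 hkq'

lemma abs_hit_sub_zz (γ : ℝ) (b : ℕ) (f : ℚ) (n : ℤ) :
    |(b : ℝ) * (γ + n) - ((zz b f n : ℚ) : ℝ)| = dd γ b f := by
  unfold zz dd
  push_cast
  rw [← mul_sub, abs_mul, Nat.abs_cast]
  congr 2
  ring

/-- S4 (5), uniqueness: two different centres of one item -/
theorem uniq_le {γ : ℝ} {b : ℕ} (hb : 0 < b) {f₁ f₂ : ℚ} (hne : f₁ ≠ f₂) :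
    ((Nat.gcd (gg b f₁) (gg b f₂) : ℕ) : ℝ) ≤
      (kk b f₁ : ℝ) * kk b f₂ * (dd γ b f₁ + dd γ b f₂) := by
  by_contra hc
  rw [not_le] at hc
  have hb0 : (b : ℚ) ≠ 0 := by exact_mod_cast hb.ne'
  have hk : (0 : ℝ) < kk b f₁ := by exact_mod_cast kk_pos b f₁
  have hk' : (0 : ℝ) < kk b f₂ := by exact_mod_cast kk_pos b f₂
  have h1 : zz b f₁ 0 = zz b f₂ 0 := by
    refine zz_eq_of_close (lt_of_le_of_lt ?_ hc)
    refine mul_le_mul_of_nonneg_left ?_ (mul_pos hk hk').le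
    have e1 := abs_hit_sub_zz γ b f₁ 0
    have e2 := abs_hit_sub_zz γ b f₂ 0
    have e3 : ((zz b f₁ 0 : ℚ) : ℝ) - ((zz b f₂ 0 : ℚ) : ℝ) =
        ((b : ℝ) * (γ + (0 : ℤ)) - ((zz b f₂ 0 : ℚ) : ℝ)) -
          ((b : ℝ) * (γ + (0 : ℤ)) - ((zz b f₁ 0 : ℚ) : ℝ)) := by ring
    rw [e3]
    have := abs_sub ((b : ℝ) * (γ + (0 : ℤ)) - ((zz b f₂ 0 : ℚ) : ℝ))
      ((b : ℝ) * (γ + (0 : ℤ)) - ((zz b f₁ 0 : ℚ) : ℝ))
    rw [e1, e2] at this
    linarith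
  apply hne
  unfold zz at h1
  have h2 := mul_left_cancel₀ hb0 h1
  simpa using h2







end Crest.Agent.R4C.S4x74
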