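import Crest.Agent.Lib.Mertens
import Crest.Agent.R4C.S4def_74
import Crest.Agent.R4C.NearTot_360
import Crest.Agent.R4C.PureB1_232
import Crest.Agent.R4C.SpineKit_946
import Crest.Agent.R4C.ClsBad_250

-- ▼ part R4C/S4c_682
section

/-!
# Row 4, BLOCK S4 v1 (note 2774), item (8): sparsity of the `β`'s, and Mertens upper bounds
(helper682)

A centre of `b` is a reduced fraction `f`; `β = gcd(b, den f)`, `den f = k β`, `g = b/β`,
`t_f(b) = g/L`, displacement `b |γ - f|`.

* `Cen γ L t D k β` : `β` occurs for some `(b,f)` with `den = k`, scale `≥ t`, displacement `≤ D L`.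
* `seven`, `sparse_a` : two different `β`'s: the larger one is `≥ t/(2kD)`.
* `sparse_b` : at most `1 + 8kDX/t` of them in `[X, 2X)`.
* `sum_inv_beta_le`, `sparse_c` : `∑ 1/β ≤ (12kD/t)(1+log N)`,
  `∑ 1/s ≤ (12kD/t)(1+log N)^2` over the `s ≤ N` divisible by some non exceptional `β`.
* `prod_inv_le`, `sum_inv_le` : Mertens upper bounds.
-/

set_option autoImplicit false

namespace Crest.Agent.R4C.S4cx682

open Finset

/-- `β` occurs as `gcd(b, den f)` for a centre `f` of some `b`, with `den f = k β`,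
scale `b/(β L) ≥ t` and displacement `b |γ - f| ≤ D L` -/
def Cen (γ L t D : ℝ) (k β : ℕ) : Prop := ∃ (b : ℕ) (f : ℚ), 0 < b ∧ Nat.gcd b f.den = β ∧
  f.den = k * β ∧ t * L * β ≤ b ∧ b * |γ - f| ≤ D * L










lemma Cen.pos {γ L t D : ℝ} {k β : ℕ} (h : Cen γ L t D k β) : 0 < β := by
  obtain ⟨b, f, hb, hβ, -⟩ := h
  exact hβ ▸ Nat.gcd_pos_of_pos_left _ hb







/-! ### Mertens upper bounds -/

/-- constant of `prod_inv_le` -/
noncomputable def CM : ℝ := 2 * (Real.exp (22 / Real.log 2) / Real.log 2)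








end Crest.Agent.R4C.S4cx682
end

-- ▼ part R4C/TopKy_971
section

/-!
# Row 4, top: bookkeeping of the factor `B1` of the differing primes (helper971)

`cof b c = (b/g)(c/g)`, `iy y n = ∑_{p ∣ n, p > y} 1/p` (Ky_952), `B1` (PureB1_232).

* `ky_total` : ALL pairs `b ≠ c` of `B`, all scales, with a weight `W b c ≤ exp (y b c)` (boost of
  the aligned primes; `y b c` also dominates `|log (g/L)|`), times `B1`, restricted to the event
  `1 ≤ iy (y b c) (cof b c)` : total `≤ C (L ν B)`.
* `B1_off`, `B1_off_log`, `B1_off_gap` : off the event `B1` is bounded by the primes `≤ y`.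
-/

set_option autoImplicit false

open Finset

namespace Crest.Agent.R4C.Topx971

open Crest.Agent.R4C.Basex935 Crest.Agent.R4C.Kyx952 Crest.Agent.R4C.NearTotx360

/-- `B1` -/
noncomputable abbrev B1 (b c : ℕ) : ℝ := Crest.Agent.R4C.PureL2x232.B1 b c















/-! ### the total of the event -/






end Crest.Agent.R4C.Topx971
end

-- ▼ part R4C/KyCls_971

/-!
# Row 4: the class of the `K_y` event, and scalar boosts off it (helper971)

* `LevT F P t b c h` : the hypotheses common to all pairs of level `t` (classes `CHvy`, `CTw`,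
  `CNP`, `CLow`, and the far classes of own scale `t`); `LevT.of_BP`, `LevT.of_LP`, `LevT.of_FarA`.
* `CKyP F P b c h` : some level `t` with `1 ≤ iy t (cof b c)`.
* **`clsKy_ok`** : `ClsOK γ clsKy`.
* **`ClsOK_off`** : `ClsOK γ (R ∧ ¬ clsKy) → ClsOK γ R`.
* `B1_off_ky`, `boost_off_bst`, `boost_off` : off the class, `B1 ≤ e² CM (1 + log t)` and
  `boostB ≤ KB A * (t (1 + log t))`; `oS_off` : the sum over the offsets.
-/

set_option autoImplicit false

open Finset

namespace Crest.Agent.R4C.KyClsx971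

open Crest.Agent.R4C.Basex935 Crest.Agent.R4C.FLDefx935 Crest.Agent.R4C.BoostCx972
  Crest.Agent.R4C.CrCoinx935 Crest.Agent.R4C.CrCountx935 Crest.Agent.R4C.Bridgex882
  Crest.Agent.R4C.Rulex945 Crest.Agent.R4C.Sharedx11
  Crest.Agent.R4C.Splitx945 Crest.Agent.R4C.BoostAlx100 Crest.Agent.R4C.ClsBadx250
  Crest.Agent.R4C.Spinex946 Crest.Agent.R4C.FLShx326 Crest.Agent.R4C.Kyx952
  Crest.Agent.R4C.Topx971

section defs

variable {M : ℕ} (F : FL M) (P : Par)

/-- the hypotheses common to all pairs of level `t` -/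
structure LevT (t b c : ℕ) (h : ℤ) : Prop where
  m0 : P.m0 ≤ t
  good : F.good (P.cut t) b c
  al : AlLe F P b c h (P.cut (2 * t))
  scl : (Nat.gcd b c : ℝ) < 2 ^ (t + 1) * P.L
  near : X1 P b c < P.cut t

/-- the event `K_y` at a level of the pair -/
def CKyP (b c : ℕ) (h : ℤ) : Prop := ∃ t, LevT F P t b c h ∧ 1 ≤ iy (t : ℝ) (cof b c)

end defs


section lev

variable {M : ℕ} {F : FL M} {P : Par} {t b c : ℕ} {h : ℤ}




end lev

/-! ### numbers -/





section main

variable {M : ℕ} {F : FL M} {cp γ L : ℝ} {A m0 : ℕ} {B : Finset ℕ}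









end main



/-! ### off the class -/

section off

variable {M : ℕ} {F : FL M} {cp γ L : ℝ} {A m0 : ℕ} {B : Finset ℕ}









end off

end Crest.Agent.R4C.KyClsx971
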