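import Crest.Agent.R4C.LBoxDef_662
import Crest.Agent.R4C.SpineKit_946
import Crest.Agent.R4C.HyBOf_11

-- ▼ part R4C/LBoxSet_662
section

/-!
# Row 4: CLASS (L) TOTAL, one box (helper662)

Over the arrows of `LBoxDef_662`.

* `box_sets` : one box, arbitrary subsets of `B`: set bound of the boosted offset sum divided
  by `offW b * offW c`, from the arrows A, B, C, D, U of `LBoxDef_662` and `LClass_662.boxTw`.
-/

set_option autoImplicit false

open Finset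

namespace Crest.Agent.R4C.LBoxSetx662

open Crest.Agent.R4C.Basex935 Crest.Agent.R4C.Cutx50 Crest.Agent.R4C.FLDefx935
  Crest.Agent.R4C.Rulex945 Crest.Agent.R4C.Splitx945 Crest.Agent.R4C.Bridgex882
  Crest.Agent.R4C.S7dx14 Crest.Agent.R4C.BoostCx972 Crest.Agent.R4C.PureL2x232
  Crest.Agent.R4C.Keptx559 Crest.Agent.R4C.LClassx662 Crest.Agent.R4C.LowLx899
  Crest.Agent.R4C.NonPureBlkx559 Crest.Agent.R4C.LBoxDefx662 Crest.Agent.R4C.Spinex946

open Crest.Agent.R4C.LBxx500 (tw)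
open Crest.Agent.R4C.FLExx326 (ind)

section box

variable {M : ℕ} (F : FL M) (P : Par) (w : ℕ → ℝ) (δ : ℝ) (jB : ℕ → ℕ)
  (Hv : ℕ → ℕ → ℤ → Prop) (x : Bx)

/-- the offsets of a box -/
def RB (b c : ℕ) (h : ℤ) : Prop :=
  ¬ Hv b c h ∧ ∃ (t : ℕ) (f f' : ℚ) (p : ℕ), LB F P w δ jB x t b c h f f' p

/-- boosted offset sum of a box, without `offW` -/
noncomputable def Ph (b c : ℕ) : ℝ :=
  oS P.γ P.L M (lamR F P) (RB F P w δ jB Hv x) b c /
    (B1Levx52.offW F 1 b * B1Levx52.offW F 1 c)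

variable {F P w δ jB Hv x}

lemma offW_pos (b : ℕ) : 0 < B1Levx52.offW F 1 b :=
  lt_of_lt_of_le one_pos (B1Levx52.one_le_offW 1 b)

lemma Ph_nonneg (b c : ℕ) : 0 ≤ Ph F P w δ jB Hv x b c :=
  div_nonneg (oS_nonneg _ _ _) (mul_nonneg (offW_pos _).le (offW_pos _).le)

lemma oS_eq (b c : ℕ) : oS P.γ P.L M (lamR F P) (RB F P w δ jB Hv x) b c =
    Ph F P w δ jB Hv x b c * (B1Levx52.offW F 1 b * B1Levx52.offW F 1 c) := by
  unfold Ph
  have h1 := offW_pos (F := F) b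
  have h2 := offW_pos (F := F) c
  field_simp

end box

lemma mass_mono' {M : ℕ} {f g : ℕ → ℝ} (h : ∀ b, f b ≤ g b) (y z : ℕ) :
    mass M f y z ≤ mass M g y z := by
  unfold mass
  exact Ex_mono _ fun b _ => h _

/-- constant of one box, without the tree constants -/
noncomputable def bxc (κ ε s Bc : ℝ) (x : Bx) (Nw : ℝ) : ℝ :=
  (((x.v : ℝ) + 1) ^ 2 * ((x.mx : ℝ) + 1) ^ 4 * Nw) * (x.N : ℝ) ^ ε /
    √(((2 ^ x.j : ℕ) : ℝ) * ((2 ^ x.j' : ℕ) : ℝ)) * (((2 : ℝ) ^ (x.n + 1)) ^ 20) ^ (κ / (1 + κ)) *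
    Real.log (max 8 (2 ^ x.v) : ℕ) ^ Bc * tauB x ^ s

open Classical in
/-- **one box, sets** -/
theorem box_sets (A : ℕ) {κ r θ ε : ℝ} (hκ : 0 < κ) (hκ1 : κ < 1) (hr : 2 / (1 - κ) < r)
    (hθ : 0 < θ) (hθ1 : θ < 1) (hε : 0 < ε) : ∃ Bc C : ℝ, 0 ≤ Bc ∧ 1 ≤ C ∧
    ∀ (cp : ℝ) (m0 : ℕ) (γ L : ℝ) (M : ℕ) (hM : 0 < M) (B : Finset ℕ) (F : FL M)
      (Hv : ℕ → ℕ → ℤ → Prop) (Nw : Bx → ℝ) (CB CD : ℝ), B ⊆ M.divisors → 0 ≤ CB → 0 ≤ CD →
    ArrA F (ParOf cp A m0 γ L M B) hM (ind B) (1 / (4 * A)) (jBA A) 1 →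
    ArrB F (ParOf cp A m0 γ L M B) (ind B) (1 / (4 * A)) (jBA A) CB →
    ArrC F (ParOf cp A m0 γ L M B) hM (ind B) (1 / (4 * A)) (jBA A) 1 Hv Nw →
    ArrD F (ParOf cp A m0 γ L M B) (ind B) (1 / (4 * A)) (jBA A) 1 CD →
    ArrU F (ParOf cp A m0 γ L M B) (ind B) (1 / (4 * A)) (jBA A) →
    ∀ x : Bx, x.j ≤ x.mx → x.j' ≤ x.mx → 1 ≤ Nw x → ∀ S S' : Finset ℕ, S ⊆ B → S' ⊆ B →
    ∑ b ∈ S, ∑ c ∈ S', (Nat.gcd b c : ℝ) * nu M b * nu M c *
      Ph F (ParOf cp A m0 γ L M B) (ind B) (1 / (4 * A)) (jBA A) Hv x b c ≤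
    C * CD * CB ^ ((1 - θ) ^ 2 / (r * (1 + κ))) *
      bxc κ ε ((1 - θ) ^ 2 / (r * (1 + κ))) Bc x (Nw x) *
      √((∑ b ∈ S, nu M b) * ∑ c ∈ S', nu M c) := by
  obtain ⟨Bc, C, hBc, hC, hbox⟩ := boxTw hκ hκ1 hr hθ hθ1 hε 3
  obtain ⟨CW, hCW, hWH⟩ := HighWx899.wbd_WH_pow A
  set s : ℝ := (1 - θ) ^ 2 / (r * (1 + κ)) with hs
  set C4 : ℝ := 4 * Real.exp (22 / Real.log 2) with hC4
  have hC40 : 0 < C4 := by positivity
  refine ⟨Bc, max 1 (C * (C4 * CW)), hBc, le_max_left _ _, ?_⟩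
  intro cp m0 γ L M hM B F Hv Nw CB CD hB hCB hCD hA hBB hCC hD hU x hj hj' hNw S S' hS hS'
  set P := ParOf cp A m0 γ L M B with hP
  set δ : ℝ := 1 / (4 * A) with hδ
  set jB := jBA A with hjB
  set y := P.Y x.v with hy
  have hy2 : y = 2 ^ x.v := rfl
  choose TT XH TT' XH' hTT hXH hTT' hXH' hPW using fun a a' i => hCC x a a' i
  have hSM : S ⊆ M.divisors := hS.trans hB
  have hSM' : S' ⊆ M.divisors := hS'.trans hB
  set D : ℝ := CD * ((x.v : ℝ) + 1) ^ 2 * ((x.mx : ℝ) + 1) ^ 4 with hDdef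
  have hD0 : 0 ≤ D := by positivity
  -- the kernels
  set G : ℕ → ℕ → Prop := fun b c => ∃ (h : ℤ) (t : ℕ) (f f' : ℚ) (p : ℕ),
    h ∈ Lnk P.γ P.L b c ∧ ¬ killedB (lamR F P) b c h ∧ ¬ Hv b c h ∧
      LB F P (ind B) δ jB x t b c h f f' p with hG
  set φ : ℕ → ℕ → ℝ := fun b c => if b ∈ S ∧ c ∈ S' ∧ b ∣ M ∧ c ∣ M ∧ G b c then 1 else 0 with hφ
  set Φ : ℕ → ℕ → ℝ := fun b c => if b ∈ S ∧ c ∈ S' ∧ b ∣ M ∧ c ∣ M then
    Ph F P (ind B) δ jB Hv x b c else 0 with hΦ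
  have hφ0 : ∀ b c, 0 ≤ φ b c := fun b c => by simp only [hφ]; split_ifs <;> norm_num
  have hΦ0 : ∀ b c, 0 ≤ Φ b c := fun b c => by
    simp only [hΦ]
    split_ifs
    · exact Ph_nonneg _ _
    · exact le_rfl
  -- Ph vanishes without G
  have hzero : ∀ b c, ¬ G b c → Ph F P (ind B) δ jB Hv x b c = 0 := by
    intro b c hn
    unfold Ph
    have h1 : oS P.γ P.L M (lamR F P) (RB F P (ind B) δ jB Hv x) b c = 0 := by
      unfold oS
      refine Finset.sum_eq_zero fun h hh => ?_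
      rw [Finset.mem_filter] at hh
      obtain ⟨h1, h2, h3, t, f, f', p, h4⟩ := hh
      exact absurd ⟨h, t, f, f', p, h1, h2, h3, h4⟩ hn
    rw [h1, zero_div]
  -- one offset
  have hone : ∀ b c, b ∣ M → c ∣ M → ∀ (h : ℤ) (t : ℕ) (f f' : ℚ) (p : ℕ),
      h ∈ Lnk P.γ P.L b c → ¬ killedB (lamR F P) b c h → ¬ Hv b c h →
      LB F P (ind B) δ jB x t b c h f f' p →
      oS P.γ P.L M (lamR F P) (RB F P (ind B) δ jB Hv x) b c = boostB M (lamR F P) b c h := by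
    intro b c hb hc h t f f' p h1 h2 h3 h4
    unfold oS
    have e : (Lnk P.γ P.L b c).filter (fun h => ¬ killedB (lamR F P) b c h ∧
        RB F P (ind B) δ jB Hv x b c h) = {h} := by
      ext h'
      rw [Finset.mem_filter, Finset.mem_singleton]
      constructor
      · rintro ⟨_, _, _, t', g, g', p', h5⟩
        exact (hU x b c t' t h' h g g' f f' p' p hb hc h5 h4).2.2
      · rintro rfl
        exact ⟨h1, h2, h3, t, f, f', p, h4⟩
    rw [e, Finset.sum_singleton]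
  have hcut : P.cut = fun m => 2 ^ (A * m) := rfl
  have hmono : Monotone P.cut := by
    rw [hcut]
    intro a b hab
    exact Nat.pow_le_pow_right (by norm_num) (Nat.mul_le_mul_left _ hab)
  have hup : 0 < upp y M := upp_pos _ _
  have hN1 : 1 ≤ x.N := Nat.one_le_two_pow
  set W0 : ℕ → ℕ → ℕ → ℕ → ℕ → ℝ := fun a a' i z z' => (D * C4) *
    HighWx899.WH (hiFL hM y F) 1 P.cut (TT a a' i) (XH a a' i) (TT' a a' i) (XH' a a' i) z z'
    with hW0
  have hres := hbox M F P.γ P.L ((x.N : ℝ) ^ 3) x.N P.cut (LDecx500.lb P) (range (P.N + 1))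
    (fun a _ i => 2 ^ (i + a + 1) * (x.N : ℝ)) (fun _ a' i => 2 ^ (i + a' + 1) * (x.N : ℝ))
    (2 ^ x.j) (2 ^ x.j') y (((2 : ℝ) ^ (x.n + 1)) ^ 20) (D * C4 * (CW * Nw x)) (CB * tauB x)
    W0 Φ φ (ind S) (ind S') (fun a a' i z z' => SamePtx217.KQ (QL F P (ind B) δ jB x a a' i z z'))
    hM (by positivity) (by positivity) (by positivity) (le_of_eq (by norm_num)) hN1 hmono
    Nat.one_le_two_pow Nat.one_le_two_pow
    (Nat.pow_le_pow_right (by norm_num) (by omega)) (Nat.pow_le_pow_right (by norm_num) (by omega))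
    { Wn := fun a a' i z z' => mul_nonneg (by positivity) (HighWx899.WH_nonneg _ _ _ _ _ _ _ _ _)
      WE := fun a a' i => setW_iff.2 ((hWH (upp y M) (hiFL hM y F) hup 1 le_rfl (TT a a' i)
        (XH a a' i) (TT' a a' i) (XH' a a' i) (Nw x) hNw (hTT a a' i) (hXH a a' i) (hTT' a a' i)
        (hXH' a a' i)).smul (by positivity))
      Φ0 := hΦ0
      φ0 := hφ0
      f0 := fun b => Crest.Agent.R4C.FLExx326.ind_nonneg S b
      f1 := fun b => by unfold ind; split_ifs <;> norm_num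
      g0 := fun b => Crest.Agent.R4C.FLExx326.ind_nonneg S' b
      g1 := fun b => by unfold ind; split_ifs <;> norm_num
      K0 := fun a a' i z z' s t => SamePtx217.KQ_nonneg _ _ _
      K1 := fun a a' i z z' s t => SamePtx217.KQ_le_one _ _ _
      dens := fun a a' i z z' hz hz' => hBB x a a' i z z' hz hz'
      fac := ?_
      rel := ?_
      light := ?_ }
  · -- the conclusion
    have e1 : ∑ b ∈ S, ∑ c ∈ S', (Nat.gcd b c : ℝ) * nu M b * nu M c *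
        Ph F P (ind B) δ jB Hv x b c = frm M Φ := by
      unfold frm
      rw [← Finset.sum_subset hSM]
      · refine Finset.sum_congr rfl fun b hb => ?_
        rw [← Finset.sum_subset hSM']
        · refine Finset.sum_congr rfl fun c hc => ?_
          simp only [hΦ]
          rw [if_pos ⟨hb, hc, Nat.dvd_of_mem_divisors (hSM hb),
            Nat.dvd_of_mem_divisors (hSM' hc)⟩]
        · intro c _ hc
          simp only [hΦ]
          rw [if_neg (fun h => hc h.2.1), mul_zero]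
      · intro b _ hb
        refine Finset.sum_eq_zero fun c _ => ?_
        simp only [hΦ]
        rw [if_neg (fun h => hb h.1), mul_zero]
    have e2 : ∀ T : Finset ℕ, T ⊆ M.divisors →
        ∑ b ∈ M.divisors, nu M b * ind T b = ∑ b ∈ T, nu M b := by
      intro T hT
      unfold ind
      simp only [mul_ite, mul_one, mul_zero]
      rw [← Finset.sum_filter]
      congr 1
      ext b
      rw [Finset.mem_filter]
      exact ⟨fun h => h.2, fun h => ⟨hT h, h⟩⟩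
    rw [e2 S hSM, e2 S' hSM'] at hres
    rw [e1]
    refine hres.trans ?_
    have ht0 : 0 ≤ tauB x := by
      unfold tauB
      refine le_min zero_le_one ?_
      positivity
    have h3 : (CB * tauB x) ^ s = CB ^ s * tauB x ^ s := Real.mul_rpow hCB ht0
    rw [h3]
    have hlog : 0 ≤ Real.log (max 8 (2 ^ x.v) : ℕ) := Real.log_natCast_nonneg _
    have hb0 : 0 ≤ bxc κ ε s Bc x (Nw x) := by
      unfold bxc
      have : 0 ≤ Nw x := by linarith
      positivity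
    calc _ = (C * (C4 * CW)) * (CD * CB ^ s * bxc κ ε s Bc x (Nw x) *
          √((∑ b ∈ S, nu M b) * ∑ c ∈ S', nu M c)) := by
          unfold bxc
          rw [hDdef, hy2]
          push_cast
          ring
      _ ≤ max 1 (C * (C4 * CW)) * (CD * CB ^ s * bxc κ ε s Bc x (Nw x) *
          √((∑ b ∈ S, nu M b) * ∑ c ∈ S', nu M c)) :=
          mul_le_mul_of_nonneg_right (le_max_right _ _) (by positivity)
      _ = _ := by ring
  · -- fac
    intro b c hb hc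
    by_cases hGG : b ∈ S ∧ c ∈ S' ∧ b ∣ M ∧ c ∣ M ∧ G b c
    · right
      obtain ⟨hbS, hcS, _, _, h, t, f, f', p, h1, h2, h3, h4⟩ := hGG
      obtain ⟨z0, z0', e1, e2, m1, m2, hg, heq, hkz⟩ := hA x t b c h f f' p hb hc h1 h4
      refine ⟨_, _, z0, z0', e1, e2, ?_, ?_, hg, ?_⟩
      · exact m1
      · exact m2
      · have hφ1 : φ b c = 1 := by
          simp only [hφ]
          rw [if_pos ⟨hbS, hcS, hb, hc, h, t, f, f', p, h1, h2, h3, h4⟩]
        have hΦ1 : Φ b c = Ph F P (ind B) δ jB Hv x b c := by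
          simp only [hΦ]
          rw [if_pos ⟨hbS, hcS, hb, hc⟩]
        rw [hφ1, hΦ1, one_mul]
        have hz : z0 ∣ upp y M := (Dvd.intro_left _ rfl : z0 ∣ tw F P y t b c f f' * z0).trans
          (by rw [← e1]; exact upp_dvd y hM.ne' hb)
        have hz' : z0' ∣ upp y M := (Dvd.intro_left _ rfl : z0' ∣ tw F P y t c b f' f * z0').trans
          (by rw [← e2]; exact upp_dvd y hM.ne' hc)
        have hpw := hPW (ca y b c) (ca' y b c) (ci y b c) t b c h f f' p hb hc h1 h2 h3 h4 rfl rfl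
          rfl z0 z0' e1 e2 heq hkz
        have h5 := HighWx899.bst_le_WH hup le_rfl hz hz' hpw
        have h6 := hD x t b c h f f' p hb hc h1 h4 z0 z0' e1 e2 heq
        unfold Ph
        rw [hone b c hb hc h t f f' p h1 h2 h3 h4]
        have o1 := offW_pos (F := F) b
        have o2 := offW_pos (F := F) c
        rw [div_le_iff₀ (mul_pos o1 o2)]
        refine h6.trans ?_
        have h7 : D * (B1Levx52.offW F 1 b * B1Levx52.offW F 1 c) *
            HighWx899.bst (Qt (M := M) P y t z0 z0') ≤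
            D * (B1Levx52.offW F 1 b * B1Levx52.offW F 1 c) * (C4 *
              HighWx899.WH (hiFL hM y F) 1 P.cut (TT (ca y b c) (ca' y b c) (ci y b c))
                (XH (ca y b c) (ca' y b c) (ci y b c)) (TT' (ca y b c) (ca' y b c) (ci y b c))
                (XH' (ca y b c) (ca' y b c) (ci y b c)) z0 z0') :=
          mul_le_mul_of_nonneg_left h5 (by positivity)
        refine h7.trans (le_of_eq ?_)
        simp only [hW0]
        unfold ca ca' ci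
        ring
    · left
      by_cases hb' : b ∈ S ∧ c ∈ S'
      · have hn : ¬ G b c := fun hg => hGG ⟨hb'.1, hb'.2, hb, hc, hg⟩
        simp only [hΦ]
        rw [hzero b c hn]
        simp
      · simp only [hΦ]
        rw [if_neg (fun h => hb' ⟨h.1, h.2.1⟩)]
  · -- rel
    intro b c hb hc
    by_cases hGG : b ∈ S ∧ c ∈ S' ∧ b ∣ M ∧ c ∣ M ∧ G b c
    · obtain ⟨hbS, hcS, _, _, h, t, f, f', p, h1, h2, h3, h4⟩ := hGG
      have hφ1 : φ b c = 1 := by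
        simp only [hφ]
        rw [if_pos ⟨hbS, hcS, hb, hc, h, t, f, f', p, h1, h2, h3, h4⟩]
      have i1 : ind S b = 1 := by unfold ind; rw [if_pos hbS]
      have i2 : ind S' c = 1 := by unfold ind; rw [if_pos hcS]
      rw [hφ1, i1, i2, one_mul, one_mul]
      unfold SamePtx217.KQ
      rw [if_pos]
      exact ⟨b, c, h, t, f, f', p, hb, hc, h1, h4, rfl, rfl, rfl, rfl, rfl, rfl, rfl⟩
    · have hφ1 : φ b c = 0 := by
        simp only [hφ]
        rw [if_neg hGG]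
      rw [hφ1]
      exact mul_nonneg (mul_nonneg (Crest.Agent.R4C.FLExx326.ind_nonneg S b)
        (Crest.Agent.R4C.FLExx326.ind_nonneg S' c)) (SamePtx217.KQ_nonneg _ _ _)
  · -- light
    intro b c hb hc h0
    have hGG : b ∈ S ∧ c ∈ S' ∧ b ∣ M ∧ c ∣ M ∧ G b c := by
      by_contra hn
      apply h0
      simp only [hφ]
      rw [if_neg hn]
    obtain ⟨hbS, hcS, _, _, h, t, f, f', p, h1, h2, h3, h4⟩ := hGG
    refine le_trans (mul_le_mul_of_nonneg_left ?_ (Nat.cast_nonneg _)) h4.light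
    refine mass_mono' (fun n => ?_) _ _
    unfold ind
    by_cases hn : n ∈ S
    · rw [if_pos hn, if_pos (hS hn)]
    · rw [if_neg hn]
      split_ifs <;> norm_num

end Crest.Agent.R4C.LBoxSetx662
end

-- ▼ part R4C/LArrUK_11

/-!
# Row 4, class (L): arrows U (uniqueness) and K (cover) of `LBoxDef_662` (helper11)

* `arrU`, **`tgtU`** : two `LB` of the same pair and box have the same `f, f', h`;
* `LB_of_LP`, `arrK`, **`tgtK`** : `CLow` ⇒ `BadS`, `LSm`, `LB` or the mirrored `LB`.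
-/

set_option autoImplicit false

namespace Crest.Agent.R4C.LArrUKx11

open Crest.Agent.R4C.FLDefx935 Crest.Agent.R4C.BoostCx972 Crest.Agent.R4C.CrCoinx935
  Crest.Agent.R4C.CrCountx935 Crest.Agent.R4C.Bridgex882 Crest.Agent.R4C.PrefixMx882
  Crest.Agent.R4C.S7cx14 Crest.Agent.R4C.S7dx14 Crest.Agent.R4C.Cutx50
  Crest.Agent.R4C.PairRx14 Crest.Agent.R4C.Rulex945 Crest.Agent.R4C.Sharedx11
  Crest.Agent.R4C.Splitx945 Crest.Agent.R4C.LBxx500 Crest.Agent.R4C.LCovBx11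
  Crest.Agent.R4C.NonPureBlkx559 Crest.Agent.R4C.LBoxDefx662 Crest.Agent.R4C.Spinex946
  Crest.Agent.R4C.HyBOfx11
open Crest.Agent.R4C.FLExx326 (ind)

variable {M : ℕ} {F : FL M} {P : Par}

/-! ### arrow U -/

theorem arrU {w : ℕ → ℝ} {δ : ℝ} {jB : ℕ → ℕ} {j0 : ℕ} (H : HyB M P jB j0) :
    ArrU F P w δ jB := by
  intro x b c t₁ t₂ h₁ h₂ f₁ f₁' f₂ f₂' p₁ p₂ hb hc B1 B2
  have hE : ∀ m, P.m0 ≤ m → 4 * P.E m ^ 8 < 2 ^ m := by
    intro m hm
    have h3 := H.hE m hm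
    have h4 : (0 : ℝ) ≤ P.E m ^ 8 := pow_nonneg (zero_le_one.trans (H.E_one m)) _
    linarith
  have pw : ∀ n : ℕ, (2 : ℝ) ^ (n + 1) = 2 * 2 ^ n := fun n => by ring
  obtain ⟨e1, _⟩ := centre_eq (K := 2 ^ x.n) H.hL H.hM H.cut_mono hE hb B1.lp.m0 B2.lp.m0
    (one_le_cut H B1.lp.m0) (one_le_cut H B2.lp.m0) B1.lp.ib B2.lp.ib B1.lp.db B2.lp.db B1.dn
    (by rw [← pw]; exact B1.dn1) B2.dn (by rw [← pw]; exact B2.dn1)
  obtain ⟨e2, _⟩ := centre_eq (K := 2 ^ x.n') H.hL H.hM H.cut_mono hE hc B1.lp.m0 B2.lp.m0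
    (one_le_cut H B1.lp.m0) (one_le_cut H B2.lp.m0) B1.lp.ic B2.lp.ic B1.lp.dc B2.lp.dc B1.dn'
    (by rw [← pw]; exact B1.dn1') B2.dn' (by rw [← pw]; exact B2.dn1')
  refine ⟨e1, e2, ?_⟩
  have h3 := B1.lp.pt
  rw [e1, e2] at h3
  exact gap_unique h3 B2.lp.pt

/-- **target U** -/
theorem tgtU (γ : ℝ) : TgtU γ :=
  hyB_of.mono fun _ _ _ _ h L M B F S => arrU (h γ L M B F S)

/-! ### arrow K -/

/-- a pair of class (L) with deep side `b`, good at the block start and not smooth, is in a box -/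
theorem LB_of_LP {w : ℕ → ℝ} {δ : ℝ} {jB : ℕ → ℕ} {t b c p : ℕ} {h : ℤ} {f f' : ℚ}
    (hw : ∀ b, 0 ≤ w b) (hthr : P.thr = thrS M w P.Y δ (1 / 20))
    (hP : LP F P t b c h f f' p) (hgj : F.good (Xj (jB t)) b c)
    (hdeep : p ∣ c / Nat.gcd b c ∧ p ∣ alC c b f' f ∧ P.thr b (P.blk p) < dep F P t b f)
    (hns : dep F P t b f ≤ Real.exp ((P.Y (P.blk p - 1) : ℝ) ^ (4 / 5 : ℝ))) :
    ∃ x : Bx, LB F P w δ jB x t b c h f f' p := by
  obtain ⟨n, n1, n2⟩ := exists_dyadic (one_le_dep (F := F) (P := P) t b f)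
  obtain ⟨n', n1', n2'⟩ := exists_dyadic (one_le_dep (F := F) (P := P) t c f')
  obtain ⟨j, j1, j2⟩ := exists_dyadic_nat (tw_pos (F := F) (P := P) (P.Y (P.blk p)) t b c f f')
  obtain ⟨j', j1', j2'⟩ := exists_dyadic_nat (tw_pos (F := F) (P := P) (P.Y (P.blk p)) t c b f' f)
  have pw : ∀ n : ℕ, (2 : ℝ) ^ (n + 1) = 2 * 2 ^ n := fun n => by ring
  have pn : ∀ n : ℕ, 2 ^ (n + 1) = 2 * 2 ^ n := fun n => by ring
  -- thresholds
  have hdeep' := hdeep.2.2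
  rw [hthr] at hdeep'
  unfold thrS at hdeep'
  have hmax : max ((P.Y (P.blk p - 1) : ℝ) ^ δ) (ThS M w P.Y b (P.blk p) ^ ((1 : ℝ) / 20)) <
      dep F P t b f := by
    rcases min_lt_iff.1 hdeep' with h1 | h1
    · exact h1
    · exact absurd hns (not_le.2 h1)
  obtain ⟨m1, m2⟩ := max_lt_iff.1 hmax
  have hlt : dep F P t b f < 2 ^ (n + 1) := by rw [pw]; exact n2
  refine ⟨⟨n, n', P.blk p, j, j'⟩, hP, hgj, hdeep, rfl, n1, hlt, n1', ?_, j1, ?_, j1', ?_,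
    m1.trans hlt, m2, ?_⟩
  · change dep F P t c f' < 2 ^ (n' + 1)
    rw [pw]; exact n2'
  · change tw F P (P.Y (P.blk p)) t b c f f' < 2 ^ (j + 1)
    rw [pn]; exact j2
  · change tw F P (P.Y (P.blk p)) t c b f' f < 2 ^ (j' + 1)
    rw [pn]; exact j2'
  · -- light
    change (low (P.Y (P.blk p)) b : ℝ) * mass M w (P.Y (P.blk p)) (upp (P.Y (P.blk p)) b) ≤
      (2 ^ (n + 1)) ^ 20
    have h4 : Th M w (P.Y (P.blk p)) b ≤ ThS M w P.Y b (P.blk p) := Th_le_ThS M w P.Y b le_rfl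
    have h5 : 0 ≤ Th M w (P.Y (P.blk p)) b := Th_nonneg M hw _ _
    have h6 : Th M w (P.Y (P.blk p)) b ^ ((1 : ℝ) / 20) < 2 ^ (n + 1) :=
      ((Real.rpow_le_rpow h5 h4 (by norm_num)).trans_lt m2).trans hlt
    have h7 : (Th M w (P.Y (P.blk p)) b ^ ((1 : ℝ) / 20)) ^ 20 ≤ ((2 : ℝ) ^ (n + 1)) ^ 20 :=
      pow_le_pow_left₀ (Real.rpow_nonneg h5 _) h6.le 20
    have h8 : (Th M w (P.Y (P.blk p)) b ^ ((1 : ℝ) / 20)) ^ 20 = Th M w (P.Y (P.blk p)) b := by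
      rw [← Real.rpow_natCast, ← Real.rpow_mul h5]
      norm_num
    rw [h8] at h7
    exact h7

theorem arrK {w : ℕ → ℝ} {δ : ℝ} {jB : ℕ → ℕ} (hw : ∀ b, 0 ≤ w b)
    (hthr : P.thr = thrS M w P.Y δ (1 / 20)) : ArrK F P w δ jB := by
  rintro b c h hb hc _ ⟨t, f, f', p, hP⟩
  by_cases hgj : F.good (Xj (jB t)) b c
  swap
  · exact Or.inl ⟨t, hP.m0, hgj, hP.good, hP.al, hP.scl, hP.near⟩
  right
  rcases hP.deep with hd | hd
  · by_cases hs : dep F P t b f ≤ Real.exp ((P.Y (P.blk p - 1) : ℝ) ^ (4 / 5 : ℝ))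
    · obtain ⟨x, hx⟩ := LB_of_LP hw hthr hP hgj hd hs
      exact Or.inr (Or.inl ⟨x, t, f, f', p, hx⟩)
    · exact Or.inl ⟨t, f, f', p, hP, hgj, Or.inl ⟨hd.1, hd.2.1, not_le.1 hs⟩⟩
  · by_cases hs : dep F P t c f' ≤ Real.exp ((P.Y (P.blk p - 1) : ℝ) ^ (4 / 5 : ℝ))
    · obtain ⟨x, hx⟩ := LB_of_LP hw hthr (LP_symm hb hc hP) (FL.good_symm hb hc hgj)
        (by rw [Nat.gcd_comm c b]; exact hd) hs
      exact Or.inr (Or.inr ⟨x, t, f, f', p, hx⟩)
    · exact Or.inl ⟨t, f, f', p, hP, hgj, Or.inr ⟨hd.1, hd.2.1, not_le.1 hs⟩⟩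

/-- **target K** -/
theorem tgtK (γ : ℝ) : TgtK γ :=
  hyB_of.mono fun _ _ _ _ _ _ _ B _ _ => arrK (FLExx326.ind_nonneg B) rfl

end Crest.Agent.R4C.LArrUKx11
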