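import Crest.Agent.R4C.LowTau_808
import Crest.Agent.R4C.LowL_899

-- ▼ part R4C/LowTauB_808
section

/-!
# Row 4: the low kernel of MX, final lines (helper808)  —  (r2) of 899's MX1

Fixed high words `T, T'`, low words over `low y M`; `v = G · mass M f y T`, `v' = G · mass M f' y T'`.

* `low_deep` : relation = deep (284: labelled, not short, depth `≥ K ≥ 64`), `log y ≤ A log K`:
  `frm ≤ C K^(-1/(4r)) G⁻¹ (v v')^((1+κ)/2)`;
* `low_size`, `low_size'` : first (second) cofactor `≥ A₁`: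
  `frm ≤ C (log y)^B A₁^(-1/(r log y)) G⁻¹ (v v')^((1+κ)/2)`.
-/

set_option autoImplicit false

open Finset

namespace Crest.Agent.R4C.LowTauBx808

open Basex935 Cutx50 MXlowx808 MXlowBx808 RelTailx808 RelRarex808 LowTaux808 S2x232

/-- powers of the logarithm are absorbed -/
lemma log_pow_le {s ε : ℝ} (hs : 0 ≤ s) (hε : 0 < ε) :
    ∃ C : ℝ, 1 ≤ C ∧ ∀ K : ℝ, 1 ≤ K → Real.log K ^ s ≤ C * K ^ ε := by
  rcases eq_or_lt_of_le hs with h0 | h0
  · refine ⟨1, le_rfl, fun K hK => ?_⟩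
    rw [← h0, Real.rpow_zero, one_mul]
    exact Real.one_le_rpow hK hε.le
  · set d := ε / s with hd
    have hd0 : 0 < d := div_pos hε h0
    refine ⟨max 1 ((1 / d) ^ s), le_max_left _ _, fun K hK => ?_⟩
    have hK0 : 0 < K := by linarith
    have h1 : Real.log K ≤ K ^ d / d := Real.log_le_rpow_div hK0.le hd0
    have hl : 0 ≤ Real.log K := Real.log_nonneg hK
    calc Real.log K ^ s ≤ (K ^ d / d) ^ s := Real.rpow_le_rpow hl h1 hs
      _ = (1 / d) ^ s * K ^ ε := by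
          rw [div_eq_mul_one_div, Real.mul_rpow (by positivity) (by positivity),
            ← Real.rpow_mul hK0.le, mul_comm]
          congr 2
          rw [hd]; field_simp
      _ ≤ max 1 ((1 / d) ^ s) * K ^ ε :=
          mul_le_mul_of_nonneg_right (le_max_right _ _) (by positivity)


/-- **large first cofactor** -/
theorem low_size {κ r : ℝ} (hκ : 0 < κ) (hκ1 : κ < 1) (hr : 2 / (1 - κ) < r) :
    ∃ B C : ℝ, 0 ≤ B ∧ 1 ≤ C ∧ ∀ (y M T T' : ℕ) (f f' : ℕ → ℝ) (k : ℕ → ℕ → ℝ) (A₁ G : ℝ),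
      8 ≤ y → 0 < A₁ →
      (∀ b, 0 ≤ f b) → (∀ b, f b ≤ 1) → (∀ b, 0 ≤ f' b) → (∀ b, f' b ≤ 1) →
      (∀ n n', 0 ≤ k n n') → (∀ n n', k n n' ≤ 1) →
      (∀ n n', n ∣ low y M → n' ∣ low y M → k n n' ≠ 0 → A₁ ≤ ((n / Nat.gcd n n' : ℕ) : ℝ)) →
      (∀ n n', n ∣ low y M → n' ∣ low y M → k n n' ≠ 0 → (Nat.gcd n n' : ℝ) ≤ 2 * G) → 0 < G →
      frm (low y M) (fun n n' => f (n * T) * f' (n' * T') * k n n') ≤
        C * Real.log y ^ B * A₁ ^ (-(1 / (r * Real.log y))) * G⁻¹ *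
          ((G * Cutx50.mass M f y T) * (G * Cutx50.mass M f' y T')) ^ ((1 + κ) / 2) := by
  obtain ⟨B, C, hB, hC, h⟩ := low_kernel_cut hκ hκ1 hr
  have h1κ : 0 < 1 - κ := by linarith
  have hr0 : 0 < r := lt_trans (by positivity) hr
  have hE : 1 ≤ Real.exp 14 ^ (1 / r) :=
    Real.one_le_rpow (Real.one_le_exp (by norm_num)) (by positivity)
  refine ⟨B, C * Real.exp 14 ^ (1 / r), hB, one_le_mul_of_one_le_of_one_le hC hE, ?_⟩
  intro y M T T' f f' k A₁ G hy hA hf hf1 hf' hf1' hk hk1 hkA hkG hG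
  have hy8 : (8 : ℝ) ≤ y := by exact_mod_cast hy
  have hly2 : 2 ≤ Real.log y := log_eight.trans (Real.log_le_log (by norm_num) hy8)
  have h1 := h y M T T' f f' k (KS A₁) _ G hy hf hf1 hf' hf1' (KS_nonneg _)
    (KS_le_one _) hk (fun n n' hn hn' => by
      unfold KS
      split_ifs with h2
      · exact hk1 n n'
      · by_contra h3
        push Not at h3
        exact h2 (hkA n n' hn hn' h3.ne')) hkG (dens_KS M hy hA) hG
  refine h1.trans (le_of_eq ?_)
  rw [Real.mul_rpow (Real.exp_pos _).le (by positivity), ← Real.rpow_mul hA.le]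
  have : -(1 / Real.log y) * (1 / r) = -(1 / (r * Real.log y)) := by
    field_simp
  rw [this]
  ring



end Crest.Agent.R4C.LowTauBx808
end

-- ▼ part R4C/LPhi_808

/-!
# Row 4, BLOCK S5 v1 (6.2): kernel of class (L) (helper808)

* `KT ξ ξ' t E K P` : labelled words `(u,v)` of depth `≥ K`, which are not short or have
  `P ≤ u v` (the twisted relation of (6.1); targets `ξ = upp y s γ`, `ξ' = upp y s' γ`).
* `dens_KT` : natural density `≤ C (1 + 2 log y log K)² K^(-1/3) + 1/P`;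
  `RT_anti` : the relation at `t₁ ∈ [t, c t]` implies the relation at `t` with depth `K/c`.
* `low_class` : fixed high words `z, z'`, class `(i, a)` (`log₂ gcd = i`, `log₂ (u/gcd) = a`):
  `≤ C (log y)^B min(τ, e^14 2^(-a/log y))^(1/r) (2^i)^κ (V_z V'_z')^((1+κ)/2)` = `hlow` of `mx1`.
* `sum_Ta` : the sum over the classes `a` (Rankin beyond), any exponent `< 1/(r(1+κ))` of `τ`.
-/

set_option autoImplicit false

open Finset

namespace Crest.Agent.R4C.LPhix808

open Basex935 Cutx50 MXlowx808 MXlowBx808 RelTailx808 RelRarex808 LowTaux808 LowTauBx808 S2x232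
open Asmx946 (lowK)

/-! ### the twisted relation -/




/-- the relation as a predicate -/
def RT (ξ ξ' t E K P : ℝ) (u v : ℕ) : Prop :=
  NN ξ ξ' t u v ∧ ∃ (a : ℤ) (k : ℕ) (a' : ℤ) (k' : ℕ), S2bx284.Labd ξ ξ' t E a k a' k' u v ∧
      (¬ S2bx284.IsShort k k' t (ξ - a / k) (ξ' - a' / k') u v ∨ P ≤ (u : ℝ) * v) ∧
      K ≤ S2bx284.dep k k' t (ξ - a / k) (ξ' - a' / k') u v




/-! ### the class kernel -/

lemma dens_min_left {N : ℕ} (K K' : ℕ → ℕ → ℝ) :
    MXlowx808.dens N (fun s t => min (K s t) (K' s t)) ≤ MXlowx808.dens N K :=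
  dens_mono fun _ _ => min_le_left _ _

lemma dens_min_right {N : ℕ} (K K' : ℕ → ℕ → ℝ) :
    MXlowx808.dens N (fun s t => min (K s t) (K' s t)) ≤ MXlowx808.dens N K' :=
  dens_mono fun _ _ => min_le_right _ _

/-- gain of the class `a` -/
noncomputable def Ta (r B C y τ : ℝ) (a : ℕ) : ℝ :=
  C * Real.log y ^ B * (min τ (Real.exp 14 * ((2 : ℝ) ^ a) ^ (-(1 / Real.log y)))) ^ (1 / r)

lemma Ta_nonneg {r B C y τ : ℝ} (hC : 0 ≤ C) (hy : 1 ≤ y) (hτ : 0 ≤ τ) (a : ℕ) :
    0 ≤ Ta r B C y τ a := by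
  unfold Ta
  have h1 : 0 ≤ Real.log y := Real.log_nonneg hy
  have h2 : 0 ≤ min τ (Real.exp 14 * ((2 : ℝ) ^ a) ^ (-(1 / Real.log y))) :=
    le_min hτ (by positivity)
  positivity

/-- **hlow of `mx1`**: fixed high words `z, z'`, class `log₂ gcd = i`, `log₂ (u/gcd) = a`,
any relation of natural density `≤ τ` -/
theorem low_class {κ r : ℝ} (hκ : 0 < κ) (hκ1 : κ < 1) (hr : 2 / (1 - κ) < r) :
    ∃ B C : ℝ, 0 ≤ B ∧ 1 ≤ C ∧ ∀ (y M z z' : ℕ) (f f' : ℕ → ℝ) (k K : ℕ → ℕ → ℝ) (τ : ℝ)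
      (i a : ℕ), 8 ≤ y →
      (∀ b, 0 ≤ f b) → (∀ b, f b ≤ 1) → (∀ b, 0 ≤ f' b) → (∀ b, f' b ≤ 1) →
      (∀ s t, 0 ≤ K s t) → (∀ s t, K s t ≤ 1) →
      (∀ u u', 0 ≤ k u u') →
      (∀ u u', u ∣ low y M → u' ∣ low y M → Nat.log 2 (Nat.gcd u u') = i →
        Nat.log 2 (u / Nat.gcd u u') = a → k u u' ≤ K (u / Nat.gcd u u') (u' / Nat.gcd u u')) →
      MXlowx808.dens (low y M) K ≤ τ →
      frm (low y M) (fun u u' => if Nat.log 2 (Nat.gcd u u') = i then
          (if Nat.log 2 (u / Nat.gcd u u') = a then f (u * z) * f' (u' * z') * k u u' else 0)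
          else 0) ≤
        Ta r B C y τ a * ((2 : ℝ) ^ i) ^ κ *
          (Cutx50.mass M f y z * Cutx50.mass M f' y z') ^ ((1 + κ) / 2) := by
  obtain ⟨B, C, hB, hC, h⟩ := low_kernel_cut hκ hκ1 hr
  have h1κ : 0 < 1 - κ := by linarith
  have hr0 : 0 < r := lt_trans (by positivity) hr
  refine ⟨B, C, hB, hC, ?_⟩
  intro y M z z' f f' k K τ i a hy hf hf1 hf' hf1' hK hK1 hk hkK hτ
  have hy8 : (8 : ℝ) ≤ y := by exact_mod_cast hy
  have hly2 : 2 ≤ Real.log y := log_eight.trans (Real.log_le_log (by norm_num) hy8)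
  set N := low y M with hN
  have hN0 : 0 < N := low_pos y M
  set K' : ℕ → ℕ → ℝ := fun s t => min (K s t) (KS ((2 : ℝ) ^ a) s t) with hK'
  set k' : ℕ → ℕ → ℝ := fun u u' => if 0 < u ∧ 0 < u' ∧ u ∣ N ∧ u' ∣ N ∧
    Nat.log 2 (Nat.gcd u u') = i ∧
    Nat.log 2 (u / Nat.gcd u u') = a then k u u' else 0 with hk'
  have hk'0 : ∀ u u', 0 ≤ k' u u' := by
    intro u u'
    rw [hk']
    show 0 ≤ ite _ _ _
    split_ifs
    · exact hk u u'
    · exact le_rfl
  have hτ' : MXlowx808.dens N K' ≤ min τ (Real.exp 14 * ((2 : ℝ) ^ a) ^ (-(1 / Real.log y))) :=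
    le_min ((dens_min_left K _).trans hτ)
      ((dens_min_right K _).trans (dens_KS M hy (by positivity)))
  have hG : (0 : ℝ) < 2 ^ i := by positivity
  have h1 := h y M z z' f f' k' K' _ ((2 : ℝ) ^ i) hy hf hf1 hf' hf1'
    (fun s t => le_min (hK s t) (KS_nonneg _ _ _))
    (fun s t => (min_le_left _ _).trans (hK1 s t)) hk'0
    (fun u u' hu hu' => by
      rw [hk']
      show ite _ _ _ ≤ _
      split_ifs with hc
      · obtain ⟨hu0, hu0', _, _, hi, ha⟩ := hc
        refine le_min (hkK u u' hu hu' hi ha) ?_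
        unfold KS
        have hg0 : 0 < Nat.gcd u u' := Nat.gcd_pos_of_pos_left _ hu0
        have hd0 : u / Nat.gcd u u' ≠ 0 :=
          (Nat.div_pos (Nat.le_of_dvd hu0 (Nat.gcd_dvd_left u u')) hg0).ne'
        have h7 : 2 ^ a ≤ u / Nat.gcd u u' := by
          rw [← ha]
          exact Nat.pow_log_le_self 2 hd0
        have h8 : (2 : ℝ) ^ a ≤ ((u / Nat.gcd u u' : ℕ) : ℝ) := by exact_mod_cast h7
        rw [if_pos h8]
        exact (hkK u u' hu hu' hi ha).trans (hK1 _ _)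
      · exact le_min (hK _ _) (KS_nonneg _ _ _))
    (fun u u' hu hu' h0 => by
      rw [hk'] at h0
      have hc : 0 < u ∧ 0 < u' ∧ u ∣ N ∧ u' ∣ N ∧ Nat.log 2 (Nat.gcd u u') = i ∧
          Nat.log 2 (u / Nat.gcd u u') = a := by
        by_contra hc
        exact h0 (if_neg hc)
      have h2 : Nat.gcd u u' < 2 ^ (i + 1) := by
        rw [← hc.2.2.2.2.1]
        exact Nat.lt_pow_succ_log_self (by norm_num) _
      have h3 : (Nat.gcd u u' : ℝ) < 2 ^ (i + 1) := by exact_mod_cast h2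
      rw [pow_succ] at h3
      linarith)
    hτ' hG
  have h2 : frm N (fun u u' => if Nat.log 2 (Nat.gcd u u') = i then
          (if Nat.log 2 (u / Nat.gcd u u') = a then f (u * z) * f' (u' * z') * k u u' else 0)
          else 0) = frm N (fun u u' => f (u * z) * f' (u' * z') * k' u u') := by
    unfold frm
    refine sum_congr rfl fun u hu => sum_congr rfl fun u' hu' => ?_
    have hu0 : 0 < u := Nat.pos_of_mem_divisors hu
    have hu0' : 0 < u' := Nat.pos_of_mem_divisors hu'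
    have hud := (Nat.mem_divisors.1 hu).1
    have hud' := (Nat.mem_divisors.1 hu').1
    congr 1
    rw [hk']
    beta_reduce
    by_cases c1 : Nat.log 2 (Nat.gcd u u') = i <;> by_cases c2 : Nat.log 2 (u / Nat.gcd u u') = a
    · rw [if_pos c1, if_pos c2, if_pos ⟨hu0, hu0', hud, hud', c1, c2⟩]
    · rw [if_pos c1, if_neg c2, if_neg (fun hc => c2 hc.2.2.2.2.2), mul_zero]
    · rw [if_neg c1, if_neg (fun hc => c1 hc.2.2.2.2.1), mul_zero]
    · rw [if_neg c1, if_neg (fun hc => c1 hc.2.2.2.2.1), mul_zero]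
  rw [h2]
  refine h1.trans (le_of_eq ?_)
  unfold Ta
  have hm := mass_nonneg M hf y z
  have hm' := mass_nonneg M hf' y z'
  have e : (((2 : ℝ) ^ i * Cutx50.mass M f y z) * ((2 : ℝ) ^ i * Cutx50.mass M f' y z')) ^
      ((1 + κ) / 2) = (2 : ℝ) ^ i * ((2 : ℝ) ^ i) ^ κ *
        (Cutx50.mass M f y z * Cutx50.mass M f' y z') ^ ((1 + κ) / 2) := by
    have e1 : ((2 : ℝ) ^ i * Cutx50.mass M f y z) * ((2 : ℝ) ^ i * Cutx50.mass M f' y z') =
        ((2 : ℝ) ^ i * (2 : ℝ) ^ i) * (Cutx50.mass M f y z * Cutx50.mass M f' y z') := by ring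
    have e2 : ((2 : ℝ) ^ i * (2 : ℝ) ^ i) ^ ((1 + κ) / 2) = (2 : ℝ) ^ i * ((2 : ℝ) ^ i) ^ κ := by
      rw [Real.mul_rpow hG.le hG.le, ← Real.rpow_add hG,
        show (1 + κ) / 2 + (1 + κ) / 2 = 1 + κ by ring, Real.rpow_add hG, Real.rpow_one]
    rw [e1, Real.mul_rpow (mul_nonneg hG.le hG.le) (mul_nonneg hm hm'), e2]
  rw [e]
  field_simp

/-! ### the sum over the classes -/

/-- **the sum over the classes `a`**: any exponent below `1 / (r (1 + κ))` -/
theorem sum_Ta {κ r B C θ : ℝ} (hκ : 0 < κ) (hr : 1 ≤ r) (hB : 0 ≤ B) (hC : 1 ≤ C)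
    (hθ : 0 < θ) (hθ1 : θ < 1) (n y : ℕ) (hy : 8 ≤ y) {τ : ℝ} (hτ : 0 ≤ τ) :
    ∑ a ∈ range n, (Ta r B C y τ a) ^ (1 / (1 + κ)) ≤
      (2 * (1 + κ) * r / θ) * (C * Real.exp 14) * Real.log y ^ (B + 1) *
        τ ^ ((1 - θ) / (r * (1 + κ))) := by
  have hy8 : (8 : ℝ) ≤ y := by exact_mod_cast hy
  have hly2 : 2 ≤ Real.log y := log_eight.trans (Real.log_le_log (by norm_num) hy8)
  have hly0 : 0 < Real.log y := by linarith
  have hr0 : 0 < r := by linarith
  set q : ℝ := 1 / (1 + κ) with hq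
  have hq0 : 0 < q := by positivity
  have hq1 : q ≤ 1 := by
    rw [hq, div_le_one (by linarith)]
    linarith
  set α : ℝ := q / r with hα
  have hα0 : 0 < α := by positivity
  have hα1 : α ≤ 1 := by
    rw [hα, div_le_one hr0]
    linarith
  -- one term
  have hterm : ∀ a ∈ range n, (Ta r B C y τ a) ^ q ≤
      (C * Real.log y ^ B) * (τ ^ ((1 - θ) * α) * (Real.exp 14 *
        ((2 : ℝ) ^ (-(θ * α / Real.log y))) ^ a)) := by
    intro a _
    set x : ℝ := Real.exp 14 * ((2 : ℝ) ^ a) ^ (-(1 / Real.log y)) with hx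
    have hx0 : 0 < x := by positivity
    have hm0 : 0 ≤ min τ x := le_min hτ hx0.le
    have h1 : (min τ x) ^ α ≤ τ ^ ((1 - θ) * α) * x ^ (θ * α) := by
      rcases eq_or_lt_of_le hτ with h0 | h0
      · rw [← h0, min_eq_left hx0.le, Real.zero_rpow hα0.ne', Real.zero_rpow (by
          have : 0 < (1 - θ) * α := mul_pos (by linarith) hα0
          exact this.ne'), zero_mul]
      · have hmp : 0 < min τ x := lt_min h0 hx0
        calc (min τ x) ^ α = (min τ x) ^ ((1 - θ) * α) * (min τ x) ^ (θ * α) := by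
              rw [← Real.rpow_add hmp]
              congr 1
              ring
          _ ≤ τ ^ ((1 - θ) * α) * x ^ (θ * α) := by
              refine mul_le_mul (Real.rpow_le_rpow hm0 (min_le_left _ _) ?_)
                (Real.rpow_le_rpow hm0 (min_le_right _ _) (by positivity)) (by positivity)
                (by positivity)
              exact mul_nonneg (by linarith) hα0.le
    have h2 : x ^ (θ * α) ≤ Real.exp 14 * ((2 : ℝ) ^ (-(θ * α / Real.log y))) ^ a := by
      rw [hx, Real.mul_rpow (Real.exp_pos _).le (by positivity)]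
      have e1 : (((2 : ℝ) ^ a) ^ (-(1 / Real.log y))) ^ (θ * α) =
          ((2 : ℝ) ^ (-(θ * α / Real.log y))) ^ a := by
        rw [← Real.rpow_mul (by positivity), ← Real.rpow_natCast 2 a,
          ← Real.rpow_mul (by norm_num), ← Real.rpow_natCast _ a, ← Real.rpow_mul (by norm_num)]
        congr 1
        ring
      rw [e1]
      refine mul_le_mul_of_nonneg_right ?_ (by positivity)
      calc Real.exp 14 ^ (θ * α) ≤ Real.exp 14 ^ (1 : ℝ) := by
            refine Real.rpow_le_rpow_of_exponent_le (Real.one_le_exp (by norm_num)) ?_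
            nlinarith
        _ = _ := Real.rpow_one _
    have hlB : 1 ≤ Real.log y ^ B := Real.one_le_rpow (by linarith) hB
    have hCl : 1 ≤ C * Real.log y ^ B := one_le_mul_of_one_le_of_one_le hC hlB
    have hT : Ta r B C y τ a = (C * Real.log y ^ B) * (min τ x) ^ (1 / r) := rfl
    rw [hT, Real.mul_rpow (by linarith) (by positivity), ← Real.rpow_mul hm0,
      show 1 / r * q = α by rw [hα]; ring]
    refine mul_le_mul ?_ (h1.trans (mul_le_mul_of_nonneg_left h2 (by positivity)))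
      (by positivity) (by linarith)
    calc (C * Real.log y ^ B) ^ q ≤ (C * Real.log y ^ B) ^ (1 : ℝ) :=
          Real.rpow_le_rpow_of_exponent_le hCl hq1
      _ = _ := Real.rpow_one _
  -- the geometric series
  set σ : ℝ := θ * α / Real.log y with hσ
  have hσ0 : 0 < σ := by positivity
  have hσ1 : σ ≤ 1 := by
    rw [hσ, div_le_one hly0]
    nlinarith
  set ρ : ℝ := (2 : ℝ) ^ (-σ) with hρ
  have hρ0 : 0 < ρ := by positivity
  have hρ1 : ρ ≤ 1 - σ / 2 := by
    -- convexity: `2^(-σ) ≤ 1 - σ/2` on `[0,1]`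
    have h2 : (2 : ℝ) ^ (-σ) = Real.exp (-(Real.log 2 * σ)) := by
      rw [Real.rpow_def_of_pos (by norm_num)]
      congr 1
      ring
    have hconv := convexOn_exp.2 (Set.mem_univ (0 : ℝ)) (Set.mem_univ (-Real.log 2))
      (by linarith : 0 ≤ 1 - σ) hσ0.le (by ring)
    simp only [smul_eq_mul, mul_zero, zero_add, Real.exp_zero, mul_one] at hconv
    have h3 : Real.exp (-Real.log 2) = 1 / 2 := by
      rw [Real.exp_neg, Real.exp_log (by norm_num)]
      norm_num
    rw [h3] at hconv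
    rw [hρ, h2]
    have e : -(Real.log 2 * σ) = σ * -Real.log 2 := by ring
    rw [e]
    linarith
  have hgeo : ∑ a ∈ range n, ρ ^ a ≤ 2 / σ := by
    have hρlt : ρ < 1 := by linarith
    have h1 : ∑ a ∈ range n, ρ ^ a ≤ (1 - ρ)⁻¹ := by
      rw [geom_sum_eq hρlt.ne]
      rw [← neg_div_neg_eq, neg_sub, neg_sub, div_eq_mul_inv]
      have hp : 0 ≤ ρ ^ n := by positivity
      have hi : 0 ≤ (1 - ρ)⁻¹ := inv_nonneg.2 (by linarith)
      nlinarith
    refine h1.trans ?_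
    rw [inv_eq_one_div, div_le_div_iff₀ (by linarith) hσ0]
    linarith
  calc ∑ a ∈ range n, (Ta r B C y τ a) ^ q
      ≤ ∑ a ∈ range n, (C * Real.log y ^ B) * (τ ^ ((1 - θ) * α) * (Real.exp 14 * ρ ^ a)) :=
        sum_le_sum hterm
    _ = (C * Real.log y ^ B) * (τ ^ ((1 - θ) * α) * (Real.exp 14 * ∑ a ∈ range n, ρ ^ a)) := by
        rw [mul_sum, mul_sum, mul_sum]
    _ ≤ (C * Real.log y ^ B) * (τ ^ ((1 - θ) * α) * (Real.exp 14 * (2 / σ))) := by
        have : 0 ≤ C * Real.log y ^ B := by positivity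
        refine mul_le_mul_of_nonneg_left (mul_le_mul_of_nonneg_left
          (mul_le_mul_of_nonneg_left hgeo (Real.exp_pos _).le) (by positivity)) this
    _ = _ := by
        have e1 : 2 / σ = (2 * (1 + κ) * r / θ) * Real.log y := by
          rw [hσ, hα, hq]
          field_simp
        have e2 : (1 - θ) * α = (1 - θ) / (r * (1 + κ)) := by
          rw [hα, hq]
          field_simp
        rw [e1, e2, Real.rpow_add hly0, Real.rpow_one]
        ring

end Crest.Agent.R4C.LPhix808
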