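import Crest.Agent.R4C.SpineDef_946
import Crest.Agent.R4C.Asm_946
import Crest.Agent.R4C.Sum6_251
import Crest.Agent.R4C.LBoxDef_662
import Crest.Agent.R4C.LBx_500
import Crest.Agent.R4C.HyOf_281
import Crest.Agent.R4C.LBoxP_500

-- ▼ part R4C/LSum_251
section

/-!
# Row 4, class (L): from the boxes to `ClsOK` (helper251)

* `enR_le_frm` : `EnR ≤ L frm Φ` if `Φ` dominates the boosted offset sums.
* `Fam` : a family of kernels with the indices `n k k' v j j'` of `Sum6_251`; `famSum`, `frm_fam`.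
* `enR_of_boxes` : kernels with `frm (Φ box) ≤ C box(..) ν(B)`, covering the class:
  `EnR ≤ C₀ C (L ν(B))`.
* **`cls_of_boxes`** : the same with the constants `Ev`: `ClsOK`.
* `conv` : the right side of `LClass_662.boxTw` is `≤ C' box(..) ν(B)`.
-/

set_option autoImplicit false

open Finset

namespace Crest.Agent.R4C.LSumx251

open Crest.Agent.R4C.Basex935 Crest.Agent.R4C.Bridgex882 Crest.Agent.R4C.FLDefx935
  Crest.Agent.R4C.Spinex946 Crest.Agent.R4C.Sum6x251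
open Crest.Agent.R4C.FLExx326 (ind)


/-- a family of kernels, indices `n k k' v j j'` -/
abbrev Fam := ℕ → ℕ → ℕ → ℕ → ℕ → ℕ → ℕ → ℕ → ℝ







/-! ### the right side of `boxTw` -/


end Crest.Agent.R4C.LSumx251
end

-- ▼ part R4C/LNum_251
section

/-!
# Row 4, class (L): numerics of the boxes (helper251)

* `num_low` : the right side of `LClass_662.boxTw` for the box `x : Bx` (`E0` with the polynomial
  and `N^ε₂` losses of ARROWS C, D, light bound `Θ ≤ (2^(n+1))^20`, density `≤ C tauB x`) is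
  `≤ C' box s e (B+2) mx v j j' S`.
* `kp, th, rr, ep`, `num_consts` : explicit constants with `e < s / 3`.
* `sum_Bx` : the sum over all boxes of a finite set of boxes.
* `LB.v_le`, `LB.j_le`, `LB.j_le'` : the indices of a nonempty box.
-/

set_option autoImplicit false

open Finset

namespace Crest.Agent.R4C.LNumx251

open Crest.Agent.R4C.LBoxDefx662 Crest.Agent.R4C.Sum6x251 Crest.Agent.R4C.FLDefx935
  Crest.Agent.R4C.LBxx500
  Crest.Agent.R4C.Rulex945 Crest.Agent.R4C.Cutx50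

/-- `tauB` unfolded -/
lemma tauB_eq (x : Bx) : tauB x = min 1 ((1 + ((x.v : ℝ) + 1) * ((x.mx : ℝ) + 1)) ^ 2 *
    ((2 : ℝ) ^ (x.j + x.j') * ((2 : ℝ) ^ x.mx) ^ (-(1 : ℝ) / 3))) := rfl

lemma tauB_nonneg (x : Bx) : 0 ≤ tauB x := le_min zero_le_one (by positivity)


/-- polynomials are small powers of `2^n` -/
lemma poly_le {ε : ℝ} (hε : 0 < ε) (D : ℕ) :
    ∃ C : ℝ, 0 < C ∧ ∀ n : ℕ, ((n : ℝ) + 1) ^ D ≤ C * ((2 : ℝ) ^ n) ^ ε := by
  have h2 : (0 : ℝ) < 2 := by norm_num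
  set r : ℝ := (2 : ℝ) ^ (-ε) with hr
  have hr0 : 0 < r := Real.rpow_pos_of_pos h2 _
  have hr1 : r < 1 := Real.rpow_lt_one_of_one_lt_of_neg (by norm_num) (by linarith)
  obtain ⟨C, hC, h⟩ := poly_geom hr0.le hr1 D
  refine ⟨C, hC, fun n => ?_⟩
  have h1 := h {n}
  rw [sum_singleton] at h1
  have h3 : ((2 : ℝ) ^ n) ^ ε * r ^ n = 1 := by
    rw [rpow_two, hr, ← mul_pow, ← Real.rpow_add h2, add_neg_cancel, Real.rpow_zero, one_pow]
  have h4 : 0 < ((2 : ℝ) ^ n) ^ ε := by positivity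
  calc ((n : ℝ) + 1) ^ D = ((n : ℝ) + 1) ^ D * (((2 : ℝ) ^ n) ^ ε * r ^ n) := by
        rw [h3, mul_one]
    _ = (((n : ℝ) + 1) ^ D * r ^ n) * ((2 : ℝ) ^ n) ^ ε := by ring
    _ ≤ C * ((2 : ℝ) ^ n) ^ ε := mul_le_mul_of_nonneg_right h1 h4.le

/-- **numerics of one box** -/
theorem num_low {κ ε ε₂ ε₃ s B : ℝ} (hκ : 0 < κ) (hε : 0 < ε) (hε₂ : 0 < ε₂) (hε₃ : 0 < ε₃)
    (hs : 0 < s) (hB : 0 ≤ B) {C1 C2 C3 C4 : ℝ} (hC1 : 0 ≤ C1) (hC2 : 0 ≤ C2) (hC3 : 0 ≤ C3)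
    (hC4 : 0 ≤ C4) : ∃ C : ℝ, 0 ≤ C ∧ ∀ (x : Bx) (Θ E0 ℓ τ S : ℝ), 0 ≤ Θ → 0 ≤ E0 → 0 ≤ ℓ →
      0 ≤ τ → 0 ≤ S → Θ ≤ (2 ^ (x.n + 1)) ^ 20 →
      E0 ≤ C2 * (x.N : ℝ) ^ ε₂ * ((x.v : ℝ) + 1) ^ 2 * ((x.mx : ℝ) + 1) ^ 4 →
      ℓ ≤ C3 * ((x.v : ℝ) + 1) → τ ≤ C4 * tauB x →
      C1 * (E0 * (x.N : ℝ) ^ ε / √((((2 : ℕ) ^ x.j : ℕ) : ℝ) * (((2 : ℕ) ^ x.j' : ℕ) : ℝ))) *
        Θ ^ (κ / (1 + κ)) * ℓ ^ B * τ ^ s * S ≤
      C * Sum6x251.box s (ε + ε₂ + ε₃ + 20 * (κ / (1 + κ))) (B + 2) x.mx x.v x.j x.j' * S := by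
  have h2 : (0 : ℝ) < 2 := by norm_num
  obtain ⟨C5, hC5, h5⟩ := poly_le hε₃ 4
  set q := κ / (1 + κ) with hq
  have hq0 : 0 < q := by positivity
  refine ⟨C1 * (C2 * (2 : ℝ) ^ ε₂ * C5) * (2 : ℝ) ^ ε * ((2 : ℝ) ^ 20) ^ q * C3 ^ B * C4 ^ s,
    by positivity, ?_⟩
  intro x Θ E0 ℓ τ S hΘ hE0 hℓ hτ hS hΘ1 hE1 hℓ1 hτ1
  set n := x.mx with hn
  set T : ℝ := (2 : ℝ) ^ n with hTd
  have hT : 0 < T := by positivity
  have hxn : x.n ≤ n := le_max_left _ _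
  have hv1 : (0 : ℝ) < (x.v : ℝ) + 1 := by positivity
  have hN : (x.N : ℝ) = 2 * T := by
    unfold Bx.N
    push_cast
    rw [pow_succ]
    ring
  have hNε : (x.N : ℝ) ^ ε = (2 : ℝ) ^ ε * T ^ ε := by
    rw [hN, Real.mul_rpow h2.le hT.le]
  have hNε₂ : (x.N : ℝ) ^ ε₂ = (2 : ℝ) ^ ε₂ * T ^ ε₂ := by
    rw [hN, Real.mul_rpow h2.le hT.le]
  have hU : √((((2 : ℕ) ^ x.j : ℕ) : ℝ) * (((2 : ℕ) ^ x.j' : ℕ) : ℝ)) =
      ((2 : ℝ) ^ (x.j + x.j')) ^ ((1 : ℝ) / 2) := by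
    rw [Real.sqrt_eq_rpow]
    congr 1
    push_cast
    rw [pow_add]
  have hU1 : (1 : ℝ) / √((((2 : ℕ) ^ x.j : ℕ) : ℝ) * (((2 : ℕ) ^ x.j' : ℕ) : ℝ)) =
      ((2 : ℝ) ^ (x.j + x.j')) ^ (-(1 : ℝ) / 2) := by
    rw [hU, neg_div, Real.rpow_neg (by positivity), one_div]
  have hE2 : E0 ≤ (C2 * (2 : ℝ) ^ ε₂ * C5) * (T ^ ε₂ * T ^ ε₃) * ((x.v : ℝ) + 1) ^ 2 := by
    calc E0 ≤ C2 * (x.N : ℝ) ^ ε₂ * ((x.v : ℝ) + 1) ^ 2 * ((x.mx : ℝ) + 1) ^ 4 := hE1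
      _ ≤ C2 * (x.N : ℝ) ^ ε₂ * ((x.v : ℝ) + 1) ^ 2 * (C5 * T ^ ε₃) :=
          mul_le_mul_of_nonneg_left (h5 n) (by positivity)
      _ = _ := by rw [hNε₂]; ring
  have hΘ2 : Θ ^ q ≤ ((2 : ℝ) ^ 20) ^ q * T ^ (20 * q) := by
    have h6 : Θ ≤ (2 : ℝ) ^ 20 * T ^ (20 : ℕ) := by
      calc Θ ≤ (2 ^ (x.n + 1)) ^ 20 := hΘ1
        _ ≤ (2 ^ (n + 1)) ^ 20 := by
            refine pow_le_pow_left₀ (by positivity) ?_ 20
            exact pow_le_pow_right₀ (by norm_num) (by omega)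
        _ = _ := by rw [hTd]; ring
    calc Θ ^ q ≤ ((2 : ℝ) ^ 20 * T ^ (20 : ℕ)) ^ q := Real.rpow_le_rpow hΘ h6 hq0.le
      _ = _ := by
        rw [Real.mul_rpow (by positivity) (by positivity), ← Real.rpow_natCast T 20,
          ← Real.rpow_mul hT.le]
        norm_num
  have hℓ2 : ℓ ^ B ≤ C3 ^ B * ((x.v : ℝ) + 1) ^ B := by
    rw [← Real.mul_rpow hC3 hv1.le]
    exact Real.rpow_le_rpow hℓ hℓ1 hB
  have hτ2 : τ ^ s ≤ C4 ^ s * (tauB x) ^ s := by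
    rw [← Real.mul_rpow hC4 (tauB_nonneg x)]
    exact Real.rpow_le_rpow hτ hτ1 hs.le
  have hexp : T ^ (ε + ε₂ + ε₃ + 20 * q) = T ^ ε * T ^ ε₂ * T ^ ε₃ * T ^ (20 * q) := by
    rw [Real.rpow_add hT, Real.rpow_add hT, Real.rpow_add hT]
  have hvB : ((x.v : ℝ) + 1) ^ (B + 2) = ((x.v : ℝ) + 1) ^ B * ((x.v : ℝ) + 1) ^ (2 : ℕ) := by
    rw [Real.rpow_add hv1, Real.rpow_two]
  have hUp : 0 ≤ ((2 : ℝ) ^ (x.j + x.j')) ^ (-(1 : ℝ) / 2) := by positivity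
  have hτs : 0 ≤ (tauB x) ^ s := Real.rpow_nonneg (tauB_nonneg x) _
  have g1 : 0 ≤ Θ ^ q := Real.rpow_nonneg hΘ _
  have g2 : 0 ≤ τ ^ s := Real.rpow_nonneg hτ _
  have g3 : 0 ≤ ℓ ^ B := Real.rpow_nonneg hℓ _
  calc C1 * (E0 * (x.N : ℝ) ^ ε / √((((2 : ℕ) ^ x.j : ℕ) : ℝ) * (((2 : ℕ) ^ x.j' : ℕ) : ℝ))) *
        Θ ^ q * ℓ ^ B * τ ^ s * S
      = C1 * (E0 * ((2 : ℝ) ^ ε * T ^ ε)) * ((2 : ℝ) ^ (x.j + x.j')) ^ (-(1 : ℝ) / 2) *
        Θ ^ q * ℓ ^ B * τ ^ s * S := by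
        rw [← hU1, ← hNε]; ring
    _ ≤ C1 * (((C2 * (2 : ℝ) ^ ε₂ * C5) * (T ^ ε₂ * T ^ ε₃) * ((x.v : ℝ) + 1) ^ 2) *
        ((2 : ℝ) ^ ε * T ^ ε)) * ((2 : ℝ) ^ (x.j + x.j')) ^ (-(1 : ℝ) / 2) *
        (((2 : ℝ) ^ 20) ^ q * T ^ (20 * q)) * (C3 ^ B * ((x.v : ℝ) + 1) ^ B) *
        (C4 ^ s * (tauB x) ^ s) * S := by
        gcongr
    _ = _ := by
        unfold Sum6x251.box
        rw [← tauB_eq x, ← hTd, hexp, hvB]
        ring

/-! ### explicit constants -/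

/-- `κ` -/
noncomputable def kp : ℝ := 1 / 1000
/-- `θ` -/
noncomputable def th : ℝ := 1 / 10
/-- `r` -/
noncomputable def rr : ℝ := 21 / 10
/-- `ε` -/
noncomputable def ep : ℝ := 1 / 100
/-- `s` -/
noncomputable def ss : ℝ := (1 - th) ^ 2 / (rr * (1 + kp))

theorem num_consts : 0 < kp ∧ kp < 1 ∧ 2 / (1 - kp) < rr ∧ 0 < th ∧ th < 1 ∧ 0 < ep ∧
    0 < ss ∧ ss < 1 / 2 ∧ ep + ep + ep + 20 * (kp / (1 + kp)) < ss / 3 := by
  unfold ss kp th rr ep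
  norm_num

/-- **the numerics with the explicit constants** -/
theorem num_low0 {B : ℝ} (hB : 0 ≤ B) {C1 C2 C3 C4 : ℝ} (hC1 : 0 ≤ C1) (hC2 : 0 ≤ C2)
    (hC3 : 0 ≤ C3) (hC4 : 0 ≤ C4) : ∃ C : ℝ, 0 ≤ C ∧ ∀ (x : Bx) (Θ E0 ℓ τ S : ℝ),
      0 ≤ Θ → 0 ≤ E0 → 0 ≤ ℓ → 0 ≤ τ → 0 ≤ S → Θ ≤ (2 ^ (x.n + 1)) ^ 20 →
      E0 ≤ C2 * (x.N : ℝ) ^ ep * ((x.v : ℝ) + 1) ^ 2 * ((x.mx : ℝ) + 1) ^ 4 →
      ℓ ≤ C3 * ((x.v : ℝ) + 1) → τ ≤ C4 * tauB x →
      C1 * (E0 * (x.N : ℝ) ^ ep / √((((2 : ℕ) ^ x.j : ℕ) : ℝ) * (((2 : ℕ) ^ x.j' : ℕ) : ℝ))) *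
        Θ ^ (kp / (1 + kp)) * ℓ ^ B * τ ^ ((1 - th) ^ 2 / (rr * (1 + kp))) * S ≤
      C * Sum6x251.box ss (ep + ep + ep + 20 * (kp / (1 + kp))) (B + 2) x.mx x.v x.j x.j' * S := by
  obtain ⟨h1, _, _, _, _, h6, h7, _, _⟩ := num_consts
  exact num_low h1 h6 h6 h6 h7 hB hC1 hC2 hC3 hC4

/-! ### the sum over the boxes -/

/-- the tuple of a box -/
def tup (x : Bx) : Σ _ : ℕ, ℕ × ℕ × ℕ × ℕ × ℕ := ⟨x.mx, x.n, x.n', x.v, x.j, x.j'⟩

lemma tup_inj : Function.Injective tup := by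
  intro x y h
  unfold tup at h
  simp only [Sigma.mk.injEq, heq_eq_eq, Prod.mk.injEq] at h
  obtain ⟨_, h1, h2, h3, h4, h5⟩ := h
  cases x
  cases y
  simp_all

/-- a finite sum over boxes is at most the nested sum -/
lemma sum_Bx_le {g : ℕ → ℕ → ℕ → ℕ → ℕ → ℕ → ℝ} (hg : ∀ n k k' v j j', 0 ≤ g n k k' v j j')
    (A c : ℕ) (X : Finset Bx) (hX : ∀ x ∈ X, x.v ≤ A * (x.mx + 1) ∧ x.j ≤ x.mx + c ∧
      x.j' ≤ x.mx + c) : ∃ N : ℕ, ∑ x ∈ X, g x.mx x.n x.n' x.v x.j x.j' ≤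
      ∑ n ∈ range N, ∑ k ∈ range (n + 1), ∑ k' ∈ range (n + 1), ∑ v ∈ range (A * (n + 1) + 1),
        ∑ j ∈ range (n + c + 1), ∑ j' ∈ range (n + c + 1), g n k k' v j j' := by
  classical
  set N := X.sup Bx.mx + 1 with hN
  refine ⟨N, ?_⟩
  set D : Finset (Σ _ : ℕ, ℕ × ℕ × ℕ × ℕ × ℕ) := (range N).sigma fun n =>
    range (n + 1) ×ˢ range (n + 1) ×ˢ range (A * (n + 1) + 1) ×ˢ range (n + c + 1) ×ˢ
      range (n + c + 1) with hD
  have e1 : ∑ n ∈ range N, ∑ k ∈ range (n + 1), ∑ k' ∈ range (n + 1),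
      ∑ v ∈ range (A * (n + 1) + 1), ∑ j ∈ range (n + c + 1), ∑ j' ∈ range (n + c + 1),
        g n k k' v j j' = ∑ y ∈ D, g y.1 y.2.1 y.2.2.1 y.2.2.2.1 y.2.2.2.2.1 y.2.2.2.2.2 := by
    rw [hD, sum_sigma]
    refine sum_congr rfl fun n _ => ?_
    rw [sum_product]
    refine sum_congr rfl fun k _ => ?_
    rw [sum_product]
    refine sum_congr rfl fun k' _ => ?_
    rw [sum_product]
    refine sum_congr rfl fun v _ => ?_
    rw [sum_product]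
  rw [e1]
  calc ∑ x ∈ X, g x.mx x.n x.n' x.v x.j x.j'
      = ∑ y ∈ X.image tup, g y.1 y.2.1 y.2.2.1 y.2.2.2.1 y.2.2.2.2.1 y.2.2.2.2.2 := by
        rw [sum_image fun a _ b _ h => tup_inj h]
        rfl
    _ ≤ _ := by
        refine sum_le_sum_of_subset_of_nonneg ?_ fun _ _ _ => hg _ _ _ _ _ _
        intro y hy
        rw [mem_image] at hy
        obtain ⟨x, hx, rfl⟩ := hy
        obtain ⟨h1, h2, h3⟩ := hX x hx
        have h4 : x.mx < N := Nat.lt_succ_of_le (Finset.le_sup (f := Bx.mx) hx)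
        have h5 : x.n ≤ x.mx := le_max_left _ _
        have h6 : x.n' ≤ x.mx := le_max_right _ _
        rw [hD, mem_sigma]
        simp only [tup, mem_product, mem_range]
        refine ⟨h4, ?_, ?_, ?_, ?_, ?_⟩ <;> omega

/-- **the sum over the boxes** -/
theorem sum_Bx {s e Bp : ℝ} (hs : 0 < s) (hs1 : s < 1 / 2) (he : e < s / 3) (A c : ℕ) :
    ∃ C : ℝ, 0 < C ∧ ∀ X : Finset Bx, (∀ x ∈ X, x.v ≤ A * (x.mx + 1) ∧ x.j ≤ x.mx + c ∧
      x.j' ≤ x.mx + c) → ∑ x ∈ X, Sum6x251.box s e Bp x.mx x.v x.j x.j' ≤ C := by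
  obtain ⟨C, hC, h⟩ := sumL (s := s) (e := e) (B := Bp) hs hs1 he A c
  refine ⟨C, hC, fun X hX => ?_⟩
  obtain ⟨N, h1⟩ := sum_Bx_le (g := fun n _ _ v j j' => Sum6x251.box s e Bp n v j j')
    (fun n _ _ v j j' => Sum6x251.box_nonneg _ _ _ _ _ _ _) A c X hX
  exact h1.trans (h N)

/-- **the sum over the boxes with the explicit constants** -/
theorem sum_Bx0 (Bp : ℝ) (A c : ℕ) :
    ∃ C : ℝ, 0 < C ∧ ∀ X : Finset Bx, (∀ x ∈ X, x.v ≤ A * (x.mx + 1) ∧ x.j ≤ x.mx + c ∧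
      x.j' ≤ x.mx + c) → ∑ x ∈ X,
        Sum6x251.box ss (ep + ep + ep + 20 * (kp / (1 + kp))) Bp x.mx x.v x.j x.j' ≤ C := by
  obtain ⟨_, _, _, _, _, _, h7, h8, h9⟩ := num_consts
  exact sum_Bx h7 h8 h9 A c

/-! ### the indices of a nonempty box -/

variable {M : ℕ} {F : FL M} {P : Par} {w : ℕ → ℝ} {jB : ℕ → ℕ} {x : Bx} {t b c : ℕ} {h : ℤ}
  {f f' : ℚ} {p : ℕ}

lemma tw_le (y t b c : ℕ) (f f' : ℚ) : tw F P y t b c f f' ≤ k0 F (P.cut t) b f := by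
  unfold tw
  have h1 : 0 < k0 F (P.cut t) b f := k0_pos _ _ _
  set g := Nat.gcd (k0 F (P.cut t) b f) (k0 F (P.cut t) c f') with hg
  have h2 : 0 < k0 F (P.cut t) b f / g :=
    Nat.div_pos (Nat.le_of_dvd h1 (Nat.gcd_dvd_left _ _)) (Nat.gcd_pos_of_pos_left _ h1)
  exact (Nat.le_of_dvd h2 (upp_dvd_self _ _)).trans (Nat.div_le_self _ _)

lemma j_le {δ : ℝ} (H : LB F P w δ jB x t b c h f f' p) : x.j ≤ x.n := by
  have h1 : ((2 ^ x.j : ℕ) : ℝ) < 2 ^ (x.n + 1) := by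
    calc ((2 ^ x.j : ℕ) : ℝ) ≤ (k0 F (P.cut t) b f : ℝ) := by
          exact_mod_cast H.tj.trans (tw_le _ _ _ _ _ _)
      _ ≤ dep F P t b f := k0_le_dep _ _ _
      _ < _ := H.dn1
  have h2 : 2 ^ x.j < 2 ^ (x.n + 1) := by exact_mod_cast h1
  have h3 := (Nat.pow_lt_pow_iff_right (a := 2) (by norm_num)).1 h2
  omega

lemma j_le' {δ : ℝ} (H : LB F P w δ jB x t b c h f f' p) : x.j' ≤ x.n' := by
  have h1 : ((2 ^ x.j' : ℕ) : ℝ) < 2 ^ (x.n' + 1) := by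
    calc ((2 ^ x.j' : ℕ) : ℝ) ≤ (k0 F (P.cut t) c f' : ℝ) := by
          exact_mod_cast H.tj'.trans (tw_le _ _ _ _ _ _)
      _ ≤ dep F P t c f' := k0_le_dep _ _ _
      _ < _ := H.dn1'
  have h2 : 2 ^ x.j' < 2 ^ (x.n' + 1) := by exact_mod_cast h1
  have h3 := (Nat.pow_lt_pow_iff_right (a := 2) (by norm_num)).1 h2
  omega

/-- `Y i = 2^i`, `δ = 1/(4A)`: `v ≤ 4A (n+1)` -/
lemma v_le {A : ℕ} (hA : 1 ≤ A) (hY : ∀ i, P.Y i = 2 ^ i)
    (H : LB F P w (1 / (4 * (A : ℝ))) jB x t b c h f f' p) : x.v ≤ 4 * A * (x.n + 1) := by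
  have hA0 : (0 : ℝ) < A := by exact_mod_cast hA
  have h1 := H.vle
  rw [hY] at h1
  have h2 : (((2 ^ (x.v - 1) : ℕ) : ℝ)) ^ (1 / (4 * (A : ℝ))) =
      (2 : ℝ) ^ (((x.v - 1 : ℕ) : ℝ) / (4 * A)) := by
    push_cast
    rw [← Real.rpow_natCast 2 (x.v - 1), ← Real.rpow_mul (by norm_num)]
    congr 1
    ring
  rw [h2, ← Real.rpow_natCast 2 (x.n + 1), Real.rpow_lt_rpow_left_iff (by norm_num),
    div_lt_iff₀ (by positivity)] at h1
  have h3 : x.v - 1 < (x.n + 1) * (4 * A) := by exact_mod_cast h1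
  have h4 : (x.n + 1) * (4 * A) = 4 * A * (x.n + 1) := by ring
  omega

/-- the three conditions of `sum_Bx` for a nonempty box -/
theorem box_idx {A : ℕ} (hA : 1 ≤ A) (hY : ∀ i, P.Y i = 2 ^ i)
    (H : LB F P w (1 / (4 * (A : ℝ))) jB x t b c h f f' p) :
    x.v ≤ 4 * A * (x.mx + 1) ∧ x.j ≤ x.mx + 0 ∧ x.j' ≤ x.mx + 0 := by
  have h1 := v_le hA hY H
  have h2 := j_le H
  have h3 := j_le' H
  have h4 : x.n ≤ x.mx := le_max_left _ _
  have h5 : x.n' ≤ x.mx := le_max_right _ _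
  refine ⟨h1.trans (Nat.mul_le_mul_left _ (by omega)), by omega, by omega⟩

end Crest.Agent.R4C.LNumx251
end

-- ▼ part R4C/EnRsym_350
section

/-!
# Row 4: symmetry of the energy under `(b, c, h) ↦ (c, b, -h)` (helper350)

* `killedB_swap`, `chargedB_swap`, `boostB_swap`, `mem_Lnk_swap`;
* **`EnR_symm`** : `EnR γ L M B lam R = EnR γ L M B lam (fun b c h => R c b (-h))`;
* `EnR_mono`, `EnR_mono'` : the energy is monotone in the class (on `B × B`, linked, not killed);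
* `EnR_or` : `EnR (R ∨ R') ≤ EnR R + EnR R'`, `EnR_exists_le` : a finite union;
* **`EnR_wlog`** : `R b c h → (Q b c h ∨ Q c b (-h))` gives `EnR R ≤ 2 * EnR Q`.
-/

set_option autoImplicit false

open Finset

namespace Crest.Agent.R4C.EnRsymx350

open Crest.Agent.R4C.Basex935 Crest.Agent.R4C.CrCoinx935 Crest.Agent.R4C.CrCountx935
  Crest.Agent.R4C.Bridgex882 Crest.Agent.R4C.Spinex946

variable {γ L : ℝ} {M : ℕ} {lam : ℕ → ℕ → Option ℤ}

lemma killedB_swap {b c : ℕ} {h : ℤ} : killedB lam c b (-h) ↔ killedB lam b c h := by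
  have key : ∀ {b c : ℕ} {h : ℤ}, killedB lam b c h → killedB lam c b (-h) := by
    intro b c h h1
    unfold killedB at h1 ⊢
    rw [Nat.gcd_comm c b]
    rcases h1 with ⟨p, hp, hd, a, ha, h2⟩ | ⟨p, hp, hd, a, ha, h2⟩
    · refine Or.inr ⟨p, hp, hd, a, ha, ?_⟩
      have e : -h + ((b / Nat.gcd b c : ℕ) : ℤ) * a = -(h - ((b / Nat.gcd b c : ℕ) : ℤ) * a) := by
        ring
      rw [e]; exact (dvd_neg).2 h2
    · refine Or.inl ⟨p, hp, hd, a, ha, ?_⟩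
      have e : -h - ((c / Nat.gcd b c : ℕ) : ℤ) * a = -(h + ((c / Nat.gcd b c : ℕ) : ℤ) * a) := by
        ring
      rw [e]; exact (dvd_neg).2 h2
  refine ⟨fun h1 => ?_, key⟩
  have := key h1
  rwa [neg_neg] at this

lemma chargedB_swap {b c : ℕ} {h : ℤ} {p : ℕ} :
    chargedB lam c b (-h) p ↔ chargedB lam b c h p := by
  have key : ∀ {b c : ℕ} {h : ℤ}, chargedB lam b c h p → chargedB lam c b (-h) p := by
    intro b c h h1
    unfold chargedB at h1 ⊢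
    rw [Nat.gcd_comm c b]
    rcases h1 with h1 | h1 | ⟨h1, h2, a, a', ha, ha', h3⟩
    · exact Or.inr (Or.inl h1)
    · exact Or.inl h1
    · refine Or.inr (Or.inr ⟨h2, h1, a', a, ha', ha, ?_⟩)
      have e : -h - ((c / Nat.gcd b c : ℕ) : ℤ) * a' + ((b / Nat.gcd b c : ℕ) : ℤ) * a =
          -(h - ((b / Nat.gcd b c : ℕ) : ℤ) * a + ((c / Nat.gcd b c : ℕ) : ℤ) * a') := by ring
      rw [e]; exact (dvd_neg).2 h3
  refine ⟨fun h1 => ?_, key⟩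
  have := key h1
  rwa [neg_neg] at this

lemma boostB_swap (b c : ℕ) (h : ℤ) : boostB M lam c b (-h) = boostB M lam b c h := by
  classical
  unfold boostB
  rw [Finset.union_comm]
  refine Finset.prod_congr rfl fun p _ => ?_
  by_cases hp : chargedB lam b c h p
  · rw [if_pos hp, if_pos (chargedB_swap.2 hp)]
  · rw [if_neg hp, if_neg (fun h1 => hp (chargedB_swap.1 h1))]

lemma mem_Lnk_swap {b c : ℕ} {h : ℤ} : -h ∈ Lnk γ L c b ↔ h ∈ Lnk γ L b c := by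
  unfold Lnk
  rw [mem_Hf, mem_Hf, Nat.gcd_comm c b]
  have e : |(((c / Nat.gcd b c : ℕ) : ℝ) - ((b / Nat.gcd b c : ℕ) : ℝ)) * γ + ((-h : ℤ) : ℝ)| =
      |(((b / Nat.gcd b c : ℕ) : ℝ) - ((c / Nat.gcd b c : ℕ) : ℝ)) * γ + (h : ℝ)| := by
    rw [← abs_neg]
    congr 1
    push_cast
    ring
  rw [e]

open Classical in
/-- the inner sum of `EnR` -/
lemma inner_swap (R : ℕ → ℕ → ℤ → Prop) (b c : ℕ) :
    ∑ h ∈ (Lnk γ L c b).filter (fun h => ¬ killedB lam c b h ∧ R c b h), boostB M lam c b h =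
      ∑ h ∈ (Lnk γ L b c).filter (fun h => ¬ killedB lam b c h ∧ R c b (-h)),
        boostB M lam b c h := by
  refine Finset.sum_bij' (fun h _ => -h) (fun h _ => -h) ?_ ?_ ?_ ?_ ?_
  · intro h hh
    rw [Finset.mem_filter] at hh ⊢
    refine ⟨mem_Lnk_swap.1 (by rw [neg_neg]; exact hh.1), fun h1 => hh.2.1 ?_, ?_⟩
    · have := killedB_swap.2 h1
      rwa [neg_neg] at this
    · rw [neg_neg]; exact hh.2.2
  · intro h hh
    rw [Finset.mem_filter] at hh ⊢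
    exact ⟨mem_Lnk_swap.2 hh.1, fun h1 => hh.2.1 (killedB_swap.1 h1), hh.2.2⟩
  · intro h _; exact neg_neg h
  · intro h _; exact neg_neg h
  · intro h _
    have := boostB_swap (M := M) (lam := lam) b c (-h)
    rwa [neg_neg] at this

/-- **symmetry of the energy** -/
theorem EnR_symm (B : Finset ℕ) (R : ℕ → ℕ → ℤ → Prop) :
    EnR γ L M B lam R = EnR γ L M B lam (fun b c h => R c b (-h)) := by
  classical
  unfold EnR
  congr 1
  rw [Finset.sum_comm' (t' := B) (s' := fun c => B.erase c)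
    (h := fun x y => by
      simp only [Finset.mem_erase]
      constructor
      · rintro ⟨h1, h2, h3⟩; exact ⟨⟨fun h => h2 h.symm, h1⟩, h3⟩
      · rintro ⟨⟨h1, h2⟩, h3⟩; exact ⟨h2, fun h => h1 h.symm, h3⟩)]
  refine Finset.sum_congr rfl fun b _ => Finset.sum_congr rfl fun c _ => ?_
  rw [inner_swap R b c, Nat.gcd_comm c b]
  ring






end Crest.Agent.R4C.EnRsymx350
end

-- ▼ part R4C/LNumP_817
section

/-!
# Row 4, class (L): the parameters `ParOf` satisfy the numerical hypotheses (helper817)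

`jBA' A t = Nat.log 2 (A t)` (the same as `jBA` of `LBoxDef_662`): block start of the level `t`.

* `Xj_le_cut`, `cut_lt_Xj` : `Xj (jBA' A t) ≤ cut t < (Xj (jBA' A t) + 1)²`;
* `pow_le_Xj` : `2^(A t/2) - 1 ≤ Xj (jBA' A t)`; `E_pow_le_Xj` : `E t ^ k ≤ Xj (jBA' A t)`;
* `c_E8_lt` : `c E⁸ < 2^m`;
* **`hyB`** : `Ev` of `LBxx500.HyB` at `ParOf` with `jB = jBA' A`, for every `j0`;
* `v_le`, `v_le'` : `Y (v-1)^(1/(4A)) < 2^(n+1) → v ≤ 4A(n+1)`;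
* `n_le` : `2^n ≤ E t ^ 4 → n ≤ 4 cp t`; `Y_le_cut` : such a `v` is active at the level `t`.
-/

set_option autoImplicit false

namespace Crest.Agent.R4C.LNumPx817

open Crest.Agent.R4C.Spinex946 Crest.Agent.R4C.Splitx945 Crest.Agent.R4C.Rulex945
  Crest.Agent.R4C.FLDefx935 Crest.Agent.R4C.Cutx50 Crest.Agent.R4C.HyOfx281
  Crest.Agent.R4C.NonPureBlkx559 Crest.Agent.R4C.LBxx500

/-- block start of the level `t` (cut `2^(A t)`) -/
def jBA' (A t : ℕ) : ℕ := Nat.log 2 (A * t)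

lemma Xj_add (j : ℕ) : Xj j + 1 = 2 ^ (2 ^ j) := by
  unfold Xj
  have : 1 ≤ 2 ^ (2 ^ j) := Nat.one_le_two_pow
  omega


/-- `Xj (log₂ n) < 2^n` -/
lemma Xj_log_lt {n : ℕ} (hn : n ≠ 0) : Xj (Nat.log 2 n) < 2 ^ n := by
  have h1 : 2 ^ (2 ^ Nat.log 2 n) ≤ 2 ^ n :=
    Nat.pow_le_pow_right (by norm_num) (Nat.pow_log_le_self 2 hn)
  have e1 := Xj_add (Nat.log 2 n)
  omega

/-- `2^n < (Xj (log₂ n) + 1)²` -/
lemma lt_Xj_log (n : ℕ) : 2 ^ n < (Xj (Nat.log 2 n) + 1) ^ 2 := by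
  rw [Xj_add, ← pow_mul]
  refine Nat.pow_lt_pow_right (by norm_num) ?_
  have := Nat.lt_pow_succ_log_self (b := 2) (by norm_num) n
  rwa [pow_succ] at this

section par

variable {cp : ℝ} {A m0 : ℕ} {γ L : ℝ} {M : ℕ} {B : Finset ℕ}

lemma cut_eq (t : ℕ) : (ParOf cp A m0 γ L M B).cut t = 2 ^ (A * t) := rfl





lemma Xj_le_cut (t : ℕ) : Xj (jBA' A t) ≤ (ParOf cp A m0 γ L M B).cut t := by
  rw [cut_eq]
  unfold jBA'
  rcases Nat.eq_zero_or_pos (A * t) with h | h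
  · rw [h]
    simp [Xj]
  · exact (Xj_log_lt h.ne').le


/-- `2^(A t / 2) ≤ Xj + 1` -/
lemma rpow_le_Xj (A t : ℕ) : (2 : ℝ) ^ ((A : ℝ) * t / 2) ≤ (Xj (jBA' A t) : ℝ) + 1 := by
  have h1 : (2 : ℝ) ^ (A * t) ≤ ((Xj (jBA' A t) : ℝ) + 1) ^ 2 := by
    exact_mod_cast (lt_Xj_log (A * t)).le
  have h2 : ((2 : ℝ) ^ ((A : ℝ) * t / 2)) ^ 2 = (2 : ℝ) ^ (A * t) := by
    rw [← Real.rpow_natCast, ← Real.rpow_mul (by norm_num), ← Real.rpow_natCast 2 (A * t)]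
    congr 1
    push_cast
    ring
  have h3 : (0 : ℝ) ≤ (Xj (jBA' A t) : ℝ) + 1 := by positivity
  rw [← h2] at h1
  exact le_of_sq_le_sq h1 h3

/-- `E t ^ k ≤ Xj (jBA' A t)` if `k cp ≤ A / 4` and `A t ≥ 4` -/
lemma E_pow_le_Xj {k t : ℕ} (hk : (k : ℝ) * cp ≤ A / 4) (ht : 4 ≤ A * t) :
    (ParOf cp A m0 γ L M B).E t ^ k ≤ (Xj (jBA' A t) : ℝ) := by
  have h1 := rpow_le_Xj A t
  have ht' : (4 : ℝ) ≤ (A : ℝ) * t := by exact_mod_cast ht
  rw [E_pow]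
  have h2 : (2 : ℝ) ^ (cp * t * k) ≤ (2 : ℝ) ^ ((A : ℝ) * t / 4) := by
    refine Real.rpow_le_rpow_of_exponent_le (by norm_num) ?_
    have ht0 : (0 : ℝ) ≤ t := Nat.cast_nonneg t
    calc cp * t * k = (k * cp) * t := by ring
      _ ≤ (A / 4) * t := mul_le_mul_of_nonneg_right hk ht0
      _ = _ := by ring
  have h3 : (2 : ℝ) ^ ((A : ℝ) * t / 2) = (2 : ℝ) ^ ((A : ℝ) * t / 4) * (2 : ℝ) ^ ((A : ℝ) * t / 4) := by
    rw [← Real.rpow_add (by norm_num)]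
    congr 1
    ring
  have h4 : (2 : ℝ) ≤ (2 : ℝ) ^ ((A : ℝ) * t / 4) := by
    calc (2 : ℝ) = (2 : ℝ) ^ (1 : ℝ) := (Real.rpow_one 2).symm
      _ ≤ _ := Real.rpow_le_rpow_of_exponent_le (by norm_num) (by linarith)
  rw [h3] at h1
  nlinarith

/-- `2^c E^k < 2^m` -/
lemma c_E_lt {k c m : ℕ} (h : (c : ℝ) + k * cp * m < m) :
    (2 : ℝ) ^ c * (ParOf cp A m0 γ L M B).E m ^ k < 2 ^ m := by
  rw [E_pow]
  calc (2 : ℝ) ^ c * (2 : ℝ) ^ (cp * m * k) = (2 : ℝ) ^ ((c : ℝ) + cp * m * k) := by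
        rw [Real.rpow_add (by norm_num), Real.rpow_natCast]
    _ < (2 : ℝ) ^ (m : ℝ) := Real.rpow_lt_rpow_of_exponent_lt (by norm_num) (by
        calc (c : ℝ) + cp * m * k = c + k * cp * m := by ring
          _ < m := h)
    _ = 2 ^ m := Real.rpow_natCast 2 m

/-- `64 E⁸ < 2^m` -/
lemma E8_lt (hc : cp ≤ 1 / 200) {m : ℕ} (hm : 14 ≤ m) :
    64 * (ParOf cp A m0 γ L M B).E m ^ 8 < 2 ^ m := by
  have hm' : (14 : ℝ) ≤ m := by exact_mod_cast hm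
  have h1 : (2 : ℝ) ^ 6 * (ParOf cp A m0 γ L M B).E m ^ 8 < 2 ^ m := by
    refine c_E_lt ?_
    have h2 : cp * m ≤ 1 / 200 * m := mul_le_mul_of_nonneg_right hc (by linarith)
    push_cast
    nlinarith
  norm_num at h1 ⊢
  exact h1





end par

/-- conditions on the constants for `hyB` -/
structure NumB (cp η : ℝ) (A m0 j0 : ℕ) : Prop extends Num cp η A m0 where
  /-- the level is far above `j0` -/
  j0_le : 2 ^ j0 ≤ m0

lemma evNumB (j0 : ℕ) : Ev fun cp η A m0 => NumB cp η A m0 j0 := by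
  refine (evNum.and (Ev.le_m0 (fun _ _ _ => ((2 ^ j0 : ℕ) : ℝ)))).mono ?_
  rintro cp η A m0 ⟨h1, h2⟩
  exact ⟨h1, by exact_mod_cast h2⟩

lemma j0_le_jBA {A j0 m0 t : ℕ} (hA : 1 ≤ A) (h : 2 ^ j0 ≤ m0) (ht : m0 ≤ t) :
    j0 ≤ jBA' A t := by
  unfold jBA'
  refine Nat.le_log_of_pow_le (by norm_num) ?_
  calc 2 ^ j0 ≤ t := h.trans ht
    _ ≤ A * t := Nat.le_mul_of_pos_left t hA

theorem hyB_of_num {cp η : ℝ} {A m0 j0 : ℕ} (h : NumB cp η A m0 j0) {γ L : ℝ} {M : ℕ}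
    {B : Finset ℕ} (hM : 0 < M) (hL : 0 < L) : HyB M (ParOf cp A m0 γ L M B) (jBA' A) j0 where
  hM := hM
  hL := hL
  hN := Nat.le_ceil _
  cut_mono := fun a b hab => Nat.pow_le_pow_right (by norm_num) (Nat.mul_le_mul_left A hab)
  E_one := fun m => Real.one_le_rpow (by norm_num) (mul_nonneg h.cp_pos.le (Nat.cast_nonneg m))
  hE := fun m hm => E8_lt h.cp_le (by
    have h1 : m0 ≤ m := hm
    have := h.m0_14
    omega)
  jB0 := fun t ht => j0_le_jBA h.A_one h.j0_le ht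
  jB1 := fun t _ => Xj_le_cut t
  jBE := fun t ht => E_pow_le_Xj (k := 4) (by
      have h1 := h.cp_le
      have h2 : (1 : ℝ) ≤ A := by exact_mod_cast h.A_one
      push_cast
      linarith) (by
      have h1 : m0 ≤ t := ht
      have h2 := h.m0_14
      have h3 := Nat.mul_le_mul h.A_one (show 4 ≤ t by omega)
      omega)

/-- **the parameters of the spine satisfy the hypotheses of the boxes of class (L)** -/
theorem hyB (j0 : ℕ) : Ev fun cp η A m0 => ∀ (γ L : ℝ) (M : ℕ) (B : Finset ℕ) (F : FL M),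
    Setup η L M B F → HyB M (ParOf cp A m0 γ L M B) (jBA' A) j0 :=
  (evNumB j0).mono fun _ _ _ _ h _ _ _ _ _ S => hyB_of_num h S.hM S.hL



end Crest.Agent.R4C.LNumPx817
end

-- ▼ part R4C/LDens_217

/-!
# Row 4, class (L), ARROW B: density of a box (helper217)

* `rel_LB` : the datum of a pair of the box, with the twist words `low X q`, `X = 2^(mx+1)`,
  `q = z / gcd z z'` (independent of the level);
* `f_eq` : one point per box;
* `cov_QL` : `Cov 1` for the low relation `QL`;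
* `dens_QL`, **`tgtB`** : `dens ≤ C * tauB`.
-/

set_option autoImplicit false

open Finset

namespace Crest.Agent.R4C.LDensx217

open Crest.Agent.R4C.Basex935 Crest.Agent.R4C.Cutx50 Crest.Agent.R4C.FLDefx935
  Crest.Agent.R4C.Rulex945 Crest.Agent.R4C.Splitx945 Crest.Agent.R4C.Bridgex882
  Crest.Agent.R4C.BoostCx972 Crest.Agent.R4C.SamePtx217 Crest.Agent.R4C.BoxUniqx60
  Crest.Agent.R4C.NonPureBlkx559 Crest.Agent.R4C.LBxx500 Crest.Agent.R4C.LBoxPx500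
open Crest.Agent.R4C.LBoxDefx662 (Bx ca ca' ci LB QL tauB EvC ArrB TgtB jBA)
open Crest.Agent.R4C.LDecx500 (upp_split upp_one_of low_one_of low_mul upp_mul)

variable {M : ℕ} {F : FL M} {P : Par}

/-! ### words below and above `X` -/

/-- the twist and the upper word, independent of the level -/
lemma words {jB : ℕ → ℕ} {j0 v t b c X : ℕ} {h : ℤ} {f f' : ℚ} (H : HyB M P jB j0) (hb : b ∣ M)
    (hc : c ∣ M) (D : Core F P jB v t b c h f f') (hX : X ≤ P.cut t)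
    (hk : k0 F (P.cut t) b f ≤ X) :
    low X (upp (P.Y v) (b / Nat.gcd b c)) = LBxx500.tw F P (P.Y v) t b c f f' ∧
      upp X (upp (P.Y v) (b / Nat.gcd b c)) = upp (P.cut t) (b / Nat.gcd b c) := by
  obtain ⟨hg, eb, ec, hcop, hs, hs'⟩ := pair_facts H.hM hb hc
  have e1 := upp_split D.act hs.ne'
  rw [D.upp_eq H hb hc] at e1
  set κ := LBxx500.tw F P (P.Y v) t b c f f' with hκ
  set s := b / Nat.gcd b c with hs_def
  have hκ0 : κ ≠ 0 := (Core.tw_pos (F := F) (P := P) (v := v) (t := t) (b := b) (c := c)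
    (f := f) (f' := f')).ne'
  have hU0 : upp (P.cut t) s ≠ 0 := (upp_pos _ _).ne'
  have hκX : upp X κ = 1 := upp_one_of fun p hp hd =>
    (Nat.le_of_dvd (k0_pos _ _ _) (hd.trans Core.tw_dvd)).trans hk
  have hUX : low X (upp (P.cut t) s) = 1 := low_one_of fun p hp hd => by
    have h1 : ¬ p ≤ P.cut t := prime_dvd_part (fun p => ¬ p ≤ P.cut t) hp hd
    omega
  have hκ1 : low X κ = κ := by
    have := low_mul_upp X hκ0
    rwa [hκX, mul_one] at this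
  have hU1 : upp X (upp (P.cut t) s) = upp (P.cut t) s := by
    have := low_mul_upp X hU0
    rwa [hUX, one_mul] at this
  rw [e1, low_mul X hκ0 hU0, upp_mul X hκ0 hU0, hκ1, hUX, hκX, hU1, mul_one, one_mul]
  exact ⟨rfl, rfl⟩

/-! ### the pair as a pair of `BxL` -/

lemma ThS_zero (M : ℕ) (Y : ℕ → ℕ) (b i : ℕ) : ThS M (fun _ => 0) Y b i = 0 := by
  refine le_antisymm ?_ ((Th_nonneg M (fun _ => le_rfl) (Y 0) b).trans
    (Th_le_ThS M _ Y b (Nat.zero_le i)))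
  unfold ThS
  refine Finset.sup'_le _ _ fun j _ => ?_
  unfold Th mass Ex
  simp

/-- a pair of the box is a pair of 500's box (trivial weight) -/
lemma bxL_of {w : ℕ → ℝ} {δ : ℝ} {jB : ℕ → ℕ} {t b c p : ℕ} {x : Bx} {h : ℤ} {f f' : ℚ}
    (hYm : StrictMono P.Y) (hbe : ∀ m, ∃ i, P.cut m = P.Y i)
    (hl : h ∈ Lnk P.γ P.L b c) (D : LB F P w δ jB x t b c h f f' p) :
    BxL F P (fun _ => 0) 1 jB x.v (2 ^ x.n) (2 ^ x.n') (2 ^ x.j) (2 ^ x.j') t b c h f f' where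
  m0 := D.lp.m0
  good := D.lp.good
  goodj := D.gd
  pt := D.lp.pt
  lnk := CrCountx935.mem_Hf.1 hl
  ib := D.lp.ib
  ic := D.lp.ic
  act := by
    obtain ⟨i, hi⟩ := hbe t
    have := Par.act_of_le hYm hi D.lp.le
    rwa [D.blk] at this
  top := fun r hr h1 h2 => D.lp.top r hr (by
    have h3 := Par.le_blk (P := P) hYm p
    rw [D.blk] at h3
    omega) h2
  db := D.dn
  db' := by
    have := D.dn1
    rwa [pow_succ, mul_comm] at this
  dc := D.dn'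
  dc' := by
    have := D.dn1'
    rwa [pow_succ, mul_comm] at this
  eb := D.lp.db
  ec := D.lp.dc
  big := D.lp.big
  light := by
    rw [ThS_zero, Real.rpow_one]
    exact zero_lt_one.trans_le (one_le_dep _ _ _)
  tb := D.tj
  tb' := by
    have := D.tj1
    rwa [pow_succ, mul_comm] at this
  tc := D.tj'
  tc' := by
    have := D.tj1'
    rwa [pow_succ, mul_comm] at this

/-! ### one point per box -/

lemma pow_mx_le {jB : ℕ → ℕ} {j0 : ℕ} {w : ℕ → ℝ} {ε : ℝ} {v n : ℕ} {K' : ℝ}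
    {U U' t b c : ℕ} {h : ℤ} {f f' : ℚ} (H : HyB M P jB j0)
    (D : BxL F P w ε jB v (2 ^ n) K' U U' t b c h f f') : 32 * ((2 : ℝ) ^ n) ^ 2 < 2 ^ t := by
  have h1 : (2 : ℝ) ^ n ≤ P.E t ^ 4 := D.db.trans D.eb
  have h2 : ((2 : ℝ) ^ n) ^ 2 ≤ (P.E t ^ 4) ^ 2 := pow_le_pow_left₀ (by positivity) h1 2
  have h3 : (P.E t ^ 4) ^ 2 = P.E t ^ 8 := by ring
  have h4 := H.hE t D.m0
  have h5 : 0 ≤ P.E t ^ 8 := by
    have := H.E_one t
    positivity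
  rw [h3] at h2
  linarith

/-- **one point per box** (left member) -/
lemma f_eq {jB : ℕ → ℕ} {j0 : ℕ} {w : ℕ → ℝ} {ε : ℝ} {v n : ℕ} {K' K₂' : ℝ}
    {U U' U₂ U₂' t b c t₂ b₂ c₂ : ℕ} {h h₂ : ℤ} {f f' f₂ f₂' : ℚ} (H : HyB M P jB j0)
    (hb : b ∣ M) (hb₂ : b₂ ∣ M)
    (D : BxL F P w ε jB v (2 ^ n) K' U U' t b c h f f')
    (D₂ : BxL F P w ε jB v (2 ^ n) K₂' U₂ U₂' t₂ b₂ c₂ h₂ f₂ f₂')
    (hz : upp (P.Y v) b = upp (P.Y v) b₂) {a i : ℕ}
    (ha : Nat.log 2 (low (P.Y v) b / Nat.gcd (low (P.Y v) b) (low (P.Y v) c)) = a)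
    (hi : Nat.log 2 (Nat.gcd (low (P.Y v) b) (low (P.Y v) c)) = i)
    (ha₂ : Nat.log 2 (low (P.Y v) b₂ / Nat.gcd (low (P.Y v) b₂) (low (P.Y v) c₂)) = a)
    (hi₂ : Nat.log 2 (Nat.gcd (low (P.Y v) b₂) (low (P.Y v) c₂)) = i) : f = f₂ := by
  have hb0 := Nat.pos_of_dvd_of_pos hb H.hM
  have hb20 := Nat.pos_of_dvd_of_pos hb₂ H.hM
  obtain ⟨p1, p2⟩ := low_size (y := P.Y v) hb0.ne' ha hi
  obtain ⟨q1, q2⟩ := low_size (y := P.Y v) hb20.ne' ha₂ hi₂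
  have key : ∀ {d e : ℕ}, d ≠ 0 → e ≠ 0 → upp (P.Y v) d = upp (P.Y v) e →
      low (P.Y v) d ≤ 4 * low (P.Y v) e → (d : ℝ) ≤ 4 * e := by
    intro d e hd he h1 h2
    have e1 := low_mul_upp (P.Y v) hd
    have e2 := low_mul_upp (P.Y v) he
    have : d ≤ 4 * e := by
      calc d = low (P.Y v) d * upp (P.Y v) d := e1.symm
        _ ≤ 4 * low (P.Y v) e * upp (P.Y v) d := Nat.mul_le_mul_right _ h2
        _ = 4 * (low (P.Y v) e * upp (P.Y v) e) := by rw [h1]; ring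
        _ = 4 * e := by rw [e2]
    exact_mod_cast this
  obtain ⟨m, m1, m2, m3⟩ := D.ib
  obtain ⟨m', n1, n2, n3⟩ := D₂.ib
  have d1 : dep F P m b f ≤ 2 * 2 ^ n := by
    have := D.db'.le
    unfold dep at this ⊢
    rwa [m3]
  have d2 : dep F P m' b₂ f₂ ≤ 2 * 2 ^ n := by
    have := D₂.db'.le
    unfold dep at this ⊢
    rwa [n3]
  have e4 : (2 : ℝ) * 4 * (2 * 2 ^ n) ^ 2 = 32 * ((2 : ℝ) ^ n) ^ 2 := by ring
  exact box_unique' H.hL H.hM H.cut_mono hb hb₂ (D.act.trans (H.cut_mono m1))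
    (D₂.act.trans (H.cut_mono n1)) (SameUp.of_upp hz) (by norm_num : (1 : ℝ) ≤ 4)
    (key hb0.ne' hb20.ne' hz (by omega)) (key hb20.ne' hb0.ne' hz.symm (by omega)) m2 n2 d1 d2
    (by rw [e4]; exact (pow_mx_le H D).trans_le (pow_le_pow_right₀ (by norm_num) m1))
    (by rw [e4]; exact (pow_mx_le H D₂).trans_le (pow_le_pow_right₀ (by norm_num) n1))

/-- exchange of the members -/
lemma bxL_swap {jB : ℕ → ℕ} {v : ℕ} {K K' : ℝ} {U U' t b c : ℕ} {h : ℤ}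
    {f f' : ℚ} (hb : b ∣ M) (hc : c ∣ M)
    (D : BxL F P (fun _ => 0) 1 jB v K K' U U' t b c h f f') :
    BxL F P (fun _ => 0) 1 jB v K' K U' U t c b (-h) f' f := by
  have C := (core_of D).swap hb hc
  refine ⟨C.m0, C.good, C.goodj, C.pt, C.lnk, C.ib, C.ic, C.act, C.top, D.dc, D.dc', D.db, D.db',
    C.eb, C.ec, ?_, ?_, D.tc, D.tc', D.tb, D.tb'⟩
  · have h1 := D.big
    refine ⟨?_, ?_⟩
    · have := h1.2
      rw [Nat.gcd_comm c b]
      calc _ ≤ _ := this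
        _ = _ := by ring
    · have := h1.1
      rw [Nat.gcd_comm c b]
      calc _ ≤ _ := this
        _ = _ := by ring
  · rw [ThS_zero, Real.rpow_one]
    exact zero_lt_one.trans_le (one_le_dep _ _ _)

/-! ### the cover -/

/-- hypotheses on the cuts -/
structure HyC (P : Par) : Prop where
  Ym : StrictMono P.Y
  be : ∀ m, ∃ i, P.cut m = P.Y i
  ge : ∀ m, 2 ^ m ≤ P.cut m

lemma X_le {jB : ℕ → ℕ} {j0 : ℕ} {w : ℕ → ℝ} {ε : ℝ} {v n n' : ℕ} {U U' t b c : ℕ} {h : ℤ}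
    {f f' : ℚ} (H : HyB M P jB j0) (hC : HyC P)
    (D : BxL F P w ε jB v (2 ^ n) (2 ^ n') U U' t b c h f f') :
    2 ^ (max n n' + 1) ≤ P.cut t ∧ k0 F (P.cut t) b f ≤ 2 ^ (max n n' + 1) ∧
      k0 F (P.cut t) c f' ≤ 2 ^ (max n n' + 1) := by
  have hE := H.E_one t
  have h4 := H.hE t D.m0
  have hn : (2 : ℝ) ^ n ≤ P.E t ^ 4 := D.db.trans D.eb
  have hn' : (2 : ℝ) ^ n' ≤ P.E t ^ 4 := D.dc.trans D.ec
  have hE4 : 1 ≤ P.E t ^ 4 := one_le_pow₀ hE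
  have hmx : (2 : ℝ) ^ max n n' ≤ P.E t ^ 4 := by
    rcases max_choice n n' with e | e
    · rw [e]; exact hn
    · rw [e]; exact hn'
  have hkk : ∀ {r : ℝ} {d k : ℕ}, (k : ℝ) ≤ r → r < 2 * 2 ^ d → d ≤ max n n' →
      k ≤ 2 ^ (max n n' + 1) := by
    intro r d k h1 h2 h3
    have h5 : (k : ℝ) ≤ 2 ^ (max n n' + 1) := by
      calc (k : ℝ) ≤ 2 * 2 ^ d := h1.trans h2.le
        _ = 2 ^ (d + 1) := by ring
        _ ≤ _ := pow_le_pow_right₀ (by norm_num) (by omega)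
    exact_mod_cast h5
  refine ⟨?_, hkk (k0_le_dep _ _ _) D.db' (le_max_left _ _),
    hkk (k0_le_dep _ _ _) D.dc' (le_max_right _ _)⟩
  have h5 : (2 : ℝ) ^ (max n n' + 1) ≤ 2 ^ t := by
    have e8 : P.E t ^ 8 = (P.E t ^ 4) * (P.E t ^ 4) := by ring
    have h6 : P.E t ^ 4 ≤ P.E t ^ 8 := by rw [e8]; nlinarith
    calc (2 : ℝ) ^ (max n n' + 1) = 2 * 2 ^ max n n' := by ring
      _ ≤ 2 * P.E t ^ 4 := by linarith
      _ ≤ 64 * P.E t ^ 8 := by linarith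
      _ ≤ 2 ^ t := h4.le
  have h6 : 2 ^ (max n n' + 1) ≤ 2 ^ t := by exact_mod_cast h5
  exact h6.trans (hC.ge t)

/-- **one datum per box, class and pair of high words** -/
theorem cov_QL {jB : ℕ → ℕ} {j0 : ℕ} (H : HyB M P jB j0) (hC : HyC P) (w : ℕ → ℝ) (δ : ℝ)
    (x : Bx) (a a' i z z' : ℕ) :
    Cov 1 (4 * 2 ^ (x.j + x.j')) (max (2 ^ x.n) (2 ^ x.n') / 2) (PP (2 ^ x.n) (2 ^ x.n'))
      (QL F P w δ jB x a a' i z z') := by
  intro i1 j1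
  by_cases hex : ∃ u v, QL F P w δ jB x a a' i z z' u v
  · obtain ⟨u0, v0, b0, c0, h0, t0, f0, f0', p0, hb0, hc0, hl0, D0, ez0, ez0', ea0, ea0', ei0,
      eu0, ev0⟩ := hex
    have B0 := bxL_of hC.Ym hC.be hl0 D0
    have hXX0 := X_le H hC B0
    set X := 2 ^ (max x.n x.n' + 1) with hXd
    set y := P.Y x.v with hy
    set q := z / Nat.gcd z z' with hq
    set q' := z' / Nat.gcd z z' with hq'
    have hgz : 0 < Nat.gcd z z' := by
      rw [← ez0]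
      exact Nat.gcd_pos_of_pos_left _ (upp_pos _ _)
    set T0 : ℝ := 2 ^ i * (Nat.gcd z z' : ℕ) / P.L with hT0
    have hT0p : 0 < T0 := by
      have : (0 : ℝ) < (Nat.gcd z z' : ℕ) := by exact_mod_cast hgz
      have := H.hL
      rw [hT0]
      positivity
    -- the words of any pair
    have W : ∀ {b c t p : ℕ} {h : ℤ} {f f' : ℚ}, b ∣ M → c ∣ M → h ∈ Lnk P.γ P.L b c →
        LB F P w δ jB x t b c h f f' p → upp y b = z → upp y c = z' →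
        low X q = LBxx500.tw F P y t b c f f' ∧ upp X q = upp (P.cut t) (b / Nat.gcd b c) ∧
        low X q' = LBxx500.tw F P y t c b f' f ∧ upp X q' = upp (P.cut t) (c / Nat.gcd b c) := by
      intro b c t p h f f' hb hc hl D e1 e2
      have B := bxL_of hC.Ym hC.be hl D
      obtain ⟨hX, k1, k2⟩ := X_le H hC B
      have C := core_of B
      obtain ⟨_, _, _, _, w1, w2⟩ := cut_facts H.hM hb hc y
      rw [e1, e2] at w1 w2
      have r1 := words H hb hc C hX k1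
      have r2 := words H hc hb (C.swap hb hc) hX k2
      rw [Nat.gcd_comm c b] at r2
      rw [← w1] at r1
      rw [← w2] at r2
      exact ⟨r1.1, r1.2, r2.1, r2.2⟩
    obtain ⟨l1, l2, l3, l4⟩ := W hb0 hc0 hl0 D0 ez0 ez0'
    refine ⟨[datOf P.γ T0 f0 f0' (upp X q) (upp X q') (low X q) (low X q')], by simp, ?_, ?_⟩
    · intro d hd
      rw [List.mem_singleton] at hd
      subst hd
      refine ok_datOf _ _ hT0p (low_pos _ _) (low_pos _ _) ?_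
      rw [l1, l3]
      have h1 : (LBxx500.tw F P y t0 b0 c0 f0 f0' : ℝ) ≤ 2 * 2 ^ x.j := by
        exact_mod_cast B0.tb'.le
      have h2 : (LBxx500.tw F P y t0 c0 b0 f0' f0 : ℝ) ≤ 2 * 2 ^ x.j' := by
        exact_mod_cast B0.tc'.le
      calc (LBxx500.tw F P y t0 b0 c0 f0 f0' : ℝ) * LBxx500.tw F P y t0 c0 b0 f0' f0 ≤
          (2 * 2 ^ x.j) * (2 * 2 ^ x.j') :=
            mul_le_mul h1 h2 (Nat.cast_nonneg _) (by positivity)
        _ = 4 * 2 ^ (x.j + x.j') := by rw [pow_add]; ring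
    · intro u v _ _ _ _ _ hQ
      obtain ⟨b, c, h, t, f, f', p, hb, hc, hl, D, ez, ez', ea, ea', ei, eu, ev⟩ := hQ
      have B := bxL_of hC.Ym hC.be hl D
      refine ⟨_, List.mem_singleton_self _, ?_⟩
      -- the points agree
      have hf : f0 = f := f_eq H hb0 hb B0 B (ez0.trans ez.symm) ea0 ei0 ea ei
      have hf' : f0' = f' := by
        refine f_eq H hc0 hc (bxL_swap hb0 hc0 B0) (bxL_swap hb hc B) (ez0'.trans ez'.symm)
          (a := a') (i := i) ?_ ?_ ?_ ?_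
        · rw [Nat.gcd_comm (low _ c0)]; exact ea0'
        · rw [Nat.gcd_comm (low _ c0)]; exact ei0
        · rw [Nat.gcd_comm (low _ c)]; exact ea'
        · rw [Nat.gcd_comm (low _ c)]; exact ei
      subst hf; subst hf'
      obtain ⟨m1, m2, m3, m4⟩ := W hb hc hl D ez ez'
      obtain ⟨g1, g2, g3, g4, g5, g6⟩ := cut_facts H.hM hb hc y
      have hg0 : 0 < Nat.gcd b c := Nat.gcd_pos_of_pos_left _ (Nat.pos_of_dvd_of_pos hb H.hM)
      -- the window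
      have eg : (Nat.gcd b c : ℝ) = (low y (Nat.gcd b c) : ℝ) * (Nat.gcd z z' : ℕ) := by
        have h1 := low_mul_upp y hg0.ne'
        rw [← g2, ez, ez'] at h1
        exact_mod_cast h1.symm
      have ei' : Nat.log 2 (low y (Nat.gcd b c)) = i := by
        rw [← g1]; exact ei
      have hlow := low_pos y (Nat.gcd b c)
      have i1' : (2 : ℝ) ^ i ≤ low y (Nat.gcd b c) := by
        have : 2 ^ i ≤ low y (Nat.gcd b c) := by
          rw [← ei']; exact Nat.pow_log_le_self 2 hlow.ne'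
        exact_mod_cast this
      have i2' : (low y (Nat.gcd b c) : ℝ) ≤ 2 * 2 ^ i := by
        have : low y (Nat.gcd b c) < 2 ^ (i + 1) := by
          rw [← ei']; exact Nat.lt_pow_succ_log_self (by norm_num) _
        have h2 : (low y (Nat.gcd b c) : ℝ) ≤ 2 ^ (i + 1) := by exact_mod_cast this.le
        rwa [pow_succ, mul_comm] at h2
      have hgR : (0 : ℝ) ≤ (Nat.gcd z z' : ℕ) := Nat.cast_nonneg _
      have t1 : T0 ≤ (Nat.gcd b c : ℕ) / P.L := by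
        rw [hT0, eg]
        exact div_le_div_of_nonneg_right (mul_le_mul_of_nonneg_right i1' hgR) H.hL.le
      have t2 : ((Nat.gcd b c : ℕ) : ℝ) / P.L ≤ 2 * T0 := by
        rw [hT0, eg, ← mul_div_assoc]
        refine div_le_div_of_nonneg_right ?_ H.hL.le
        calc (low y (Nat.gcd b c) : ℝ) * (Nat.gcd z z' : ℕ) ≤ 2 * 2 ^ i * (Nat.gcd z z' : ℕ) :=
              mul_le_mul_of_nonneg_right i2' hgR
          _ = _ := by ring
      have hr := rel_of H hb hc B (by positivity) hT0p t1 t2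
      rw [← m1, ← m2, ← m3, ← m4] at hr
      have hu : u = low y (b / Nat.gcd b c) := eu.trans g3
      have hv : v = low y (c / Nat.gcd b c) := ev.trans g4
      rw [hu, hv]
      exact hr
  · refine ⟨[], by simp, by simp, fun u v _ _ _ _ _ hQ => absurd ⟨u, v, hQ⟩ hex⟩

/-! ### the density -/

lemma dens_le_one {N : ℕ} (hN : 0 < N) (Q : ℕ → ℕ → Prop) : MXlowx808.dens N (KQ Q) ≤ 1 := by
  classical
  unfold MXlowx808.dens
  calc ∑ s ∈ N.divisors, ∑ t ∈ N.divisors,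
        (if Nat.Coprime s t then nu N s * nu N t * KQ Q s t else 0)
      ≤ ∑ s ∈ N.divisors, ∑ t ∈ N.divisors, nu N s * nu N t := by
        refine sum_le_sum fun s _ => sum_le_sum fun t _ => ?_
        have h1 : 0 ≤ nu N s * nu N t := mul_nonneg (nu_nonneg _ _) (nu_nonneg _ _)
        split_ifs
        · exact mul_le_of_le_one_right h1 (KQ_le_one Q s t)
        · exact h1
    _ = (∑ s ∈ N.divisors, nu N s) * ∑ t ∈ N.divisors, nu N t := by rw [sum_mul_sum]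
    _ = 1 := by rw [sum_nu hN, mul_one]

lemma tau_le (j n n' : ℕ) : tau 1 (4 * 2 ^ j) (max (2 ^ n) (2 ^ n') / 2) (PP (2 ^ n) (2 ^ n')) ≤
    256 * ((2 : ℝ) ^ j * ((2 : ℝ) ^ max n n') ^ (-(1 : ℝ) / 3)) := by
  have hmx : max ((2 : ℝ) ^ n) (2 ^ n') = 2 ^ max n n' := by
    rcases le_total n n' with h | h
    · rw [max_eq_right h, max_eq_right (pow_le_pow_right₀ (by norm_num) h)]
    · rw [max_eq_left h, max_eq_left (pow_le_pow_right₀ (by norm_num) h)]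
  unfold tau PP
  rw [hmx]
  set T : ℝ := 2 ^ max n n' with hT
  have hT1 : 1 ≤ T := one_le_pow₀ (by norm_num)
  have hT0 : 0 < T := by linarith
  have e1 : (T / 128) ^ (1 / 3 : ℝ) = T ^ (1 / 3 : ℝ) / (128 : ℝ) ^ (1 / 3 : ℝ) :=
    Real.div_rpow hT0.le (by norm_num) _
  have h128 : (128 : ℝ) ^ (1 / 3 : ℝ) ≤ 8 := by
    calc (128 : ℝ) ^ (1 / 3 : ℝ) ≤ (512 : ℝ) ^ (1 / 3 : ℝ) :=
          Real.rpow_le_rpow (by norm_num) (by norm_num) (by norm_num)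
      _ = 8 := by
          rw [show (512 : ℝ) = 8 ^ (3 : ℕ) by norm_num, ← Real.rpow_natCast,
            ← Real.rpow_mul (by norm_num)]
          norm_num
  have hT3 : 0 < T ^ (1 / 3 : ℝ) := Real.rpow_pos_of_pos hT0 _
  have e2 : T ^ (-(1 : ℝ) / 3) = (T ^ (1 / 3 : ℝ))⁻¹ := by
    rw [← Real.rpow_neg hT0.le]
    congr 1
    ring
  have e3 : 4 / (T / 128) ^ (1 / 3 : ℝ) ≤ 32 * T ^ (-(1 : ℝ) / 3) := by
    rw [e1, e2, div_div_eq_mul_div, div_eq_mul_inv]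
    refine mul_le_mul_of_nonneg_right ?_ (inv_nonneg.2 hT3.le)
    linarith
  have e4 : 16 / (T / 2) ≤ 32 * T ^ (-(1 : ℝ) / 3) := by
    have h1 : T ^ (1 / 3 : ℝ) ≤ T := by
      calc T ^ (1 / 3 : ℝ) ≤ T ^ (1 : ℝ) :=
            Real.rpow_le_rpow_of_exponent_le hT1 (by norm_num)
        _ = T := Real.rpow_one T
    rw [e2, div_div_eq_mul_div, div_eq_mul_inv]
    have h2 : T⁻¹ ≤ (T ^ (1 / 3 : ℝ))⁻¹ := inv_anti₀ hT3 h1
    calc 16 * 2 * T⁻¹ ≤ 16 * 2 * (T ^ (1 / 3 : ℝ))⁻¹ := mul_le_mul_of_nonneg_left h2 (by norm_num)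
      _ = _ := by ring
  have h2j : (0 : ℝ) < 2 ^ j := by positivity
  push_cast
  calc (1 : ℝ) * (4 * 2 ^ j) * (4 / (T / 128) ^ (1 / 3 : ℝ) + 16 / (T / 2))
      ≤ 1 * (4 * 2 ^ j) * (32 * T ^ (-(1 : ℝ) / 3) + 32 * T ^ (-(1 : ℝ) / 3)) :=
        mul_le_mul_of_nonneg_left (add_le_add e3 e4) (by positivity)
    _ = _ := by ring

/-- **the density of a box** -/
theorem dens_QL {jB : ℕ → ℕ} {j0 : ℕ} (H : HyB M P jB j0) (hC : HyC P) (hY : ∀ v, P.Y v = 2 ^ v)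
    (w : ℕ → ℝ) (δ : ℝ) (x : Bx) (a a' i z z' : ℕ) :
    MXlowx808.dens (low (P.Y x.v) M) (KQ (QL F P w δ jB x a a' i z z')) ≤
      (c14 * 36 * 256) * tauB x := by
  have hc14 := c14_ge
  set r : ℝ := (2 : ℝ) ^ (x.j + x.j') * ((2 : ℝ) ^ x.mx) ^ (-(1 : ℝ) / 3) with hr
  set Pl : ℝ := (1 + ((x.v : ℝ) + 1) * ((x.mx : ℝ) + 1)) ^ 2 with hPl
  have hb1 : (1 : ℝ) ≤ 1 + ((x.v : ℝ) + 1) * ((x.mx : ℝ) + 1) := by
    have : (0 : ℝ) ≤ ((x.v : ℝ) + 1) * ((x.mx : ℝ) + 1) := by positivity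
    linarith
  have hPl1 : 1 ≤ Pl := one_le_pow₀ hb1
  have hT0 : (0 : ℝ) < 2 ^ x.mx := by positivity
  have hr0 : 0 < r := mul_pos (by positivity) (Real.rpow_pos_of_pos hT0 _)
  have etB : tauB x = min 1 (Pl * r) := rfl
  have hd1 := dens_le_one (low_pos (P.Y x.v) M) (QL F P w δ jB x a a' i z z')
  rw [etB]
  have hPlr : r ≤ Pl * r := le_mul_of_one_le_left hr0.le hPl1
  by_cases hbig : 1 ≤ 256 * r
  · refine hd1.trans ?_
    have h1 : 1 / 256 ≤ min 1 (Pl * r) := le_min (by norm_num) (by linarith)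
    nlinarith
  · push Not at hbig
    set τ : ℝ := 256 * r with hτ
    have hτ0 : 0 < τ := by positivity
    -- the cut `y' = max 8 y`
    set y' : ℕ := max 8 (P.Y x.v) with hy'
    have hup : upp y' (low (P.Y x.v) M) = 1 := by
      refine upp_one_of fun p hp hd => ?_
      have h1 : p ≤ P.Y x.v := prime_dvd_part (fun p => p ≤ P.Y x.v) hp hd
      exact h1.trans (le_max_right _ _)
    have hK0 : (0 : ℝ) < max (2 ^ x.n) (2 ^ x.n') / 2 := by positivity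
    have hP0 : 0 < PP ((2 : ℝ) ^ x.n) (2 ^ x.n') := by
      unfold PP
      exact Real.rpow_pos_of_pos (by positivity) _
    have h1 := dens_same (M := low (P.Y x.v) M) (y := y') (N := 1) (R := 4 * 2 ^ (x.j + x.j'))
      (K := max (2 ^ x.n) (2 ^ x.n') / 2) (P := PP (2 ^ x.n) (2 ^ x.n')) (τ := τ)
      (Q := QL F P w δ jB x a a' i z z') (low_pos _ _) (le_max_left _ _) hup (by positivity)
      hK0 hP0 (cov_QL H hC w δ x a a' i z z') hτ0 hbig.le (tau_le _ _ _)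
    -- the logarithms
    have hlog2 : 0 < Real.log 2 := Real.log_pos (by norm_num)
    have hlog2' : Real.log 2 ≤ 1 := by linarith [Real.log_two_lt_d9]
    have hly : Real.log y' ≤ (x.v : ℝ) + 3 := by
      have h2 : (y' : ℝ) ≤ 2 ^ (x.v + 3) := by
        have h3 : y' ≤ 2 ^ (x.v + 3) := by
          rw [hy', hY]
          refine max_le ?_ (Nat.pow_le_pow_right (by norm_num) (by omega))
          calc 8 = 2 ^ 3 := by norm_num
            _ ≤ _ := Nat.pow_le_pow_right (by norm_num) (by omega)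
        exact_mod_cast h3
      have h3 : (0 : ℝ) < y' := by
        have : 8 ≤ y' := le_max_left _ _
        have : (8 : ℝ) ≤ y' := by exact_mod_cast this
        linarith
      calc Real.log y' ≤ Real.log (2 ^ (x.v + 3)) := Real.log_le_log h3 h2
        _ = (x.v + 3) * Real.log 2 := by rw [Real.log_pow]; push_cast; ring
        _ ≤ (x.v + 3) * 1 := mul_le_mul_of_nonneg_left hlog2' (by positivity)
        _ = _ := mul_one _
    have hly0 : 0 ≤ Real.log y' := by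
      refine Real.log_nonneg ?_
      have : 8 ≤ y' := le_max_left _ _
      have : (8 : ℝ) ≤ y' := by exact_mod_cast this
      linarith
    have hlt : Real.log (1 / τ) ≤ x.mx := by
      have h2 : ((2 : ℝ) ^ x.mx) ^ (-(1 : ℝ) / 3) ≤ τ := by
        have h3 : (1 : ℝ) ≤ 2 ^ (x.j + x.j') := one_le_pow₀ (by norm_num)
        have h4 : 0 < ((2 : ℝ) ^ x.mx) ^ (-(1 : ℝ) / 3) := Real.rpow_pos_of_pos hT0 _
        have h5 : ((2 : ℝ) ^ x.mx) ^ (-(1 : ℝ) / 3) ≤ r := le_mul_of_one_le_left h4.le h3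
        rw [hτ]
        linarith
      have h3 : 1 / τ ≤ ((2 : ℝ) ^ x.mx) ^ ((1 : ℝ) / 3) := by
        have e : ((2 : ℝ) ^ x.mx) ^ ((1 : ℝ) / 3) = (((2 : ℝ) ^ x.mx) ^ (-(1 : ℝ) / 3))⁻¹ := by
          rw [← Real.rpow_neg hT0.le]
          congr 1
          ring
        rw [e, one_div]
        exact inv_anti₀ (Real.rpow_pos_of_pos hT0 _) h2
      calc Real.log (1 / τ) ≤ Real.log (((2 : ℝ) ^ x.mx) ^ ((1 : ℝ) / 3)) :=
            Real.log_le_log (by positivity) h3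
        _ = 1 / 3 * (x.mx * Real.log 2) := by rw [Real.log_rpow hT0, Real.log_pow]
        _ ≤ 1 * (x.mx * 1) := by
            refine mul_le_mul (by norm_num) (mul_le_mul_of_nonneg_left hlog2' (Nat.cast_nonneg _))
              (by positivity) (by norm_num)
        _ = _ := by ring
    have hlt0 : 0 ≤ Real.log (1 / τ) := Real.log_nonneg (by
      rw [le_div_iff₀ hτ0, one_mul]; exact hbig.le)
    have hv0 : (0 : ℝ) ≤ x.v := Nat.cast_nonneg _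
    have hm0 : (0 : ℝ) ≤ x.mx := Nat.cast_nonneg _
    have hlin : 1 + 2 * Real.log y' * Real.log (1 / τ) ≤
        6 * (1 + ((x.v : ℝ) + 1) * ((x.mx : ℝ) + 1)) := by
      have h2 : Real.log y' * Real.log (1 / τ) ≤ ((x.v : ℝ) + 3) * x.mx :=
        mul_le_mul hly hlt hlt0 (by positivity)
      nlinarith
    have hlin0 : 0 ≤ 1 + 2 * Real.log y' * Real.log (1 / τ) := by positivity
    have hsq : (1 + 2 * Real.log y' * Real.log (1 / τ)) ^ 2 ≤ 36 * Pl := by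
      calc _ ≤ (6 * (1 + ((x.v : ℝ) + 1) * ((x.mx : ℝ) + 1))) ^ 2 :=
            pow_le_pow_left₀ hlin0 hlin 2
        _ = 36 * Pl := by rw [hPl]; ring
    have h2 : MXlowx808.dens (low (P.Y x.v) M) (KQ (QL F P w δ jB x a a' i z z')) ≤
        (c14 * 36 * 256) * (Pl * r) := by
      refine h1.trans ?_
      calc c14 * ((1 + 2 * Real.log y' * Real.log (1 / τ)) ^ 2 * τ) ≤
          c14 * ((36 * Pl) * τ) :=
            mul_le_mul_of_nonneg_left (mul_le_mul_of_nonneg_right hsq hτ0.le) (by linarith)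
        _ = _ := by rw [hτ]; ring
    rcases min_choice 1 (Pl * r) with e | e
    · rw [e]
      refine hd1.trans ?_
      nlinarith
    · rw [e]
      exact h2

/-! ### `TgtB` -/

open Crest.Agent.R4C.Spinex946 Crest.Agent.R4C.LNumPx817

lemma hyC (cp : ℝ) {A : ℕ} (hA : 1 ≤ A) (m0 : ℕ) (γ L : ℝ) (M : ℕ) (B : Finset ℕ) :
    HyC (ParOf cp A m0 γ L M B) where
  Ym := fun i j hij => Nat.pow_lt_pow_right (by norm_num) hij
  be := fun m => ⟨A * m, rfl⟩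
  ge := fun m => Nat.pow_le_pow_right (by norm_num) (Nat.le_mul_of_pos_left m hA)

/-- **TARGET B** -/
theorem tgtB (γ : ℝ) : TgtB γ := by
  refine ((hyB 1).and Ev.basic).mono ?_
  rintro cp η A m0 ⟨h1, h2⟩
  have hc14 := c14_ge
  refine ⟨c14 * 36 * 256, by linarith, fun L M B F S x a a' i z z' _ _ => ?_⟩
  exact dens_QL (h1 γ L M B F S) (hyC cp h2.2.2.2.2.2.1 m0 γ L M B) (fun _ => rfl) _ _ x a a' i z z'

end Crest.Agent.R4C.LDensx217
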