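import Crest.Agent.R4C.Cut_50

/-!
# HEAVY LEMMA (note 2581(2), helper971) and MONOTONICITY (2581(3)) for divisors of arbitrary `M`
(helper50)

For `b ∣ M` let `x₀(b)` be the highest cut `x ≤ N` with node mass `E[f | upper part] ≥ a₁`
(`Fst`).  All pairs `(b, c)` with `gcd (upp x₀ b) c ≤ Y` cost
`≤ C X^η Y^(1-η) a₁^(-(1-η)/2) (E f) (E f')^((1+η)/2)` at scale `gcd ~ X`.
-/

namespace Crest.Agent.R4C.HeavyLx50

open Finset Crest.Agent.R4C.Basex935 Crest.Agent.R4C.Cutx50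

/-- stop at the highest cut `x ≤ N` at which `S x (upp x b)` holds -/
def Fst (S : ℕ → ℕ → Prop) (N x b : ℕ) : Prop :=
  S x (upp x b) ∧ ∀ y, x < y → y ≤ N → ¬ S y (upp y b)

lemma Fst_upp {S : ℕ → ℕ → Prop} {N x b : ℕ} : Fst S N x (upp x b) ↔ Fst S N x b := by
  unfold Fst
  rw [upp_upp le_rfl]
  constructor
  · rintro ⟨h1, h2⟩
    refine ⟨h1, fun y hy hN => ?_⟩
    have := h2 y hy hN
    rwa [upp_upp hy.le] at this
  · rintro ⟨h1, h2⟩
    refine ⟨h1, fun y hy hN => ?_⟩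
    rw [upp_upp hy.le]
    exact h2 y hy hN

lemma Fst_unique {S : ℕ → ℕ → Prop} {N x y b : ℕ} (hx : x ≤ N) (hy : y ≤ N)
    (h1 : Fst S N x b) (h2 : Fst S N y b) : x = y := by
  rcases lt_trichotomy x y with h | h | h
  · exact absurd h2.1 (h1.2 y h hy)
  · exact h
  · exact absurd h1.1 (h2.2 x h hx)

lemma Fst_exists {S : ℕ → ℕ → Prop} {N x b : ℕ} (hx : x ≤ N) (h : S x (upp x b)) :
    ∃ y, x ≤ y ∧ y ≤ N ∧ Fst S N y b := by
  classical
  refine ⟨Nat.findGreatest (fun y => S y (upp y b)) N, Nat.le_findGreatest hx h,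
    Nat.findGreatest_le N, ?_, ?_⟩
  · exact Nat.findGreatest_spec (P := fun y => S y (upp y b)) hx h
  · intro y hy hN
    exact Nat.findGreatest_is_greatest (P := fun y => S y (upp y b)) hy hN

open Classical in
lemma sum_Fst_le (S : ℕ → ℕ → Prop) (N b : ℕ) :
    ∑ x ∈ range (N + 1), (if Fst S N x b then (1 : ℝ) else 0) ≤ 1 := by
  by_cases h : ∃ x ≤ N, Fst S N x b
  · obtain ⟨x, hx, hF⟩ := h
    rw [Finset.sum_eq_single x]
    · split_ifs
      norm_num
    · intro y hy hne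
      rw [Finset.mem_range] at hy
      rw [if_neg]
      intro hF'
      exact hne (Fst_unique (by omega) hx hF' hF)
    · intro h
      exact absurd (Finset.mem_range.2 (by omega)) h
  · push Not at h
    rw [Finset.sum_eq_zero]
    · norm_num
    · intro x hx
      rw [Finset.mem_range] at hx
      rw [if_neg (h x (by omega))]

open Classical in
/-- **antichain sum**: stopped nodes have total mass at most the mass of the root -/
theorem antichain {M : ℕ} (hM : 0 < M) (S : ℕ → ℕ → Prop) (N : ℕ) {G : ℕ → ℝ}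
    (hG : ∀ b, 0 ≤ G b) :
    ∑ x ∈ range (N + 1), Ex (upp x M) (fun T => if Fst S N x T then mass M G x T else 0) ≤
      Ex M G := by
  have h1 : ∀ x ∈ range (N + 1),
      Ex (upp x M) (fun T => if Fst S N x T then mass M G x T else 0) =
        Ex M (fun b => (if Fst S N x b then (1 : ℝ) else 0) * G b) := by
    intro x _
    have := Ex_cut' hM x G (fun T => if Fst S N x T then (1 : ℝ) else 0)
    simp only [Fst_upp] at this
    rw [this]
    unfold Ex
    refine Finset.sum_congr rfl fun T _ => ?_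
    beta_reduce
    split_ifs <;> simp
  rw [Finset.sum_congr rfl h1]
  unfold Ex
  rw [Finset.sum_comm]
  refine Finset.sum_le_sum fun b _ => ?_
  rw [← Finset.mul_sum, ← Finset.sum_mul]
  refine mul_le_mul_of_nonneg_left ?_ (nu_nonneg _ _)
  have := sum_Fst_le S N b
  nlinarith [hG b]



lemma Ex_mass {M : ℕ} (hM : 0 < M) (x : ℕ) (f : ℕ → ℝ) :
    Ex (upp x M) (fun T => mass M f x T) = Ex M f := (Ex_cut hM x f).symm



lemma frm_sum {ι : Type*} (s : Finset ι) (M : ℕ) (F : ι → ℕ → ℕ → ℝ) :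
    ∑ x ∈ s, frm M (F x) = frm M (fun b c => ∑ x ∈ s, F x b c) := by
  unfold frm
  rw [Finset.sum_comm]
  refine Finset.sum_congr rfl fun b _ => ?_
  rw [Finset.sum_comm]
  refine Finset.sum_congr rfl fun c _ => ?_
  rw [Finset.mul_sum]

lemma frm_mono {M : ℕ} {F G : ℕ → ℕ → ℝ} (h : ∀ b c, b ∣ M → c ∣ M → F b c ≤ G b c) :
    frm M F ≤ frm M G := by
  unfold frm
  refine Finset.sum_le_sum fun b hb => Finset.sum_le_sum fun c hc => ?_
  exact mul_le_mul_of_nonneg_left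
    (h b c (Nat.dvd_of_mem_divisors hb) (Nat.dvd_of_mem_divisors hc))
    (mul_nonneg (mul_nonneg (Nat.cast_nonneg _) (nu_nonneg _ _)) (nu_nonneg _ _))

lemma frm_congr {M : ℕ} {F G : ℕ → ℕ → ℝ} (h : ∀ b c, b ∣ M → c ∣ M → F b c = G b c) :
    frm M F = frm M G := by
  unfold frm
  refine Finset.sum_congr rfl fun b hb => Finset.sum_congr rfl fun c hc => ?_
  rw [h b c (Nat.dvd_of_mem_divisors hb) (Nat.dvd_of_mem_divisors hc)]

lemma gcd_upp {M x n' T T' : ℕ} (hT : T ∣ upp x M) (hn' : n' ∣ low x M) :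
    Nat.gcd T (n' * T') = Nat.gcd T T' := by
  have h : Nat.Coprime n' T := coprime_of_dvd _ hn' hT
  exact Nat.Coprime.gcd_mul_left_cancel_right T' h


/-- symmetry of the pair form -/
lemma frm_swap (M : ℕ) (F : ℕ → ℕ → ℝ) : frm M (fun b c => F c b) = frm M F := by
  unfold frm
  rw [Finset.sum_comm]
  refine Finset.sum_congr rfl fun b _ => Finset.sum_congr rfl fun c _ => ?_
  rw [Nat.gcd_comm]
  ring

lemma gcd_nodes {M x n n' T T' : ℕ} (hn : n ∣ low x M) (hT : T ∣ upp x M)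
    (hn' : n' ∣ low x M) (hT' : T' ∣ upp x M) :
    Nat.gcd (n * T) (n' * T') = Nat.gcd n n' * Nat.gcd T T' :=
  gcd_cut _ hn hT hn' hT'

open Classical in
/-- node estimate from the exact-gcd bilinear bound in the primes `≤ x` -/
theorem node_of_hvw {M : ℕ} {η κ C X Y : ℝ} (hη1 : η ≤ 1)
    (hC : 0 ≤ C) (hX : 0 < X) {f f' : ℕ → ℝ}
    (hf : ∀ b, 0 ≤ f b ∧ f b ≤ 1) (hf' : ∀ b, 0 ≤ f' b ∧ f' b ≤ 1)
    (HVW : ∀ M' : ℕ, M' ∣ M → ∀ f f' : ℕ → ℝ, (∀ b, 0 ≤ f b ∧ f b ≤ 1) →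
      (∀ b, 0 ≤ f' b ∧ f' b ≤ 1) → ∀ X : ℝ, 0 < X →
      frm M' (fun b c => if X ≤ (Nat.gcd b c : ℝ) ∧ (Nat.gcd b c : ℝ) < κ * X
        then f b * f' c else 0) ≤ C * X ^ η * (Ex M' f * Ex M' f') ^ ((1 + η) / 2))
    (x T T' : ℕ) (hT : T ∣ upp x M) (hT' : T' ∣ upp x M) (hY : (Nat.gcd T T' : ℝ) ≤ Y) :
    (Nat.gcd T T' : ℝ) * frm (low x M) (fun n n' =>
        if X ≤ (Nat.gcd (n * T) (n' * T') : ℝ) ∧ (Nat.gcd (n * T) (n' * T') : ℝ) < κ * X
          then f (n * T) * f' (n' * T') else 0) ≤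
      (C * X ^ η * Y ^ (1 - η)) * (mass M f x T * mass M f' x T') ^ ((1 + η) / 2) := by
  have hg0 : 0 < Nat.gcd T T' := Nat.gcd_pos_of_pos_left _ (Nat.pos_of_dvd_of_pos hT (upp_pos x M))
  have hg : (0 : ℝ) < (Nat.gcd T T' : ℝ) := by exact_mod_cast hg0
  set g : ℝ := (Nat.gcd T T' : ℝ) with hgdef
  have e1 : frm (low x M) (fun n n' =>
        if X ≤ (Nat.gcd (n * T) (n' * T') : ℝ) ∧ (Nat.gcd (n * T) (n' * T') : ℝ) < κ * X
          then f (n * T) * f' (n' * T') else 0) =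
      frm (low x M) (fun n n' => if X / g ≤ (Nat.gcd n n' : ℝ) ∧
        (Nat.gcd n n' : ℝ) < κ * (X / g) then f (n * T) * f' (n' * T') else 0) := by
    refine frm_congr fun n n' hn hn' => ?_
    rw [gcd_nodes hn hT hn' hT']
    push_cast
    rw [← hgdef]
    have i1 : (X ≤ (Nat.gcd n n' : ℝ) * g) ↔ (X / g ≤ (Nat.gcd n n' : ℝ)) :=
      (div_le_iff₀ hg).symm
    have i2 : ((Nat.gcd n n' : ℝ) * g < κ * X) ↔ ((Nat.gcd n n' : ℝ) < κ * (X / g)) := by
      rw [← mul_div_assoc, lt_div_iff₀ hg]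
    simp only [i1, i2]
  rw [e1]
  have h1 := HVW (low x M) (low_dvd_self x M) (fun n => f (n * T)) (fun n => f' (n * T'))
    (fun b => hf _) (fun b => hf' _) (X / g) (div_pos hX hg)
  have h2 : g * (C * (X / g) ^ η) ≤ C * X ^ η * Y ^ (1 - η) := by
    have h3 : g * (C * (X / g) ^ η) = C * X ^ η * g ^ (1 - η) := by
      rw [Real.div_rpow hX.le hg.le, Real.rpow_sub hg, Real.rpow_one]
      field_simp
    rw [h3]
    exact mul_le_mul_of_nonneg_left (Real.rpow_le_rpow hg.le hY (by linarith))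
      (mul_nonneg hC (Real.rpow_nonneg hX.le _))
  have h4 : 0 ≤ (mass M f x T * mass M f' x T') ^ ((1 + η) / 2) :=
    Real.rpow_nonneg (mul_nonneg (mass_nonneg _ (fun b => (hf b).1) _ _)
      (mass_nonneg _ (fun b => (hf' b).1) _ _)) _
  calc g * frm (low x M) (fun n n' => if X / g ≤ (Nat.gcd n n' : ℝ) ∧
        (Nat.gcd n n' : ℝ) < κ * (X / g) then f (n * T) * f' (n' * T') else 0)
      ≤ g * (C * (X / g) ^ η * (mass M f x T * mass M f' x T') ^ ((1 + η) / 2)) :=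
        mul_le_mul_of_nonneg_left h1 hg.le
    _ = (g * (C * (X / g) ^ η)) * (mass M f x T * mass M f' x T') ^ ((1 + η) / 2) := by ring
    _ ≤ _ := mul_le_mul_of_nonneg_right h2 h4



/-! ### Monotonicity (2581(3)) -/


end Crest.Agent.R4C.HeavyLx50
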