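import Crest.Agent.R4C.ClsBadX_14
import Crest.Agent.R4C.LBoxDef_662
import Crest.Agent.R4C.LArrUK_11_Mg
import Crest.Agent.R4C.LDens_217_Mg
import Crest.Agent.R4C.BoxKit_179
import Crest.Agent.R4C.HyBOf_11
import Crest.Agent.R4C.Cover_946
import Crest.Agent.R4C.LArrA_500
import Crest.Agent.R4C.ArrC_7
import Crest.Agent.R4C.BoxW_899
import Crest.Agent.R4C.VecNPj_50
import Mathlib.NumberTheory.EulerProduct.Basic
import Crest.Agent.R4C.LowL_899
import Crest.Agent.R4C.LDec_500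
import Crest.Agent.R4C.SamePt_217
import Crest.Agent.R4C.LBst_208
import Crest.Agent.R4C.ClsHvy_281
import Crest.Agent.R4C.GWasm_982
import Crest.Agent.R4C.GWinst_982
import Crest.Agent.R4C.GWcell_284
import Crest.Agent.R4C.GWnode_863
import Crest.Agent.R4C.KyPure_971
import Crest.Agent.R4C.BoostAl_100
import Crest.Agent.R4C.PureCls_863
import Crest.Agent.Lib.Mertens
import Crest.Agent.R4C.Budget_966
import Crest.Agent.R4C.DomPc_284
import Crest.Agent.R4C.ClsNear_350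
import Crest.Agent.R4C.ClsBad_250
import Crest.Agent.R4C.ClsUD_208_Mg
import Crest.Agent.R4C.ClsDomN_52_Mg

-- ▼ part R4C/TgtX_14
section

/-!
# Row 4, class (L): arrow X of `LBoxDef_662` (helper14)
-/

set_option autoImplicit false

namespace Crest.Agent.R4C.TgtXx14

open Crest.Agent.R4C.FLDefx935 Crest.Agent.R4C.Rulex945 Crest.Agent.R4C.Spinex946
  Crest.Agent.R4C.ClsBadXx14

/-- **target X**: pairs of class (L) which are not good at the block start -/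
theorem tgtX (γ : ℝ) : LBoxDefx662.TgtX γ := by
  refine clsOK_of_imp (clsBadXj_ok γ) ?_
  rintro cp η A m0 L M B F b c h hL ⟨t, h1, h2, h3, h4, h5, h6⟩
  have hle : (2 : ℕ) ^ (A * t) ≤ 2 ^ (A * (2 * t)) :=
    Nat.pow_le_pow_right (by norm_num) (Nat.mul_le_mul_left _ (by omega))
  refine ⟨t, h1, h2, FL.good_mono hle h3, h4, h5, ?_⟩
  have h7 : (((ParOf cp A m0 γ L M B).cut t : ℕ) : ℝ) ≤ ((2 ^ (A * (2 * t)) : ℕ) : ℝ) := by
    exact_mod_cast hle
  exact h6.le.trans h7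

end Crest.Agent.R4C.TgtXx14
end

-- ▼ part R4C/ClsLow_662
section

/-!
# Row 4: CLASS (L) TOTAL, composition (helper662)

* `cls_bx` : the pairs of the boxes, light member `b`: `ClsOK` from the arrows A, B, C, D, U;
* `CHvy_symm`, `cls_bx'` : the mirror image;
* **`cls_low_of`** : `ClsOK γ (nH γ (cLow γ))` from the arrows A, B, C, D, U, K, S;
* **`cls_low_CDS`** : the same, with the landed arrows A (500), B (217), U, K (11) plugged in.
-/

set_option autoImplicit false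

open Finset

namespace Crest.Agent.R4C.ClsLowx662

open Crest.Agent.R4C.Basex935 Crest.Agent.R4C.Cutx50 Crest.Agent.R4C.FLDefx935
  Crest.Agent.R4C.Rulex945 Crest.Agent.R4C.Splitx945 Crest.Agent.R4C.Bridgex882
  Crest.Agent.R4C.LBoxDefx662 Crest.Agent.R4C.LBoxSetx662 Crest.Agent.R4C.Spinex946
  Crest.Agent.R4C.LNumx251 Crest.Agent.R4C.BoxKitx179 Crest.Agent.R4C.Coverx946
open Crest.Agent.R4C.FLExx326 (ind)
open Crest.Agent.R4C.LCovBx11 (AlLe_symm X1_symm Lnk_symm)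

/-- the pairs of the boxes, light member `b` -/
def cBx (γ : ℝ) : Cls := fun cp _ A m0 L M B F b c h =>
  ¬ CHvy F (ParOf cp A m0 γ L M B) (ind B) (1 / 20) b c h ∧
    ∃ (x : Bx) (t : ℕ) (f f' : ℚ) (p : ℕ),
      LB F (ParOf cp A m0 γ L M B) (ind B) (1 / (4 * A)) (jBA A) x t b c h f f' p

/-- the mirror image of a class -/
def mir (R : Cls) : Cls := fun cp η A m0 L M B F b c h => R cp η A m0 L M B F c b (-h)

lemma mir_ok {γ : ℝ} {R : Cls} (h : ClsOK γ R) : ClsOK γ (mir R) := by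
  refine Ev.mono h ?_
  rintro cp η A m0 ⟨C, hC⟩
  refine ⟨C, fun L M B F S => ?_⟩
  have h1 := hC L M B F S
  rwa [EnRsymx350.EnR_symm] at h1

section hvy

variable {M : ℕ} {F : FL M} {P : Par}

/-- the heavy class is symmetric -/
lemma CHvy_symm {w : ℕ → ℝ} {ε : ℝ} {b c : ℕ} {h : ℤ} (hb : b ∣ M) (hc : c ∣ M)
    (H : CHvy F P w ε b c h) : CHvy F P w ε c b (-h) := by
  obtain ⟨t, h1, h2, h3, h4, h5, h6⟩ := H
  refine ⟨t, h1, FL.good_symm hb hc h2, AlLe_symm h3, ?_, ?_, h6.symm⟩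
  · rw [Nat.gcd_comm c b]; exact h4
  · rw [X1_symm]; exact h5

end hvy

lemma log_le (v : ℕ) : Real.log (max 8 (2 ^ v) : ℕ) ≤ 3 * ((v : ℝ) + 1) := by
  have hv : (0 : ℝ) ≤ v := Nat.cast_nonneg v
  have h2 : Real.log 2 ≤ 1 := by
    have := Real.log_two_lt_d9
    linarith
  have h20 : 0 ≤ Real.log 2 := Real.log_nonneg (by norm_num)
  rcases le_total 8 (2 ^ v) with h | h
  · rw [max_eq_right h]
    push_cast
    rw [Real.log_pow]
    nlinarith
  · rw [max_eq_left h]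
    have : Real.log ((8 : ℕ) : ℝ) = 3 * Real.log 2 := by
      rw [show ((8 : ℕ) : ℝ) = 2 ^ 3 by norm_num, Real.log_pow]
      norm_num
    rw [this]
    nlinarith

lemma ArrC.mono {M : ℕ} {F : FL M} {P : Par} {hM : 0 < M} {w : ℕ → ℝ} {δ : ℝ} {jB : ℕ → ℕ}
    {j0 : ℕ} {Hv : ℕ → ℕ → ℤ → Prop} {Nw Nw' : Bx → ℝ} (h : ∀ x, Nw x ≤ Nw' x)
    (H : ArrC F P hM w δ jB j0 Hv Nw) : ArrC F P hM w δ jB j0 Hv Nw' := by
  intro x a a' i
  obtain ⟨TT, XH, TT', XH', h1, h2, h3, h4, h5⟩ := H x a a' i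
  exact ⟨TT, XH, TT', XH', fun z => (h1 z).trans (h x), fun z => (h2 z).trans (h x),
    fun z => (h3 z).trans (h x), fun z => (h4 z).trans (h x), h5⟩

open Classical in
/-- **the pairs of the boxes** -/
theorem cls_bx (γ : ℝ) (hA : TgtA γ) (hB : TgtB γ) (hC : TgtC γ) (hD : TgtD γ) (hU : TgtU γ) :
    ClsOK γ (cBx γ) := by
  obtain ⟨k1, k2, k3, k4, k5, k6, k7, k8, k9⟩ := num_consts
  refine clsOK_of_boxes (ι := Bx) 1 ?_
  refine ((hA.and hB).and ((hC ep k6).and (hD.and (Ev.and hU Ev.basic)))).mono ?_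
  rintro cp η A m0 ⟨⟨hA, CB, hCB, hB⟩, ⟨CC, hCC, hC⟩, ⟨CD, hCD, hD⟩, hU, hcp, _, hη, _, hη1,
    hA1, hm0⟩
  obtain ⟨Bc, C, hBc, hC1, hbox⟩ := box_sets A k1 k2 k3 k4 k5 k6
  set CC' := max 1 CC with hCC'
  have hCC0 : 0 ≤ CC' := zero_le_one.trans (le_max_left _ _)
  obtain ⟨C2, hC2, hnum⟩ := num_low0 (B := Bc) hBc (C1 := C * CD * CB ^ ss) (C2 := CC') (C3 := 3)
    (C4 := 1) (by positivity) hCC0 (by norm_num) zero_le_one
  obtain ⟨C3, hC3, hsum⟩ := sum_Bx0 (Bc + 2) (4 * A) 0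
  refine ⟨C2 * C3, by positivity, fun x => x.v ≤ 4 * A * (x.mx + 1) ∧ x.j ≤ x.mx + 0 ∧
    x.j' ≤ x.mx + 0, fun x => C2 * Sum6x251.box ss (ep + ep + ep + 20 * (kp / (1 + kp))) (Bc + 2)
      x.mx x.v x.j x.j', fun x => mul_nonneg hC2 (Sum6x251.box_nonneg _ _ _ _ _ _ _), ?_, ?_⟩
  · intro T hT
    rw [← Finset.mul_sum]
    exact mul_le_mul_of_nonneg_left (hsum T hT) hC2
  intro L M B F S
  set P := ParOf cp A m0 γ L M B with hP
  refine ⟨fun x b c h => RB F P (ind B) (1 / (4 * A)) (jBA A) (CHvy F P (ind B) (1 / 20)) x b c h,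
    fun x b c => Ph F P (ind B) (1 / (4 * A)) (jBA A) (CHvy F P (ind B) (1 / 20)) x b c,
    fun x b c => Ph_nonneg _ _, ?_, ?_, ?_, ?_⟩
  · -- cover
    intro b hb c hc hne h hh hk hR
    obtain ⟨h0, x, t, f, f', p, h1⟩ := hR
    exact ⟨x, box_idx hA1 (fun i => rfl) h1, h0, t, f, f', p, h1⟩
  · -- one offset
    intro x hx b hb c hc hne h₁ hh₁ h₂ hh₂ hk₁ hk₂ hq₁ hq₂
    obtain ⟨_, t, f, f', p, h1⟩ := hq₁
    obtain ⟨_, t', g, g', p', h2⟩ := hq₂
    exact (hU L M B F S x b c t t' h₁ h₂ f f' g g' p p' (S.dvd hb) (S.dvd hc) h1 h2).2.2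
  · -- boost
    intro x hx b hb c hc hne h hh hk hq
    have h1 := oS_eq (F := F) (P := P) (w := ind B) (δ := 1 / (4 * A)) (jB := jBA A)
      (Hv := CHvy F P (ind B) (1 / 20)) (x := x) b c
    rw [← h1]
    unfold oS
    refine Finset.single_le_sum (f := fun h => boostB M (lamR F P) b c h)
      (fun h _ => boostB_nonneg _ _ _ _ _) ?_
    rw [Finset.mem_filter]
    exact ⟨hh, hk, hq⟩
  · -- sets
    intro x hx T T' hT hT'
    have h1 := hbox cp m0 γ L M S.hM B F (CHvy F P (ind B) (1 / 20))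
      (fun x => CC' * (x.N : ℝ) ^ ep) CB CD S.hB hCB.le hCD.le (hA L M B F S) (hB L M B F S)
      (ArrC.mono (fun x => mul_le_mul_of_nonneg_right (le_max_right _ _) (by positivity))
        (hC L M B F S)) (hD L M B F S) (hU L M B F S) x (by omega) (by omega) ?_ T T' hT hT'
    · have h2 : ∑ b ∈ T, ∑ c ∈ T', kerW γ L M (lamOf cp A m0 γ L M B F)
          (RB F P (ind B) (1 / (4 * A)) (jBA A) (CHvy F P (ind B) (1 / 20)) x)
          (Ph F P (ind B) (1 / (4 * A)) (jBA A) (CHvy F P (ind B) (1 / 20)) x) b c ≤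
          ∑ b ∈ T, ∑ c ∈ T', (Nat.gcd b c : ℝ) * nu M b * nu M c *
            Ph F P (ind B) (1 / (4 * A)) (jBA A) (CHvy F P (ind B) (1 / 20)) x b c := by
        refine Finset.sum_le_sum fun b _ => Finset.sum_le_sum fun c _ => ?_
        unfold kerW
        split_ifs
        · exact le_rfl
        · exact mul_nonneg (gn M b c) (Ph_nonneg _ _)
      have hS0 : 0 ≤ √((∑ b ∈ T, nu M b) * ∑ c ∈ T', nu M c) := Real.sqrt_nonneg _
      have hlog : 0 ≤ Real.log (max 8 (2 ^ x.v) : ℕ) := Real.log_natCast_nonneg _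
      have h3 := hnum x (((2 : ℝ) ^ (x.n + 1)) ^ 20)
        (((x.v : ℝ) + 1) ^ 2 * ((x.mx : ℝ) + 1) ^ 4 * (CC' * (x.N : ℝ) ^ ep))
        (Real.log (max 8 (2 ^ x.v) : ℕ)) (tauB x) (√((∑ b ∈ T, nu M b) * ∑ c ∈ T', nu M c))
        (by positivity) (by positivity) hlog (tauB_nonneg x) hS0 le_rfl (le_of_eq (by ring))
        (log_le x.v) (le_of_eq (by ring))
      have h4 : C * CD * CB ^ ((1 - th) ^ 2 / (rr * (1 + kp))) *
          bxc kp ep ((1 - th) ^ 2 / (rr * (1 + kp))) Bc x (CC' * (x.N : ℝ) ^ ep) *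
          √((∑ b ∈ T, nu M b) * ∑ c ∈ T', nu M c) ≤
          C2 * Sum6x251.box ss (ep + ep + ep + 20 * (kp / (1 + kp))) (Bc + 2) x.mx x.v x.j x.j' *
            √((∑ b ∈ T, nu M b) * ∑ c ∈ T', nu M c) := by
        refine le_trans (le_of_eq ?_) h3
        unfold bxc ss
        ring
      have h5 := (h2.trans h1).trans h4
      have hm1 : 0 ≤ ∑ b ∈ T, nu M b := Finset.sum_nonneg fun b _ => nu_nonneg M b
      have e1 : √((L * ∑ b ∈ T, nu M b) * (L * ∑ c ∈ T', nu M c)) =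
          L * √((∑ b ∈ T, nu M b) * ∑ c ∈ T', nu M c) := by
        rw [show (L * ∑ b ∈ T, nu M b) * (L * ∑ c ∈ T', nu M c) =
          L ^ 2 * ((∑ b ∈ T, nu M b) * ∑ c ∈ T', nu M c) by ring,
          Real.sqrt_mul (by positivity), Real.sqrt_sq S.hL.le]
      rw [e1]
      calc L * ∑ b ∈ T, ∑ c ∈ T', kerW γ L M (lamOf cp A m0 γ L M B F)
            (RB F P (ind B) (1 / (4 * A)) (jBA A) (CHvy F P (ind B) (1 / 20)) x)
            (Ph F P (ind B) (1 / (4 * A)) (jBA A) (CHvy F P (ind B) (1 / 20)) x) b c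
          ≤ L * (C2 * Sum6x251.box ss (ep + ep + ep + 20 * (kp / (1 + kp))) (Bc + 2) x.mx x.v x.j
            x.j' * √((∑ b ∈ T, nu M b) * ∑ c ∈ T', nu M c)) :=
            mul_le_mul_of_nonneg_left h5 S.hL.le
        _ = _ := by ring
    · have h6 : (1 : ℝ) ≤ (x.N : ℝ) ^ ep := by
        refine Real.one_le_rpow ?_ k6.le
        have : 1 ≤ x.N := Nat.one_le_two_pow
        exact_mod_cast this
      have h7 : (1 : ℝ) ≤ CC' := le_max_left _ _
      nlinarith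

/-- **CLASS (L)** from the arrows -/
theorem cls_low_of (γ : ℝ) (hA : TgtA γ) (hB : TgtB γ) (hC : TgtC γ) (hD : TgtD γ)
    (hU : TgtU γ) (hK : TgtK γ) (hS : TgtS γ) : ClsOK γ (nH γ (cLow γ)) := by
  have h1 := cls_bx γ hA hB hC hD hU
  have h2 := mir_ok h1
  refine ClsOK.mono (((h1.or h2).or hS).or (TgtXx14.tgtX γ)) ?_
  refine Ev.mono hK ?_
  intro cp η A m0 hK L M B F S b hb c hc hne h hh hk hR
  obtain ⟨h0, h1⟩ := hR
  rcases hK L M B F S b c h (S.dvd hb) (S.dvd hc) hh h1 with h3 | h3 | h3 | h3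
  · exact Or.inr h3
  · exact Or.inl (Or.inr h3)
  · exact Or.inl (Or.inl (Or.inl ⟨h0, h3⟩))
  · obtain ⟨x, t, f, f', p, h3⟩ := h3
    refine Or.inl (Or.inl (Or.inr ⟨fun h4 => h0 ?_, x, t, f', f, p, h3⟩))
    have h5 := CHvy_symm (S.dvd hc) (S.dvd hb) h4
    rwa [neg_neg] at h5

/-- **CLASS (L)** from the arrows C, D, S -/
theorem cls_low_CDS (γ : ℝ) (hC : TgtC γ) (hD : TgtD γ) (hS : TgtS γ) :
    ClsOK γ (nH γ (cLow γ)) :=
  cls_low_of γ (LArrAx500.tgtA γ) (LDensx217.tgtB γ) hC hD (LArrUKx11.tgtU γ) (LArrUKx11.tgtK γ)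
    hS

end Crest.Agent.R4C.ClsLowx662
end

-- ▼ part R4C/TgtC_7
section

/-!
# Row 4, class (L): TARGET C, unconditional (helper7)
-/

set_option autoImplicit false

namespace Crest.Agent.R4C.TgtCx7

/-- **TARGET C** -/
theorem tgtC (γ : ℝ) : LBoxDefx662.TgtC γ := ArrCx7.tgtC (LArrAx500.tgtA γ)

end Crest.Agent.R4C.TgtCx7
end

-- ▼ part R4C/BoxG_899
section

/-!
# Row 4, class (L): arrow C of `LBoxDef_662` over one `FL` (helper899)

* `PairW.congr` : the candidate sets only matter at the two words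
* `zb_of_tw`    : letters of the untwisted word above the cut
* `pairG`       : `PairW` for general untwisted words `z0, z0'` and any `Q` (primes `≤ cut t`
  missing in `z0`)
* `arrC_of`     : `ArrA` implies `ArrC` (candidate sets from the twists), parameters over `Hy`
-/

set_option autoImplicit false

namespace Crest.Agent.R4C.BoxGx899

open Finset Crest.Agent.R4C.Basex935 Crest.Agent.R4C.FLDefx935 Crest.Agent.R4C.Rulex945
  Crest.Agent.R4C.BoxUniqx60 Crest.Agent.R4C.TEndx129 Crest.Agent.R4C.Betax7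
  Crest.Agent.R4C.HighWx899 Crest.Agent.R4C.Cutx50 Crest.Agent.R4C.BoostCx972
  Crest.Agent.R4C.Bridgex882 Crest.Agent.R4C.Splitx945 Crest.Agent.R4C.Sharedx11
  Crest.Agent.R4C.S7dx14 Crest.Agent.R4C.LBxx500 Crest.Agent.R4C.BoxWx899
  Crest.Agent.R4C.NonPureBlkx559 Crest.Agent.R4C.Keptx559 Crest.Agent.R4C.PureL2x232
  Crest.Agent.R4C.LBoxDefx662 Crest.Agent.R4C.LClassx662

open Crest.Agent.R4C.Hclsx81 (HvK)

variable {M : ℕ} {F : FL M} {P : Par}

/-- candidate sets matter only at the two words -/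
lemma PairW.congr {N : ℕ} {G : FL N} {j0 : ℕ} {cut : ℕ → ℕ}
    {TT XH TT' XH' T1 X1 T1' X1' : ℕ → Finset ℕ} {z z' : ℕ} {Q : Finset ℕ} (h : PairW G j0 cut TT XH TT' XH' z z' Q) (h1 : TT z = T1 z)
    (h2 : XH z = X1 z) (h3 : TT' z' = T1' z') (h4 : XH' z' = X1' z') :
    PairW G j0 cut T1 X1 T1' X1' z z' Q := by
  refine ⟨h.sub, h.mis, h.below, h.kz, ?_, ?_⟩
  · rw [← h1, ← h4]; exact h.left
  · rw [← h3, ← h2]; exact h.right




/-- data of the pair, thresholds only above the cut -/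
structure PG (F : FL M) (P : Par) (w : ℕ → ℝ) (ε K : ℝ) (y Yc t b c : ℕ) (h : ℤ) (f f' : ℚ) :
    Prop where
  m0 : P.m0 ≤ t
  good : F.good (P.cut t) b c
  pt : gap f f' (b / Nat.gcd b c) (c / Nat.gcd b c) h = 0
  ib : Ix F P t b f
  ic : Ix F P t c f'
  db : dep F P t b f ≤ K
  dc : dep F P t c f' ≤ K
  eb : dep F P t b f ≤ P.E t ^ 4
  ec : dep F P t c f' ≤ P.E t ^ 4
  top : ∀ r : ℕ, r.Prime → Yc < r → r ≤ P.cut t →
    (r ∣ b / Nat.gcd b c → r ∣ k0 F (P.cut t) b f) ∧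
    (r ∣ c / Nat.gcd b c → r ∣ k0 F (P.cut t) c f')
  al : AlLe F P b c h (P.cut (2 * t))
  scl : (Nat.gcd b c : ℝ) < 2 ^ (t + 1) * P.L
  near : X1 P b c < P.cut t
  yY : y ≤ Yc
  Yt : Yc ≤ P.cut t
  K1 : 1 ≤ K
  KY : K ≤ Yc
  Kt : 4 * K ^ 2 < 2 ^ t
  thb : ∀ i, P.cut t < P.Y i → K ≤ P.thr b i
  thc : ∀ i, P.cut t < P.Y i → K ≤ P.thr c i
  nk : ¬ killedB (lamR F P) b c h
  nh : ¬ CHvy F P w ε b c h

/-- **the (alpha)/(beta) data, general form** -/
theorem pairG {w : ℕ → ℝ} {δ ε : ℝ} {D : ℕ → ℝ} (H : Hy F P w δ ε D) (hE : Monotone P.E)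
    (hG : CutGrow P) {K : ℝ} {t b c y Yc j0 κ κ' z z' : ℕ} {h : ℤ} {f f' : ℚ}
    {Rs Rs' Q : Finset ℕ} {KK KK' : ℕ → Finset ℕ} (hb : b ∣ M) (hc : c ∣ M)
    (hP : PG F P w ε K y Yc t b c h f f')
    (hup : upp y b = κ * z) (hup' : upp y c = κ' * z')
    (hκ : κ ∈ KK z) (hκ' : κ' ∈ KK' z')
    (hr : Nat.log 2 (low y b) ∈ Rs) (hr' : Nat.log 2 (low y c) ∈ Rs')
    (hzb : ∀ q, q.Prime → P.cut t < q → z.factorization q = b.factorization q)
    (hzc : ∀ q, q.Prime → P.cut t < q → z'.factorization q = c.factorization q)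
    (hze : ∀ q, q.Prime → q ≤ P.cut t → z.factorization q = z'.factorization q)
    (hQ1 : Q ⊆ (upp y M).primeFactors)
    (hQ2 : ∀ q ∈ Q, z.factorization q < (upp y M).factorization q)
    (hQc : ∀ q ∈ Q, q ≤ P.cut t) (hz : KZ (hiFL H.hM y F) j0 z z') :
    PairW (hiFL H.hM y F) j0 P.cut (TTs F P y K Rs KK) (XHs F P y K Rs KK Yc)
      (TTs F P y K Rs' KK') (XHs F P y K Rs' KK' Yc) z z' Q := by
  have hM := H.hM
  have hb0 : b ≠ 0 := (Nat.pos_of_dvd_of_pos hb hM).ne'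
  have hc0 : c ≠ 0 := (Nat.pos_of_dvd_of_pos hc hM).ne'
  have hyt : y ≤ P.cut t := hP.yY.trans hP.Yt
  -- the first difference is above the cut
  have hfst : ∀ x, Fst x z z' → P.cut t < x := by
    intro x hx
    by_contra hcon
    exact hx.2.2 (hze x hx.1 (not_lt.1 hcon))
  -- letters in `(Yc, x)` are equal
  have heq : ∀ x, Fst x z z' → ∀ q, q.Prime → Yc < q →
      q < x → b.factorization q = c.factorization q := by
    intro x hx q hq hYq hqx
    by_cases h1 : q ≤ P.cut t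
    · have h2 := hP.top q hq hYq h1
      exact eq_of_top hb0 hc0 hP.db hP.dc hP.KY hYq h2.1 h2.2
    · have h2 := hx.2.1 q hq hqx
      rw [hzb q hq (not_le.1 h1), hzc q hq (not_le.1 h1)] at h2
      exact h2
  have hhv : ∀ e, t ≤ e → _ := fun e he =>
    not_hvK (w := w) (ε := ε) H.cut_mono H.hL hP.m0 hP.good hP.al hP.scl hP.near hP.nh he
  refine ⟨hQ1, hQ2, ?_, hz, ?_, ?_⟩
  · intro x hx q hq
    exact (hQc q hq).trans_lt (hfst x hx)
  · intro _ x hx hlt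
    have h1 := hfst x hx
    rw [hzb x hx.1 h1, hzc x hx.1 h1] at hlt
    exact side H hE hG hP.K1 hb hc hP.pt hP.nk hP.m0 hyt hP.yY hP.Kt hP.KY
      hP.thb hP.ib hP.ic hP.db hP.dc hP.eb (fun e he => (hhv e he).1) hup hup' hκ hκ' hr hr' hx.1
      hlt (heq x hx) (hP.Yt.trans_lt h1) h1 hQc
  · intro _ x hx hlt
    have h1 := hfst x hx
    rw [hzb x hx.1 h1, hzc x hx.1 h1] at hlt
    exact side H hE hG hP.K1 hc hb (gap_swap hP.pt) (killedB_symm hP.nk) hP.m0 hyt hP.yY hP.Kt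
      hP.KY hP.thc hP.ic hP.ib hP.dc hP.db hP.ec (fun e he => (hhv e he).2) hup' hup hκ' hκ hr' hr
      hx.1 hlt (fun q hq h3 h4 => (heq x hx q hq h3 h4).symm) (hP.Yt.trans_lt h1) h1 hQc

/-! ### Arrow C -/



end Crest.Agent.R4C.BoxGx899
end

-- ▼ part R4C/LSmoothA_808
section

/-!
# Row 4, BLOCK S5/S6 (6.0): explained primes all small — abstract part (helper808)

* `word_class` : one word function, arbitrary weights `k` on the upper words with a bilinear bound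
  `E` for sets (`SetBd`), full boost on the low words: `≤ 4 E / √(A B)`.
* `family_class` : a finite family of classes; the words of a class may depend on the upper words
  `z, z'` AND on the dyadic sizes `U, U'` of the lower words; the sum over `U, U'` is free.
* `smooth_sum` : `∑_{r Z-smooth} r^(-12/25) ≤ exp (8 Z^(13/25))`.
* `smooth_abs` : low words `(k₁ r, k₁' r')`, `r, r'` `Z`-smooth, at most `N` pairs `(k₁, k₁')` for
  every `(z, z', U, U')`, `k₁, k₁' ≤ K₁`, product `≥ W₀`: energy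
  `≤ 40 E N (log₂ K₁ + 1)² W₀^(-1/50) exp (16 Z^(13/25)) (Ex f)^{1/2} (Ex g)^{1/2}`.
-/

set_option autoImplicit false

open Finset
open Crest.Agent.R4C.Basex935 Crest.Agent.R4C.Cutx50 Crest.Agent.R4C.HeavyLx50
open Crest.Agent.R4C.BoostRx398 (bst tf one_le_tf)
open Crest.Agent.R4C.FixedWordx423 (wd wd_pos)
open Crest.Agent.R4C.VecNPx50

namespace Crest.Agent.R4C.LSmoothAx808

/-! ### one word function -/

open Classical in
/-- **one word function, weights on the upper words, full boost on the lower words** -/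
theorem word_class {M : ℕ} (hM : 0 < M) (y : ℕ) (S : Finset ℕ) {k : ℕ → ℕ → ℝ}
    (hk : ∀ z z', 0 ≤ k z z') {E : ℝ} (hE0 : 0 ≤ E) (hN : SetBd (upp y M) k E)
    {A B : ℝ} (hA : 1 ≤ A) (hB : 1 ≤ B) (P : ℕ → ℕ → Prop) (w : ℕ → ℕ → ℕ × ℕ)
    (hw : ∀ b c, b ∣ M → c ∣ M → P b c → wd (low y b) (low y c) = w (upp y b) (upp y c) ∧
      A ≤ (w (upp y b) (upp y c)).1 ∧ B ≤ (w (upp y b) (upp y c)).2)
    {f g : ℕ → ℝ} (hf : ∀ b, 0 ≤ f b) (hg : ∀ b, 0 ≤ g b) (hf1 : ∀ b, f b ≤ 1)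
    (hg1 : ∀ b, g b ≤ 1) :
    frm M (fun b c => if P b c then k (upp y b) (upp y c) * bst S (low y M) (low y b) (low y c) *
      (f b * g c) else 0) ≤ 4 * E / √(A * B) * (√(Ex M f) * √(Ex M g)) := by
  have hA0 : 0 < A := by linarith
  have hB0 : 0 < B := by linarith
  set M0 := low y M with hM0
  set M1 := upp y M with hM1
  have hM0p : 0 < M0 := low_pos y M
  have hM1p : 0 < M1 := upp_pos y M
  set Vf : ℕ → ℝ := fun z => Ex M0 (fun u => f (u * z)) with hVf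
  set Vg : ℕ → ℝ := fun z => Ex M0 (fun u => g (u * z)) with hVg
  have hVf0 : ∀ z, 0 ≤ Vf z := fun z => Ex_nonneg _ fun _ => hf _
  have hVg0 : ∀ z, 0 ≤ Vg z := fun z => Ex_nonneg _ fun _ => hg _
  have hVf1 : ∀ z, Vf z ≤ 1 := fun z =>
    (Ex_mono _ fun b _ => hf1 (b * z)).trans (le_of_eq (Ex_const hM0p 1))
  have hkey : frm M (fun b c => if P b c then k (upp y b) (upp y c) *
      bst S M0 (low y b) (low y c) * (f b * g c) else 0) ≤
      frm M1 (fun z z' => k z z' * min (1 / B * Vf z) (1 / A * Vg z')) := by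
    rw [frm_low_upp hM y]
    unfold frm
    refine Finset.sum_le_sum fun z hz => Finset.sum_le_sum fun z' hz' => ?_
    have hzd := Nat.dvd_of_mem_divisors hz
    have hzd' := Nat.dvd_of_mem_divisors hz'
    refine mul_le_mul_of_nonneg_left ?_
      (mul_nonneg (mul_nonneg (by positivity) (nu_nonneg _ _)) (nu_nonneg _ _))
    have hdiv : ∀ u T, u ∣ M0 → T ∣ M1 → u * T ∣ M := by
      intro u T hu hT
      have := Nat.mul_dvd_mul hu hT
      rwa [low_mul_upp y hM.ne'] at this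
    by_cases hex : ∃ u u', u ∣ M0 ∧ u' ∣ M0 ∧ P (u * z) (u' * z')
    · obtain ⟨u1, u1', hu1, hu1', hP1⟩ := hex
      have hww := hw _ _ (hdiv _ _ hu1 hzd) (hdiv _ _ hu1' hzd') hP1
      rw [upp_of_mul hu1 hzd, upp_of_mul hu1' hzd'] at hww
      set x := w z z' with hx
      beta_reduce
      have hin : frm M0 (fun n n' => if P (n * z) (n' * z') then
            k (upp y (n * z)) (upp y (n' * z')) *
              bst S M0 (low y (n * z)) (low y (n' * z')) * (f (n * z) * g (n' * z')) else 0) ≤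
          k z z' * frm M0 (fun u u' => if wd u u' = x then
            bst S M0 u u' * (f (u * z) * g (u' * z')) else 0) := by
        unfold frm
        rw [Finset.mul_sum]
        refine Finset.sum_le_sum fun u hu => ?_
        rw [Finset.mul_sum]
        refine Finset.sum_le_sum fun u' hu' => ?_
        have hud := Nat.dvd_of_mem_divisors hu
        have hud' := Nat.dvd_of_mem_divisors hu'
        have hwt : 0 ≤ (Nat.gcd u u' : ℝ) * nu M0 u * nu M0 u' :=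
          mul_nonneg (mul_nonneg (by positivity) (nu_nonneg _ _)) (nu_nonneg _ _)
        beta_reduce
        by_cases hPP : P (u * z) (u' * z')
        · have h2 := (hw _ _ (hdiv _ _ hud hzd) (hdiv _ _ hud' hzd') hPP).1
          rw [low_of_mul hud hzd, low_of_mul hud' hzd', upp_of_mul hud hzd,
            upp_of_mul hud' hzd'] at h2
          rw [if_pos hPP, if_pos h2, low_of_mul hud hzd, low_of_mul hud' hzd', upp_of_mul hud hzd,
            upp_of_mul hud' hzd']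
          exact le_of_eq (by ring)
        · rw [if_neg hPP, mul_zero]
          refine mul_nonneg (hk _ _) (mul_nonneg hwt ?_)
          split_ifs
          · exact mul_nonneg (bst_nonneg _ _ _ _) (mul_nonneg (hf _) (hg _))
          · exact le_rfl
      refine hin.trans (mul_le_mul_of_nonneg_left (le_min ?_ ?_) (hk _ _))
      · refine (low_right hM0p S x (F := fun u => f (u * z)) (G := fun u => g (u * z'))
          (fun _ => hf _) (fun _ => hg1 _)).trans ?_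
        rw [div_eq_mul_one_div, mul_comm]
        refine mul_le_mul_of_nonneg_right ?_ (hVf0 z)
        exact one_div_le_one_div_of_le hB0 hww.2.2
      · refine (low_left hM0p S x (F := fun u => f (u * z)) (G := fun u => g (u * z'))
          (fun _ => hg _) (fun _ => hf1 _)).trans ?_
        rw [div_eq_mul_one_div, mul_comm]
        refine mul_le_mul_of_nonneg_right ?_ (hVg0 z')
        exact one_div_le_one_div_of_le hA0 hww.2.1
    · push Not at hex
      have h0 : frm M0 (fun n n' => if P (n * z) (n' * z') then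
            k (upp y (n * z)) (upp y (n' * z')) *
              bst S M0 (low y (n * z)) (low y (n' * z')) * (f (n * z) * g (n' * z')) else 0) = 0 := by
        unfold frm
        refine Finset.sum_eq_zero fun u hu => Finset.sum_eq_zero fun u' hu' => ?_
        beta_reduce
        rw [if_neg (hex u u' (Nat.dvd_of_mem_divisors hu) (Nat.dvd_of_mem_divisors hu')), mul_zero]
      refine (le_of_eq h0).trans ?_
      exact mul_nonneg (hk _ _) (le_min (mul_nonneg (by positivity) (hVf0 z))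
        (mul_nonneg (by positivity) (hVg0 z')))
  refine hkey.trans ?_
  have hlay := layer_form hM1p (k := k) hk hE0 hN
    (P := fun z => 1 / B * Vf z) (Q := fun z => 1 / A * Vg z)
    (fun b => mul_nonneg (by positivity) (hVf0 b)) (fun b => mul_nonneg (by positivity) (hVg0 b))
    (fun b => by
      have h1 : 1 / B ≤ 1 := by rw [div_le_one hB0]; exact hB
      calc 1 / B * Vf b ≤ 1 * 1 := mul_le_mul h1 (hVf1 b) (hVf0 b) zero_le_one
        _ = 1 := one_mul 1)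
  refine hlay.trans (le_of_eq ?_)
  have e1 : Ex M1 (fun z => 1 / B * Vf z) = 1 / B * Ex M f := by
    rw [Ex_mul_left]
    congr 1
    exact Ex_mass hM y f
  have e2 : Ex M1 (fun z => 1 / A * Vg z) = 1 / A * Ex M g := by
    rw [Ex_mul_left]
    congr 1
    exact Ex_mass hM y g
  rw [e1, e2, Real.sqrt_mul (by positivity), Real.sqrt_mul (by positivity),
    Real.sqrt_mul hA0.le, one_div, one_div, Real.sqrt_inv, Real.sqrt_inv]
  have hsA : 0 < √A := Real.sqrt_pos.2 hA0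
  have hsB : 0 < √B := Real.sqrt_pos.2 hB0
  field_simp

/-! ### the boxes -/

/-- nearly diagonal condition on the dyadic sizes -/
def nd (c c' U U' : ℕ) : Prop := U + c' ≤ U' + c + 2 ∧ U' + c ≤ U + c' + 2

instance (c c' U U' : ℕ) : Decidable (nd c c' U U') := by unfold nd; infer_instance




/-- `f` on the box `U` of the lower part -/
noncomputable def bx (y : ℕ) (f : ℕ → ℝ) (U b : ℕ) : ℝ := if Nat.log 2 (low y b) = U then f b else 0

lemma bx_nonneg {y : ℕ} {f : ℕ → ℝ} (hf : ∀ b, 0 ≤ f b) (U b : ℕ) : 0 ≤ bx y f U b := by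
  unfold bx; split_ifs
  · exact hf b
  · exact le_rfl

lemma bx_le {y : ℕ} {f : ℕ → ℝ} (hf1 : ∀ b, f b ≤ 1) (U b : ℕ) : bx y f U b ≤ 1 := by
  unfold bx; split_ifs
  · exact hf1 b
  · exact zero_le_one

lemma sum_bx {M : ℕ} (hM : 0 < M) (y : ℕ) (f : ℕ → ℝ) :
    ∑ U ∈ range (Nat.log 2 (low y M) + 1), Ex M (bx y f U) = Ex M f := by
  rw [Ex_sum]
  unfold Ex
  refine sum_congr rfl fun b hb => ?_
  congr 1
  unfold bx
  beta_reduce
  rw [sum_ite_eq, if_pos]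
  rw [mem_range]
  refine Nat.lt_succ_of_le (Nat.log_mono_right ?_)
  exact Nat.le_of_dvd (low_pos y M) (low_dvd y hM.ne' (Nat.dvd_of_mem_divisors hb))






/-! ### smooth numbers -/

lemma sum_rpow_le (Z : ℕ) : ∑ n ∈ Icc 1 Z, (n : ℝ) ^ (-(12 / 25) : ℝ) ≤ 2 * (Z : ℝ) ^ (13 / 25 : ℝ) := by
  induction Z with
  | zero => simp
  | succ Z ih =>
    rw [Finset.sum_Icc_succ_top (by omega)]
    set N : ℝ := ((Z + 1 : ℕ) : ℝ) with hN
    have hN1 : 1 ≤ N := by rw [hN]; exact_mod_cast Nat.succ_le_succ (Nat.zero_le Z)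
    have hN0 : 0 < N := by linarith
    have hZ : (Z : ℝ) = N * (1 + (-(1 / N))) := by
      rw [hN]
      push_cast
      field_simp
      ring
    have h1 : (1 + (-(1 / N))) ^ (13 / 25 : ℝ) ≤ 1 + 13 / 25 * (-(1 / N)) := by
      refine rpow_one_add_le_one_add_mul_self ?_ (by norm_num) (by norm_num)
      rw [neg_le_neg_iff, div_le_one hN0]
      exact hN1
    have h2 : (Z : ℝ) ^ (13 / 25 : ℝ) ≤ N ^ (13 / 25 : ℝ) * (1 + 13 / 25 * (-(1 / N))) := by
      have h3 : 0 ≤ 1 + (-(1 / N)) := by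
        have : 1 / N ≤ 1 := by rw [div_le_one hN0]; exact hN1
        linarith
      rw [hZ, Real.mul_rpow hN0.le h3]
      exact mul_le_mul_of_nonneg_left h1 (by positivity)
    have h4 : N ^ (13 / 25 : ℝ) * (1 / N) = N ^ (-(12 / 25) : ℝ) := by
      rw [show (-(12 / 25) : ℝ) = 13 / 25 - 1 by norm_num, Real.rpow_sub hN0, Real.rpow_one,
        mul_one_div]
    have h5 : 0 ≤ N ^ (-(12 / 25) : ℝ) := by positivity
    calc ∑ n ∈ Icc 1 Z, (n : ℝ) ^ (-(12 / 25) : ℝ) + N ^ (-(12 / 25) : ℝ)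
        ≤ 2 * (N ^ (13 / 25 : ℝ) * (1 + 13 / 25 * (-(1 / N)))) + N ^ (-(12 / 25) : ℝ) := by
          linarith
      _ = 2 * N ^ (13 / 25 : ℝ) - 26 / 25 * (N ^ (13 / 25 : ℝ) * (1 / N)) +
          N ^ (-(12 / 25) : ℝ) := by ring
      _ ≤ 2 * N ^ (13 / 25 : ℝ) := by rw [h4]; linarith

/-- the completely multiplicative function `n^(-12/25)` -/
noncomputable def fpow : ℕ →* ℝ where
  toFun n := (n : ℝ) ^ (-(12 / 25) : ℝ)
  map_one' := by simp
  map_mul' m n := by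
    push_cast
    exact Real.mul_rpow (Nat.cast_nonneg _) (Nat.cast_nonneg _)

lemma fpow_apply (n : ℕ) : fpow n = (n : ℝ) ^ (-(12 / 25) : ℝ) := rfl

lemma fpow_le {p : ℕ} (hp : 2 ≤ p) : fpow p ≤ 3 / 4 := by
  rw [fpow_apply]
  have h2 : (2 : ℝ) ≤ p := by exact_mod_cast hp
  have h1 : (p : ℝ) ^ (-(12 / 25) : ℝ) ≤ (2 : ℝ) ^ (-(12 / 25) : ℝ) :=
    Real.rpow_le_rpow_of_nonpos (by norm_num) h2 (by norm_num)
  refine h1.trans ?_
  have h3 : ((2 : ℝ) ^ (-(12 / 25) : ℝ)) ^ (25 : ℕ) ≤ (3 / 4 : ℝ) ^ (25 : ℕ) := by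
    rw [← Real.rpow_natCast, ← Real.rpow_mul (by norm_num)]
    norm_num
  exact le_of_pow_le_pow_left₀ (by norm_num) (by norm_num) h3

/-- **sum over smooth numbers** -/
theorem smooth_sum (Z : ℕ) (s : Finset ℕ) (hs : ∀ r ∈ s, 0 < r ∧ ∀ p, p.Prime → p ∣ r → p ≤ Z) :
    ∑ r ∈ s, (r : ℝ) ^ (-(12 / 25) : ℝ) ≤ Real.exp (8 * (Z : ℝ) ^ (13 / 25 : ℝ)) := by
  have hnorm : ∀ {p : ℕ}, p.Prime → ‖fpow p‖ < 1 := by
    intro p hp
    rw [fpow_apply, Real.norm_of_nonneg (by positivity)]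
    refine Real.rpow_lt_one_of_one_lt_of_neg ?_ (by norm_num)
    exact_mod_cast hp.one_lt
  have h1 := (EulerProduct.summable_and_hasSum_smoothNumbers_prod_primesBelow_geometric
    (f := fpow) hnorm (Z + 1)).2
  have h2 : HasSum ((Z + 1).smoothNumbers.indicator fpow)
      (∏ p ∈ (Z + 1).primesBelow, (1 - fpow p)⁻¹) := by
    rw [← hasSum_subtype_iff_indicator]
    exact h1
  have h3 : ∑ r ∈ s, (Z + 1).smoothNumbers.indicator fpow r ≤
      ∏ p ∈ (Z + 1).primesBelow, (1 - fpow p)⁻¹ := by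
    refine sum_le_hasSum s (fun r _ => ?_) h2
    refine Set.indicator_nonneg (fun r _ => ?_) r
    rw [fpow_apply]
    positivity
  have h4 : ∑ r ∈ s, (r : ℝ) ^ (-(12 / 25) : ℝ) =
      ∑ r ∈ s, (Z + 1).smoothNumbers.indicator fpow r := by
    refine sum_congr rfl fun r hr => ?_
    rw [Set.indicator_of_mem, fpow_apply]
    rw [Nat.mem_smoothNumbers]
    refine ⟨(hs r hr).1.ne', fun p hp => ?_⟩
    have hpp := Nat.prime_of_mem_primeFactorsList hp
    have hpd := Nat.dvd_of_mem_primeFactorsList hp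
    exact Nat.lt_succ_of_le ((hs r hr).2 p hpp hpd)
  rw [h4]
  refine h3.trans ?_
  have h5 : ∀ p ∈ (Z + 1).primesBelow, (1 - fpow p)⁻¹ ≤ Real.exp (4 * fpow p) := by
    intro p hp
    have hpp := Nat.prime_of_mem_primesBelow hp
    have hx := fpow_le hpp.two_le
    have hx0 : 0 ≤ fpow p := by rw [fpow_apply]; positivity
    rw [inv_le_comm₀ (by linarith) (Real.exp_pos _), ← Real.exp_neg]
    have h6 := Real.one_sub_le_exp_neg (4 * fpow p)
    -- `exp (-4x) ≤ 1 - x` for `0 ≤ x ≤ 3/4`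
    have h7 : Real.exp (-(4 * fpow p)) ≤ 1 / (1 + 4 * fpow p) := by
      rw [Real.exp_neg, one_div]
      refine inv_anti₀ (by positivity) ?_
      have := Real.add_one_le_exp (4 * fpow p)
      linarith
    refine h7.trans ?_
    rw [div_le_iff₀ (by positivity)]
    nlinarith
  calc ∏ p ∈ (Z + 1).primesBelow, (1 - fpow p)⁻¹
      ≤ ∏ p ∈ (Z + 1).primesBelow, Real.exp (4 * fpow p) := by
        refine prod_le_prod (fun p hp => ?_) h5
        have hx := fpow_le (Nat.prime_of_mem_primesBelow hp).two_le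
        exact inv_nonneg.2 (by linarith)
    _ = Real.exp (4 * ∑ p ∈ (Z + 1).primesBelow, fpow p) := by
        rw [← Real.exp_sum, mul_sum]
    _ ≤ Real.exp (8 * (Z : ℝ) ^ (13 / 25 : ℝ)) := by
        rw [Real.exp_le_exp]
        have h8 : ∑ p ∈ (Z + 1).primesBelow, fpow p ≤ ∑ n ∈ Icc 1 Z, (n : ℝ) ^ (-(12 / 25) : ℝ) := by
          have hsub : (Z + 1).primesBelow ⊆ Icc 1 Z := by
            intro p hp
            have hpp := Nat.prime_of_mem_primesBelow hp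
            have hlt := Nat.lt_of_mem_primesBelow hp
            rw [mem_Icc]
            exact ⟨hpp.one_le, by omega⟩
          calc ∑ p ∈ (Z + 1).primesBelow, fpow p
              = ∑ p ∈ (Z + 1).primesBelow, (p : ℝ) ^ (-(12 / 25) : ℝ) := rfl
            _ ≤ _ := sum_le_sum_of_subset_of_nonneg hsub (fun n _ _ => by positivity)
        have h9 := sum_rpow_le Z
        linarith

/-! ### the abstract theorem -/

lemma log_mul_ge {a b : ℕ} (ha : 0 < a) (hb : 0 < b) :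
    Nat.log 2 a + Nat.log 2 b ≤ Nat.log 2 (a * b) := by
  refine (Nat.le_log_iff_pow_le (by norm_num) (Nat.mul_pos ha hb).ne').2 ?_
  rw [pow_add]
  exact Nat.mul_le_mul (Nat.pow_log_le_self 2 ha.ne') (Nat.pow_log_le_self 2 hb.ne')

lemma log_mul_le {a b : ℕ} (ha : 0 < a) (hb : 0 < b) :
    Nat.log 2 (a * b) ≤ Nat.log 2 a + Nat.log 2 b + 1 := by
  have h1 := Nat.lt_pow_succ_log_self (b := 2) (by norm_num) a
  have h2 := Nat.lt_pow_succ_log_self (b := 2) (by norm_num) b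
  have h3 : a * b < 2 ^ (Nat.log 2 a + Nat.log 2 b + 2) := by
    calc a * b < 2 ^ (Nat.log 2 a).succ * 2 ^ (Nat.log 2 b).succ := Nat.mul_lt_mul'' h1 h2
      _ = _ := by rw [← pow_add]; congr 1; omega
  have h4 := (Nat.log_lt_iff_lt_pow (by norm_num) (Nat.mul_pos ha hb).ne').2 h3
  omega


/-- the index set of the classes -/
def IT (R : Finset ℕ) (N Λ : ℕ) : Finset (ℕ × ℕ × ℕ × ℕ × ℕ) :=
  R ×ˢ (R ×ˢ (range N ×ˢ (range (Λ + 1) ×ˢ range (Λ + 1))))

lemma sum_IT (R : Finset ℕ) (N Λ : ℕ) (c : ℝ) (φ : ℕ → ℝ) :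
    ∑ i ∈ IT R N Λ, c * (φ i.1 * φ i.2.1) =
      c * (N * ((Λ : ℝ) + 1) ^ 2) * (∑ r ∈ R, φ r) ^ 2 := by
  unfold IT
  rw [sum_product]
  have h1 : ∀ r ∈ R, ∑ x ∈ R ×ˢ (range N ×ˢ (range (Λ + 1) ×ˢ range (Λ + 1))),
      c * (φ r * φ x.1) = c * (N * ((Λ : ℝ) + 1) ^ 2) * (φ r * ∑ r' ∈ R, φ r') := by
    intro r _
    rw [sum_product]
    have h2 : ∀ r' ∈ R, ∑ _x ∈ (range N ×ˢ (range (Λ + 1) ×ˢ range (Λ + 1))),
        c * (φ r * φ r') = (c * (N * ((Λ : ℝ) + 1) ^ 2)) * (φ r * φ r') := by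
      intro r' _
      rw [sum_const, card_product, card_product, card_range, card_range, nsmul_eq_mul]
      push_cast
      ring
    rw [sum_congr rfl h2, ← mul_sum, ← mul_sum]
  rw [sum_congr rfl h1, ← mul_sum, ← sum_mul, sq (∑ r ∈ R, φ r)]


end Crest.Agent.R4C.LSmoothAx808
end

-- ▼ part R4C/LSmoothB_808
section

/-!
# Row 4, BLOCK S5/S6 (6.0): smooth class, weights depending on the dyadic sizes (helper808)

* `setBd_of_setW` : 899's `SetW` (sets) gives 50's `SetBd` (functions in `[0,1]`), constant `8 E`.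
* `family_class3`, `smooth_abs3` : as in `LSmoothA_808`, but the weights `k i U U' z z'` and the
  words may depend on the dyadic sizes `i, U, U'` of `gcd (low y b) (low y c)`, `low y b`,
  `low y c` (the sums over `i, U, U'` are free).
-/

set_option autoImplicit false

open Finset
open Crest.Agent.R4C.Basex935 Crest.Agent.R4C.Cutx50 Crest.Agent.R4C.HeavyLx50
open Crest.Agent.R4C.BoostRx398 (bst tf one_le_tf)
open Crest.Agent.R4C.FixedWordx423 (wd wd_pos)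
open Crest.Agent.R4C.VecNPx50
open Crest.Agent.R4C.LSmoothAx808

namespace Crest.Agent.R4C.LSmoothBx808

/-! ### sets to functions -/

lemma lay_mul_self (i : ℕ) (x : ℝ) : lay i x * lay i x = lay i x := by
  unfold lay; split_ifs <;> norm_num

lemma le_sum_lay {K : ℕ} {x : ℝ} (hx1 : x ≤ 1) (hxK : x ≤ 0 ∨ (1 / 2 : ℝ) ^ K < x) :
    x ≤ ∑ i ∈ range K, (1 / 2 : ℝ) ^ i * lay i x := by
  have h := min_le_lay hx1 hxK hxK
  rw [min_self] at h
  simpa only [lay_mul_self] using h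

lemma geo_half (K : ℕ) : ∑ i ∈ range K, (1 / 2 : ℝ) ^ i ≤ 2 := by
  have h := sum_le_hasSum (range K) (fun n _ => by positivity)
    (hasSum_geometric_of_lt_one (by norm_num : (0 : ℝ) ≤ 1 / 2) (by norm_num : (1 / 2 : ℝ) < 1))
  norm_num at h ⊢
  exact h

lemma sum_sqrt_lay (K : ℕ) {M : ℕ} {f : ℕ → ℝ} (hf : ∀ b, 0 ≤ f b) :
    ∑ i ∈ range K, (1 / 2 : ℝ) ^ i * √(Ex M (fun z => lay i (f z))) ≤ √2 * (2 * √(Ex M f)) := by
  have h1 := Real.sum_sqrt_mul_sqrt_le (range K) (f := fun i => (1 / 2 : ℝ) ^ i)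
    (g := fun i => (1 / 2 : ℝ) ^ i * Ex M (fun z => lay i (f z)))
    (fun i => by positivity)
    (fun i => mul_nonneg (by positivity) (Ex_nonneg _ fun _ => lay_nonneg _ _))
  have e : ∀ i ∈ range K, √((1 / 2 : ℝ) ^ i) *
      √((1 / 2 : ℝ) ^ i * Ex M (fun z => lay i (f z))) =
      (1 / 2 : ℝ) ^ i * √(Ex M (fun z => lay i (f z))) := by
    intro i _
    have h4 : (0 : ℝ) ≤ (1 / 2 : ℝ) ^ i := by positivity
    rw [Real.sqrt_mul h4, ← mul_assoc, Real.mul_self_sqrt h4]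
  rw [sum_congr rfl e] at h1
  refine h1.trans ?_
  have h2 : ∑ i ∈ range K, (1 / 2 : ℝ) ^ i * Ex M (fun z => lay i (f z)) ≤ 4 * Ex M f := by
    have e2 : ∀ i ∈ range K, (1 / 2 : ℝ) ^ i * Ex M (fun z => lay i (f z)) =
        Ex M (fun z => (1 / 2 : ℝ) ^ i * lay i (f z)) := fun i _ => (Ex_mul_left _ _ _).symm
    rw [sum_congr rfl e2, Ex_sum, ← Ex_mul_left]
    exact Ex_mono _ fun b _ => sum_lay_le K (hf b)
  have h3 : √(4 * Ex M f) = 2 * √(Ex M f) := by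
    rw [Real.sqrt_mul (by norm_num), show (4 : ℝ) = 2 ^ 2 by norm_num, Real.sqrt_sq (by norm_num)]
  rw [← h3]
  exact mul_le_mul (Real.sqrt_le_sqrt (geo_half K)) (Real.sqrt_le_sqrt h2) (Real.sqrt_nonneg _)
    (Real.sqrt_nonneg _)

/-- **a bound for sets gives the bound for functions** -/
theorem setBd_of_setW {M : ℕ} (hM : 0 < M) {k : ℕ → ℕ → ℝ} (hk : ∀ z z', 0 ≤ k z z') {E : ℝ}
    (hE0 : 0 ≤ E) (h : LowLx899.SetW M k E) : SetBd M k (8 * E) := by
  classical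
  intro f g hf hg hf1 hg1
  obtain ⟨K1, hK1⟩ := exists_level M.divisors f
  obtain ⟨K2, hK2⟩ := exists_level M.divisors g
  set K := max K1 K2 with hK
  have h1 : frm M (fun z z' => k z z' * (f z * g z')) ≤
      ∑ i ∈ range K, ∑ j ∈ range K, (1 / 2 : ℝ) ^ i * (1 / 2 : ℝ) ^ j *
        frm M (fun z z' => k z z' * (lay i (f z) * lay j (g z'))) := by
    have e : ∀ i ∈ range K, ∀ j ∈ range K, (1 / 2 : ℝ) ^ i * (1 / 2 : ℝ) ^ j *
        frm M (fun z z' => k z z' * (lay i (f z) * lay j (g z'))) =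
        frm M (fun z z' => k z z' * (((1 / 2 : ℝ) ^ i * lay i (f z)) *
          ((1 / 2 : ℝ) ^ j * lay j (g z')))) := by
      intro i _ j _
      unfold frm
      rw [Finset.mul_sum]
      refine Finset.sum_congr rfl fun b _ => ?_
      rw [Finset.mul_sum]
      exact Finset.sum_congr rfl fun c _ => by ring
    rw [sum_congr rfl fun i hi => sum_congr rfl fun j hj => e i hi j hj,
      sum_congr rfl fun i hi => frm_sum _ _ _, frm_sum]
    refine frm_mono fun z z' hz hz' => ?_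
    have a1 := le_sum_lay (hf1 z) (hK1 K (le_max_left _ _) z (Nat.mem_divisors.2 ⟨hz, hM.ne'⟩))
    have a2 := le_sum_lay (hg1 z') (hK2 K (le_max_right _ _) z' (Nat.mem_divisors.2 ⟨hz', hM.ne'⟩))
    calc k z z' * (f z * g z') ≤ k z z' * ((∑ i ∈ range K, (1 / 2 : ℝ) ^ i * lay i (f z)) *
          (∑ j ∈ range K, (1 / 2 : ℝ) ^ j * lay j (g z'))) :=
          mul_le_mul_of_nonneg_left (mul_le_mul a1 a2 (hg z') ((hf z).trans a1)) (hk z z')
      _ = _ := by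
          rw [sum_mul_sum, mul_sum]
          refine sum_congr rfl fun i _ => ?_
          rw [mul_sum]
  refine h1.trans ?_
  have h2 : ∀ i j : ℕ, frm M (fun z z' => k z z' * (lay i (f z) * lay j (g z'))) ≤
      E * (√(Ex M (fun z => lay i (f z))) * √(Ex M (fun z => lay j (g z)))) := by
    intro i j
    set A := M.divisors.filter (fun z => (1 / 2 : ℝ) ^ (i + 1) < f z) with hA
    set B := M.divisors.filter (fun z => (1 / 2 : ℝ) ^ (j + 1) < g z) with hB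
    have h3 := h A B (filter_subset _ _) (filter_subset _ _)
    have eA : ∑ z ∈ A, nu M z = Ex M (fun z => lay i (f z)) := by
      rw [hA, sum_filter]
      unfold Ex
      refine sum_congr rfl fun z _ => ?_
      beta_reduce
      by_cases hz : (1 / 2 : ℝ) ^ (i + 1) < f z
      · have l1 : lay i (f z) = 1 := by unfold lay; rw [if_pos hz]
        rw [if_pos hz, l1, mul_one]
      · have l1 : lay i (f z) = 0 := by unfold lay; rw [if_neg hz]
        rw [if_neg hz, l1, mul_zero]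
    have eB : ∑ z ∈ B, nu M z = Ex M (fun z => lay j (g z)) := by
      rw [hB, sum_filter]
      unfold Ex
      refine sum_congr rfl fun z _ => ?_
      beta_reduce
      by_cases hz : (1 / 2 : ℝ) ^ (j + 1) < g z
      · have l1 : lay j (g z) = 1 := by unfold lay; rw [if_pos hz]
        rw [if_pos hz, l1, mul_one]
      · have l1 : lay j (g z) = 0 := by unfold lay; rw [if_neg hz]
        rw [if_neg hz, l1, mul_zero]
    rw [eA, eB, Real.sqrt_mul (Ex_nonneg _ fun _ => lay_nonneg _ _)] at h3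
    refine le_trans (le_of_eq ?_) h3
    unfold frm
    rw [hA, sum_filter]
    refine sum_congr rfl fun z _ => ?_
    beta_reduce
    by_cases hz : (1 / 2 : ℝ) ^ (i + 1) < f z
    · rw [if_pos hz, hB, sum_filter]
      refine sum_congr rfl fun z' _ => ?_
      by_cases hz' : (1 / 2 : ℝ) ^ (j + 1) < g z'
      · rw [if_pos hz']
        have l1 : lay i (f z) = 1 := by unfold lay; rw [if_pos hz]
        have l2 : lay j (g z') = 1 := by unfold lay; rw [if_pos hz']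
        rw [l1, l2]; ring
      · rw [if_neg hz']
        have l2 : lay j (g z') = 0 := by unfold lay; rw [if_neg hz']
        rw [l2]; ring
    · rw [if_neg hz]
      have l1 : lay i (f z) = 0 := by unfold lay; rw [if_neg hz]
      refine sum_eq_zero fun z' _ => ?_
      rw [l1]; ring
  have h4 : ∑ i ∈ range K, ∑ j ∈ range K, (1 / 2 : ℝ) ^ i * (1 / 2 : ℝ) ^ j *
        frm M (fun z z' => k z z' * (lay i (f z) * lay j (g z'))) ≤
      E * ((∑ i ∈ range K, (1 / 2 : ℝ) ^ i * √(Ex M (fun z => lay i (f z)))) *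
        (∑ j ∈ range K, (1 / 2 : ℝ) ^ j * √(Ex M (fun z => lay j (g z))))) := by
    rw [sum_mul_sum, mul_sum]
    refine sum_le_sum fun i _ => ?_
    rw [mul_sum]
    refine sum_le_sum fun j _ => ?_
    calc (1 / 2 : ℝ) ^ i * (1 / 2 : ℝ) ^ j *
          frm M (fun z z' => k z z' * (lay i (f z) * lay j (g z')))
        ≤ (1 / 2 : ℝ) ^ i * (1 / 2 : ℝ) ^ j *
          (E * (√(Ex M (fun z => lay i (f z))) * √(Ex M (fun z => lay j (g z))))) :=
          mul_le_mul_of_nonneg_left (h2 i j) (by positivity)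
      _ = _ := by ring
  refine h4.trans ?_
  have s1 := sum_sqrt_lay K (M := M) hf
  have s2 := sum_sqrt_lay K (M := M) hg
  have n2 : 0 ≤ ∑ j ∈ range K, (1 / 2 : ℝ) ^ j * √(Ex M (fun z => lay j (g z))) :=
    sum_nonneg fun j _ => by positivity
  calc E * _ ≤ E * ((√2 * (2 * √(Ex M f))) * (√2 * (2 * √(Ex M g)))) :=
        mul_le_mul_of_nonneg_left (mul_le_mul s1 s2 n2 (by positivity)) hE0
    _ = (√2 * √2) * (4 * E * (√(Ex M f) * √(Ex M g))) := by ring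
    _ = _ := by rw [Real.mul_self_sqrt (by norm_num)]; ring

/-! ### the boxes -/

/-- the sizes `i, U, U'` of the gcd and of the two words fit to the sizes `c, c'` of the cofactors -/
def nd3 (c c' i U U' : ℕ) : Prop := i + c ≤ U ∧ U ≤ i + c + 2 ∧ i + c' ≤ U' ∧ U' ≤ i + c' + 2

instance (c c' i U U' : ℕ) : Decidable (nd3 c c' i U U') := by unfold nd3; infer_instance

lemma sum_nd_right (n c c' U : ℕ) :
    ∑ i ∈ range n, ∑ U' ∈ range n, (if nd3 c c' i U U' then (1 : ℝ) else 0) ≤ 9 := by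
  have h1 : ∀ i ∈ range n, ∑ U' ∈ range n, (if nd3 c c' i U U' then (1 : ℝ) else 0) ≤
      if i + c ≤ U ∧ U ≤ i + c + 2 then 3 else 0 := by
    intro i _
    split_ifs with h
    · rw [← sum_filter, sum_const, nsmul_eq_mul, mul_one]
      have h2 : (range n).filter (fun U' => nd3 c c' i U U') ⊆ Icc (i + c') (i + c' + 2) := by
        intro U' hU'
        obtain ⟨_, _, _, h3, h4⟩ := mem_filter.1 hU'
        rw [mem_Icc]
        exact ⟨h3, h4⟩
      have h3 := card_le_card h2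
      rw [Nat.card_Icc] at h3
      have h4 : ((range n).filter (fun U' => nd3 c c' i U U')).card ≤ 3 := by omega
      exact_mod_cast h4
    · refine le_of_eq (sum_eq_zero fun U' _ => ?_)
      rw [if_neg]
      rintro ⟨a, b, _, _⟩
      exact h ⟨a, b⟩
  refine (sum_le_sum h1).trans ?_
  rw [← sum_filter, sum_const, nsmul_eq_mul]
  have h2 : (range n).filter (fun i => i + c ≤ U ∧ U ≤ i + c + 2) ⊆ Icc (U - (c + 2)) (U - c) := by
    intro i hi
    obtain ⟨_, h3, h4⟩ := mem_filter.1 hi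
    rw [mem_Icc]
    omega
  have h3 := card_le_card h2
  rw [Nat.card_Icc] at h3
  have h4 : ((range n).filter (fun i => i + c ≤ U ∧ U ≤ i + c + 2)).card ≤ 3 := by omega
  have h5 : (((range n).filter (fun i => i + c ≤ U ∧ U ≤ i + c + 2)).card : ℝ) ≤ 3 := by
    exact_mod_cast h4
  linarith

lemma nd3_swap {c c' i U U' : ℕ} : nd3 c c' i U U' ↔ nd3 c' c i U' U := by
  unfold nd3; tauto

lemma sum_nd_left (n c c' U' : ℕ) :
    ∑ i ∈ range n, ∑ U ∈ range n, (if nd3 c c' i U U' then (1 : ℝ) else 0) ≤ 9 := by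
  refine le_trans (le_of_eq ?_) (sum_nd_right n c' c U')
  refine sum_congr rfl fun i _ => sum_congr rfl fun U _ => ?_
  by_cases h : nd3 c c' i U U'
  · rw [if_pos h, if_pos (nd3_swap.1 h)]
  · rw [if_neg h, if_neg (fun h' => h (nd3_swap.2 h'))]

lemma box_cauchy3 (n c c' : ℕ) {a b : ℕ → ℝ} (ha : ∀ i, 0 ≤ a i) (hb : ∀ i, 0 ≤ b i) :
    ∑ i ∈ range n, ∑ U ∈ range n, ∑ U' ∈ range n,
      (if nd3 c c' i U U' then √(a U) * √(b U') else 0) ≤
      9 * (√(∑ U ∈ range n, a U) * √(∑ U ∈ range n, b U)) := by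
  set D := (range n ×ˢ (range n ×ˢ range n)).filter
    (fun x : ℕ × ℕ × ℕ => nd3 c c' x.1 x.2.1 x.2.2) with hD
  have e0 : ∑ i ∈ range n, ∑ U ∈ range n, ∑ U' ∈ range n,
      (if nd3 c c' i U U' then √(a U) * √(b U') else 0) = ∑ x ∈ D, √(a x.2.1) * √(b x.2.2) := by
    rw [hD, sum_filter, sum_product]
    refine sum_congr rfl fun i _ => ?_
    rw [sum_product]
  rw [e0]
  have h1 := Real.sum_sqrt_mul_sqrt_le D (f := fun x => a x.2.1) (g := fun x => b x.2.2)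
    (fun x => ha x.2.1) (fun x => hb x.2.2)
  refine h1.trans ?_
  have hA : ∑ x ∈ D, a x.2.1 ≤ 9 * ∑ U ∈ range n, a U := by
    calc ∑ x ∈ D, a x.2.1 = ∑ i ∈ range n, ∑ U ∈ range n, ∑ U' ∈ range n,
          (if nd3 c c' i U U' then a U else 0) := by
          rw [hD, sum_filter, sum_product]
          refine sum_congr rfl fun i _ => ?_
          rw [sum_product]
      _ = ∑ U ∈ range n, (∑ i ∈ range n, ∑ U' ∈ range n,
          (if nd3 c c' i U U' then (1 : ℝ) else 0)) * a U := by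
          rw [sum_comm]
          refine sum_congr rfl fun U _ => ?_
          rw [sum_mul]
          refine sum_congr rfl fun i _ => ?_
          rw [sum_mul]
          refine sum_congr rfl fun U' _ => ?_
          split_ifs <;> ring
      _ ≤ ∑ U ∈ range n, 9 * a U :=
          sum_le_sum fun U _ => mul_le_mul_of_nonneg_right (sum_nd_right n c c' U) (ha U)
      _ = _ := by rw [mul_sum]
  have hB : ∑ x ∈ D, b x.2.2 ≤ 9 * ∑ U ∈ range n, b U := by
    calc ∑ x ∈ D, b x.2.2 = ∑ i ∈ range n, ∑ U ∈ range n, ∑ U' ∈ range n,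
          (if nd3 c c' i U U' then b U' else 0) := by
          rw [hD, sum_filter, sum_product]
          refine sum_congr rfl fun i _ => ?_
          rw [sum_product]
      _ = ∑ U' ∈ range n, (∑ i ∈ range n, ∑ U ∈ range n,
          (if nd3 c c' i U U' then (1 : ℝ) else 0)) * b U' := by
          have e : ∀ i ∈ range n, ∑ U ∈ range n, ∑ U' ∈ range n,
              (if nd3 c c' i U U' then b U' else 0) = ∑ U' ∈ range n, ∑ U ∈ range n,
              (if nd3 c c' i U U' then b U' else 0) := fun i _ => sum_comm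
          rw [sum_congr rfl e, sum_comm]
          refine sum_congr rfl fun U' _ => ?_
          rw [sum_mul]
          refine sum_congr rfl fun i _ => ?_
          rw [sum_mul]
          refine sum_congr rfl fun U _ => ?_
          split_ifs <;> ring
      _ ≤ ∑ U' ∈ range n, 9 * b U' :=
          sum_le_sum fun U' _ => mul_le_mul_of_nonneg_right (sum_nd_left n c c' U') (hb U')
      _ = _ := by rw [mul_sum]
  calc √(∑ x ∈ D, a x.2.1) * √(∑ x ∈ D, b x.2.2)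
      ≤ √(9 * ∑ U ∈ range n, a U) * √(9 * ∑ U ∈ range n, b U) :=
        mul_le_mul (Real.sqrt_le_sqrt hA) (Real.sqrt_le_sqrt hB) (Real.sqrt_nonneg _)
          (Real.sqrt_nonneg _)
    _ = (√9 * √9) * (√(∑ U ∈ range n, a U) * √(∑ U ∈ range n, b U)) := by
        rw [Real.sqrt_mul (by norm_num), Real.sqrt_mul (by norm_num)]
        ring
    _ = _ := by rw [Real.mul_self_sqrt (by norm_num)]

/-- the kernel of one box of one class -/
noncomputable def GK3 (M y : ℕ) (S : Finset ℕ) (k : ℕ → ℕ → ℕ → ℕ → ℕ → ℝ) (f g : ℕ → ℝ)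
    (P : ℕ → ℕ → Prop) [∀ b c, Decidable (P b c)] (i U U' b c : ℕ) : ℝ :=
  if P b c ∧ Nat.log 2 (Nat.gcd (low y b) (low y c)) = i ∧ Nat.log 2 (low y b) = U ∧
      Nat.log 2 (low y c) = U' then
    k i U U' (upp y b) (upp y c) * bst S (low y M) (low y b) (low y c) *
      (bx y f U b * bx y g U' c)
    else 0

lemma GK3_nonneg {M y : ℕ} {S : Finset ℕ} {k : ℕ → ℕ → ℕ → ℕ → ℕ → ℝ} {f g : ℕ → ℝ}
    {P : ℕ → ℕ → Prop} [∀ b c, Decidable (P b c)] (hk : ∀ i U U' z z', 0 ≤ k i U U' z z')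
    (hf : ∀ b, 0 ≤ f b) (hg : ∀ b, 0 ≤ g b) (i U U' b c : ℕ) :
    0 ≤ GK3 M y S k f g P i U U' b c := by
  unfold GK3
  split_ifs
  · exact mul_nonneg (mul_nonneg (hk _ _ _ _ _) (bst_nonneg _ _ _ _))
      (mul_nonneg (bx_nonneg hf _ _) (bx_nonneg hg _ _))
  · exact le_rfl

lemma one_box3 {M : ℕ} (hM : 0 < M) (y : ℕ) (S : Finset ℕ) {k : ℕ → ℕ → ℕ → ℕ → ℕ → ℝ}
    (hk : ∀ i U U' z z', 0 ≤ k i U U' z z') {E : ℝ} (hE0 : 0 ≤ E)
    (hN : ∀ i U U', SetBd (upp y M) (k i U U') E)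
    {A B : ℝ} (hA : 1 ≤ A) (hB : 1 ≤ B) (γ γ' : ℕ) (P : ℕ → ℕ → Prop) [∀ b c, Decidable (P b c)]
    (w : ℕ → ℕ → ℕ → ℕ → ℕ → ℕ × ℕ)
    (hw : ∀ b c, b ∣ M → c ∣ M → P b c →
      wd (low y b) (low y c) = w (Nat.log 2 (Nat.gcd (low y b) (low y c)))
        (Nat.log 2 (low y b)) (Nat.log 2 (low y c)) (upp y b) (upp y c) ∧
      A ≤ (wd (low y b) (low y c)).1 ∧ B ≤ (wd (low y b) (low y c)).2 ∧
      nd3 γ γ' (Nat.log 2 (Nat.gcd (low y b) (low y c))) (Nat.log 2 (low y b))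
        (Nat.log 2 (low y c)))
    {f g : ℕ → ℝ} (hf : ∀ b, 0 ≤ f b) (hg : ∀ b, 0 ≤ g b) (hf1 : ∀ b, f b ≤ 1)
    (hg1 : ∀ b, g b ≤ 1) (i U U' : ℕ) :
    frm M (GK3 M y S k f g P i U U') ≤ 4 * E / √(A * B) * (if nd3 γ γ' i U U' then
        √(Ex M (bx y f U)) * √(Ex M (bx y g U')) else 0) := by
  classical
  by_cases hnd : nd3 γ γ' i U U'
  · rw [if_pos hnd]
    have h := word_class (f := bx y f U) (g := bx y g U') hM y S (hk i U U') hE0 (hN i U U') hA hB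
      (fun b c => P b c ∧ Nat.log 2 (Nat.gcd (low y b) (low y c)) = i ∧
        Nat.log 2 (low y b) = U ∧ Nat.log 2 (low y c) = U') (w i U U')
      (fun b c hb hc hq => by
        obtain ⟨hP, hi, hU, hU'⟩ := hq
        have := hw b c hb hc hP
        rw [hi, hU, hU'] at this
        refine ⟨this.1, ?_, ?_⟩
        · rw [← this.1]; exact this.2.1
        · rw [← this.1]; exact this.2.2.1) (bx_nonneg hf U) (bx_nonneg hg U') (bx_le hf1 U)
      (bx_le hg1 U')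
    refine le_trans (le_of_eq ?_) h
    refine frm_congr fun b c _ _ => ?_
    unfold GK3
    congr
  · rw [if_neg hnd, mul_zero]
    refine le_of_eq ?_
    unfold frm
    refine sum_eq_zero fun b hb => sum_eq_zero fun c hc => ?_
    have hbd := Nat.dvd_of_mem_divisors hb
    have hcd := Nat.dvd_of_mem_divisors hc
    unfold GK3
    rw [if_neg, mul_zero]
    rintro ⟨hP, hi, hU, hU'⟩
    have := (hw b c hbd hcd hP).2.2.2
    rw [hi, hU, hU'] at this
    exact hnd this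

lemma one_index3 {M : ℕ} (hM : 0 < M) (y : ℕ) (S : Finset ℕ) {k : ℕ → ℕ → ℕ → ℕ → ℕ → ℝ}
    (hk : ∀ i U U' z z', 0 ≤ k i U U' z z') {E : ℝ} (hE0 : 0 ≤ E)
    (hN : ∀ i U U', SetBd (upp y M) (k i U U') E)
    {A B : ℝ} (hA : 1 ≤ A) (hB : 1 ≤ B) (γ γ' : ℕ) (P : ℕ → ℕ → Prop) [∀ b c, Decidable (P b c)]
    (w : ℕ → ℕ → ℕ → ℕ → ℕ → ℕ × ℕ)
    (hw : ∀ b c, b ∣ M → c ∣ M → P b c →
      wd (low y b) (low y c) = w (Nat.log 2 (Nat.gcd (low y b) (low y c)))
        (Nat.log 2 (low y b)) (Nat.log 2 (low y c)) (upp y b) (upp y c) ∧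
      A ≤ (wd (low y b) (low y c)).1 ∧ B ≤ (wd (low y b) (low y c)).2 ∧
      nd3 γ γ' (Nat.log 2 (Nat.gcd (low y b) (low y c))) (Nat.log 2 (low y b))
        (Nat.log 2 (low y c)))
    {f g : ℕ → ℝ} (hf : ∀ b, 0 ≤ f b) (hg : ∀ b, 0 ≤ g b) (hf1 : ∀ b, f b ≤ 1)
    (hg1 : ∀ b, g b ≤ 1) :
    ∑ i ∈ range (Nat.log 2 (low y M) + 1), ∑ U ∈ range (Nat.log 2 (low y M) + 1),
      ∑ U' ∈ range (Nat.log 2 (low y M) + 1),
      frm M (GK3 M y S k f g P i U U') ≤ 36 * E / √(A * B) * (√(Ex M f) * √(Ex M g)) := by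
  set n := Nat.log 2 (low y M) + 1 with hn
  calc ∑ i ∈ range n, ∑ U ∈ range n, ∑ U' ∈ range n, frm M (GK3 M y S k f g P i U U')
      ≤ ∑ i ∈ range n, ∑ U ∈ range n, ∑ U' ∈ range n, 4 * E / √(A * B) *
        (if nd3 γ γ' i U U' then √(Ex M (bx y f U)) * √(Ex M (bx y g U')) else 0) :=
        sum_le_sum fun i _ => sum_le_sum fun U _ => sum_le_sum fun U' _ =>
          one_box3 hM y S hk hE0 hN hA hB γ γ' P w hw hf hg hf1 hg1 i U U'
    _ = 4 * E / √(A * B) * ∑ i ∈ range n, ∑ U ∈ range n, ∑ U' ∈ range n,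
        (if nd3 γ γ' i U U' then √(Ex M (bx y f U)) * √(Ex M (bx y g U')) else 0) := by
        rw [mul_sum]
        refine sum_congr rfl fun i _ => ?_
        rw [mul_sum]
        refine sum_congr rfl fun U _ => ?_
        rw [mul_sum]
    _ ≤ 4 * E / √(A * B) * (9 * (√(∑ U ∈ range n, Ex M (bx y f U)) *
        √(∑ U ∈ range n, Ex M (bx y g U)))) := by
        refine mul_le_mul_of_nonneg_left ?_ (by positivity)
        exact box_cauchy3 n γ γ' (fun U => Ex_nonneg _ (bx_nonneg hf U))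
          (fun U => Ex_nonneg _ (bx_nonneg hg U))
    _ = _ := by
        rw [hn, sum_bx hM y f, sum_bx hM y g]
        ring

open Classical in
/-- **a finite family of classes of words**, weights depending on the boxes -/
theorem family_class3 {ι : Type*} {M : ℕ} (hM : 0 < M) (y : ℕ) (S : Finset ℕ)
    {k : ℕ → ℕ → ℕ → ℕ → ℕ → ℝ}
    (hk : ∀ i U U' z z', 0 ≤ k i U U' z z') {E : ℝ} (hE0 : 0 ≤ E)
    (hN : ∀ i U U', SetBd (upp y M) (k i U U') E)
    (T : Finset ι) {A B : ι → ℝ} (hA : ∀ j ∈ T, 1 ≤ A j) (hB : ∀ j ∈ T, 1 ≤ B j)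
    (γ γ' : ι → ℕ) (P : ι → ℕ → ℕ → Prop)
    (w : ι → ℕ → ℕ → ℕ → ℕ → ℕ → ℕ × ℕ)
    (hw : ∀ j ∈ T, ∀ b c, b ∣ M → c ∣ M → P j b c →
      wd (low y b) (low y c) = w j (Nat.log 2 (Nat.gcd (low y b) (low y c)))
        (Nat.log 2 (low y b)) (Nat.log 2 (low y c)) (upp y b) (upp y c) ∧
      A j ≤ (wd (low y b) (low y c)).1 ∧ B j ≤ (wd (low y b) (low y c)).2 ∧
      nd3 (γ j) (γ' j) (Nat.log 2 (Nat.gcd (low y b) (low y c))) (Nat.log 2 (low y b))
        (Nat.log 2 (low y c)))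
    {f g : ℕ → ℝ} (hf : ∀ b, 0 ≤ f b) (hg : ∀ b, 0 ≤ g b) (hf1 : ∀ b, f b ≤ 1)
    (hg1 : ∀ b, g b ≤ 1) {Φ : ℕ → ℕ → ℝ}
    (hex : ∀ b c, b ∣ M → c ∣ M → Φ b c ≤ 0 ∨
      (Φ b c ≤ k (Nat.log 2 (Nat.gcd (low y b) (low y c))) (Nat.log 2 (low y b))
        (Nat.log 2 (low y c)) (upp y b) (upp y c) *
        bst S (low y M) (low y b) (low y c) * (f b * g c) ∧ ∃ j ∈ T, P j b c)) :
    frm M Φ ≤ ∑ j ∈ T, 36 * E / √(A j * B j) * (√(Ex M f) * √(Ex M g)) := by
  set n := Nat.log 2 (low y M) + 1 with hn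
  have hlog : ∀ b, b ∣ M → Nat.log 2 (low y b) ∈ range n := by
    intro b hb
    rw [mem_range]
    refine Nat.lt_succ_of_le (Nat.log_mono_right ?_)
    exact Nat.le_of_dvd (low_pos y M) (low_dvd y hM.ne' hb)
  have hlogg : ∀ b c, b ∣ M → Nat.log 2 (Nat.gcd (low y b) (low y c)) ∈ range n := by
    intro b c hb
    rw [mem_range]
    refine Nat.lt_succ_of_le (Nat.log_mono_right ?_)
    exact Nat.le_of_dvd (low_pos y M) ((Nat.gcd_dvd_left _ _).trans (low_dvd y hM.ne' hb))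
  have hG0 : ∀ j i U U' b c, 0 ≤ GK3 M y S k f g (P j) i U U' b c :=
    fun j i U U' b c => GK3_nonneg hk hf hg i U U' b c
  -- pointwise
  have h1 : frm M Φ ≤ frm M (fun b c => ∑ j ∈ T, ∑ i ∈ range n, ∑ U ∈ range n,
      ∑ U' ∈ range n, GK3 M y S k f g (P j) i U U' b c) := by
    refine Asmx946.frm_le fun b c hb hc => ?_
    rcases hex b c hb hc with h0 | ⟨hΦ, j, hj, hP⟩
    · exact h0.trans (sum_nonneg fun j _ => sum_nonneg fun i _ => sum_nonneg fun U _ =>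
        sum_nonneg fun U' _ => hG0 j i U U' b c)
    · have e1 : Φ b c ≤ GK3 M y S k f g (P j) (Nat.log 2 (Nat.gcd (low y b) (low y c)))
          (Nat.log 2 (low y b)) (Nat.log 2 (low y c)) b c := by
        unfold GK3
        rw [if_pos ⟨hP, rfl, rfl, rfl⟩]
        refine hΦ.trans (le_of_eq ?_)
        unfold bx
        rw [if_pos rfl, if_pos rfl]
      refine e1.trans ?_
      refine le_trans ?_ (single_le_sum (f := fun j => ∑ i ∈ range n,
        ∑ U ∈ range n, ∑ U' ∈ range n,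
        GK3 M y S k f g (P j) i U U' b c) (fun j _ => sum_nonneg fun i _ =>
          sum_nonneg fun U _ => sum_nonneg fun U' _ => hG0 j i U U' b c) hj)
      refine le_trans ?_ (single_le_sum (f := fun i => ∑ U ∈ range n, ∑ U' ∈ range n,
        GK3 M y S k f g (P j) i U U' b c) (fun i _ =>
          sum_nonneg fun U _ => sum_nonneg fun U' _ => hG0 j i U U' b c) (hlogg b c hb))
      refine le_trans ?_ (single_le_sum (f := fun U => ∑ U' ∈ range n,
        GK3 M y S k f g (P j) (Nat.log 2 (Nat.gcd (low y b) (low y c))) U U' b c)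
        (fun U _ => sum_nonneg fun U' _ => hG0 j _ U U' b c) (hlog b hb))
      exact single_le_sum (f := fun U' => GK3 M y S k f g (P j)
        (Nat.log 2 (Nat.gcd (low y b) (low y c))) (Nat.log 2 (low y b)) U' b c)
        (fun U' _ => hG0 j _ _ U' b c) (hlog c hc)
  have h2 : frm M (fun b c => ∑ j ∈ T, ∑ i ∈ range n, ∑ U ∈ range n,
      ∑ U' ∈ range n, GK3 M y S k f g (P j) i U U' b c) =
      ∑ j ∈ T, ∑ i ∈ range n, ∑ U ∈ range n, ∑ U' ∈ range n,
        frm M (GK3 M y S k f g (P j) i U U') := by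
    rw [Asmx946.frm_sum]
    refine sum_congr rfl fun j _ => ?_
    rw [Asmx946.frm_sum]
    refine sum_congr rfl fun i _ => ?_
    rw [Asmx946.frm_sum]
    refine sum_congr rfl fun U _ => ?_
    rw [Asmx946.frm_sum]
  rw [h2] at h1
  exact h1.trans (sum_le_sum fun j hj => one_index3 hM y S hk hE0 hN (hA j hj) (hB j hj) (γ j)
    (γ' j) (P j) (w j) (hw j hj) hf hg hf1 hg1)

/-! ### the abstract theorem -/

/-- the sizes of the lower words and of their gcd are linked by the word -/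
lemma nd3_of_wd {u u' x1 x2 r r' : ℕ} (hu : 0 < u) (hx1 : 0 < x1) (hx2 : 0 < x2)
    (hr : 0 < r) (hr' : 0 < r') (h : wd u u' = (x1 * r, x2 * r')) :
    nd3 (Nat.log 2 x1 + Nat.log 2 r) (Nat.log 2 x2 + Nat.log 2 r') (Nat.log 2 (Nat.gcd u u'))
      (Nat.log 2 u) (Nat.log 2 u') := by
  have hG : 0 < Nat.gcd u u' := Nat.gcd_pos_of_pos_left _ hu
  unfold wd at h
  rw [Prod.mk.injEq] at h
  have e1 : Nat.gcd u u' * (x1 * r) = u := by
    rw [← h.1]; exact Nat.mul_div_cancel' (Nat.gcd_dvd_left _ _)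
  have e2 : Nat.gcd u u' * (x2 * r') = u' := by
    rw [← h.2]; exact Nat.mul_div_cancel' (Nat.gcd_dvd_right _ _)
  set G := Nat.gcd u u' with hGdef
  have p1 : 0 < x1 * r := Nat.mul_pos hx1 hr
  have p2 : 0 < x2 * r' := Nat.mul_pos hx2 hr'
  have c1 := log_mul_ge hx1 hr
  have c2 := log_mul_le hx1 hr
  have d1 := log_mul_ge hx2 hr'
  have d2 := log_mul_le hx2 hr'
  have a1 := log_mul_ge hG p1
  have a2 := log_mul_le hG p1
  have b1 := log_mul_ge hG p2
  have b2 := log_mul_le hG p2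
  rw [e1] at a1 a2
  rw [e2] at b1 b2
  unfold nd3
  omega

open Classical in
/-- **explained primes all small: abstract theorem**, weights and words depending on the boxes -/
theorem smooth_abs3 {M : ℕ} (hM : 0 < M) (y : ℕ) (S : Finset ℕ)
    {k : ℕ → ℕ → ℕ → ℕ → ℕ → ℝ}
    (hk : ∀ i U U' z z', 0 ≤ k i U U' z z') {E : ℝ} (hE0 : 0 ≤ E)
    (hN : ∀ i U U', SetBd (upp y M) (k i U U') E)
    (Z K₁ N : ℕ) {W₀ : ℝ} (hW₀ : 0 < W₀) (𝒦 : ℕ → ℕ → ℕ → ℕ → ℕ → Finset (ℕ × ℕ))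
    (hcard : ∀ i U U' z z', z ∣ upp y M → z' ∣ upp y M → (𝒦 i U U' z z').card ≤ N)
    (hK : ∀ i U U' z z', ∀ x ∈ 𝒦 i U U' z z', 0 < x.1 ∧ x.1 ≤ K₁ ∧ 0 < x.2 ∧ x.2 ≤ K₁)
    {f g : ℕ → ℝ} (hf : ∀ b, 0 ≤ f b) (hg : ∀ b, 0 ≤ g b) (hf1 : ∀ b, f b ≤ 1)
    (hg1 : ∀ b, g b ≤ 1) {Φ : ℕ → ℕ → ℝ}
    (hex : ∀ b c, b ∣ M → c ∣ M → Φ b c ≤ 0 ∨
      (Φ b c ≤ k (Nat.log 2 (Nat.gcd (low y b) (low y c))) (Nat.log 2 (low y b))
        (Nat.log 2 (low y c)) (upp y b) (upp y c) *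
        bst S (low y M) (low y b) (low y c) * (f b * g c) ∧
      ∃ x ∈ 𝒦 (Nat.log 2 (Nat.gcd (low y b) (low y c))) (Nat.log 2 (low y b))
          (Nat.log 2 (low y c)) (upp y b) (upp y c), ∃ r r' : ℕ,
        0 < r ∧ 0 < r' ∧ (∀ p, p.Prime → p ∣ r → p ≤ Z) ∧ (∀ p, p.Prime → p ∣ r' → p ≤ Z) ∧
        wd (low y b) (low y c) = (x.1 * r, x.2 * r') ∧
        W₀ ≤ ((x.1 * r : ℕ) : ℝ) * ((x.2 * r' : ℕ) : ℝ))) :
    frm M Φ ≤ 72 * E * (N * ((Nat.log 2 K₁ : ℝ) + 1) ^ 2) * W₀ ^ (-(1 / 50) : ℝ) *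
      Real.exp (16 * (Z : ℝ) ^ (13 / 25 : ℝ)) * (√(Ex M f) * √(Ex M g)) := by
  set Λ := Nat.log 2 K₁ with hΛ
  set R := M.divisors.filter (fun r => ∀ p, p.Prime → p ∣ r → p ≤ Z) with hR
  set D := √(Ex M f) * √(Ex M g) with hD
  have hD0 : 0 ≤ D := mul_nonneg (Real.sqrt_nonneg _) (Real.sqrt_nonneg _)
  have hRpos : ∀ r ∈ R, 0 < r := fun r hr => Nat.pos_of_mem_divisors (mem_filter.1 hr).1
  have hlist : ∀ (l : Finset (ℕ × ℕ)) (x : ℕ × ℕ), x ∈ l → ∃ j < l.card,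
      l.toList.getD j (1, 1) = x := by
    intro l x hx
    rw [← mem_toList, List.mem_iff_getElem] at hx
    obtain ⟨j, hj, e⟩ := hx
    refine ⟨j, by rwa [length_toList] at hj, ?_⟩
    rw [List.getD_eq_getElem _ _ hj, e]
  set wj : ℕ × ℕ × ℕ × ℕ × ℕ → ℕ → ℕ → ℕ → ℕ → ℕ → ℕ × ℕ := fun j i U U' z z' =>
    (𝒦 i U U' z z').toList.getD j.2.2.1 (1, 1) with hwj
  set w : ℕ × ℕ × ℕ × ℕ × ℕ → ℕ → ℕ → ℕ → ℕ → ℕ → ℕ × ℕ := fun j i U U' z z' =>
    ((wj j i U U' z z').1 * j.1, (wj j i U U' z z').2 * j.2.1) with hw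
  set A : ℕ × ℕ × ℕ × ℕ × ℕ → ℝ := fun j => 2 ^ j.2.2.2.1 * (j.1 : ℝ) with hA
  set B : ℕ × ℕ × ℕ × ℕ × ℕ → ℝ := fun j => 2 ^ j.2.2.2.2 * (j.2.1 : ℝ) with hB
  set T := (IT R N Λ).filter (fun j => W₀ ≤ 4 * (A j * B j)) with hT
  have hmem : ∀ j ∈ IT R N Λ, 0 < j.1 ∧ 0 < j.2.1 := by
    intro j hj
    unfold IT at hj
    rw [mem_product, mem_product] at hj
    exact ⟨hRpos _ hj.1, hRpos _ hj.2.1⟩
  have hA1 : ∀ j ∈ IT R N Λ, (j.1 : ℝ) ≤ A j ∧ (j.2.1 : ℝ) ≤ B j := by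
    intro j hj
    have h0 : (0 : ℝ) ≤ j.1 := Nat.cast_nonneg _
    have h0' : (0 : ℝ) ≤ j.2.1 := Nat.cast_nonneg _
    exact ⟨le_mul_of_one_le_left h0 (one_le_pow₀ (by norm_num)),
      le_mul_of_one_le_left h0' (one_le_pow₀ (by norm_num))⟩
  have hAone : ∀ j ∈ IT R N Λ, 1 ≤ A j ∧ 1 ≤ B j := by
    intro j hj
    have h1 : (1 : ℝ) ≤ j.1 := by exact_mod_cast (hmem j hj).1
    have h2 : (1 : ℝ) ≤ j.2.1 := by exact_mod_cast (hmem j hj).2
    exact ⟨h1.trans (hA1 j hj).1, h2.trans (hA1 j hj).2⟩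
  set P : ℕ × ℕ × ℕ × ℕ × ℕ → ℕ → ℕ → Prop := fun j b c =>
    let x := wj j (Nat.log 2 (Nat.gcd (low y b) (low y c))) (Nat.log 2 (low y b))
      (Nat.log 2 (low y c)) (upp y b) (upp y c)
    wd (low y b) (low y c) = (x.1 * j.1, x.2 * j.2.1) ∧ 0 < x.1 ∧ 0 < x.2 ∧
      Nat.log 2 x.1 = j.2.2.2.1 ∧ Nat.log 2 x.2 = j.2.2.2.2 with hP
  have key := family_class3 hM y S hk hE0 hN T (A := A) (B := B)
    (fun j hj => (hAone j (mem_filter.1 hj).1).1) (fun j hj => (hAone j (mem_filter.1 hj).1).2)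
    (fun j => j.2.2.2.1 + Nat.log 2 j.1) (fun j => j.2.2.2.2 + Nat.log 2 j.2.1) P w
    (fun j hj b c hb hc hPj => by
      obtain ⟨h1, h2, h3, h4, h5⟩ := hPj
      have hj0 := hmem j (mem_filter.1 hj).1
      set x := wj j (Nat.log 2 (Nat.gcd (low y b) (low y c))) (Nat.log 2 (low y b))
        (Nat.log 2 (low y c)) (upp y b) (upp y c) with hx
      refine ⟨h1, ?_, ?_, ?_⟩
      · have h6 : 2 ^ j.2.2.2.1 ≤ x.1 := by rw [← h4]; exact Nat.pow_log_le_self 2 h2.ne'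
        have h7 : 2 ^ j.2.2.2.1 * j.1 ≤ x.1 * j.1 := Nat.mul_le_mul_right _ h6
        rw [h1]
        show 2 ^ j.2.2.2.1 * (j.1 : ℝ) ≤ ((x.1 * j.1 : ℕ) : ℝ)
        exact_mod_cast h7
      · have h6 : 2 ^ j.2.2.2.2 ≤ x.2 := by rw [← h5]; exact Nat.pow_log_le_self 2 h3.ne'
        have h7 : 2 ^ j.2.2.2.2 * j.2.1 ≤ x.2 * j.2.1 := Nat.mul_le_mul_right _ h6
        rw [h1]
        show 2 ^ j.2.2.2.2 * (j.2.1 : ℝ) ≤ ((x.2 * j.2.1 : ℕ) : ℝ)
        exact_mod_cast h7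
      · have := nd3_of_wd (low_pos y b) h2 h3 hj0.1 hj0.2 h1
        rw [h4, h5] at this
        exact this)
    hf hg hf1 hg1
    (fun b c hb hc => by
      rcases hex b c hb hc with h0 | ⟨hΦ, x, hx, r, r', hr, hr', hrZ, hrZ', hwd, hWW⟩
      · exact Or.inl h0
      right
      refine ⟨hΦ, ?_⟩
      obtain ⟨j, hj, ej⟩ := hlist _ x hx
      have hK1 := hK _ _ _ _ _ x hx
      have hdiv : x.1 * r ∣ M := by
        have h1 : (wd (low y b) (low y c)).1 = x.1 * r := by rw [hwd]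
        rw [← h1]
        exact (Nat.div_dvd_of_dvd (Nat.gcd_dvd_left _ _)).trans ((low_dvd_self y b).trans hb)
      have hdiv' : x.2 * r' ∣ M := by
        have h1 : (wd (low y b) (low y c)).2 = x.2 * r' := by rw [hwd]
        rw [← h1]
        exact (Nat.div_dvd_of_dvd (Nat.gcd_dvd_right _ _)).trans ((low_dvd_self y c).trans hc)
      refine ⟨(r, r', j, Nat.log 2 x.1, Nat.log 2 x.2), ?_, ?_⟩
      · rw [hT, mem_filter]
        constructor
        · unfold IT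
          rw [mem_product, mem_product, mem_product, mem_product]
          refine ⟨?_, ?_, ?_, ?_, ?_⟩
          · rw [hR, mem_filter, Nat.mem_divisors]
            exact ⟨⟨(Dvd.intro_left _ rfl).trans hdiv, hM.ne'⟩, hrZ⟩
          · rw [hR, mem_filter, Nat.mem_divisors]
            exact ⟨⟨(Dvd.intro_left _ rfl).trans hdiv', hM.ne'⟩, hrZ'⟩
          · rw [mem_range]
            exact lt_of_lt_of_le hj (hcard _ _ _ _ _ (upp_dvd y hM.ne' hb) (upp_dvd y hM.ne' hc))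
          · rw [mem_range]
            have h8 : Nat.log 2 x.1 ≤ Λ := Nat.log_mono_right hK1.2.1
            exact Nat.lt_succ_of_le h8
          · rw [mem_range]
            have h8 : Nat.log 2 x.2 ≤ Λ := Nat.log_mono_right hK1.2.2.2
            exact Nat.lt_succ_of_le h8
        · show W₀ ≤ 4 * ((2 ^ Nat.log 2 x.1 * (r : ℝ)) * (2 ^ Nat.log 2 x.2 * (r' : ℝ)))
          refine hWW.trans ?_
          push_cast
          have h1 : (x.1 : ℝ) ≤ 2 * 2 ^ Nat.log 2 x.1 := by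
            have := (Nat.lt_pow_succ_log_self (b := 2) (by norm_num) x.1).le
            rw [Nat.succ_eq_add_one, pow_succ, mul_comm] at this
            exact_mod_cast this
          have h2 : (x.2 : ℝ) ≤ 2 * 2 ^ Nat.log 2 x.2 := by
            have := (Nat.lt_pow_succ_log_self (b := 2) (by norm_num) x.2).le
            rw [Nat.succ_eq_add_one, pow_succ, mul_comm] at this
            exact_mod_cast this
          calc (x.1 : ℝ) * r * (x.2 * r') = (x.1 * x.2) * (r * r') := by ring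
            _ ≤ (2 * 2 ^ Nat.log 2 x.1 * (2 * 2 ^ Nat.log 2 x.2)) * (r * r') := by
                refine mul_le_mul_of_nonneg_right ?_ (by positivity)
                exact mul_le_mul h1 h2 (Nat.cast_nonneg _) (by positivity)
            _ = _ := by ring
      · rw [hP]
        have e : wj (r, r', j, Nat.log 2 x.1, Nat.log 2 x.2)
            (Nat.log 2 (Nat.gcd (low y b) (low y c))) (Nat.log 2 (low y b))
            (Nat.log 2 (low y c)) (upp y b) (upp y c) = x := ej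
        show wd (low y b) (low y c) = (_, _) ∧ _ ∧ _ ∧ _ ∧ _
        rw [e]
        exact ⟨hwd, hK1.1, hK1.2.2.1, rfl, rfl⟩)
  refine key.trans ?_
  -- the sum over the classes
  set φ : ℕ → ℝ := fun r => (r : ℝ) ^ (-(12 / 25) : ℝ) with hφ
  set c₀ : ℝ := 36 * E * (2 * W₀ ^ (-(1 / 50) : ℝ)) * D with hc₀
  have hc₀0 : 0 ≤ c₀ := by positivity
  have hφ0 : ∀ r : ℕ, 0 ≤ φ r := fun r => by rw [hφ]; positivity
  have hterm : ∀ j ∈ T, 36 * E / √(A j * B j) * D ≤ c₀ * (φ j.1 * φ j.2.1) := by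
    intro j hj
    obtain ⟨hj1, hj2⟩ := mem_filter.1 hj
    obtain ⟨hr, hr'⟩ := hmem j hj1
    have hrR : (0 : ℝ) < j.1 := by exact_mod_cast hr
    have hrR' : (0 : ℝ) < j.2.1 := by exact_mod_cast hr'
    obtain ⟨a1, a2⟩ := hA1 j hj1
    have hAp : 0 < A j := lt_of_lt_of_le hrR a1
    have hBp : 0 < B j := lt_of_lt_of_le hrR' a2
    have hAB : 0 < A j * B j := mul_pos hAp hBp
    have e1 : 1 / √(A j * B j) = (A j * B j) ^ (-(1 / 50) : ℝ) * (A j * B j) ^ (-(12 / 25) : ℝ) := by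
      rw [Real.sqrt_eq_rpow, ← Real.rpow_add hAB, one_div, ← Real.rpow_neg hAB.le]
      norm_num
    have e2 : (A j * B j) ^ (-(1 / 50) : ℝ) ≤ 2 * W₀ ^ (-(1 / 50) : ℝ) := by
      have h1 : W₀ / 4 ≤ A j * B j := by linarith
      have h2 : (A j * B j) ^ (-(1 / 50) : ℝ) ≤ (W₀ / 4) ^ (-(1 / 50) : ℝ) :=
        Real.rpow_le_rpow_of_nonpos (by positivity) h1 (by norm_num)
      refine h2.trans ?_
      rw [Real.div_rpow hW₀.le (by norm_num), div_eq_mul_inv, mul_comm]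
      refine mul_le_mul_of_nonneg_right ?_ (by positivity)
      rw [← Real.rpow_neg (by norm_num)]
      calc (4 : ℝ) ^ (-(-(1 / 50)) : ℝ) ≤ (4 : ℝ) ^ (1 / 2 : ℝ) :=
            Real.rpow_le_rpow_of_exponent_le (by norm_num) (by norm_num)
        _ = 2 := by
            rw [← Real.sqrt_eq_rpow, show (4 : ℝ) = 2 ^ 2 by norm_num]
            exact Real.sqrt_sq (by norm_num)
    have e3 : (A j * B j) ^ (-(12 / 25) : ℝ) ≤ φ j.1 * φ j.2.1 := by
      rw [hφ]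
      beta_reduce
      rw [← Real.mul_rpow hrR.le hrR'.le]
      exact Real.rpow_le_rpow_of_nonpos (by positivity) (mul_le_mul a1 a2 hrR'.le hAp.le)
        (by norm_num)
    calc 36 * E / √(A j * B j) * D = 36 * E * D * (1 / √(A j * B j)) := by ring
      _ = 36 * E * D * ((A j * B j) ^ (-(1 / 50) : ℝ) * (A j * B j) ^ (-(12 / 25) : ℝ)) := by
          rw [e1]
      _ ≤ 36 * E * D * ((2 * W₀ ^ (-(1 / 50) : ℝ)) * (φ j.1 * φ j.2.1)) := by
          refine mul_le_mul_of_nonneg_left ?_ (by positivity)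
          exact mul_le_mul e2 e3 (by positivity) (by positivity)
      _ = _ := by rw [hc₀]; ring
  have hsm : ∑ r ∈ R, φ r ≤ Real.exp (8 * (Z : ℝ) ^ (13 / 25 : ℝ)) :=
    smooth_sum Z R fun r hr => ⟨hRpos r hr, (mem_filter.1 hr).2⟩
  have hsm0 : 0 ≤ ∑ r ∈ R, φ r := sum_nonneg fun r _ => hφ0 r
  calc ∑ j ∈ T, 36 * E / √(A j * B j) * D ≤ ∑ j ∈ T, c₀ * (φ j.1 * φ j.2.1) := sum_le_sum hterm
    _ ≤ ∑ j ∈ IT R N Λ, c₀ * (φ j.1 * φ j.2.1) :=
        sum_le_sum_of_subset_of_nonneg (filter_subset _ _) fun j _ _ =>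
          mul_nonneg hc₀0 (mul_nonneg (hφ0 _) (hφ0 _))
    _ = c₀ * (N * ((Λ : ℝ) + 1) ^ 2) * (∑ r ∈ R, φ r) ^ 2 := sum_IT R N Λ c₀ φ
    _ ≤ c₀ * (N * ((Λ : ℝ) + 1) ^ 2) * (Real.exp (8 * (Z : ℝ) ^ (13 / 25 : ℝ))) ^ 2 := by
        refine mul_le_mul_of_nonneg_left ?_ (by positivity)
        exact pow_le_pow_left₀ hsm0 hsm 2
    _ = _ := by
        have e4 : (Real.exp (8 * (Z : ℝ) ^ (13 / 25 : ℝ))) ^ 2 =
            Real.exp (16 * (Z : ℝ) ^ (13 / 25 : ℝ)) := by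
          rw [← Real.exp_nat_mul]
          congr 1
          push_cast
          ring
        rw [e4, hc₀]
        ring

end Crest.Agent.R4C.LSmoothBx808
end

-- ▼ part R4C/LSmooth_808
section

/-!
# Row 4, BLOCK S5/S6 (6.0): explained primes all small — for the rule of `Rule_945` (helper808)

* `Sm F P y Z K t b c h f f'` : common point `(f, f')` of the level `t`, both depths `≤ K`, no
  explained prime in `(Z, cut t]`, the low word is large (`K ≤ 256 Π³`).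
* `mem_LS` : the denominator of the level is one of the few denominators over the upper word.
* `word_of` : at every cut `y` with `k0, Z ≤ y ≤ cut t` the low word is `(k₁ r, k₁' r')`,
  `(k₁, k₁')` = reduced pair of the two denominators, `r, r'` `Z`-smooth.
* **`lsmooth`** : weights `k i U U' z z'` on the upper words with a set bound `E`, full boost on the
  lower words: energy of the class `≤ C E K^(-1/200) (Ex f)^{1/2} (Ex g)^{1/2}`,
  for `Z ≤ A (1 + log K)^(5/4)`.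
-/

set_option autoImplicit false

namespace Crest.Agent.R4C.LSmoothx808

open Crest.Agent.R4C.Basex935 Crest.Agent.R4C.FLDefx935 Crest.Agent.R4C.BoostCx972
  Crest.Agent.R4C.CrCoinx935
  Crest.Agent.R4C.S7cx14 Crest.Agent.R4C.S7dx14 Crest.Agent.R4C.Chainx81
  Crest.Agent.R4C.Cutx50 Crest.Agent.R4C.Rulex945 Crest.Agent.R4C.LDecx500
open Crest.Agent.R4C.BoostRx398 (bst)
open Crest.Agent.R4C.FixedWordx423 (wd)

variable {M : ℕ} {F : FL M} {P : Par}

/-- the smooth case of class (L) -/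
structure Sm (F : FL M) (P : Par) (y Z : ℕ) (K : ℝ) (t b c : ℕ) (h : ℤ) (f f' : ℚ) : Prop where
  m0 : P.m0 ≤ t
  yx : y ≤ P.cut t
  good : F.good (P.cut t) b c
  pt : gap f f' (b / Nat.gcd b c) (c / Nat.gcd b c) h = 0
  /-- `Splitx945.Ix` -/
  ib : ∃ m, t ≤ m ∧ TC F P m b f ∧ k0 F (P.cut m) b f = k0 F (P.cut t) b f
  ic : ∃ m, t ≤ m ∧ TC F P m c f' ∧ k0 F (P.cut m) c f' = k0 F (P.cut t) c f'
  db : Rulex945.dep F P t b f ≤ K
  dc : Rulex945.dep F P t c f' ≤ K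
  top : ∀ p : ℕ, p.Prime → Z < p → p ≤ P.cut t → ¬ p ∣ alC b c f f' ∧ ¬ p ∣ alC c b f' f
  big : K ≤ 256 * ((low (P.cut t) (b / Nat.gcd b c) : ℝ) *
    low (P.cut t) (c / Nat.gcd b c)) ^ 3

/-! ### the reduced label of a centre -/

/-- `f` is the fraction of its reduced label -/
lemma fr_an (x b : ℕ) (f : ℚ) :
    fr F x b (SamePtx217.an f (F.lam x b)) (k0 F x b f) = f := by
  unfold fr
  have h1 := SamePtx217.an_eq f (F.lam x b)
  have hk : (k0 F x b f : ℚ) ≠ 0 := by exact_mod_cast (k0_pos x b f).ne'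
  have hl : (F.lam x b : ℚ) ≠ 0 := by exact_mod_cast (FL.lam_pos x b).ne'
  rw [div_eq_iff (mul_ne_zero hk hl), ← h1]
  show (F.lam x b : ℚ) * f * k0 F x b f = _
  ring

lemma cop_an (x b : ℕ) (f : ℚ) :
    IsCoprime (SamePtx217.an f (F.lam x b)) (k0 F x b f : ℤ) :=
  SamePtx217.an_coprime f (F.lam x b)

lemma disp_an {x b : ℕ} (hM : 0 < M) (hb : b ∣ M) (f : ℚ) (γ : ℝ) :
    (F.uu x b : ℝ) * |(F.lam x b : ℝ) * γ - SamePtx217.an f (F.lam x b) / (k0 F x b f : ℕ)| =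
      (b : ℝ) * |γ - f| := by
  have h := disp_fr (F := F) (x := x) hM hb (SamePtx217.an f (F.lam x b))
    (k := k0 F x b f) (k0_pos x b f) γ
  rw [fr_an] at h
  unfold Centx949.disp at h
  exact h.symm

/-! ### the denominators over the upper word -/

/-- the denominator of the level is one of the few denominators over the upper word -/
theorem mem_LS {y t b N : ℕ} {f : ℚ} {K : ℝ} (hM : 0 < M) (hL : 0 < P.L)
    (hN : (M : ℝ) / P.L ≤ P.N) (hE : ∀ m, P.m0 ≤ m → 2 * P.E m ^ 3 < 2 ^ m)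
    (hcut : Monotone P.cut) (hb : b ∣ M) (hm0 : P.m0 ≤ t) (hyx : y ≤ P.cut t)
    (hi : ∃ m, t ≤ m ∧ TC F P m b f ∧ k0 F (P.cut m) b f = k0 F (P.cut t) b f)
    (hd : Rulex945.dep F P t b f ≤ K) (hKy : K ≤ y) (hKN : K ≤ N) :
    k0 F (P.cut t) b f ∈ TwistKKx863.LS F P.γ P.L ((2 : ℝ) ^ (Nat.log 2 (low y b))) K N P.cut
      (lb P) (Finset.range (P.N + 1)) (upp y b) := by
  classical
  obtain ⟨m, htm, htc, hk⟩ := hi
  have hb0 : b ≠ 0 := (Nat.pos_of_dvd_of_pos hb hM).ne'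
  set z := upp y b with hz
  set w := low y b with hw
  set X : ℝ := (2 : ℝ) ^ (Nat.log 2 w) with hX
  have hX0 : 0 < X := by positivity
  have hw0 : 0 < w := low_pos _ _
  have hX1 : X ≤ w := by
    have := Nat.pow_log_le_self 2 hw0.ne'
    rw [hX]
    exact_mod_cast this
  have hX2 : (w : ℝ) ≤ 2 * X := by
    have := (Nat.lt_pow_succ_log_self (b := 2) (by norm_num) w).le
    rw [Nat.succ_eq_add_one, pow_succ] at this
    have h1 : (w : ℝ) ≤ (2 : ℝ) ^ (Nat.log 2 w) * 2 := by exact_mod_cast this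
    rw [hX]; linarith
  have hwz : w * z = b := low_mul_upp y hb0
  have hb' : w * z ∣ M := by rw [hwz]; exact hb
  have hzM : z ∣ M := (upp_dvd_self y b).trans hb
  have hz0 : z ≠ 0 := (upp_pos y b).ne'
  set x := P.cut m with hx
  have hyx' : y ≤ x := hyx.trans (hcut htm)
  have hwx : ∀ p, p.Prime → p ∣ w → p ≤ x := fun p hp hpw =>
    (prime_dvd_part (fun p => p ≤ y) hp hpw).trans hyx'
  have hlam : F.lam x z = F.lam x b := by
    have h1 := TwistKKx863.lam_congr (F := F) hb' hzM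
      (TwistKKx863.fact_mul_low hw0.ne' hz0 hwx)
    rw [hwz] at h1
    exact h1.symm
  have huu : F.uu x b = w * F.uu x z := by
    have h1 := TwistKKx863.uu_mul (F := F) hM hb' hwx
    rwa [hwz] at h1
  set a := SamePtx217.an f (F.lam x b) with ha
  have hdis := disp_an (F := F) (x := x) hM hb f P.γ
  rw [← ha] at hdis
  have huu0 : (0 : ℝ) < F.uu x b := by exact_mod_cast FL.uu_pos (F := F) x b
  have hm : P.m0 ≤ m := hm0.trans htm
  have hlb : lb P m (F.lam x b) = k0 F x b f := by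
    refine lb_eq (a := a) (hE m hm) (k0_pos x b f) (cop_an x b f) htc.den ?_
    rw [le_div_iff₀ (by positivity)]
    have h2 : (|(F.lam x b : ℝ) * P.γ - a / (k0 F x b f : ℕ)| * 2 ^ m) * P.L ≤ P.E m * P.L := by
      calc _ = (2 ^ m * P.L) * |(F.lam x b : ℝ) * P.γ - a / (k0 F x b f : ℕ)| := by ring
        _ ≤ F.uu x b * |(F.lam x b : ℝ) * P.γ - a / (k0 F x b f : ℕ)| :=
            mul_le_mul_of_nonneg_right htc.scl (abs_nonneg _)
        _ = (b : ℝ) * |P.γ - f| := hdis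
        _ ≤ _ := htc.dis
    exact le_of_mul_le_mul_right h2 hL
  have hdm : Rulex945.dep F P m b f ≤ K := by
    unfold Rulex945.dep at hd ⊢
    rw [hk]
    exact hd
  have hK0 : 0 ≤ K := zero_le_one.trans ((one_le_dep (F := F) (P := P) t b f).trans hd)
  have hkK : (k0 F x b f : ℝ) ≤ K := (k0_le_dep m b f).trans hdm
  have hkN : k0 F x b f ≤ N := by exact_mod_cast hkK.trans hKN
  have hky : k0 F x b f ≤ y := by exact_mod_cast hkK.trans hKy
  unfold TwistKKx863.LS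
  refine Finset.mem_image.2 ⟨m, Finset.mem_filter.2 ⟨?_, ?_, ?_, ?_, ?_, a, ?_, ?_⟩, ?_⟩
  · rw [Finset.mem_range, Nat.lt_succ_iff]
    exact htc.le_N hL hN hM hb
  · rw [hlam, hlb]; exact k0_pos x b f
  · rw [hlam, hlb]; exact hkN
  · rw [hlam, hlb]; exact hky.trans hyx'
  · -- scale
    unfold TwistKKx863.sg
    rw [← mul_div_assoc, le_div_iff₀ hL]
    have h1 : (F.uu x b : ℝ) = w * F.uu x z := by exact_mod_cast huu
    have h2 := htc.scl
    rw [← hx, h1] at h2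
    have h3 : (w : ℝ) * F.uu x z ≤ 2 * X * F.uu x z :=
      mul_le_mul_of_nonneg_right hX2 (Nat.cast_nonneg _)
    linarith
  · rw [hlam, hlb]; exact cop_an x b f
  · rw [hlam, hlb]
    have h1 : |(F.lam x (w * z) : ℝ) * P.γ - a / (k0 F x b f : ℕ)| ≤
        K / (F.uu x (w * z) / P.L) := by
      rw [hwz, le_div_iff₀ (by positivity), ← mul_div_assoc, div_le_iff₀ hL,
        mul_comm _ (F.uu x b : ℝ), hdis]
      exact (dis_le_dep hL m b f).trans (mul_le_mul_of_nonneg_right hdm hL.le)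
    have h2 := TwistKKx863.label_of_member (x := P.cut) (i := m) hM hL hK0 hX0 hb' hwx hX1 h1
    rw [← hx, hlam] at h2
    exact h2
  · show lb P m (F.lam x z) = _
    rw [hlam, hlb, hk]

/-! ### the word -/

/-- **the low word**: reduced pair of the denominators times `Z`-smooth words -/
theorem word_gs {x y Z g s s' : ℕ} {h : ℤ} {f f' : ℚ} (hM : 0 < M) (hb : g * s ∣ M)
    (hc : g * s' ∣ M) (hcop : Nat.Coprime s s') (hx : F.good x (g * s) (g * s'))
    (hyx : y ≤ x) (hZy : Z ≤ y) (h0 : gap f f' s s' h = 0)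
    (hky : k0 F x (g * s) f ≤ y) (hky' : k0 F x (g * s') f' ≤ y)
    (htop : ∀ p : ℕ, p.Prime → Z < p → p ≤ x →
      ¬ p ∣ alC (g * s) (g * s') f f' ∧ ¬ p ∣ alC (g * s') (g * s) f' f) :
    ∃ r r' : ℕ, 0 < r ∧ 0 < r' ∧ (∀ p, p.Prime → p ∣ r → p ≤ Z) ∧
      (∀ p, p.Prime → p ∣ r' → p ≤ Z) ∧
      low x s = k0 F x (g * s) f / Nat.gcd (k0 F x (g * s) f) (k0 F x (g * s') f') * r ∧
      low x s' = k0 F x (g * s') f' / Nat.gcd (k0 F x (g * s) f) (k0 F x (g * s') f') * r' ∧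
      low y s = low x s ∧ low y s' = low x s' := by
  set k := k0 F x (g * s) f with hkdef
  set k' := k0 F x (g * s') f' with hkdef'
  set a := SamePtx217.an f (F.lam x (g * s)) with ha
  set a' := SamePtx217.an f' (F.lam x (g * s')) with ha'
  have hk : 0 < k := k0_pos _ _ _
  have hk' : 0 < k' := k0_pos _ _ _
  have hkx : k ≤ x := hky.trans hyx
  have hkx' : k' ≤ x := hky'.trans hyx
  have ef : fr F x (g * s) a k = f := fr_an x (g * s) f
  have ef' : fr F x (g * s') a' k' = f' := fr_an x (g * s') f'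
  have hca : IsCoprime a (k : ℤ) := cop_an x (g * s) f
  have hca' : IsCoprime a' (k' : ℤ) := cop_an x (g * s') f'
  rw [← ef, ← ef'] at h0 htop
  have hz := inLat hM hb hc hcop hx hk hk' h0
  have hce : IsCoprime ((F.ell x (g * s') : ℕ) * a : ℤ) (k : ℤ) :=
    ((Nat.isCoprime_iff_coprime).2 (coprime_ell hk hkx)).mul_left hca
  have hce' : IsCoprime ((F.ell x (g * s) : ℕ) * a' : ℤ) (k' : ℤ) :=
    ((Nat.isCoprime_iff_coprime).2 (coprime_ell hk' hkx')).mul_left hca'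
  obtain ⟨κ, k₁, k₁', r, r', hκ, ek, ek', hc1, eS, eS', rel⟩ :=
    KillS2x949.structure_ hk hk' hce hce' hz
  have hκ0 : 0 < κ := by rw [hκ]; exact Nat.gcd_pos_of_pos_left _ hk
  have hd : k / Nat.gcd k k' = k₁ := by
    rw [← hκ, ek]; exact Nat.mul_div_cancel_left _ hκ0
  have hd' : k' / Nat.gcd k k' = k₁' := by
    rw [← hκ, ek']; exact Nat.mul_div_cancel_left _ hκ0
  have hS := (low_pos x s).ne'
  have hS' := (low_pos x s').ne'
  rw [eS] at hS
  rw [eS'] at hS'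
  have key : ∀ p : ℕ, p.Prime → p ∣ r → p ≤ Z := by
    intro p hp hpr
    by_contra hcon
    have hpx : p ≤ x := prime_dvd_part (fun p => p ≤ x) hp
      (show p ∣ low x s by rw [eS]; exact hpr.mul_left _)
    exact (htop p hp (by omega) hpx).1
      (expl_of_r hM hb hc hcop hx hk hca' h0 ek ek' eS eS' rel hp hpr)
  have key' : ∀ p : ℕ, p.Prime → p ∣ r' → p ≤ Z := by
    intro p hp hpr
    by_contra hcon
    have hpx : p ≤ x := prime_dvd_part (fun p => p ≤ x) hp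
      (show p ∣ low x s' by rw [eS']; exact hpr.mul_left _)
    refine (htop p hp (by omega) hpx).2 ?_
    exact expl_of_r hM hc hb hcop.symm (FL.good_symm hb hc hx) hk' hca
      (gap_symm h0) ek' ek eS' eS (h := -h) (by linear_combination -rel) hp hpr
  have hk₁y : k₁ ≤ y := by
    refine le_trans ?_ hky
    rw [← hd]; exact Nat.div_le_self _ _
  have hk₁y' : k₁' ≤ y := by
    refine le_trans ?_ hky'
    rw [← hd']; exact Nat.div_le_self _ _
  have smooth : ∀ {σ k₀ ρ : ℕ}, low x σ = k₀ * ρ → k₀ * ρ ≠ 0 → k₀ ≤ y →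
      (∀ p, p.Prime → p ∣ ρ → p ≤ Z) → low y σ = low x σ := by
    intro σ k₀ ρ e hne hk₀ hρ
    have h1 : low y (low x σ) = low y σ := low_low hyx _
    rw [← h1]
    have h2 := low_mul_upp y (low_pos x σ).ne'
    have h3 : upp y (low x σ) = 1 := by
      refine upp_one_of fun p hp hd => ?_
      rw [e] at hd
      rcases (hp.dvd_mul).1 hd with h4 | h4
      · exact (Nat.le_of_dvd (Nat.pos_of_ne_zero (left_ne_zero_of_mul hne)) h4).trans hk₀
      · exact (hρ p hp h4).trans hZy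
    rwa [h3, mul_one] at h2
  refine ⟨r, r', Nat.pos_of_ne_zero (right_ne_zero_of_mul hS),
    Nat.pos_of_ne_zero (right_ne_zero_of_mul hS'), key, key', ?_, ?_, ?_, ?_⟩
  · rw [hd]; exact eS
  · rw [hd']; exact eS'
  · exact smooth eS hS hk₁y key
  · exact smooth eS' hS' hk₁y' key'

/-- the same for a pair `b, c` -/
theorem word_of {y Z t b c : ℕ} {h : ℤ} {f f' : ℚ} {K : ℝ} (hM : 0 < M) (hb : b ∣ M)
    (hc : c ∣ M) (hKy : K ≤ y) (hZy : Z ≤ y) (hS : Sm F P y Z K t b c h f f') :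
    ∃ r r' : ℕ, 0 < r ∧ 0 < r' ∧ (∀ p, p.Prime → p ∣ r → p ≤ Z) ∧
      (∀ p, p.Prime → p ∣ r' → p ≤ Z) ∧
      wd (low y b) (low y c) =
        (k0 F (P.cut t) b f / Nat.gcd (k0 F (P.cut t) b f) (k0 F (P.cut t) c f') * r,
          k0 F (P.cut t) c f' / Nat.gcd (k0 F (P.cut t) b f) (k0 F (P.cut t) c f') * r') ∧
      K ≤ 256 * (((wd (low y b) (low y c)).1 : ℝ) * (wd (low y b) (low y c)).2) ^ 3 := by
  have hb0 : 0 < b := Nat.pos_of_dvd_of_pos hb hM
  have hc0 : 0 < c := Nat.pos_of_dvd_of_pos hc hM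
  set g := Nat.gcd b c with hgdef
  have hg : 0 < g := Nat.gcd_pos_of_pos_left _ hb0
  set s := b / g with hsdef
  set s' := c / g with hsdef'
  have eb : g * s = b := Nat.mul_div_cancel' (Nat.gcd_dvd_left _ _)
  have ec : g * s' = c := Nat.mul_div_cancel' (Nat.gcd_dvd_right _ _)
  have hcop : Nat.Coprime s s' := Nat.coprime_div_gcd_div_gcd hg
  have hs : 0 < s := Nat.pos_of_ne_zero fun h => by rw [h, mul_zero] at eb; omega
  have hs' : 0 < s' := Nat.pos_of_ne_zero fun h => by rw [h, mul_zero] at ec; omega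
  have hky : k0 F (P.cut t) b f ≤ y := by
    exact_mod_cast ((k0_le_dep t b f).trans hS.db).trans hKy
  have hky' : k0 F (P.cut t) c f' ≤ y := by
    exact_mod_cast ((k0_le_dep t c f').trans hS.dc).trans hKy
  obtain ⟨r, r', hr, hr', hrZ, hrZ', e1, e2, e3, e4⟩ := word_gs (F := F) (x := P.cut t) (y := y)
    (Z := Z) (g := g) (s := s) (s' := s') (h := h) (f := f) (f' := f') hM (by rw [eb]; exact hb)
    (by rw [ec]; exact hc) hcop (by rw [eb, ec]; exact hS.good) hS.yx hZy hS.pt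
    (by rw [eb]; exact hky) (by rw [ec]; exact hky') (by rw [eb, ec]; exact hS.top)
  rw [eb, ec] at e1 e2
  have egl : Nat.gcd (low y b) (low y c) = low y g := by
    rw [← eb, ← ec]; exact gcd_low hg.ne' hs.ne' hs'.ne' hcop
  have elb : low y b / low y g = low y s := by
    rw [← eb, low_gs y hg.ne' hs.ne']; exact Nat.mul_div_cancel_left _ (low_pos _ _)
  have elc : low y c / low y g = low y s' := by
    rw [← ec, low_gs y hg.ne' hs'.ne']; exact Nat.mul_div_cancel_left _ (low_pos _ _)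
  have ewd : wd (low y b) (low y c) = (low (P.cut t) s, low (P.cut t) s') := by
    unfold wd
    rw [egl, elb, elc, e3, e4]
  refine ⟨r, r', hr, hr', hrZ, hrZ', ?_, ?_⟩
  · rw [ewd, e1, e2]
  · rw [ewd]; exact hS.big

/-! ### numerics -/

lemma pow_absorb {B δ : ℝ} (hB : 0 ≤ B) (hδ : 0 < δ) : ∃ C : ℝ, 0 ≤ C ∧ ∀ u : ℝ, 0 ≤ u →
    B * u ^ (13 / 20 : ℝ) ≤ δ * u + C := by
  refine ⟨B * (B / δ) ^ (13 / 7 : ℝ), by positivity, fun u hu => ?_⟩
  rcases le_or_gt (B / δ) (u ^ (7 / 20 : ℝ)) with h | h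
  · have h1 : B ≤ δ * u ^ (7 / 20 : ℝ) := by
      rw [div_le_iff₀ hδ] at h
      linarith
    have h2 : u ^ (7 / 20 : ℝ) * u ^ (13 / 20 : ℝ) = u := by
      rw [← Real.rpow_add_of_nonneg hu (by norm_num) (by norm_num)]
      norm_num
    calc B * u ^ (13 / 20 : ℝ) ≤ (δ * u ^ (7 / 20 : ℝ)) * u ^ (13 / 20 : ℝ) :=
          mul_le_mul_of_nonneg_right h1 (by positivity)
      _ = δ * u := by rw [mul_assoc, h2]
      _ ≤ δ * u + B * (B / δ) ^ (13 / 7 : ℝ) := by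
          have : 0 ≤ B * (B / δ) ^ (13 / 7 : ℝ) := by positivity
          linarith
  · have h0 : 0 ≤ u ^ (7 / 20 : ℝ) := by positivity
    have h1 : u ^ (13 / 20 : ℝ) ≤ (B / δ) ^ (13 / 7 : ℝ) := by
      have h2 : u ^ (13 / 20 : ℝ) = (u ^ (7 / 20 : ℝ)) ^ (13 / 7 : ℝ) := by
        rw [← Real.rpow_mul hu]
        norm_num
      rw [h2]
      exact Real.rpow_le_rpow h0 h.le (by norm_num)
    have h2 : 0 ≤ δ * u := by positivity
    have h3 := mul_le_mul_of_nonneg_left h1 hB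
    linarith

/-- number of denominators over one word -/
noncomputable def nn (K : ℝ) : ℕ := Nat.log 2 ⌊4 * K * (⌈K⌉₊ : ℝ) ^ 2⌋₊ + Nat.log 2 ⌈K⌉₊ + 2

/-- **numerics** -/
theorem numer (A : ℝ) : ∃ C : ℝ, 0 < C ∧ ∀ (K : ℝ) (Z : ℕ), 1 ≤ K →
    (Z : ℝ) ≤ A * (1 + Real.log K) ^ (5 / 4 : ℝ) →
    ((nn K * nn K : ℕ) : ℝ) * ((Nat.log 2 ⌈K⌉₊ : ℝ) + 1) ^ 2 *
      ((K / 256) ^ (1 / 3 : ℝ)) ^ (-(1 / 50) : ℝ) * Real.exp (16 * (Z : ℝ) ^ (13 / 25 : ℝ)) ≤
      C * K ^ (-(1 / 200) : ℝ) := by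
  set ε : ℝ := 1 / 10000 with hε
  have hε0 : 0 < ε := by norm_num
  obtain ⟨C1, hC1, h1⟩ := TwistKKx863.log_factor hε0 1
  set C2 : ℝ := max 1 (1 / (ε * Real.log 2)) with hC2
  have hC21 : 1 ≤ C2 := le_max_left _ _
  set A' : ℝ := max A 1 with hA'
  have hA1 : 1 ≤ A' := le_max_right _ _
  obtain ⟨C3, hC3, h3⟩ := pow_absorb (B := 16 * A' ^ (13 / 25 : ℝ)) (δ := 1 / 2000)
    (by positivity) (by norm_num)
  refine ⟨(C1 * 2) ^ 2 * (C2 * 2) ^ 2 * 2 * Real.exp (1 / 2000 + C3), by positivity,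
    fun K Z hK hZ => ?_⟩
  have hK0 : 0 < K := by linarith
  set N := ⌈K⌉₊ with hN
  have hN1 : 1 ≤ N := Nat.one_le_ceil_iff.2 hK0
  have hKN : K ≤ N := Nat.le_ceil K
  have hN2 : (N : ℝ) ≤ 2 * K := by
    have := Nat.ceil_lt_add_one hK0.le
    rw [← hN] at this
    linarith
  have hNe : (N : ℝ) ^ ε ≤ 2 * K ^ ε := by
    calc (N : ℝ) ^ ε ≤ (2 * K) ^ ε := Real.rpow_le_rpow (Nat.cast_nonneg _) hN2 hε0.le
      _ = 2 ^ ε * K ^ ε := Real.mul_rpow (by norm_num) hK0.le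
      _ ≤ 2 * K ^ ε := by
          refine mul_le_mul_of_nonneg_right ?_ (by positivity)
          calc (2 : ℝ) ^ ε ≤ 2 ^ (1 : ℝ) :=
                Real.rpow_le_rpow_of_exponent_le (by norm_num) (by norm_num)
            _ = 2 := Real.rpow_one 2
  have a1 : ((nn K : ℕ) : ℝ) ≤ (C1 * 2) * K ^ ε := by
    have h4 := h1 K N hN1 (by rw [pow_one]; exact hKN)
    have h5 : ((nn K : ℕ) : ℝ) ≤ C1 * (N : ℝ) ^ ε := h4
    refine h5.trans ?_
    calc C1 * (N : ℝ) ^ ε ≤ C1 * (2 * K ^ ε) := mul_le_mul_of_nonneg_left hNe hC1.le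
      _ = _ := by ring
  have a2 : (Nat.log 2 N : ℝ) + 1 ≤ (C2 * 2) * K ^ ε := by
    have h4 := TwistKKx863.succ_le_small hε0 2 (Nat.log 2 N) le_rfl
    have h5 : ((2 : ℕ) : ℝ) ^ (Nat.log 2 N) ≤ N := by
      exact_mod_cast Nat.pow_log_le_self 2 (by omega)
    have h6 : ((((2 : ℕ) : ℝ) ^ (Nat.log 2 N)) ^ ε) ≤ (N : ℝ) ^ ε :=
      Real.rpow_le_rpow (by positivity) h5 hε0.le
    calc (Nat.log 2 N : ℝ) + 1 ≤ C2 * ((((2 : ℕ) : ℝ) ^ (Nat.log 2 N)) ^ ε) := h4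
      _ ≤ C2 * (2 * K ^ ε) := mul_le_mul_of_nonneg_left (h6.trans hNe) (by linarith)
      _ = _ := by ring
  have a3 : ((K / 256) ^ (1 / 3 : ℝ)) ^ (-(1 / 50) : ℝ) ≤ 2 * K ^ (-(1 / 150) : ℝ) := by
    rw [← Real.rpow_mul (by positivity), show (1 / 3 : ℝ) * (-(1 / 50)) = -(1 / 150) by norm_num,
      Real.div_rpow hK0.le (by norm_num), div_eq_mul_inv, mul_comm]
    refine mul_le_mul_of_nonneg_right ?_ (by positivity)
    rw [← Real.rpow_neg (by norm_num)]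
    calc (256 : ℝ) ^ (-(-(1 / 150)) : ℝ) ≤ (256 : ℝ) ^ (1 / 8 : ℝ) :=
          Real.rpow_le_rpow_of_exponent_le (by norm_num) (by norm_num)
      _ = 2 := by
          rw [show (256 : ℝ) = 2 ^ (8 : ℝ) by norm_num, ← Real.rpow_mul (by norm_num)]
          norm_num
  have a4 : Real.exp (16 * (Z : ℝ) ^ (13 / 25 : ℝ)) ≤
      Real.exp (1 / 2000 + C3) * K ^ (1 / 2000 : ℝ) := by
    have hl : 0 ≤ Real.log K := Real.log_nonneg hK
    have hu : (0 : ℝ) ≤ 1 + Real.log K := by linarith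
    have hZ' : (Z : ℝ) ≤ A' * (1 + Real.log K) ^ (5 / 4 : ℝ) :=
      hZ.trans (mul_le_mul_of_nonneg_right (le_max_left _ _) (by positivity))
    have h5 : (Z : ℝ) ^ (13 / 25 : ℝ) ≤ A' ^ (13 / 25 : ℝ) * (1 + Real.log K) ^ (13 / 20 : ℝ) := by
      refine (Real.rpow_le_rpow (Nat.cast_nonneg _) hZ' (by norm_num)).trans (le_of_eq ?_)
      rw [Real.mul_rpow (by linarith) (by positivity), ← Real.rpow_mul hu]
      norm_num
    have h6 := h3 (1 + Real.log K) hu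
    have h7 : K ^ (1 / 2000 : ℝ) = Real.exp (1 / 2000 * Real.log K) := by
      rw [Real.rpow_def_of_pos hK0, mul_comm]
    rw [h7, ← Real.exp_add, Real.exp_le_exp]
    calc 16 * (Z : ℝ) ^ (13 / 25 : ℝ) ≤
          16 * (A' ^ (13 / 25 : ℝ) * (1 + Real.log K) ^ (13 / 20 : ℝ)) := by linarith
      _ = 16 * A' ^ (13 / 25 : ℝ) * (1 + Real.log K) ^ (13 / 20 : ℝ) := by ring
      _ ≤ 1 / 2000 * (1 + Real.log K) + C3 := h6
      _ = _ := by ring
  have b1 : ((nn K * nn K : ℕ) : ℝ) ≤ ((C1 * 2) * K ^ ε) ^ 2 := by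
    push_cast
    rw [← sq]
    exact pow_le_pow_left₀ (Nat.cast_nonneg _) a1 2
  have b2 : ((Nat.log 2 N : ℝ) + 1) ^ 2 ≤ ((C2 * 2) * K ^ ε) ^ 2 :=
    pow_le_pow_left₀ (by positivity) a2 2
  calc ((nn K * nn K : ℕ) : ℝ) * ((Nat.log 2 N : ℝ) + 1) ^ 2 *
      ((K / 256) ^ (1 / 3 : ℝ)) ^ (-(1 / 50) : ℝ) * Real.exp (16 * (Z : ℝ) ^ (13 / 25 : ℝ))
      ≤ ((C1 * 2) * K ^ ε) ^ 2 * ((C2 * 2) * K ^ ε) ^ 2 * (2 * K ^ (-(1 / 150) : ℝ)) *
        (Real.exp (1 / 2000 + C3) * K ^ (1 / 2000 : ℝ)) := by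
        gcongr
    _ = ((C1 * 2) ^ 2 * (C2 * 2) ^ 2 * 2 * Real.exp (1 / 2000 + C3)) *
        ((K ^ ε) ^ 2 * (K ^ ε) ^ 2 * K ^ (-(1 / 150) : ℝ) * K ^ (1 / 2000 : ℝ)) := by ring
    _ ≤ ((C1 * 2) ^ 2 * (C2 * 2) ^ 2 * 2 * Real.exp (1 / 2000 + C3)) *
        K ^ (-(1 / 200) : ℝ) := by
        refine mul_le_mul_of_nonneg_left ?_ (by positivity)
        have e : (K ^ ε) ^ 2 * (K ^ ε) ^ 2 * K ^ (-(1 / 150) : ℝ) * K ^ (1 / 2000 : ℝ) =
            K ^ (ε * 2 + ε * 2 + -(1 / 150) + 1 / 2000 : ℝ) := by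
          rw [Real.rpow_add hK0, Real.rpow_add hK0, Real.rpow_add hK0]
          congr 2
          rw [← Real.rpow_natCast, ← Real.rpow_mul hK0.le]
          norm_num
        rw [e]
        exact Real.rpow_le_rpow_of_exponent_le hK (by rw [hε]; norm_num)

/-! ### the theorem -/

/-- the words over `(z, z')` in the box `(U, U')` -/
noncomputable def KW (F : FL M) (P : Par) (K : ℝ) (U U' z z' : ℕ) : Finset (ℕ × ℕ) :=
  (TwistKKx863.LS F P.γ P.L ((2 : ℝ) ^ U) K ⌈K⌉₊ P.cut (lb P) (Finset.range (P.N + 1)) z ×ˢ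
    TwistKKx863.LS F P.γ P.L ((2 : ℝ) ^ U') K ⌈K⌉₊ P.cut (lb P) (Finset.range (P.N + 1)) z').image
    (fun q => (q.1 / Nat.gcd q.1 q.2, q.2 / Nat.gcd q.1 q.2))

lemma mem_LS_le {γ L X R : ℝ} {N : ℕ} {x : ℕ → ℕ} {lab : ℕ → ℕ → ℕ} {I : Finset ℕ} {z k : ℕ}
    (h : k ∈ TwistKKx863.LS F γ L X R N x lab I z) : 0 < k ∧ k ≤ N := by
  classical
  unfold TwistKKx863.LS at h
  rw [Finset.mem_image] at h
  obtain ⟨i, hi, rfl⟩ := h
  have ho := (Finset.mem_filter.1 hi).2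
  exact ⟨ho.1, ho.2.1⟩

lemma KW_card {K : ℝ} (hM : 0 < M) (hcut : Monotone P.cut) (hK : 0 ≤ K) {U U' z z' : ℕ}
    (hz : z ∣ M) (hz' : z' ∣ M) : (KW F P K U U' z z').card ≤ nn K * nn K := by
  classical
  unfold KW
  refine Finset.card_image_le.trans ?_
  rw [Finset.card_product]
  exact Nat.mul_le_mul (TwistKKx863.card_LS hM hz hK hcut) (TwistKKx863.card_LS hM hz' hK hcut)

lemma KW_le {K : ℝ} {U U' z z' : ℕ} {x : ℕ × ℕ} (h : x ∈ KW F P K U U' z z') :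
    0 < x.1 ∧ x.1 ≤ ⌈K⌉₊ ∧ 0 < x.2 ∧ x.2 ≤ ⌈K⌉₊ := by
  classical
  unfold KW at h
  rw [Finset.mem_image] at h
  obtain ⟨q, hq, rfl⟩ := h
  rw [Finset.mem_product] at hq
  obtain ⟨h1, h2⟩ := mem_LS_le hq.1
  obtain ⟨h3, h4⟩ := mem_LS_le hq.2
  have hg : 0 < Nat.gcd q.1 q.2 := Nat.gcd_pos_of_pos_left _ h1
  exact ⟨Nat.div_pos (Nat.le_of_dvd h1 (Nat.gcd_dvd_left _ _)) hg,
    (Nat.div_le_self _ _).trans h2,
    Nat.div_pos (Nat.le_of_dvd h3 (Nat.gcd_dvd_right _ _)) hg, (Nat.div_le_self _ _).trans h4⟩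

open VecNPx50 in
/-- **(6.0)**, weights with the bound for functions -/
theorem lsmooth' (A : ℝ) : ∃ C : ℝ, 0 < C ∧ ∀ (M : ℕ) (F : FL M) (P : Par) (y Z : ℕ) (K E : ℝ)
    (S : Finset ℕ) (k : ℕ → ℕ → ℕ → ℕ → ℕ → ℝ) (f g : ℕ → ℝ) (Φ : ℕ → ℕ → ℝ),
    0 < M → 0 < P.L → (M : ℝ) / P.L ≤ P.N → (∀ m, P.m0 ≤ m → 2 * P.E m ^ 3 < 2 ^ m) →
    Monotone P.cut → 1 ≤ K → K ≤ y → Z ≤ y → (Z : ℝ) ≤ A * (1 + Real.log K) ^ (5 / 4 : ℝ) →
    (∀ i U U' z z', 0 ≤ k i U U' z z') → 0 ≤ E → (∀ i U U', SetBd (upp y M) (k i U U') E) →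
    (∀ b, 0 ≤ f b) → (∀ b, 0 ≤ g b) → (∀ b, f b ≤ 1) → (∀ b, g b ≤ 1) →
    (∀ b c, b ∣ M → c ∣ M → Φ b c ≤ 0 ∨
      (Φ b c ≤ k (Nat.log 2 (Nat.gcd (low y b) (low y c))) (Nat.log 2 (low y b))
        (Nat.log 2 (low y c)) (upp y b) (upp y c) *
        bst S (low y M) (low y b) (low y c) * (f b * g c) ∧
      ∃ t h f₁ f₂, Sm F P y Z K t b c h f₁ f₂)) →
    frm M Φ ≤ C * E * K ^ (-(1 / 200) : ℝ) * (√(Ex M f) * √(Ex M g)) := by
  classical
  obtain ⟨C, hC, hnum⟩ := numer A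
  refine ⟨72 * C, by positivity, fun M F P y Z K E S k f g Φ hM hL hN hE hcut hK hKy hZy hZ hk hE0
    hW hf hg hf1 hg1 hex => ?_⟩
  have hK0 : 0 < K := by linarith
  have hW₀ : 0 < (K / 256) ^ (1 / 3 : ℝ) := by positivity
  have h1 := LSmoothBx808.smooth_abs3 hM y S hk hE0 hW Z ⌈K⌉₊ (nn K * nn K) hW₀
    (fun _ U U' z z' => KW F P K U U' z z')
    (fun i U U' z z' hz hz' => KW_card hM hcut hK0.le (hz.trans (upp_dvd_self y M))
      (hz'.trans (upp_dvd_self y M)))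
    (fun i U U' z z' x hx => KW_le hx) hf hg hf1 hg1 (Φ := Φ)
    (fun b c hb hc => by
      rcases hex b c hb hc with h0 | ⟨h0, t, h, f₁, f₂, hS⟩
      · exact Or.inl h0
      right
      refine ⟨h0, ?_⟩
      obtain ⟨r, r', hr, hr', hrZ, hrZ', ewd, hbig⟩ := word_of hM hb hc hKy hZy hS
      refine ⟨(k0 F (P.cut t) b f₁ / Nat.gcd (k0 F (P.cut t) b f₁) (k0 F (P.cut t) c f₂),
        k0 F (P.cut t) c f₂ / Nat.gcd (k0 F (P.cut t) b f₁) (k0 F (P.cut t) c f₂)), ?_,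
        r, r', hr, hr', hrZ, hrZ', ewd, ?_⟩
      · show (_, _) ∈ KW F P K _ _ _ _
        unfold KW
        refine Finset.mem_image.2 ⟨(k0 F (P.cut t) b f₁, k0 F (P.cut t) c f₂),
          Finset.mem_product.2 ⟨?_, ?_⟩, rfl⟩
        · exact mem_LS hM hL hN hE hcut hb hS.m0 hS.yx hS.ib hS.db hKy (Nat.le_ceil K)
        · exact mem_LS hM hL hN hE hcut hc hS.m0 hS.yx hS.ic hS.dc hKy (Nat.le_ceil K)
      · rw [ewd] at hbig
        set w : ℝ := ((k0 F (P.cut t) b f₁ / Nat.gcd (k0 F (P.cut t) b f₁)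
          (k0 F (P.cut t) c f₂) * r : ℕ) : ℝ) with hw
        set w' : ℝ := ((k0 F (P.cut t) c f₂ / Nat.gcd (k0 F (P.cut t) b f₁)
          (k0 F (P.cut t) c f₂) * r' : ℕ) : ℝ) with hw'
        have hww : 0 ≤ w * w' := mul_nonneg (Nat.cast_nonneg _) (Nat.cast_nonneg _)
        have h2 : K / 256 ≤ (w * w') ^ 3 := by
          rw [div_le_iff₀ (by norm_num)]
          linarith
        calc (K / 256) ^ (1 / 3 : ℝ) ≤ ((w * w') ^ 3) ^ (1 / 3 : ℝ) :=
              Real.rpow_le_rpow (by positivity) h2 (by norm_num)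
          _ = w * w' := by
              rw [← Real.rpow_natCast, ← Real.rpow_mul hww]
              norm_num)
  refine h1.trans ?_
  have h2 := hnum K Z hK hZ
  set D := √(Ex M f) * √(Ex M g) with hD
  have hD0 : 0 ≤ D := mul_nonneg (Real.sqrt_nonneg _) (Real.sqrt_nonneg _)
  calc 72 * E * (((nn K * nn K : ℕ) : ℝ) * ((Nat.log 2 ⌈K⌉₊ : ℝ) + 1) ^ 2) *
        ((K / 256) ^ (1 / 3 : ℝ)) ^ (-(1 / 50) : ℝ) * Real.exp (16 * (Z : ℝ) ^ (13 / 25 : ℝ)) * D
      = (72 * E * D) * (((nn K * nn K : ℕ) : ℝ) * ((Nat.log 2 ⌈K⌉₊ : ℝ) + 1) ^ 2 *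
        ((K / 256) ^ (1 / 3 : ℝ)) ^ (-(1 / 50) : ℝ) *
        Real.exp (16 * (Z : ℝ) ^ (13 / 25 : ℝ))) := by ring
    _ ≤ (72 * E * D) * (C * K ^ (-(1 / 200) : ℝ)) := mul_le_mul_of_nonneg_left h2 (by positivity)
    _ = _ := by ring

/-- **(6.0)**: weights with 899's bound for sets -/
theorem lsmooth (A : ℝ) : ∃ C : ℝ, 0 < C ∧ ∀ (M : ℕ) (F : FL M) (P : Par) (y Z : ℕ) (K E : ℝ)
    (S : Finset ℕ) (k : ℕ → ℕ → ℕ → ℕ → ℕ → ℝ) (f g : ℕ → ℝ) (Φ : ℕ → ℕ → ℝ),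
    0 < M → 0 < P.L → (M : ℝ) / P.L ≤ P.N → (∀ m, P.m0 ≤ m → 2 * P.E m ^ 3 < 2 ^ m) →
    Monotone P.cut → 1 ≤ K → K ≤ y → Z ≤ y → (Z : ℝ) ≤ A * (1 + Real.log K) ^ (5 / 4 : ℝ) →
    (∀ i U U' z z', 0 ≤ k i U U' z z') → 0 ≤ E →
    (∀ i U U', LowLx899.SetW (upp y M) (k i U U') E) →
    (∀ b, 0 ≤ f b) → (∀ b, 0 ≤ g b) → (∀ b, f b ≤ 1) → (∀ b, g b ≤ 1) →
    (∀ b c, b ∣ M → c ∣ M → Φ b c ≤ 0 ∨
      (Φ b c ≤ k (Nat.log 2 (Nat.gcd (low y b) (low y c))) (Nat.log 2 (low y b))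
        (Nat.log 2 (low y c)) (upp y b) (upp y c) *
        bst S (low y M) (low y b) (low y c) * (f b * g c) ∧
      ∃ t h f₁ f₂, Sm F P y Z K t b c h f₁ f₂)) →
    frm M Φ ≤ C * E * K ^ (-(1 / 200) : ℝ) * (√(Ex M f) * √(Ex M g)) := by
  obtain ⟨C, hC, h⟩ := lsmooth' A
  refine ⟨C * 8, by positivity, fun M F P y Z K E S k f g Φ hM hL hN hE hcut hK hKy hZy hZ hk hE0
    hW hf hg hf1 hg1 hex => ?_⟩
  have h1 := h M F P y Z K (8 * E) S k f g Φ hM hL hN hE hcut hK hKy hZy hZ hk (by positivity)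
    (fun i U U' => LSmoothBx808.setBd_of_setW (upp_pos y M) (hk i U U') hE0 (hW i U U')) hf hg hf1
    hg1 hex
  refine h1.trans (le_of_eq ?_)
  ring

end Crest.Agent.R4C.LSmoothx808
end

-- ▼ part R4C/TgtS_398
section

/-!
# Row 4, CLASS (L): ARROW S, the smooth case (6.0) (helper398, shadow of 808)

Box `(n, n')` = depths; `m = max n n'`, `K = 2^(m+1)`, cut `y = 2^(m+4)` above both depths (no
twist), `Z = ⌊2 (1 + log K)^(5/4)⌋` bounds the explained primes.  Inputs: `lsmooth` (808), `pairG`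
(899), `boost_word` (208), `centre_eq` (11), `clsOK_of_boxes` (179), `cls_hvy` (281).

* `SB` : a pair of the box; `sm_of`, `kz_of`, `pair_of` : data for `lsmooth` and `pairG`;
* `set_one` : the set bound of one box; `sum_bx` : the sum over the boxes;
* **`tgtS`** : the target `TgtS` of `LBoxDef_662`.
-/

set_option autoImplicit false

open Finset

namespace Crest.Agent.R4C.TgtSx398

open Crest.Agent.R4C.Basex935 Crest.Agent.R4C.Cutx50 Crest.Agent.R4C.FLDefx935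
  Crest.Agent.R4C.Rulex945 Crest.Agent.R4C.Splitx945 Crest.Agent.R4C.Bridgex882
  Crest.Agent.R4C.S7dx14 Crest.Agent.R4C.BoostCx972 Crest.Agent.R4C.PureL2x232
  Crest.Agent.R4C.Keptx559 Crest.Agent.R4C.LClassx662 Crest.Agent.R4C.LowLx899
  Crest.Agent.R4C.NonPureBlkx559 Crest.Agent.R4C.LBoxDefx662 Crest.Agent.R4C.Spinex946
  Crest.Agent.R4C.HighWx899 Crest.Agent.R4C.BoxWx899 Crest.Agent.R4C.BoxGx899
  Crest.Agent.R4C.LCovBx11 Crest.Agent.R4C.TEndx129 Crest.Agent.R4C.HyOfx281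
  Crest.Agent.R4C.LBstx208 Crest.Agent.R4C.LSmoothx808 Crest.Agent.R4C.BoxKitx179
open Crest.Agent.R4C.LBxx500 (tw HyB zz)
open Crest.Agent.R4C.FLExx326 (ind)
open Crest.Agent.R4C.B1Levx52 (offW one_le_offW)

/-! ### a pair of a box -/

section one

variable {M : ℕ}

/-- a pair of the smooth case, depths `2^n ≤ dep b < 2^(n+1)`, `2^n' ≤ dep c < 2^(n'+1)` -/
structure SB (F : FL M) (P : Par) (jB : ℕ → ℕ) (n n' t b c : ℕ) (h : ℤ) (f f' : ℚ) (p : ℕ) :
    Prop where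
  lp : LP F P t b c h f f' p
  gd : F.good (Xj (jB t)) b c
  dn : (2 : ℝ) ^ n ≤ dep F P t b f
  dn1 : dep F P t b f < 2 ^ (n + 1)
  dn' : (2 : ℝ) ^ n' ≤ dep F P t c f'
  dn1' : dep F P t c f' < 2 ^ (n' + 1)
  sm : (p : ℝ) ≤ 2 * (1 + Real.log ((2 : ℝ) ^ (max n n' + 1))) ^ (5 / 4 : ℝ)

/-- `K` -/
noncomputable def KB (n n' : ℕ) : ℝ := 2 ^ (max n n' + 1)

/-- bound of the explained primes -/
noncomputable def ZB (n n' : ℕ) : ℕ := ⌊2 * (1 + Real.log (KB n n')) ^ (5 / 4 : ℝ)⌋₊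

lemma one_le_KB (n n' : ℕ) : 1 ≤ KB n n' := one_le_pow₀ (by norm_num)

lemma log_KB_nonneg (n n' : ℕ) : 0 ≤ Real.log (KB n n') := Real.log_nonneg (one_le_KB n n')

lemma log_pow_le {K : ℝ} (hK : 1 ≤ K) : 2 * (1 + Real.log K) ^ (5 / 4 : ℝ) ≤ 8 * K := by
  have hK0 : 0 < K := by linarith
  have h0 : 0 ≤ Real.log K := Real.log_nonneg hK
  have h1 : Real.log K ≤ 2 * √K - 2 := by
    have h2 := Real.log_le_sub_one_of_pos (Real.sqrt_pos.2 hK0)
    have h3 : Real.log (√K) = Real.log K / 2 := Real.log_sqrt hK0.le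
    linarith
  have h2 : (1 + Real.log K) ^ (5 / 4 : ℝ) ≤ (1 + Real.log K) ^ (2 : ℝ) :=
    Real.rpow_le_rpow_of_exponent_le (by linarith) (by norm_num)
  have h3 : (1 + Real.log K) ^ (2 : ℝ) = (1 + Real.log K) ^ 2 := by
    rw [← Real.rpow_natCast]; norm_num
  have h4 : (1 + Real.log K) ^ 2 ≤ (2 * √K) ^ 2 :=
    pow_le_pow_left₀ (by linarith) (by linarith) 2
  have h5 : (2 * √K) ^ 2 = 4 * K := by
    rw [mul_pow, Real.sq_sqrt hK0.le]; norm_num
  have h6 : (1 + Real.log K) ^ (5 / 4 : ℝ) ≤ 4 * K := h2.trans (h3.le.trans (h4.trans h5.le))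
  calc 2 * (1 + Real.log K) ^ (5 / 4 : ℝ) ≤ 2 * (4 * K) :=
        mul_le_mul_of_nonneg_left h6 (by norm_num)
    _ = 8 * K := by ring

lemma ZB_le (n n' : ℕ) : ZB n n' ≤ 2 ^ (max n n' + 4) := by
  have h1 := log_pow_le (one_le_KB n n')
  have h2 : (0 : ℝ) ≤ 2 * (1 + Real.log (KB n n')) ^ (5 / 4 : ℝ) := by
    have := log_KB_nonneg n n'
    positivity
  have h3 : ((ZB n n' : ℕ) : ℝ) ≤ ((2 ^ (max n n' + 4) : ℕ) : ℝ) := by
    refine (Nat.floor_le h2).trans (h1.trans (le_of_eq ?_))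
    unfold KB
    push_cast
    ring
  exact_mod_cast h3

lemma ZB_le' (n n' : ℕ) : ((ZB n n' : ℕ) : ℝ) ≤ 2 * (1 + Real.log (KB n n')) ^ (5 / 4 : ℝ) :=
  Nat.floor_le (by
    have := log_KB_nonneg n n'
    positivity)

variable {F : FL M} {P : Par} {jB : ℕ → ℕ} {n n' t b c p : ℕ} {h : ℤ} {f f' : ℚ}

lemma SB.p_le (D : SB F P jB n n' t b c h f f' p) : p ≤ ZB n n' := Nat.le_floor D.sm

lemma SB.p_le' (D : SB F P jB n n' t b c h f f' p) : p ≤ 2 ^ (max n n' + 4) :=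
  D.p_le.trans (ZB_le n n')

lemma SB.db (D : SB F P jB n n' t b c h f f' p) : dep F P t b f ≤ KB n n' :=
  D.dn1.le.trans (pow_le_pow_right₀ (by norm_num) (by have := le_max_left n n'; omega))

lemma SB.dc (D : SB F P jB n n' t b c h f f' p) : dep F P t c f' ≤ KB n n' :=
  D.dn1'.le.trans (pow_le_pow_right₀ (by norm_num) (by have := le_max_right n n'; omega))

lemma KB_le_y (n n' : ℕ) : KB n n' ≤ ((2 ^ (max n n' + 4) : ℕ) : ℝ) := by
  unfold KB
  push_cast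
  exact pow_le_pow_right₀ (by norm_num) (by omega)

/-- data of `lsmooth` -/
lemma SB.smo (D : SB F P jB n n' t b c h f f' p) (hyt : 2 ^ (max n n' + 4) ≤ P.cut t) :
    Sm F P (2 ^ (max n n' + 4)) (ZB n n') (KB n n') t b c h f f' where
  m0 := D.lp.m0
  yx := hyt
  good := D.lp.good
  pt := D.lp.pt
  ib := D.lp.ib
  ic := D.lp.ic
  db := D.db
  dc := D.dc
  top := fun q hq h1 h2 => D.lp.top q hq (lt_of_le_of_lt D.p_le h1) h2
  big := by
    have h1 := D.lp.big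
    unfold BigW at h1
    have h3 : KB n n' = 2 * 2 ^ (max n n') := by unfold KB; ring
    have h2 : (2 : ℝ) ^ (max n n') ≤ 128 * ((low (P.cut t) (b / Nat.gcd b c) : ℝ) *
        low (P.cut t) (c / Nat.gcd b c)) ^ 3 := by
      rcases le_total n n' with h4 | h4
      · rw [max_eq_right h4]
        exact D.dn'.trans h1.2
      · rw [max_eq_left h4]
        exact D.dn.trans h1.1
    rw [h3]
    linarith

/-- the core of `LBoxP_500` at the cut `2^(m+4)` -/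
lemma SB.core (hY : ∀ i, P.Y i = 2 ^ i) (hl : h ∈ Lnk P.γ P.L b c)
    (D : SB F P jB n n' t b c h f f' p) (hyt : 2 ^ (max n n' + 4) ≤ P.cut t) :
    LBoxPx500.Core F P jB (max n n' + 4) t b c h f f' where
  m0 := D.lp.m0
  good := D.lp.good
  goodj := D.gd
  pt := D.lp.pt
  lnk := CrCountx935.mem_Hf.1 hl
  ib := D.lp.ib
  ic := D.lp.ic
  act := by rw [hY]; exact hyt
  top := fun r hr h1 h2 => D.lp.top r hr (by
    rw [hY] at h1
    exact lt_of_le_of_lt D.p_le' h1) h2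
  eb := D.lp.db
  ec := D.lp.dc

/-- no twist at a cut above the depths -/
lemma tw_one {y : ℕ} (hd : dep F P t b f ≤ y) : tw F P y t b c f f' = 1 := by
  unfold tw
  refine LDecx500.upp_one_of fun q hq hqd => ?_
  have h1 : q ∣ k0 F (P.cut t) b f := hqd.trans (Nat.div_dvd_of_dvd (Nat.gcd_dvd_left _ _))
  have h2 : q ≤ k0 F (P.cut t) b f := Nat.le_of_dvd (k0_pos _ _ _) h1
  have h3 : (k0 F (P.cut t) b f : ℝ) ≤ y := (k0_le_dep t b f).trans hd
  have h4 : k0 F (P.cut t) b f ≤ y := by exact_mod_cast h3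
  exact h2.trans h4

/-- **the high words**: kept, equal letters up to the cut of the level -/
lemma SB.high {j0 : ℕ} (H : HyB M P jB j0) (hY : ∀ i, P.Y i = 2 ^ i) (hb : b ∣ M) (hc : c ∣ M)
    (hl : h ∈ Lnk P.γ P.L b c) (D : SB F P jB n n' t b c h f f' p)
    (hyt : 2 ^ (max n n' + 4) ≤ P.cut t) :
    KZ (hiFL H.hM (2 ^ (max n n' + 4)) F) j0 (upp (2 ^ (max n n' + 4)) b)
      (upp (2 ^ (max n n' + 4)) c) ∧
    ∀ q, q ≤ P.cut t → (upp (2 ^ (max n n' + 4)) b).factorization q =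
      (upp (2 ^ (max n n' + 4)) c).factorization q := by
  have C := D.core hY hl hyt
  have C' := C.swap hb hc
  have hy : P.Y (max n n' + 4) = 2 ^ (max n n' + 4) := hY _
  have e1 := C.upp_b H hb hc
  have e2 := C'.upp_b H hc hb
  have hKy := KB_le_y n n'
  rw [hy] at e1 e2
  rw [tw_one (D.db.trans hKy), one_mul] at e1
  rw [tw_one (D.dc.trans hKy), one_mul] at e2
  have h1 := C.kz H hb hc
  rw [hy] at h1
  rw [← e1, ← e2] at h1
  refine ⟨h1, fun q hq => ?_⟩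
  rw [e1, e2]
  unfold zz
  rw [LDecx500.fact_z0' hq, LDecx500.fact_z0' hq, Nat.gcd_comm c b]

/-- the twist sets are trivial -/
def one1 : ℕ → Finset ℕ := fun _ => {1}

/-- **the high weight** -/
lemma SB.pair {w : ℕ → ℝ} {δ ε : ℝ} {DD' : ℕ → ℝ} (H : Hy F P w δ ε DD') (HB : HyB M P jB 1)
    (hE : Monotone P.E) (hG : CutGrow P) (hY : ∀ i, P.Y i = 2 ^ i) (hb : b ∣ M) (hc : c ∣ M)
    (hl : h ∈ Lnk P.γ P.L b c) (hk : ¬ killedB (lamR F P) b c h) (hn : ¬ CHvy F P w ε b c h)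
    (D : SB F P jB n n' t b c h f f' p) (hyt : 2 ^ (max n n' + 4) ≤ P.cut t)
    (hKt : 4 * KB n n' ^ 2 < 2 ^ t)
    (hthr : ∀ d i, P.cut t < P.Y i → KB n n' ≤ P.thr d i) :
    PairW (hiFL H.hM (2 ^ (max n n' + 4)) F) 1 P.cut
      (TTs F P (2 ^ (max n n' + 4)) (KB n n') {Nat.log 2 (low (2 ^ (max n n' + 4)) b)} one1)
      (XHs F P (2 ^ (max n n' + 4)) (KB n n') {Nat.log 2 (low (2 ^ (max n n' + 4)) b)} one1
        (2 ^ (max n n' + 4)))
      (TTs F P (2 ^ (max n n' + 4)) (KB n n') {Nat.log 2 (low (2 ^ (max n n' + 4)) c)} one1)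
      (XHs F P (2 ^ (max n n' + 4)) (KB n n') {Nat.log 2 (low (2 ^ (max n n' + 4)) c)} one1
        (2 ^ (max n n' + 4)))
      (upp (2 ^ (max n n' + 4)) b) (upp (2 ^ (max n n' + 4)) c)
      (Qt (M := M) P (2 ^ (max n n' + 4)) t (upp (2 ^ (max n n' + 4)) b)
        (upp (2 ^ (max n n' + 4)) c)) := by
  obtain ⟨hkz, heq⟩ := D.high HB hY hb hc hl hyt
  have hPG : PG F P w ε (KB n n') (2 ^ (max n n' + 4)) (2 ^ (max n n' + 4)) t b c h f f' := by
    refine ⟨D.lp.m0, D.lp.good, D.lp.pt, D.lp.ib, D.lp.ic, D.db, D.dc, D.lp.db, D.lp.dc, ?_,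
      D.lp.al, D.lp.scl, D.lp.near, le_rfl, hyt, one_le_KB n n', KB_le_y n n', hKt, ?_, ?_, hk, hn⟩
    · exact fun r hr h1 h2 => D.lp.topk r hr (lt_of_le_of_lt D.p_le' h1) h2
    · exact fun i hi => hthr b i hi
    · exact fun i hi => hthr c i hi
  refine pairG (F := F) (P := P) (κ := 1) (κ' := 1) H hE hG hb hc hPG (one_mul _).symm
    (one_mul _).symm (mem_singleton_self 1) (mem_singleton_self 1) (mem_singleton_self _)
    (mem_singleton_self _) ?_ ?_ (fun q _ hq => heq q hq) ?_ ?_ ?_ hkz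
  · intro q _ hq
    rw [fact_upp, if_pos (by omega)]
  · intro q _ hq
    rw [fact_upp, if_pos (by omega)]
  · exact fun q hq => (mem_filter.1 hq).1
  · exact fun q hq => (mem_filter.1 hq).2.2.1
  · exact fun q hq => (mem_filter.1 hq).2.1

/-- **one point and one offset per pair and box** -/
lemma SB.uniq {j0 : ℕ} (H : HyB M P jB j0) {t₂ p₂ : ℕ} {h₂ : ℤ} {f₂ f₂' : ℚ} (hb : b ∣ M)
    (hc : c ∣ M) (B1 : SB F P jB n n' t b c h f f' p) (B2 : SB F P jB n n' t₂ b c h₂ f₂ f₂' p₂) :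
    h = h₂ := by
  have hE : ∀ m, P.m0 ≤ m → 4 * P.E m ^ 8 < 2 ^ m := by
    intro m hm
    have h3 := H.hE m hm
    have h4 : (0 : ℝ) ≤ P.E m ^ 8 := pow_nonneg (zero_le_one.trans (H.E_one m)) _
    linarith
  have pw : ∀ n : ℕ, (2 : ℝ) ^ (n + 1) = 2 * 2 ^ n := fun n => by ring
  obtain ⟨e1, _⟩ := centre_eq (K := 2 ^ n) H.hL H.hM H.cut_mono hE hb B1.lp.m0 B2.lp.m0
    (one_le_cut H B1.lp.m0) (one_le_cut H B2.lp.m0) B1.lp.ib B2.lp.ib B1.lp.db B2.lp.db B1.dn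
    (by rw [← pw]; exact B1.dn1) B2.dn (by rw [← pw]; exact B2.dn1)
  obtain ⟨e2, _⟩ := centre_eq (K := 2 ^ n') H.hL H.hM H.cut_mono hE hc B1.lp.m0 B2.lp.m0
    (one_le_cut H B1.lp.m0) (one_le_cut H B2.lp.m0) B1.lp.ic B2.lp.ic B1.lp.dc B2.lp.dc B1.dn'
    (by rw [← pw]; exact B1.dn1') B2.dn' (by rw [← pw]; exact B2.dn1')
  have h3 := B1.lp.pt
  rw [e1, e2] at h3
  exact gap_unique h3 B2.lp.pt

/-- a pair of the smooth case is in a box -/
lemma SB_of (hY : ∀ i, P.Y i = 2 ^ i) (hS : LSm F P jB b c h) :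
    ∃ (n n' t : ℕ) (f f' : ℚ) (p : ℕ), SB F P jB n n' t b c h f f' p := by
  obtain ⟨t, f, f', p, hP, hgd, hd⟩ := hS
  obtain ⟨n, n1, n2⟩ := exists_dyadic (one_le_dep (F := F) (P := P) t b f)
  obtain ⟨n', n1', n2'⟩ := exists_dyadic (one_le_dep (F := F) (P := P) t c f')
  have pw : ∀ n : ℕ, (2 : ℝ) ^ (n + 1) = 2 * 2 ^ n := fun n => by ring
  rw [← pw] at n2 n2'
  have hK : ∀ d : ℝ, 1 ≤ d → d ≤ 2 ^ (max n n' + 1) →
      Real.exp ((P.Y (P.blk p - 1) : ℝ) ^ (4 / 5 : ℝ)) < d →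
      (p : ℝ) ≤ 2 * (1 + Real.log ((2 : ℝ) ^ (max n n' + 1))) ^ (5 / 4 : ℝ) := by
    intro d hd1 hdK hlt
    have hd0 : 0 < d := by linarith
    have h1 : (P.Y (P.blk p - 1) : ℝ) ^ (4 / 5 : ℝ) < Real.log d :=
      (Real.lt_log_iff_exp_lt hd0).2 hlt
    have h2 : Real.log d ≤ 1 + Real.log ((2 : ℝ) ^ (max n n' + 1)) := by
      have := Real.log_le_log hd0 hdK
      linarith
    have h0 : (0 : ℝ) ≤ (P.Y (P.blk p - 1) : ℝ) := Nat.cast_nonneg _
    have h3 : (P.Y (P.blk p - 1) : ℝ) ≤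
        (1 + Real.log ((2 : ℝ) ^ (max n n' + 1))) ^ (5 / 4 : ℝ) := by
      calc (P.Y (P.blk p - 1) : ℝ) = ((P.Y (P.blk p - 1) : ℝ) ^ (4 / 5 : ℝ)) ^ (5 / 4 : ℝ) := by
            rw [← Real.rpow_mul h0]; norm_num
        _ ≤ _ := Real.rpow_le_rpow (Real.rpow_nonneg h0 _) (h1.le.trans h2) (by norm_num)
    have hYm : StrictMono P.Y := fun a b hab => by
      rw [hY, hY]; exact Nat.pow_lt_pow_right (by norm_num) hab
    have h4 : p ≤ 2 * P.Y (P.blk p - 1) := by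
      refine (Par.le_blk hYm p).trans ?_
      rw [hY, hY, ← pow_succ']
      exact Nat.pow_le_pow_right (by norm_num) (by omega)
    have h5 : (p : ℝ) ≤ 2 * (P.Y (P.blk p - 1) : ℝ) := by exact_mod_cast h4
    linarith
  refine ⟨n, n', t, f, f', p, hP, hgd, n1, n2, n1', n2', ?_⟩
  rcases hd with ⟨_, _, h1⟩ | ⟨_, _, h1⟩
  · exact hK _ (one_le_dep t b f) (n2.le.trans (pow_le_pow_right₀ (by norm_num) (by
      have := le_max_left n n'; omega))) h1
  · exact hK _ (one_le_dep t c f') (n2'.le.trans (pow_le_pow_right₀ (by norm_num) (by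
      have := le_max_right n n'; omega))) h1

end one

/-! ### one box -/

section box

variable {M : ℕ}

/-- the offsets of a box -/
def RS (F : FL M) (P : Par) (w : ℕ → ℝ) (jB : ℕ → ℕ) (n n' b c : ℕ) (h : ℤ) : Prop :=
  ¬ CHvy F P w (1 / 20) b c h ∧ ∃ (t : ℕ) (f f' : ℚ) (p : ℕ), SB F P jB n n' t b c h f f' p

/-- boosted offset sum of a box, without `offW` -/
noncomputable def Ph (F : FL M) (P : Par) (w : ℕ → ℝ) (jB : ℕ → ℕ) (n n' b c : ℕ) : ℝ :=
  oS P.γ P.L M (lamR F P) (RS F P w jB n n') b c / (offW F 1 b * offW F 1 c)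

variable {F : FL M} {P : Par} {w : ℕ → ℝ} {jB : ℕ → ℕ} {n n' : ℕ}

lemma offW_pos (b : ℕ) : 0 < offW F 1 b := lt_of_lt_of_le one_pos (one_le_offW 1 b)

lemma Ph_nonneg (b c : ℕ) : 0 ≤ Ph F P w jB n n' b c :=
  div_nonneg (oS_nonneg _ _ _) (mul_nonneg (offW_pos _).le (offW_pos _).le)

lemma oS_eq (b c : ℕ) : oS P.γ P.L M (lamR F P) (RS F P w jB n n') b c =
    Ph F P w jB n n' b c * (offW F 1 b * offW F 1 c) := by
  unfold Ph
  have h1 := offW_pos (F := F) b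
  have h2 := offW_pos (F := F) c
  field_simp

/-- the polynomial weight of a box -/
noncomputable def Dx (n n' : ℕ) : ℝ :=
  (((max n n' + 4 : ℕ) : ℝ) + 1) ^ 2 * (((n : ℝ) + 2) * ((n' : ℝ) + 2))

lemma Dx_nonneg (n n' : ℕ) : 0 ≤ Dx n n' := by unfold Dx; positivity

/-- constants of one level -/
structure Big (P : Par) (n n' t : ℕ) : Prop where
  yt : 2 ^ (max n n' + 4) ≤ P.cut t
  Kt : 4 * KB n n' ^ 2 < 2 ^ t
  thr : ∀ d i, P.cut t < P.Y i → KB n n' ≤ P.thr d i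

open Classical in
/-- **one box, sets** -/
theorem set_one (A : ℕ) : ∃ C : ℝ, 0 < C ∧ ∀ (cp η : ℝ) (m0 : ℕ) (γ L : ℝ) (M : ℕ) (B : Finset ℕ)
    (F : FL M) (n n' : ℕ), 0 < M → 0 < L → B ⊆ M.divisors → Num cp η A m0 → 2 ≤ A →
    (∀ (t b c : ℕ) (h : ℤ) (f f' : ℚ) (p : ℕ),
      SB F (ParOf cp A m0 γ L M B) (jBA A) n n' t b c h f f' p →
        Big (ParOf cp A m0 γ L M B) n n' t) →
    ∀ S S' : Finset ℕ, S ⊆ B → S' ⊆ B →
    ∑ b ∈ S, ∑ c ∈ S', (Nat.gcd b c : ℝ) * nu M b * nu M c *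
      Ph F (ParOf cp A m0 γ L M B) (ind B) (jBA A) n n' b c ≤
    C * (Dx n n' * KB n n' ^ (-(1 / 200) : ℝ)) * √((∑ b ∈ S, nu M b) * ∑ c ∈ S', nu M c) := by
  obtain ⟨Cl, hCl, hls⟩ := lsmooth 2
  obtain ⟨CH, hCH, hWH⟩ := wbd_WH_pow A
  set C4 : ℝ := 4 * Real.exp (22 / Real.log 2) with hC4
  have hC40 : 0 < C4 := by positivity
  have hCW := LBstx208.CW_pos
  refine ⟨Cl * (LBstx208.CW * C4 * CH), by positivity, ?_⟩
  intro cp η m0 γ L M B F n n' hM hL hB hnum hA2 hbig S S' hS hS'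
  set P := ParOf cp A m0 γ L M B with hP
  have HB : HyB M P (jBA A) 1 := HyBOfx11.hyB_of_num hnum hM hL
  have H := hy_of_num hnum (γ := γ) (L := L) (B := B) hM hL F
  have hE : Monotone P.E := by
    intro m m' hmm
    change (2 : ℝ) ^ (cp * m) ≤ (2 : ℝ) ^ (cp * m')
    refine Real.rpow_le_rpow_of_exponent_le (by norm_num) ?_
    exact mul_le_mul_of_nonneg_left (by exact_mod_cast hmm) hnum.cp_pos.le
  have hG : CutGrow P := cutA_grow hA2 fun m => rfl
  have hY : ∀ i, P.Y i = 2 ^ i := fun i => rfl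
  have hSM : S ⊆ M.divisors := hS.trans hB
  have hSM' : S' ⊆ M.divisors := hS'.trans hB
  set y : ℕ := 2 ^ (max n n' + 4) with hy
  set K : ℝ := KB n n' with hK
  have hK1 : 1 ≤ K := one_le_KB n n'
  set D : ℝ := LBstx208.CW * Dx n n' with hD
  have hD0 : 0 ≤ D := mul_nonneg hCW.le (Dx_nonneg _ _)
  set Wt : ℕ → ℕ → ℕ → ℕ → ℝ := fun U U' z z' => (D * C4) *
    WH (hiFL hM y F) 1 P.cut (TTs F P y K {U} one1) (XHs F P y K {U} one1 y)
      (TTs F P y K {U'} one1) (XHs F P y K {U'} one1 y) z z' with hWt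
  have hWt0 : ∀ U U' z z', 0 ≤ Wt U U' z z' := fun U U' z z' =>
    mul_nonneg (by positivity) (WH_nonneg _ _ _ _ _ _ _ _ _)
  have hcd : ∀ (n : ℕ), n ≤ 1 → (n : ℝ) ≤ 1 := fun n hn => by exact_mod_cast hn
  have hWE : ∀ U U', SetW (upp y M) (Wt U U') (D * C4 * (CH * 1)) := by
    intro U U'
    refine setW_iff.2 ((hWH (upp y M) (hiFL hM y F) (upp_pos _ _) 1 le_rfl _ _ _ _ 1 le_rfl
      (fun z => hcd _ ?_) (fun z => hcd _ ?_) (fun z => hcd _ ?_) (fun z => hcd _ ?_)).smul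
        (by positivity))
    · exact (card_TTs z).trans (by simp [one1])
    · exact (card_XHs _ z).trans (by simp [one1])
    · exact (card_TTs z).trans (by simp [one1])
    · exact (card_XHs _ z).trans (by simp [one1])
  -- one offset
  have hone : ∀ b c, b ∣ M → c ∣ M → ∀ (h : ℤ), h ∈ Lnk P.γ P.L b c →
      ¬ killedB (lamR F P) b c h → RS F P (ind B) (jBA A) n n' b c h →
      oS P.γ P.L M (lamR F P) (RS F P (ind B) (jBA A) n n') b c = boostB M (lamR F P) b c h := by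
    intro b c hb hc h h1 h2 h3
    unfold oS
    have e : (Lnk P.γ P.L b c).filter (fun h => ¬ killedB (lamR F P) b c h ∧
        RS F P (ind B) (jBA A) n n' b c h) = {h} := by
      ext h'
      rw [Finset.mem_filter, Finset.mem_singleton]
      constructor
      · rintro ⟨_, _, _, t', g, g', p', h5⟩
        obtain ⟨_, t, f, f', p, h4⟩ := h3
        exact SB.uniq HB hb hc h5 h4
      · rintro rfl
        exact ⟨h1, h2, h3⟩
    rw [e, Finset.sum_singleton]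
  set Φ : ℕ → ℕ → ℝ := fun b c => if b ∈ S ∧ c ∈ S' then
    Ph F P (ind B) (jBA A) n n' b c else 0 with hΦ
  have h1 := hls M F P y (ZB n n') K (D * C4 * (CH * 1)) ∅ (fun _ U U' z z' => Wt U U' z z')
    (ind S) (ind S') Φ hM hL HB.hN (fun m hm => by
      refine lt_of_le_of_lt ?_ (HB.hE m hm)
      have h1 : P.E m ^ 3 ≤ P.E m ^ 8 := pow_le_pow_right₀ (HB.E_one m) (by norm_num)
      have h2 : 0 ≤ P.E m ^ 8 := pow_nonneg (zero_le_one.trans (HB.E_one m)) _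
      linarith) HB.cut_mono hK1 (KB_le_y n n') (ZB_le n n') (ZB_le' n n')
    (fun _ U U' z z' => hWt0 U U' z z') (by positivity) (fun _ U U' => hWE U U')
    (fun b => Crest.Agent.R4C.FLExx326.ind_nonneg S b)
    (fun b => Crest.Agent.R4C.FLExx326.ind_nonneg S' b)
    (fun b => by unfold ind; split_ifs <;> norm_num)
    (fun b => by unfold ind; split_ifs <;> norm_num) (fun b c hb hc => by
      by_cases hg : b ∈ S ∧ c ∈ S' ∧ ∃ h, h ∈ Lnk P.γ P.L b c ∧ ¬ killedB (lamR F P) b c h ∧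
          RS F P (ind B) (jBA A) n n' b c h
      · right
        obtain ⟨hbS, hcS, h, h1, h2, h3⟩ := hg
        have h3' := h3
        obtain ⟨hnh, t, f, f', p, h4⟩ := h3
        have hbg := hbig t b c h f f' p h4
        refine ⟨?_, t, h, f, f', h4.smo hbg.yt⟩
        have i1 : ind S b = 1 := by unfold ind; rw [if_pos hbS]
        have i2 : ind S' c = 1 := by unfold ind; rw [if_pos hcS]
        have i3 : BoostRx398.bst ∅ (low y M) (low y b) (low y c) = 1 := by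
          unfold BoostRx398.bst
          exact Finset.prod_empty
        rw [i1, i2, i3, mul_one, mul_one, mul_one]
        have hΦ1 : Φ b c = Ph F P (ind B) (jBA A) n n' b c := by
          simp only [hΦ]
          rw [if_pos ⟨hbS, hcS⟩]
        rw [hΦ1]
        unfold Ph
        rw [hone b c hb hc h h1 h2 h3', div_le_iff₀ (mul_pos (offW_pos b) (offW_pos c))]
        have hzM : upp y b ∣ upp y M := upp_dvd y hM.ne' hb
        have hzM' : upp y c ∣ upp y M := upp_dvd y hM.ne' hc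
        have hpw := h4.pair H HB hE hG hY hb hc h1 h2 hnh hbg.yt hbg.Kt hbg.thr
        have h5 := bst_le_WH (upp_pos y M) le_rfl hzM hzM' hpw
        have h6 := boost_word (P := P) (F := F) (n := n) (n' := n') (v := max n n' + 4) (k := 1)
          (k' := 1) hM hL hY (A := A) hnum.A_one (fun m => rfl) (fun _ _ => min_le_right _ _) hb hc
          ((show 1 ≤ m0 by have := hnum.m0_14; omega).trans h4.lp.m0) h1 h4.lp.good h4.lp.al
          h4.lp.near.le
          (fun q hq h7 h8 => h4.lp.topk q hq (lt_of_le_of_lt h4.p_le' h7) h8) h4.dn1 h4.dn1'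
          (one_mul _).symm (one_mul _).symm
        refine h6.trans ?_
        have w0 : 0 ≤ offW F 1 b * offW F 1 c := (mul_pos (offW_pos b) (offW_pos c)).le
        have e1 : LBstx208.CW * (((max n n' + 4 : ℕ) : ℝ) + 1) ^ 2 * (((n : ℝ) + 2) * ((n' : ℝ) + 2)) = D := by
          rw [hD]
          unfold Dx
          ring
        rw [e1]
        calc D * (offW F 1 b * offW F 1 c) *
              bst (Qt (M := M) P y t (upp y b) (upp y c))
            ≤ D * (offW F 1 b * offW F 1 c) * (C4 * WH (hiFL hM y F) 1 P.cut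
                (TTs F P y K {Nat.log 2 (low y b)} one1) (XHs F P y K {Nat.log 2 (low y b)} one1 y)
                (TTs F P y K {Nat.log 2 (low y c)} one1) (XHs F P y K {Nat.log 2 (low y c)} one1 y)
                (upp y b) (upp y c)) := mul_le_mul_of_nonneg_left h5 (by positivity)
          _ = _ := by
            simp only [hWt]
            ring
      · left
        simp only [hΦ]
        split_ifs with hbc
        · have h0 : oS P.γ P.L M (lamR F P) (RS F P (ind B) (jBA A) n n') b c = 0 := by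
            unfold oS
            refine Finset.sum_eq_zero fun h hh => ?_
            rw [Finset.mem_filter] at hh
            exact absurd ⟨hbc.1, hbc.2, h, hh.1, hh.2.1, hh.2.2⟩ hg
          unfold Ph
          rw [h0, zero_div]
        · exact le_rfl)
  -- the conclusion
  have e1 : ∑ b ∈ S, ∑ c ∈ S', (Nat.gcd b c : ℝ) * nu M b * nu M c *
      Ph F P (ind B) (jBA A) n n' b c = frm M Φ := by
    unfold frm
    rw [← Finset.sum_subset hSM]
    · refine Finset.sum_congr rfl fun b hb => ?_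
      rw [← Finset.sum_subset hSM']
      · refine Finset.sum_congr rfl fun c hc => ?_
        simp only [hΦ]
        rw [if_pos ⟨hb, hc⟩]
      · intro c _ hc
        simp only [hΦ]
        rw [if_neg (fun h => hc h.2), mul_zero]
    · intro b _ hb
      refine Finset.sum_eq_zero fun c _ => ?_
      simp only [hΦ]
      rw [if_neg (fun h => hb h.1), mul_zero]
  have e2 : ∀ T : Finset ℕ, T ⊆ M.divisors → Ex M (ind T) = ∑ b ∈ T, nu M b := by
    intro T hT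
    unfold Ex ind
    simp only [mul_ite, mul_one, mul_zero]
    rw [← Finset.sum_filter]
    congr 1
    ext b
    rw [Finset.mem_filter]
    exact ⟨fun h => h.2, fun h => ⟨hT h, h⟩⟩
  rw [e2 S hSM, e2 S' hSM'] at h1
  have hn1 : 0 ≤ ∑ b ∈ S, nu M b := Finset.sum_nonneg fun b _ => nu_nonneg M b
  rw [← Real.sqrt_mul hn1] at h1
  rw [e1]
  refine h1.trans (le_of_eq ?_)
  rw [hD]
  ring

end box

/-! ### the sum over the boxes -/

lemma bx_term (n n' : ℕ) : Dx n n' * KB n n' ^ (-(1 / 200) : ℝ) ≤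
    (((n : ℝ) + 5) ^ 3 * ((2 : ℝ) ^ (-(1 / 400) : ℝ)) ^ n) *
      (((n' : ℝ) + 5) ^ 3 * ((2 : ℝ) ^ (-(1 / 400) : ℝ)) ^ n') := by
  have hn : (0 : ℝ) ≤ n := Nat.cast_nonneg _
  have hn' : (0 : ℝ) ≤ n' := Nat.cast_nonneg _
  have h1 : Dx n n' ≤ ((n : ℝ) + 5) ^ 3 * ((n' : ℝ) + 5) ^ 3 := by
    unfold Dx
    have h2 : (((max n n' + 4 : ℕ) : ℝ) + 1) ≤ ((n : ℝ) + 5) * ((n' : ℝ) + 5) := by
      push_cast
      rcases le_total (n : ℝ) n' with h | h
      · rw [max_eq_right h]; nlinarith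
      · rw [max_eq_left h]; nlinarith
    have h3 : (0 : ℝ) ≤ (((max n n' + 4 : ℕ) : ℝ) + 1) := by positivity
    calc (((max n n' + 4 : ℕ) : ℝ) + 1) ^ 2 * (((n : ℝ) + 2) * ((n' : ℝ) + 2))
        ≤ (((n : ℝ) + 5) * ((n' : ℝ) + 5)) ^ 2 * (((n : ℝ) + 5) * ((n' : ℝ) + 5)) := by
          refine mul_le_mul (pow_le_pow_left₀ h3 h2 2) ?_ (by positivity) (by positivity)
          exact mul_le_mul (by linarith) (by linarith) (by positivity) (by positivity)
      _ = _ := by ring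
  have h4 : KB n n' ^ (-(1 / 200) : ℝ) ≤ ((2 : ℝ) ^ (-(1 / 400) : ℝ)) ^ n *
      ((2 : ℝ) ^ (-(1 / 400) : ℝ)) ^ n' := by
    unfold KB
    rw [← Real.rpow_natCast, ← Real.rpow_mul (by norm_num), ← Real.rpow_natCast,
      ← Real.rpow_natCast, ← Real.rpow_mul (by norm_num), ← Real.rpow_mul (by norm_num),
      ← Real.rpow_add (by norm_num)]
    refine Real.rpow_le_rpow_of_exponent_le (by norm_num) ?_
    push_cast
    have h5 : (n : ℝ) ≤ max (n : ℝ) n' := le_max_left _ _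
    have h6 : (n' : ℝ) ≤ max (n : ℝ) n' := le_max_right _ _
    linarith
  have hK0 : 0 ≤ KB n n' ^ (-(1 / 200) : ℝ) := Real.rpow_nonneg (zero_le_one.trans (one_le_KB _ _)) _
  calc Dx n n' * KB n n' ^ (-(1 / 200) : ℝ) ≤ (((n : ℝ) + 5) ^ 3 * ((n' : ℝ) + 5) ^ 3) *
        (((2 : ℝ) ^ (-(1 / 400) : ℝ)) ^ n * ((2 : ℝ) ^ (-(1 / 400) : ℝ)) ^ n') :=
        mul_le_mul h1 h4 hK0 (by positivity)
    _ = _ := by ring

lemma summable_f : Summable fun n : ℕ => ((n : ℝ) + 5) ^ 3 * ((2 : ℝ) ^ (-(1 / 400) : ℝ)) ^ n := by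
  set r : ℝ := (2 : ℝ) ^ (-(1 / 400) : ℝ) with hr
  have hr0 : 0 < r := by positivity
  have hr1 : r < 1 := Real.rpow_lt_one_of_one_lt_of_neg (by norm_num) (by norm_num)
  have h1 : Summable fun n : ℕ => ((n : ℝ)) ^ 3 * r ^ n :=
    summable_pow_mul_geometric_of_norm_lt_one 3 (by rw [Real.norm_of_nonneg hr0.le]; exact hr1)
  have h2 := ((summable_nat_add_iff 5).2 h1).mul_left (r ^ 5)⁻¹
  refine h2.congr fun n => ?_
  push_cast
  rw [pow_add]
  field_simp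

open Classical in
lemma sum_bx : ∃ C : ℝ, 0 ≤ C ∧ ∀ T : Finset (ℕ × ℕ),
    ∑ x ∈ T, Dx x.1 x.2 * KB x.1 x.2 ^ (-(1 / 200) : ℝ) ≤ C := by
  set f : ℕ → ℝ := fun n => ((n : ℝ) + 5) ^ 3 * ((2 : ℝ) ^ (-(1 / 400) : ℝ)) ^ n with hf
  have hf0 : ∀ n, 0 ≤ f n := fun n => by simp only [hf]; positivity
  have hs : Summable f := summable_f
  refine ⟨(∑' n, f n) * ∑' n, f n, mul_nonneg (tsum_nonneg hf0) (tsum_nonneg hf0), fun T => ?_⟩
  calc ∑ x ∈ T, Dx x.1 x.2 * KB x.1 x.2 ^ (-(1 / 200) : ℝ) ≤ ∑ x ∈ T, f x.1 * f x.2 :=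
        Finset.sum_le_sum fun x _ => bx_term x.1 x.2
    _ ≤ ∑ x ∈ T.image Prod.fst ×ˢ T.image Prod.snd, f x.1 * f x.2 := by
        refine Finset.sum_le_sum_of_subset_of_nonneg (fun x hx => ?_) fun x _ _ =>
          mul_nonneg (hf0 _) (hf0 _)
        exact Finset.mem_product.2 ⟨Finset.mem_image_of_mem _ hx, Finset.mem_image_of_mem _ hx⟩
    _ = (∑ n ∈ T.image Prod.fst, f n) * ∑ n ∈ T.image Prod.snd, f n := by
        rw [Finset.sum_mul_sum, Finset.sum_product]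
    _ ≤ _ := mul_le_mul (hs.sum_le_tsum _ fun n _ => hf0 n) (hs.sum_le_tsum _ fun n _ => hf0 n)
        (Finset.sum_nonneg fun n _ => hf0 n) (tsum_nonneg hf0)

/-! ### numerics of the level -/

lemma big_of {cp η : ℝ} {A m0 : ℕ} (hnum : Num cp η A m0) {γ L : ℝ} {M : ℕ} {B : Finset ℕ}
    {F : FL M} {n n' t b c : ℕ} {h : ℤ} {f f' : ℚ} {p : ℕ}
    (D : SB F (ParOf cp A m0 γ L M B) (jBA A) n n' t b c h f f' p) :
    Big (ParOf cp A m0 γ L M B) n n' t := by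
  have h1 := ArrCx7.exp_le hnum.cp_le D.dn D.lp.db
  have h2 := ArrCx7.exp_le hnum.cp_le D.dn' D.lp.dc
  have h3 : m0 ≤ t := D.lp.m0
  have h4 := hnum.m0_14
  have hA := hnum.A_one
  have hmx : 50 * max n n' ≤ t := by
    rcases le_total n n' with h | h
    · rw [max_eq_right h]; exact h2
    · rw [max_eq_left h]; exact h1
  refine ⟨?_, ?_, ?_⟩
  · change 2 ^ (max n n' + 4) ≤ 2 ^ (A * t)
    refine Nat.pow_le_pow_right (by norm_num) ?_
    have : 1 * t ≤ A * t := Nat.mul_le_mul_right _ hA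
    omega
  · unfold KB
    rw [← pow_mul]
    calc (4 : ℝ) * 2 ^ ((max n n' + 1) * 2) = 2 ^ ((max n n' + 1) * 2 + 2) := by
          rw [pow_add]; norm_num; ring
      _ < 2 ^ t := pow_lt_pow_right₀ (by norm_num) (by omega)
  · intro d i hi
    have h5 := ArrCx7.thr_par (cp := cp) (m0 := m0) (γ := γ) (L := L) (M := M) (B := B) hA
      (⟨n, n', 0, 0, 0⟩ : Bx) d i (lt_of_le_of_lt ?_ hi)
    · refine le_trans (le_of_eq ?_) h5
      unfold KB Bx.N Bx.mx
      push_cast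
      rfl
    · change ArrCx7.YcA A (⟨n, n', 0, 0, 0⟩ : Bx) ≤ 2 ^ (A * t)
      unfold ArrCx7.YcA
      refine Nat.pow_le_pow_right (by norm_num) ?_
      change 4 * A * (max n n' + 1) + 1 ≤ A * t
      calc 4 * A * (max n n' + 1) + 1 ≤ 4 * A * (max n n' + 1) + A := by omega
        _ = A * (4 * (max n n' + 1) + 1) := by ring
        _ ≤ A * t := Nat.mul_le_mul_left _ (by omega)

/-! ### the class -/

/-- the smooth pairs which are not heavy -/
def cSm (γ : ℝ) : Cls := fun cp _ A m0 L M B F b c h =>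
  ¬ CHvy F (ParOf cp A m0 γ L M B) (ind B) (1 / 20) b c h ∧
    LSm F (ParOf cp A m0 γ L M B) (jBA A) b c h

open Classical in
theorem cls_sm (γ : ℝ) : ClsOK γ (cSm γ) := by
  obtain ⟨C3, hC3, hsum⟩ := sum_bx
  refine clsOK_of_boxes (ι := ℕ × ℕ) 1 ?_
  refine (evNum.and (Ev.le_A (fun _ _ => 2))).mono ?_
  rintro cp η A m0 ⟨hnum, hA2⟩
  have hA2' : 2 ≤ A := by exact_mod_cast hA2
  obtain ⟨C2, hC2, hbox⟩ := set_one A
  refine ⟨C2 * C3, by positivity, fun _ => True, fun x => C2 * (Dx x.1 x.2 *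
    KB x.1 x.2 ^ (-(1 / 200) : ℝ)), fun x => mul_nonneg hC2.le (mul_nonneg (Dx_nonneg _ _)
      (Real.rpow_nonneg (zero_le_one.trans (one_le_KB _ _)) _)), ?_, ?_⟩
  · intro T _
    rw [← Finset.mul_sum]
    exact mul_le_mul_of_nonneg_left (hsum T) hC2.le
  intro L M B F S
  set P := ParOf cp A m0 γ L M B with hP
  have HB : HyB M P (jBA A) 1 := HyBOfx11.hyB_of_num hnum S.hM S.hL
  refine ⟨fun x b c h => RS F P (ind B) (jBA A) x.1 x.2 b c h,
    fun x b c => Ph F P (ind B) (jBA A) x.1 x.2 b c, fun x b c => Ph_nonneg _ _, ?_, ?_, ?_, ?_⟩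
  · -- cover
    rintro b hb c hc hne h hh hk ⟨h0, hR⟩
    obtain ⟨n, n', t, f, f', p, h1⟩ := SB_of (fun i => rfl) hR
    exact ⟨(n, n'), trivial, h0, t, f, f', p, h1⟩
  · -- one offset
    intro x _ b hb c hc hne h₁ hh₁ h₂ hh₂ hk₁ hk₂ hq₁ hq₂
    obtain ⟨_, t, f, f', p, h1⟩ := hq₁
    obtain ⟨_, t', g, g', p', h2⟩ := hq₂
    exact SB.uniq HB (S.dvd hb) (S.dvd hc) h1 h2
  · -- boost
    intro x _ b hb c hc hne h hh hk hq
    have h1 := oS_eq (F := F) (P := P) (w := ind B) (jB := jBA A) (n := x.1) (n' := x.2) b c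
    rw [← h1]
    unfold oS
    refine Finset.single_le_sum (f := fun h => boostB M (lamR F P) b c h)
      (fun h _ => boostB_nonneg _ _ _ _ _) ?_
    rw [Finset.mem_filter]
    exact ⟨hh, hk, hq⟩
  · -- sets
    intro x _ T T' hT hT'
    have h1 := hbox cp η m0 γ L M B F x.1 x.2 S.hM S.hL S.hB hnum hA2'
      (fun t b c h f f' p hD => big_of hnum hD) T T' hT hT'
    have h2 : ∑ b ∈ T, ∑ c ∈ T', kerW γ L M (lamOf cp A m0 γ L M B F)
        (RS F P (ind B) (jBA A) x.1 x.2) (Ph F P (ind B) (jBA A) x.1 x.2) b c ≤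
        ∑ b ∈ T, ∑ c ∈ T', (Nat.gcd b c : ℝ) * nu M b * nu M c *
          Ph F P (ind B) (jBA A) x.1 x.2 b c := by
      refine Finset.sum_le_sum fun b _ => Finset.sum_le_sum fun c _ => ?_
      unfold kerW
      split_ifs
      · exact le_rfl
      · exact mul_nonneg (gn M b c) (Ph_nonneg _ _)
    have h5 := h2.trans h1
    have e1 : √((L * ∑ b ∈ T, nu M b) * (L * ∑ c ∈ T', nu M c)) =
        L * √((∑ b ∈ T, nu M b) * ∑ c ∈ T', nu M c) := by
      rw [show (L * ∑ b ∈ T, nu M b) * (L * ∑ c ∈ T', nu M c) =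
        L ^ 2 * ((∑ b ∈ T, nu M b) * ∑ c ∈ T', nu M c) by ring,
        Real.sqrt_mul (by positivity), Real.sqrt_sq S.hL.le]
    rw [e1]
    calc L * ∑ b ∈ T, ∑ c ∈ T', kerW γ L M (lamOf cp A m0 γ L M B F)
          (RS F P (ind B) (jBA A) x.1 x.2) (Ph F P (ind B) (jBA A) x.1 x.2) b c
        ≤ L * (C2 * (Dx x.1 x.2 * KB x.1 x.2 ^ (-(1 / 200) : ℝ)) *
          √((∑ b ∈ T, nu M b) * ∑ c ∈ T', nu M c)) := mul_le_mul_of_nonneg_left h5 S.hL.le
      _ = _ := by ring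

/-- **target S** -/
theorem tgtS (γ : ℝ) : TgtS γ := by
  refine ClsOK.mono ((cls_sm γ).or (ClsHvyx281.cls_hvy γ)) (Ev.of_forall ?_)
  intro cp η A m0 L M B F S b hb c hc hne h hh hk hR
  by_cases h0 : CHvy F (ParOf cp A m0 γ L M B) (ind B) (1 / 20) b c h
  · exact Or.inr h0
  · exact Or.inl ⟨h0, hR⟩

end Crest.Agent.R4C.TgtSx398
end

-- ▼ part R4C/GWfin_982
section

/-!
# Row 4, GW section, scalar case: the class `CDomP1` (low words `(1,1)`) from the leaves (helper982)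

* `Pr1 F P i b c h` : pure pair of case A, own scale `2^i`, low word `(1,1)`;
* `CDomP1`, `clsDomP1`;
* `KillP` (leaf F2), `WtP` (leaf F3), `Facts` (leaves F1, F4, F5);
* `core_bound` : the bound of one core;
* **`cls_of_leaves`** : `ClsOK γ (clsDomP1 γ)` from the leaves.
-/

set_option autoImplicit false

open Finset

namespace Crest.Agent.R4C.GWfinx982

open Crest.Agent.R4C.Basex935 Crest.Agent.R4C.FLDefx935 Crest.Agent.R4C.BoostCx972
  Crest.Agent.R4C.CrCoinx935 Crest.Agent.R4C.CrCountx935 Crest.Agent.R4C.Bridgex882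
  Crest.Agent.R4C.PrefixMx882 Crest.Agent.R4C.Cutx50 Crest.Agent.R4C.Rulex945
  Crest.Agent.R4C.Sharedx11 Crest.Agent.R4C.Splitx945 Crest.Agent.R4C.PureClsx863
  Crest.Agent.R4C.Spinex946 Crest.Agent.R4C.GWdefx982 Crest.Agent.R4C.GWinstx982
  Crest.Agent.R4C.GWasmx982 Crest.Agent.R4C.KyClsx971 Crest.Agent.R4C.PureL2x232
open Crest.Agent.R4C.FLExx326 (ind)

section pair

variable {M : ℕ} (F : FL M) (P : Par)

/-- pure pair of case A, own scale `2^i`, low word `(1,1)` -/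
structure Pr1 (i b c : ℕ) (h : ℤ) : Prop where
  far : FarA F P i b c h
  pure : Pure F (P.cut i) b c
  lb : low (P.cut i) (b / Nat.gcd b c) = 1
  lc : low (P.cut i) (c / Nat.gcd b c) = 1

/-- the class -/
def CDomP1 (b c : ℕ) (h : ℤ) : Prop := ∃ i, Pr1 F P i b c h

variable {F P}





/-- everything about a pair in the world of its core -/
structure PW (G0 : ℕ) (σ K1 : ℝ) (i w w' : ℕ) : Prop where
  D_le : D F G0 ≤ P.cut i
  nd : (inst F P G0 σ K1 1).nd i w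
  low : low (P.cut i) w = low (P.cut i) w'
  e : (inst F P G0 σ K1 1).e i w = Nat.gcd (G0 * w) (G0 * w')


end pair

/-! ### the leaves -/

section leaves

variable {M : ℕ} (F : FL M) (P : Par) (B : Finset ℕ)



end leaves

/-! ### one core -/

section core

variable {M : ℕ} {F : FL M} {P : Par} {B : Finset ℕ}

/-- the class off the heavy class and off the `K_y` event -/
def R1 (F : FL M) (P : Par) (B : Finset ℕ) (b c : ℕ) (h : ℤ) : Prop :=
  CDomP1 F P b c h ∧ ¬ CKyP F P b c h ∧ ¬ CHvy F P (ind B) (1 / 20) b c h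


open Classical in
/-- pair weights of the class -/
noncomputable def KK (F : FL M) (P : Par) (B : Finset ℕ) (b c : ℕ) : ℝ :=
  if b ∈ B ∧ c ∈ B then (if b ≠ c then oS P.γ P.L M (lamR F P) (R1 F P B) b c else 0) else 0









end core

/-! ### the class -/




end Crest.Agent.R4C.GWfinx982
end

-- ▼ part R4C/Fin_946

/-!
# Row 4: S0004 from the class bounds which are still open (helper946, integration file)
-/

set_option autoImplicit false

open MeasureTheory Filter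

namespace Crest.Agent.R4C.Finx946

open Crest.Agent.R4C.Spinex946 Crest.Agent.R4C.Splitx945 Crest.Agent.R4C.Rulex945
  Crest.Agent.R4C.FLDefx935 Crest.Agent.R4C.HyOfx281 Crest.Agent.R4C.Coverx946

theorem near (γ : ℝ) : ClsOK γ (cNear γ) := Crest.Agent.R4C.ClsNearx350.clsOK_near γ

theorem bad (γ : ℝ) : ClsOK γ (cBad γ) := Crest.Agent.R4C.ClsBadx250.cBad_ok γ

theorem rareA (γ : ℝ) : ClsOK γ (cRareA γ) := by
  refine Crest.Agent.R4C.EnRareAx179.clsOK_rareA (γ := γ) (c := fun cp => min (cp / 16) 1)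
    (D := DD) (fun cp hcp => ⟨lt_min (by positivity) one_pos, min_le_right _ _⟩)
    (fun cp hcp m => ?_)
  unfold DD
  refine Real.rpow_le_rpow_of_exponent_le (by norm_num) ?_
  have h1 : min (cp / 16) 1 ≤ cp / 16 := min_le_left _ _
  have h2 : (0 : ℝ) ≤ m := Nat.cast_nonneg m
  calc min (cp / 16) 1 * (m : ℝ) ≤ cp / 16 * m := mul_le_mul_of_nonneg_right h1 h2
    _ = cp * m / 16 := by ring

theorem tw (γ : ℝ) : ClsOK γ (cTw γ) := Crest.Agent.R4C.ClsTwx100.clsTw_ok γ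

theorem ud (γ : ℝ) : ClsOK γ (cUD γ) := Crest.Agent.R4C.ClsUDx208.cls_ud γ

theorem hvy (γ : ℝ) : ClsOK γ (cHvy γ) := Crest.Agent.R4C.ClsHvyx281.cls_hvy γ

theorem np (γ : ℝ) : ClsOK γ (cNP γ) := Crest.Agent.R4C.ClsNPx16.cls_np γ

theorem domN (γ : ℝ) : ClsOK γ (cDomN γ) := Crest.Agent.R4C.ClsDomNx52.clsDomN_ok γ

theorem low_of (γ : ℝ) (hS : Crest.Agent.R4C.LBoxDefx662.TgtS γ) : ClsOK γ (nH γ (cLow γ)) :=
  Crest.Agent.R4C.ClsLowx662.cls_low_CDS γ (Crest.Agent.R4C.TgtCx7.tgtC γ)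
    (Crest.Agent.R4C.LBstx208.tgtD γ) hS

/-- S0004 from the open classes -/
theorem fin {γ : ℝ} (hLow : ClsOK γ (nH γ (cLow γ))) (hDomP : ClsOK γ (nH γ (cDomP γ)))
    (ψ : ℕ → ℝ) (hψ : ∀ q, 0 ≤ ψ q)
    (hdiv : ¬ Summable fun q : ℕ => (Nat.totient q : ℝ) / q * ψ q) :
    ∀ᵐ x : ℝ, ∃ᶠ q : ℕ in atTop, |(q : ℝ) * x - γ - round ((q : ℝ) * x - γ)| < ψ q :=
  top10 (near γ) (bad γ) (hvy γ) (nH_ok (tw γ)) (nH_ok (np γ)) hLow (nH_ok (rareA γ)) (nH_ok (ud γ))
    hDomP (nH_ok (domN γ)) ψ hψ hdiv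

/-- S0004 from the smooth case of class (L) and the class `CDomP` -/
theorem finS {γ : ℝ} (hS : Crest.Agent.R4C.LBoxDefx662.TgtS γ)
    (hDomP : ClsOK γ (nH γ (cDomP γ))) (ψ : ℕ → ℝ) (hψ : ∀ q, 0 ≤ ψ q)
    (hdiv : ¬ Summable fun q : ℕ => (Nat.totient q : ℝ) / q * ψ q) :
    ∀ᵐ x : ℝ, ∃ᶠ q : ℕ in atTop, |(q : ℝ) * x - γ - round ((q : ℝ) * x - γ)| < ψ q :=
  fin (low_of γ hS) hDomP ψ hψ hdiv

/-- **class (L)** -/
theorem low (γ : ℝ) : ClsOK γ (nH γ (cLow γ)) := low_of γ (Crest.Agent.R4C.TgtSx398.tgtS γ)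

/-- S0004 from the class `CDomP` -/
theorem fin1 {γ : ℝ} (hDomP : ClsOK γ (nH γ (cDomP γ))) (ψ : ℕ → ℝ) (hψ : ∀ q, 0 ≤ ψ q)
    (hdiv : ¬ Summable fun q : ℕ => (Nat.totient q : ℝ) / q * ψ q) :
    ∀ᵐ x : ℝ, ∃ᶠ q : ℕ in atTop, |(q : ℝ) * x - γ - round ((q : ℝ) * x - γ)| < ψ q :=
  fin (low γ) hDomP ψ hψ hdiv


end Crest.Agent.R4C.Finx946
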