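import Crest.Agent.R4C.VDef_24
import Crest.Agent.R4C.GWrelW_8_Mg
import Crest.Agent.R4C.VecNPw_50
import Crest.Agent.R4C.PureCls_863
import Crest.Agent.R4C.VTop_179

-- ▼ part R4C/GWinstV1_24
section

/-!
# Row 4, GW section, vector case: one world, both orders (helper24)

`core_set` : the set bound of one world for the kernel `kap2` from `GN.Ok` of the relation and of
the transposed relation (LEMMA V, `GWrelx8.node_charge`), in the form of 482's `core_total`.
-/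

set_option autoImplicit false

open Finset
open Crest.Agent.R4C.Basex935 Crest.Agent.R4C.GWdefx982 Crest.Agent.R4C.VDefx24
open Crest.Agent.R4C.HDx529 (Y3 kapV gn)
open Crest.Agent.R4C.GWrelx8

namespace Crest.Agent.R4C.GWinstVx24

variable {Z : World}

open Classical in
/-- the payment on the words of the zone -/
noncomputable def XX (Z : World) (KV : ℝ) (z : Node) (w : ℕ) : ℝ :=
  if w ∈ (Z.Nd z).biUnion Z.S then Y3 Z z w + kapV Z KV z else 0

open Classical in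
/-- kernel, changer first -/
noncomputable def k1 (Z : World) (R : Node → Node → Prop) (z z' : Node) (w w' : ℕ) : ℝ :=
  ∑ ν ∈ Z.Nd z, ∑ ν' ∈ Z.Nd z', if R ν ν' ∧ w ∈ Z.A z ν ∧ w' ∈ Z.S ν' then 1 / Z.g ν else 0

lemma sum_ite_swap {P Q : Finset ℕ} (φ : ℕ → ℝ) :
    ∑ w ∈ P, (if w ∈ Q then φ w else 0) = ∑ w ∈ Q, (if w ∈ P then φ w else 0) := by
  classical
  rw [sum_ite_mem, sum_ite_mem, inter_comm]

open Classical in
lemma A_sub (z ν : Node) : Z.A z ν ⊆ Z.S ν := by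
  unfold World.A
  exact sdiff_subset

open Classical in
lemma A_disj' {z : Node} (hL : GWzonex9.Lam (Z.Nd z) Z.S (fun ν => ν.1)) :
    Set.PairwiseDisjoint (↑(Z.Nd z) : Set Node) (Z.A z) := by
  have key : ∀ n ∈ Z.Nd z, ∀ n' ∈ Z.Nd z, n.1 < n'.1 → Disjoint (Z.A z n) (Z.A z n') := by
    intro n _ n' hn' hlt
    rw [disjoint_left]
    intro w h1 h2
    unfold World.A at h1 h2
    rw [mem_sdiff] at h1 h2
    apply h1.2
    rw [mem_biUnion]
    exact ⟨n', mem_filter.2 ⟨hn', hlt⟩, h2.1⟩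
  intro n hn n' hn' hne
  have hn := mem_coe.1 hn
  have hn' := mem_coe.1 hn'
  rcases lt_trichotomy n.1 n'.1 with h | h | h
  · exact key n hn n' hn' h
  · exact (hL.inj n hn n' hn' hne h).mono (A_sub z n) (A_sub z n')
  · exact (key n' hn' n hn h).symm

open Classical in
/-- one order -/
theorem dir_bound {R : Node → Node → Prop} {KV C1 Δ ρ : ℝ} {k : ℕ}
    (h : (gn Z R KV).Ok (fun _ => nu Z.N) (fun _ => nu Z.N) C1 Δ) (hk : C1 * Δ ≤ 2 ^ k)
    (hρ : 0 < ρ) (S S' : Node → Finset ℕ) :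
    ∑ z ∈ Z.Zs, ∑ z' ∈ Z.Zs, ∑ w ∈ S z, ∑ w' ∈ S' z', nu Z.N w * nu Z.N w' * k1 Z R z z' w w' ≤
      (2 * C1 + 4) * ρ * ∑ z ∈ Z.Zs, ∑ w ∈ S z, nu Z.N w * XX Z KV z w +
      2 * C1 * (k + 4) / ρ * ∑ z' ∈ Z.Zs, ∑ w' ∈ S' z', nu Z.N w' * XX Z KV z' w' := by
  set f : Node → ℕ → ℝ := fun z w => if w ∈ S z then nu Z.N w else 0 with hf
  set f' : Node → ℕ → ℝ := fun z w => if w ∈ S' z then nu Z.N w else 0 with hf'
  have hf0 : ∀ z w, 0 ≤ f z w := by
    intro z w; simp only [hf]; split_ifs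
    · exact nu_nonneg _ _
    · exact le_rfl
  have hf0' : ∀ z w, 0 ≤ f' z w := by
    intro z w; simp only [hf']; split_ifs
    · exact nu_nonneg _ _
    · exact le_rfl
  have hfl : ∀ z w, f z w ≤ nu Z.N w := by
    intro z w; simp only [hf]; split_ifs
    · exact le_rfl
    · exact nu_nonneg _ _
  have hfl' : ∀ z w, f' z w ≤ nu Z.N w := by
    intro z w; simp only [hf']; split_ifs
    · exact le_rfl
    · exact nu_nonneg _ _
  have hok := GWrelWx8.Ok_mono h hf0 hf0' hfl hfl'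
  have hC1 := h.C0
  have hy0 : ∀ z w, 0 ≤ Y3 Z z w + kapV Z KV z := fun z w => (h.y0 z w).le
  have key := node_charge (gn Z R KV) f f' hok hρ hk
  -- the left side
  set T : Node → Node → Node → Node → ℝ := fun z ν z' ν' =>
    if R ν ν' then (∑ w ∈ Z.A z ν, f z w) * (∑ w' ∈ Z.S ν', f' z' w') / Z.g ν else 0 with hT
  have e1 : ∀ z z', ∑ w ∈ S z, ∑ w' ∈ S' z', nu Z.N w * nu Z.N w' * k1 Z R z z' w w' =
      ∑ ν ∈ Z.Nd z, ∑ ν' ∈ Z.Nd z', T z ν z' ν' := by
    intro z z'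
    unfold k1
    simp only [mul_sum]
    rw [sum_congr rfl fun w _ => sum_comm, sum_comm]
    refine sum_congr rfl fun ν _ => ?_
    rw [sum_congr rfl fun w _ => sum_comm, sum_comm]
    refine sum_congr rfl fun ν' _ => ?_
    simp only [hT]
    by_cases hR : R ν ν'
    · rw [if_pos hR]
      have a1 : ∑ w ∈ Z.A z ν, f z w = ∑ w ∈ S z, (if w ∈ Z.A z ν then nu Z.N w else 0) := by
        simp only [hf]
        exact sum_ite_swap _
      have a2 : ∑ w' ∈ Z.S ν', f' z' w' = ∑ w' ∈ S' z', (if w' ∈ Z.S ν' then nu Z.N w' else 0) := by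
        simp only [hf']
        exact sum_ite_swap _
      rw [a1, a2, sum_mul_sum, sum_div]
      refine sum_congr rfl fun w _ => ?_
      rw [sum_div]
      refine sum_congr rfl fun w' _ => ?_
      by_cases h1 : w ∈ Z.A z ν
      · by_cases h2 : w' ∈ Z.S ν'
        · rw [if_pos ⟨hR, h1, h2⟩, if_pos h1, if_pos h2]; ring
        · rw [if_neg (fun hc => h2 hc.2.2), if_neg h2]; simp
      · rw [if_neg (fun hc => h1 hc.2.1), if_neg h1]; simp
    · rw [if_neg hR]
      refine sum_eq_zero fun w _ => sum_eq_zero fun w' _ => ?_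
      rw [if_neg (fun hc => hR hc.1), mul_zero]
  have e2 : ∑ z ∈ Z.Zs, ∑ z' ∈ Z.Zs, ∑ w ∈ S z, ∑ w' ∈ S' z',
      nu Z.N w * nu Z.N w' * k1 Z R z z' w w' =
      ∑ z ∈ Z.Zs, ∑ ν ∈ Z.Nd z, ∑ z' ∈ Z.Zs, ∑ ν' ∈ Z.Nd z', T z ν z' ν' := by
    refine sum_congr rfl fun z _ => ?_
    rw [sum_congr rfl fun z' _ => e1 z z', sum_comm]
  have e3 : ∑ z ∈ (gn Z R KV).Zs, ∑ n ∈ (gn Z R KV).Nd z, ∑ w ∈ (gn Z R KV).A z n,
      ∑ z' ∈ (gn Z R KV).Zs, ∑ n' ∈ (gn Z R KV).Out z n z',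
      ∑ w' ∈ (gn Z R KV).S z' n', f z w * f' z' w' / (gn Z R KV).g n =
      ∑ z ∈ Z.Zs, ∑ ν ∈ Z.Nd z, ∑ z' ∈ Z.Zs, ∑ ν' ∈ Z.Nd z', T z ν z' ν' := by
    refine sum_congr rfl fun z _ => sum_congr rfl fun ν _ => ?_
    rw [sum_comm]
    refine sum_congr rfl fun z' _ => ?_
    have b1 : ∀ w, ∑ n' ∈ (gn Z R KV).Out z ν z', ∑ w' ∈ (gn Z R KV).S z' n',
        f z w * f' z' w' / (gn Z R KV).g ν = ∑ ν' ∈ Z.Nd z',
        (if R ν ν' then ∑ w' ∈ Z.S ν', f z w * f' z' w' / Z.g ν else 0) := by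
      intro w
      unfold GN.Out
      rw [sum_filter]
      rfl
    rw [sum_congr rfl fun w _ => b1 w, sum_comm]
    refine sum_congr rfl fun ν' _ => ?_
    simp only [hT]
    by_cases hR : R ν ν'
    · simp only [if_pos hR]
      rw [sum_mul_sum, sum_div]
      refine sum_congr rfl fun w _ => ?_
      rw [sum_div]
    · simp only [if_neg hR]
      exact sum_const_zero
  rw [e2, ← e3]
  refine key.trans (add_le_add ?_ ?_)
  · refine mul_le_mul_of_nonneg_left ?_ (by positivity)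
    refine sum_le_sum fun z hz => ?_
    have hd := A_disj' (Z := Z) (h.lam z hz)
    have c1 : ∑ n ∈ (gn Z R KV).Nd z, ∑ w ∈ (gn Z R KV).A z n, f z w * (gn Z R KV).y z w =
        ∑ w ∈ (Z.Nd z).biUnion (Z.A z), f z w * (Y3 Z z w + kapV Z KV z) := by
      rw [sum_biUnion hd]
      rfl
    rw [c1]
    have c2 : ∑ w ∈ (Z.Nd z).biUnion (Z.A z), f z w * (Y3 Z z w + kapV Z KV z) =
        ∑ w ∈ S z, (if w ∈ (Z.Nd z).biUnion (Z.A z) then
          nu Z.N w * (Y3 Z z w + kapV Z KV z) else 0) := by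
      rw [sum_ite_swap]
      refine sum_congr rfl fun w _ => ?_
      simp only [hf]
      split_ifs
      · rfl
      · rw [zero_mul]
    rw [c2]
    refine sum_le_sum fun w _ => ?_
    unfold XX
    by_cases h1 : w ∈ (Z.Nd z).biUnion (Z.A z)
    · have h2 : w ∈ (Z.Nd z).biUnion Z.S := by
        rw [mem_biUnion] at h1 ⊢
        obtain ⟨ν, hν, hw⟩ := h1
        exact ⟨ν, hν, A_sub z ν hw⟩
      rw [if_pos h1, if_pos h2]
    · rw [if_neg h1]
      split_ifs
      · exact mul_nonneg (nu_nonneg _ _) (hy0 z w)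
      · rw [mul_zero]
  · refine mul_le_mul_of_nonneg_left (le_of_eq ?_) (by positivity)
    refine sum_congr rfl fun z _ => ?_
    have c2 : ∑ w ∈ ((gn Z R KV).Nd z).biUnion ((gn Z R KV).S z),
        f' z w * (gn Z R KV).y' z w =
        ∑ w ∈ S' z, (if w ∈ (Z.Nd z).biUnion Z.S then
          nu Z.N w * (Y3 Z z w + kapV Z KV z) else 0) := by
      rw [sum_ite_swap]
      refine sum_congr rfl fun w _ => ?_
      simp only [hf']
      split_ifs
      · rfl
      · rw [zero_mul]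
    refine Eq.trans (Eq.trans ?_ c2) ?_
    · exact sum_congr rfl fun w _ => rfl
    · refine sum_congr rfl fun w _ => ?_
      unfold XX
      split_ifs
      · rfl
      · rw [mul_zero]

lemma g_nonneg (ν : Node) : 0 ≤ Z.g ν := nu_nonneg _ _

lemma kap2_nonneg (R : Node → Node → Prop) (z z' : Node) (w w' : ℕ) : 0 ≤ kap2 Z R z z' w w' := by
  classical
  unfold kap2
  refine sum_nonneg fun ν _ => sum_nonneg fun ν' _ => ?_
  split_ifs
  · exact div_nonneg zero_le_one (g_nonneg ν)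
  · exact le_rfl

/-- the two orders -/
lemma kap2_le {R : Node → Node → Prop} {z z' : Node}
    (hg : ∀ ν ∈ Z.Nd z, ∀ ν' ∈ Z.Nd z', R ν ν' → Z.g ν = Z.g ν') (w w' : ℕ) :
    kap2 Z R z z' w w' ≤ k1 Z R z z' w w' + k1 Z (fun ν ν' => R ν' ν) z' z w' w := by
  classical
  unfold kap2 k1
  rw [sum_comm (s := Z.Nd z') (t := Z.Nd z), ← sum_add_distrib]
  refine sum_le_sum fun ν hν => ?_
  rw [← sum_add_distrib]
  refine sum_le_sum fun ν' hν' => ?_
  have p1 : 0 ≤ 1 / Z.g ν := div_nonneg zero_le_one (g_nonneg ν)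
  have p2 : 0 ≤ 1 / Z.g ν' := div_nonneg zero_le_one (g_nonneg ν')
  by_cases h : R ν ν' ∧ ((w ∈ Z.A z ν ∧ w' ∈ Z.S ν') ∨ (w ∈ Z.S ν ∧ w' ∈ Z.A z' ν'))
  · rw [if_pos h]
    obtain ⟨hR, h | h⟩ := h
    · rw [if_pos ⟨hR, h.1, h.2⟩]
      split_ifs
      · linarith
      · linarith
    · rw [if_pos (show R ν ν' ∧ w' ∈ Z.A z' ν' ∧ w ∈ Z.S ν from ⟨hR, h.2, h.1⟩),
        hg ν hν ν' hν' hR]
      split_ifs
      · linarith
      · linarith
  · rw [if_neg h]
    have q1 : 0 ≤ (if R ν ν' ∧ w ∈ Z.A z ν ∧ w' ∈ Z.S ν' then 1 / Z.g ν else 0) := by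
      split_ifs
      · exact p1
      · exact le_rfl
    have q2 : 0 ≤ (if R ν ν' ∧ w' ∈ Z.A z' ν' ∧ w ∈ Z.S ν then 1 / Z.g ν' else 0) := by
      split_ifs
      · exact p2
      · exact le_rfl
    linarith

lemma XX_nonneg {R : Node → Node → Prop} {KV C1 Δ : ℝ}
    (h : (gn Z R KV).Ok (fun _ => nu Z.N) (fun _ => nu Z.N) C1 Δ) (z : Node) (w : ℕ) :
    0 ≤ XX Z KV z w := by
  unfold XX
  split_ifs
  · exact (h.y0 z w).le
  · exact le_rfl

open Classical in
/-- **one world, both orders** -/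
theorem core_set {R : Node → Node → Prop} {KV C1 Δ : ℝ} {k : ℕ}
    (h1 : (gn Z R KV).Ok (fun _ => nu Z.N) (fun _ => nu Z.N) C1 Δ)
    (h2 : (gn Z (fun ν ν' => R ν' ν) KV).Ok (fun _ => nu Z.N) (fun _ => nu Z.N) C1 Δ)
    (hk : C1 * Δ ≤ 2 ^ k) (S S' : Node → Finset ℕ) {l : ℝ} (hl : 0 < l) :
    ∑ z ∈ Z.Zs, ∑ z' ∈ Z.Zs, ∑ w ∈ S z, ∑ w' ∈ S' z', nu Z.N w * nu Z.N w' * kap2 Z R z z' w w' ≤
      (4 * C1 + 4) * (1 / l * (∑ z ∈ Z.Zs, ∑ w ∈ S z, nu Z.N w * XX Z KV z w) +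
      l * (k + 4) * ∑ z' ∈ Z.Zs, ∑ w' ∈ S' z', nu Z.N w' * XX Z KV z' w') := by
  have hC1 := h1.C0
  have hk4 : (0 : ℝ) < (k : ℝ) + 4 := by positivity
  set E := ∑ z ∈ Z.Zs, ∑ w ∈ S z, nu Z.N w * XX Z KV z w with hE
  set E' := ∑ z' ∈ Z.Zs, ∑ w' ∈ S' z', nu Z.N w' * XX Z KV z' w' with hE'
  have hE0 : 0 ≤ E := sum_nonneg fun z _ => sum_nonneg fun w _ =>
    mul_nonneg (nu_nonneg _ _) (XX_nonneg h1 z w)
  have hE0' : 0 ≤ E' := sum_nonneg fun z _ => sum_nonneg fun w _ =>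
    mul_nonneg (nu_nonneg _ _) (XX_nonneg h1 z w)
  have b1 := dir_bound h1 hk (ρ := 1 / l) (by positivity) S S'
  have b2 := dir_bound h2 hk (ρ := l * (k + 4)) (by positivity) S' S
  rw [← hE, ← hE'] at b1 b2
  have hle : ∑ z ∈ Z.Zs, ∑ z' ∈ Z.Zs, ∑ w ∈ S z, ∑ w' ∈ S' z',
      nu Z.N w * nu Z.N w' * kap2 Z R z z' w w' ≤
      ∑ z ∈ Z.Zs, ∑ z' ∈ Z.Zs, ∑ w ∈ S z, ∑ w' ∈ S' z',
        nu Z.N w * nu Z.N w' * k1 Z R z z' w w' +
      ∑ z' ∈ Z.Zs, ∑ z ∈ Z.Zs, ∑ w' ∈ S' z', ∑ w ∈ S z,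
        nu Z.N w' * nu Z.N w * k1 Z (fun ν ν' => R ν' ν) z' z w' w := by
    rw [sum_comm (s := Z.Zs) (t := Z.Zs) (f := fun z' z => ∑ w' ∈ S' z', ∑ w ∈ S z,
        nu Z.N w' * nu Z.N w * k1 Z (fun ν ν' => R ν' ν) z' z w' w), ← sum_add_distrib]
    refine sum_le_sum fun z hz => ?_
    rw [← sum_add_distrib]
    refine sum_le_sum fun z' hz' => ?_
    rw [sum_comm (s := S' z') (t := S z), ← sum_add_distrib]
    refine sum_le_sum fun w _ => ?_
    rw [← sum_add_distrib]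
    refine sum_le_sum fun w' _ => ?_
    have h3 := kap2_le (Z := Z) (R := R) (z := z) (z' := z')
      (fun ν hν ν' hν' hR => h1.gR z hz ν hν z' hz' ν' hν' hR) w w'
    have h4 : 0 ≤ nu Z.N w * nu Z.N w' := mul_nonneg (nu_nonneg _ _) (nu_nonneg _ _)
    have h5 := mul_le_mul_of_nonneg_left h3 h4
    refine h5.trans (le_of_eq ?_)
    ring
  refine hle.trans ((add_le_add b1 b2).trans ?_)
  have e1 : 2 * C1 * (k + 4) / (1 / l) * E' = 2 * C1 * (l * (k + 4)) * E' := by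
    field_simp
  have e2 : 2 * C1 * (k + 4) / (l * (k + 4)) * E = 2 * C1 * (1 / l) * E := by
    field_simp
  rw [e1, e2]
  refine le_of_eq ?_
  ring

end Crest.Agent.R4C.GWinstVx24
end

-- ▼ part R4C/GWlay_50
section

/-!
# Row 4, GW section: from SETS to the vector case (helper50, note 3703)

* `holder_rpow` : `∑ f^θ g^{1-θ} ≤ (∑ f)^θ (∑ g)^{1-θ}`.
* `HBd M k C θ m m'` : bilinear set bound
  `∑_{z ∈ S, z' ∈ S'} gcd ν ν k z z' ≤ C (m(S)^θ m'(S')^{1-θ} + m(S)^{1-θ} m'(S')^θ)`.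
* `hb_layer` : the same with the kernel `min (P z) (Q z')`, constant `4 C`.
* `low_right_min` / `low_left_min` : row bound with the full boost for the kernel `min (F u) (G u')`.
* `hb_class` : pairs whose low word is a function of the upper words, `w.1 ≥ A`, `w.2 ≥ B` :
  gain `A^{-(1-θ)} B^{-θ}` (resp. exchanged).
-/

set_option autoImplicit false

open Finset
open Crest.Agent.R4C.Basex935 Crest.Agent.R4C.Cutx50 Crest.Agent.R4C.HeavyLx50
open Crest.Agent.R4C.BoostRx398 (bst tf one_le_tf)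
open Crest.Agent.R4C.FixedWordx423 (wd wd_pos wd_inj_right wd_inj_left wd_swap)
open Crest.Agent.R4C.VecNPx50

namespace Crest.Agent.R4C.GWlayx50


/-- mass of a function with respect to the density `m` -/
noncomputable def mu (M : ℕ) (m P : ℕ → ℝ) : ℝ := ∑ z ∈ M.divisors, m z * P z

/-- the symmetric Hölder form -/
noncomputable def hf (θ a b : ℝ) : ℝ := a ^ θ * b ^ (1 - θ) + a ^ (1 - θ) * b ^ θ



lemma frm_sets (M : ℕ) (k : ℕ → ℕ → ℝ) (p q : ℕ → Prop) [DecidablePred p] [DecidablePred q] :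
    frm M (fun z z' => k z z' * ((if p z then (1 : ℝ) else 0) * (if q z' then 1 else 0))) =
      ∑ z ∈ M.divisors.filter p, ∑ z' ∈ M.divisors.filter q,
        (Nat.gcd z z' : ℝ) * nu M z * nu M z' * k z z' := by
  unfold frm
  rw [Finset.sum_filter]
  refine Finset.sum_congr rfl fun z _ => ?_
  by_cases hz : p z
  · rw [if_pos hz, Finset.sum_filter]
    refine Finset.sum_congr rfl fun z' _ => ?_
    by_cases hz' : q z'
    · rw [if_pos hz']; simp [hz, hz']
    · rw [if_neg hz']; simp [hz']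
  · rw [if_neg hz]
    exact Finset.sum_eq_zero fun z' _ => by simp [hz]


/-! ### the row bound with the full boost, kernel `min` -/

open Classical in
lemma low_right_min {M : ℕ} (hM : 0 < M) (S : Finset ℕ) (x : ℕ × ℕ) {F G : ℕ → ℝ}
    (hF : ∀ b, 0 ≤ F b) :
    frm M (fun u u' => if wd u u' = x then bst S M u u' * min (F u) (G u') else 0) ≤
      Ex M F / (x.2 : ℝ) := by
  refine le_trans (frm_mono (G := fun u u' => if wd u u' = x then
    bst S M u u' * (F u * (fun _ => (1 : ℝ)) u') else 0) fun u u' _ _ => ?_)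
    (low_right hM S x hF (G := fun _ => 1) fun _ => le_rfl)
  beta_reduce
  split_ifs
  · exact mul_le_mul_of_nonneg_left ((min_le_left _ _).trans (le_of_eq (mul_one _).symm))
      (bst_nonneg _ _ _ _)
  · exact le_rfl

open Classical in
lemma low_left_min {M : ℕ} (hM : 0 < M) (S : Finset ℕ) (x : ℕ × ℕ) {F G : ℕ → ℝ}
    (hG : ∀ b, 0 ≤ G b) :
    frm M (fun u u' => if wd u u' = x then bst S M u u' * min (F u) (G u') else 0) ≤
      Ex M G / (x.1 : ℝ) := by
  refine le_trans (frm_mono (G := fun u u' => if wd u u' = x then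
    bst S M u u' * ((fun _ => (1 : ℝ)) u * G u') else 0) fun u u' _ _ => ?_)
    (low_left hM S x (F := fun _ => 1) hG fun _ => le_rfl)
  beta_reduce
  split_ifs
  · exact mul_le_mul_of_nonneg_left ((min_le_right _ _).trans (le_of_eq (one_mul _).symm))
      (bst_nonneg _ _ _ _)
  · exact le_rfl

lemma mu_mul (M : ℕ) (m P : ℕ → ℝ) (a : ℝ) : mu M m (fun z => a * P z) = a * mu M m P := by
  unfold mu
  rw [Finset.mul_sum]
  exact Finset.sum_congr rfl fun z _ => by ring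


end Crest.Agent.R4C.GWlayx50
end

-- ▼ part R4C/GWlam_50
section

/-!
# Row 4, GW section: from the two-parameter form of the zone charge to the Hölder form (helper50)

* `HBd_of_lam` : `setform ≤ C ((1/λ) m(S) + λ m'(S'))` for all `λ > 0` gives `HBd` with `θ = 1/2`.
* `zones_total` : the vector class over all zones.
-/

set_option autoImplicit false

open Finset
open Crest.Agent.R4C.Basex935 Crest.Agent.R4C.Cutx50 Crest.Agent.R4C.HeavyLx50
open Crest.Agent.R4C.BoostRx398 (bst tf one_le_tf)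
open Crest.Agent.R4C.FixedWordx423 (wd wd_pos wd_inj_right wd_inj_left wd_swap)
open Crest.Agent.R4C.VecNPx50

namespace Crest.Agent.R4C.GWlayx50


lemma le_two_sqrt_of_lam {X C a b : ℝ} (hC : 0 ≤ C) (ha : 0 ≤ a) (hb : 0 ≤ b)
    (h : ∀ l : ℝ, 0 < l → X ≤ C * (1 / l * a + l * b)) : X ≤ C * (2 * √(a * b)) := by
  rcases eq_or_lt_of_le ha with ha0 | ha0
  · rw [← ha0, zero_mul, Real.sqrt_zero, mul_zero, mul_zero]
    refine le_of_forall_pos_le_add fun e he => ?_
    have hCb : 0 < C * b + 1 := by positivity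
    have h1 := h (e / (C * b + 1)) (by positivity)
    rw [← ha0, mul_zero, zero_add] at h1
    refine h1.trans ?_
    rw [zero_add]
    have : C * (e / (C * b + 1) * b) = e * ((C * b) / (C * b + 1)) := by ring
    rw [this]
    have h2 : (C * b) / (C * b + 1) ≤ 1 := by
      rw [div_le_one hCb]; linarith
    calc e * ((C * b) / (C * b + 1)) ≤ e * 1 := mul_le_mul_of_nonneg_left h2 he.le
      _ = e := mul_one e
  rcases eq_or_lt_of_le hb with hb0 | hb0
  · rw [← hb0, mul_zero, Real.sqrt_zero, mul_zero, mul_zero]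
    refine le_of_forall_pos_le_add fun e he => ?_
    have hCa : 0 < C * a + 1 := by positivity
    have h1 := h ((C * a + 1) / e) (by positivity)
    rw [← hb0, mul_zero, add_zero] at h1
    refine h1.trans ?_
    rw [zero_add]
    have : C * (1 / ((C * a + 1) / e) * a) = e * ((C * a) / (C * a + 1)) := by
      rw [one_div_div]; ring
    rw [this]
    have h2 : (C * a) / (C * a + 1) ≤ 1 := by
      rw [div_le_one hCa]; linarith
    calc e * ((C * a) / (C * a + 1)) ≤ e * 1 := mul_le_mul_of_nonneg_left h2 he.le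
      _ = e := mul_one e
  have hsa : 0 < √a := Real.sqrt_pos.2 ha0
  have hsb : 0 < √b := Real.sqrt_pos.2 hb0
  refine (h (√a / √b) (by positivity)).trans (le_of_eq ?_)
  congr 1
  rw [one_div_div, Real.sqrt_mul ha]
  have e1 : √b / √a * a = √a * √b := by
    rw [div_mul_eq_mul_div, div_eq_iff hsa.ne']
    calc √b * a = √b * (√a * √a) := by rw [Real.mul_self_sqrt ha]
      _ = _ := by ring
  have e2 : √a / √b * b = √a * √b := by
    rw [div_mul_eq_mul_div, div_eq_iff hsb.ne']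
    calc √a * b = √a * (√b * √b) := by rw [Real.mul_self_sqrt hb]
      _ = _ := by ring
  rw [e1, e2]; ring


/-- mass identity: density `ν X` against the low mean of `F` -/
lemma mu_eq_Ex {M : ℕ} (hM : 0 < M) (y : ℕ) (X F : ℕ → ℝ) :
    mu (upp y M) (fun z => nu (upp y M) z * X z) (fun z => Ex (low y M) (fun u => F (u * z))) =
      Ex M (fun b => X (upp y b) * F b) := by
  have h : Ex (upp y M) (fun z => Ex (low y M) (fun u => X (upp y (u * z)) * F (u * z))) =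
      Ex M (fun b => X (upp y b) * F b) := Ex_mass hM y (fun b => X (upp y b) * F b)
  rw [← h]
  unfold mu
  have e : Ex (upp y M) (fun z => Ex (low y M) (fun u => X (upp y (u * z)) * F (u * z))) =
      ∑ z ∈ (upp y M).divisors, nu (upp y M) z *
        Ex (low y M) (fun u => X (upp y (u * z)) * F (u * z)) := rfl
  rw [e]
  refine Finset.sum_congr rfl fun z hz => ?_
  have hzd := Nat.dvd_of_mem_divisors hz
  have e2 : Ex (low y M) (fun u => X (upp y (u * z)) * F (u * z)) =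
      X z * Ex (low y M) (fun u => F (u * z)) := by
    rw [← Ex_mul_left]
    unfold Ex
    refine Finset.sum_congr rfl fun u hu => ?_
    beta_reduce
    rw [upp_of_mul (Nat.dvd_of_mem_divisors hu) hzd]
  rw [e2]; ring


end Crest.Agent.R4C.GWlayx50
end

-- ▼ part R4C/GWrelH_482
section

/-!
# Row 4, GW section, vector case: from LEMMA V (graph of zones) to the vector class (helper482)

LEMMA V (helper8, note 3941) bounds the charge of a GRAPH of zones (left zones `i ∈ Z`, right zones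
`j ∈ Z'`) for sets `S i`, `S' j` of high words that may DEPEND ON THE ZONE:

* `GBd` : `∑_{i,j} ∑_{z ∈ S i, z' ∈ S' j} gcd ν ν k_{ij} ≤
  C ((1/l) ∑_i m_i(S i) + l D ∑_j m'_j(S' j))` for all `l > 0`;
* `gb_layer` : the same with the kernels `min (P i z) (Q j z')`, constant `4 C`;
* `row_class` : row bound with the full low boost for one pair of zones;
* `gb_class` : pairs whose low word is a function of the high words, `w.1 ≥ A`, `w.2 ≥ B`;
* `graph_total` : word-dependent weights `W i b`, `W' j c ∈ [0,1]`, budgets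
  `∑_i X i (upp b) W i b ≤ T`: total `8 C T √(D/(AB)) √(Ex f) √(Ex g)`.
-/

set_option autoImplicit false

open Finset
open Crest.Agent.R4C.Basex935 Crest.Agent.R4C.Cutx50 Crest.Agent.R4C.HeavyLx50
open Crest.Agent.R4C.BoostRx398 (bst tf one_le_tf)
open Crest.Agent.R4C.FixedWordx423 (wd wd_pos wd_inj_right wd_inj_left wd_swap)
open Crest.Agent.R4C.VecNPx50 Crest.Agent.R4C.GWlayx50

namespace Crest.Agent.R4C.GWrelHx482

variable {ι ι' : Type*}

/-- graph set bound in the two-parameter form; the sets depend on the zones -/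
def GBd (M : ℕ) (Z : Finset ι) (Z' : Finset ι') (k : ι → ι' → ℕ → ℕ → ℝ) (C D : ℝ)
    (m : ι → ℕ → ℝ) (m' : ι' → ℕ → ℝ) : Prop :=
  ∀ (S : ι → Finset ℕ) (S' : ι' → Finset ℕ), (∀ i, S i ⊆ M.divisors) →
    (∀ j, S' j ⊆ M.divisors) → ∀ l : ℝ, 0 < l →
    ∑ i ∈ Z, ∑ j ∈ Z', ∑ z ∈ S i, ∑ z' ∈ S' j,
        (Nat.gcd z z' : ℝ) * nu M z * nu M z' * k i j z z' ≤
      C * (1 / l * (∑ i ∈ Z, ∑ z ∈ S i, m i z) + l * D * ∑ j ∈ Z', ∑ z' ∈ S' j, m' j z')

lemma exists_level2 (s : Finset ℕ) (Z : Finset ι) (P : ι → ℕ → ℝ) :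
    ∃ K : ℕ, ∀ K' ≥ K, ∀ i ∈ Z, ∀ z ∈ s, P i z ≤ 0 ∨ (1 / 2 : ℝ) ^ K' < P i z := by
  classical
  induction Z using Finset.induction_on with
  | empty => exact ⟨0, fun _ _ i hi => absurd hi (Finset.notMem_empty i)⟩
  | insert a Z _ ih =>
    obtain ⟨K, hK⟩ := ih
    obtain ⟨K2, hK2⟩ := exists_level s (P a)
    refine ⟨max K K2, fun K' hK' i hi z hz => ?_⟩
    rcases Finset.mem_insert.1 hi with rfl | hi
    · exact hK2 K' (le_trans (le_max_right _ _) hK') z hz
    · exact hK K' (le_trans (le_max_left _ _) hK') i hi z hz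

lemma layer_sum (M K : ℕ) {κ : Type*} (Y : Finset κ) (n R : κ → ℕ → ℝ)
    (hn : ∀ i z, 0 ≤ n i z) (hR : ∀ i z, 0 ≤ R i z) :
    ∑ q ∈ range K, (1 / 2 : ℝ) ^ q * ∑ i ∈ Y, ∑ z ∈ M.divisors, n i z * lay q (R i z) ≤
      4 * ∑ i ∈ Y, mu M (n i) (R i) := by
  unfold mu
  simp only [Finset.mul_sum]
  rw [Finset.sum_comm]
  refine Finset.sum_le_sum fun i _ => ?_
  rw [Finset.sum_comm]
  refine Finset.sum_le_sum fun z _ => ?_
  have h5 := sum_lay_le K (hR i z)
  calc ∑ q ∈ range K, (1 / 2 : ℝ) ^ q * (n i z * lay q (R i z))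
      = n i z * ∑ q ∈ range K, (1 / 2 : ℝ) ^ q * lay q (R i z) := by
        rw [Finset.mul_sum]; exact Finset.sum_congr rfl fun q _ => by ring
    _ ≤ n i z * (4 * R i z) := mul_le_mul_of_nonneg_left h5 (hn i z)
    _ = 4 * (n i z * R i z) := by ring

/-- the budget of one side -/
lemma budget_sum {M : ℕ} (hM : 0 < M) (y : ℕ) {T : ℝ} {κ : Type*} (Y : Finset κ)
    (X W : κ → ℕ → ℝ) (r : ℕ → ℝ) (hr : ∀ b, 0 ≤ r b)
    (hY : ∀ b, b ∣ M → ∑ i ∈ Y, X i (upp y b) * W i b ≤ T) :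
    ∑ i ∈ Y, mu (upp y M) (fun z => nu (upp y M) z * X i z)
      (fun z => Ex (low y M) (fun u => (W i (u * z) * r (u * z)))) ≤ T * Ex M r := by
  have e : ∀ i ∈ Y, mu (upp y M) (fun z => nu (upp y M) z * X i z)
      (fun z => Ex (low y M) (fun u => (W i (u * z) * r (u * z)))) =
      Ex M (fun b => X i (upp y b) * (W i b * r b)) := fun i _ =>
    mu_eq_Ex hM y (X i) (fun b => W i b * r b)
  rw [Finset.sum_congr rfl e, Ex_sum, ← Ex_mul_left]
  refine Ex_mono _ fun b hb => ?_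
  calc ∑ i ∈ Y, X i (upp y b) * (W i b * r b) = (∑ i ∈ Y, X i (upp y b) * W i b) * r b := by
        rw [Finset.sum_mul]; exact Finset.sum_congr rfl fun i _ => by ring
    _ ≤ T * r b := mul_le_mul_of_nonneg_right (hY b hb) (hr b)

/-- **layer cake over a graph of zones** -/
theorem gb_layer {M : ℕ} (hM : 0 < M) {Z : Finset ι} {Z' : Finset ι'}
    {k : ι → ι' → ℕ → ℕ → ℝ} (hk : ∀ i j z z', 0 ≤ k i j z z') {C D : ℝ} (hC : 0 ≤ C)
    (hD : 0 ≤ D) {m : ι → ℕ → ℝ} {m' : ι' → ℕ → ℝ} (hm : ∀ i z, 0 ≤ m i z)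
    (hm' : ∀ j z, 0 ≤ m' j z) (hE : GBd M Z Z' k C D m m') {P : ι → ℕ → ℝ} {Q : ι' → ℕ → ℝ}
    (hP0 : ∀ i b, 0 ≤ P i b) (hQ0 : ∀ j b, 0 ≤ Q j b) (hP1 : ∀ i b, P i b ≤ 1)
    (l : ℝ) (hl : 0 < l) :
    ∑ i ∈ Z, ∑ j ∈ Z', frm M (fun z z' => k i j z z' * min (P i z) (Q j z')) ≤
      4 * C * (1 / l * (∑ i ∈ Z, mu M (m i) (P i)) + l * D * ∑ j ∈ Z', mu M (m' j) (Q j)) := by
  classical
  obtain ⟨K1, hK1⟩ := exists_level2 M.divisors Z P
  obtain ⟨K2, hK2⟩ := exists_level2 M.divisors Z' Q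
  set K := max K1 K2 with hK
  have hs1 : ∀ i ∈ Z, ∀ j ∈ Z', frm M (fun z z' => k i j z z' * min (P i z) (Q j z')) ≤
      ∑ n ∈ range K, (1 / 2 : ℝ) ^ n *
        frm M (fun z z' => k i j z z' * (lay n (P i z) * lay n (Q j z'))) := by
    intro i hi j hj
    have e : ∀ n ∈ range K, (1 / 2 : ℝ) ^ n *
        frm M (fun z z' => k i j z z' * (lay n (P i z) * lay n (Q j z'))) =
        frm M (fun z z' => k i j z z' * ((1 / 2 : ℝ) ^ n * (lay n (P i z) * lay n (Q j z')))) := by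
      intro n _
      unfold frm
      rw [Finset.mul_sum]
      refine Finset.sum_congr rfl fun b _ => ?_
      rw [Finset.mul_sum]
      exact Finset.sum_congr rfl fun c _ => by ring
    rw [Finset.sum_congr rfl e, frm_sum]
    refine frm_mono fun z z' hz hz' => ?_
    rw [← Finset.mul_sum]
    refine mul_le_mul_of_nonneg_left ?_ (hk i j z z')
    exact min_le_lay (hP1 i z)
      (hK1 K (le_max_left _ _) i hi z (Nat.mem_divisors.2 ⟨hz, hM.ne'⟩))
      (hK2 K (le_max_right _ _) j hj z' (Nat.mem_divisors.2 ⟨hz', hM.ne'⟩))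
  refine (Finset.sum_le_sum fun i hi => Finset.sum_le_sum fun j hj => hs1 i hi j hj).trans ?_
  -- masses of the layers
  set a : ℕ → ℝ := fun n => ∑ i ∈ Z, ∑ z ∈ M.divisors, m i z * lay n (P i z) with ha
  set b : ℕ → ℝ := fun n => ∑ j ∈ Z', ∑ z ∈ M.divisors, m' j z * lay n (Q j z) with hb
  have hset : ∀ n, ∑ i ∈ Z, ∑ j ∈ Z',
      frm M (fun z z' => k i j z z' * (lay n (P i z) * lay n (Q j z'))) ≤
      C * (1 / l * a n + l * D * b n) := by
    intro n
    have h3 := hE (fun i => M.divisors.filter (fun z => (1 / 2 : ℝ) ^ (n + 1) < P i z))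
      (fun j => M.divisors.filter (fun z => (1 / 2 : ℝ) ^ (n + 1) < Q j z))
      (fun i => Finset.filter_subset _ _) (fun j => Finset.filter_subset _ _) l hl
    have e1 : ∀ i j, frm M (fun z z' => k i j z z' * (lay n (P i z) * lay n (Q j z'))) =
        ∑ z ∈ M.divisors.filter (fun z => (1 / 2 : ℝ) ^ (n + 1) < P i z),
          ∑ z' ∈ M.divisors.filter (fun z => (1 / 2 : ℝ) ^ (n + 1) < Q j z),
          (Nat.gcd z z' : ℝ) * nu M z * nu M z' * k i j z z' := fun i j =>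
      frm_sets M (k i j) (fun z => (1 / 2 : ℝ) ^ (n + 1) < P i z)
        (fun z => (1 / 2 : ℝ) ^ (n + 1) < Q j z)
    have e2 : ∀ (m R : ℕ → ℝ), ∑ z ∈ M.divisors.filter
        (fun z => (1 / 2 : ℝ) ^ (n + 1) < R z), m z = ∑ z ∈ M.divisors, m z * lay n (R z) := by
      intro m R
      rw [Finset.sum_filter]
      refine Finset.sum_congr rfl fun z _ => ?_
      unfold lay
      split_ifs <;> simp
    simp only [e1]
    refine h3.trans (le_of_eq ?_)
    simp only [e2, ha, hb]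
  have hswap : ∑ i ∈ Z, ∑ j ∈ Z', ∑ n ∈ range K, (1 / 2 : ℝ) ^ n *
        frm M (fun z z' => k i j z z' * (lay n (P i z) * lay n (Q j z'))) =
      ∑ n ∈ range K, (1 / 2 : ℝ) ^ n * ∑ i ∈ Z, ∑ j ∈ Z',
        frm M (fun z z' => k i j z z' * (lay n (P i z) * lay n (Q j z'))) := by
    simp only [Finset.mul_sum]
    rw [Finset.sum_congr rfl fun i _ => Finset.sum_comm, Finset.sum_comm]
  rw [hswap]
  have hterm : ∑ n ∈ range K, (1 / 2 : ℝ) ^ n * ∑ i ∈ Z, ∑ j ∈ Z',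
        frm M (fun z z' => k i j z z' * (lay n (P i z) * lay n (Q j z'))) ≤
      ∑ n ∈ range K, (1 / 2 : ℝ) ^ n * (C * (1 / l * a n + l * D * b n)) :=
    Finset.sum_le_sum fun n _ => mul_le_mul_of_nonneg_left (hset n) (by positivity)
  refine hterm.trans ?_
  have hA := layer_sum M K Z m P hm hP0
  have hB := layer_sum M K Z' m' Q hm' hQ0
  have e5 : ∑ n ∈ range K, (1 / 2 : ℝ) ^ n * (C * (1 / l * a n + l * D * b n)) =
      C * (1 / l * (∑ n ∈ range K, (1 / 2 : ℝ) ^ n * a n) +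
        l * D * ∑ n ∈ range K, (1 / 2 : ℝ) ^ n * b n) := by
    rw [Finset.mul_sum, Finset.mul_sum, ← Finset.sum_add_distrib, Finset.mul_sum]
    exact Finset.sum_congr rfl fun n _ => by ring
  rw [e5]
  have h1 : 0 ≤ 1 / l := by positivity
  have h2 : 0 ≤ l * D := by positivity
  calc C * (1 / l * (∑ n ∈ range K, (1 / 2 : ℝ) ^ n * a n) +
        l * D * ∑ n ∈ range K, (1 / 2 : ℝ) ^ n * b n)
      ≤ C * (1 / l * (4 * ∑ i ∈ Z, mu M (m i) (P i)) +
        l * D * (4 * ∑ j ∈ Z', mu M (m' j) (Q j))) := by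
        refine mul_le_mul_of_nonneg_left (add_le_add ?_ ?_) hC
        · exact mul_le_mul_of_nonneg_left hA h1
        · exact mul_le_mul_of_nonneg_left hB h2
    _ = _ := by ring

open Classical in
/-- **row bound with the full low boost for one pair of zones** (first half of 50's `hb_class`) -/
theorem row_class {M : ℕ} (hM : 0 < M) (y : ℕ) (S : Finset ℕ) {k : ℕ → ℕ → ℝ}
    (hk : ∀ z z', 0 ≤ k z z')
    {A B : ℝ} (hA : 1 ≤ A) (hB : 1 ≤ B) (P : ℕ → ℕ → Prop) (w : ℕ → ℕ → ℕ × ℕ)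
    (hw : ∀ b c, b ∣ M → c ∣ M → P b c → wd (low y b) (low y c) = w (upp y b) (upp y c) ∧
      A ≤ (w (upp y b) (upp y c)).1 ∧ B ≤ (w (upp y b) (upp y c)).2)
    {F G : ℕ → ℝ} (hF : ∀ b, 0 ≤ F b) (hG : ∀ b, 0 ≤ G b) :
    frm M (fun b c => if P b c then
        k (upp y b) (upp y c) * bst S (low y M) (low y b) (low y c) * min (F b) (G c) else 0) ≤
      frm (upp y M) (fun z z' => k z z' *
        min (1 / B * Ex (low y M) (fun u => F (u * z))) (1 / A * Ex (low y M) (fun u => G (u * z')))) := by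
  have hA0 : 0 < A := by linarith
  have hB0 : 0 < B := by linarith
  set M0 := low y M with hM0
  set M1 := upp y M with hM1
  have hM0p : 0 < M0 := low_pos y M
  have hM1p : 0 < M1 := upp_pos y M
  set Vf : ℕ → ℝ := fun z => Ex M0 (fun u => F (u * z)) with hVf
  set Vg : ℕ → ℝ := fun z => Ex M0 (fun u => G (u * z)) with hVg
  have hVf0 : ∀ z, 0 ≤ Vf z := fun z => Ex_nonneg _ fun _ => hF _
  have hVg0 : ∀ z, 0 ≤ Vg z := fun z => Ex_nonneg _ fun _ => hG _
  rw [frm_low_upp hM y]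
  unfold frm
  refine Finset.sum_le_sum fun z hz => Finset.sum_le_sum fun z' hz' => ?_
  have hzd := Nat.dvd_of_mem_divisors hz
  have hzd' := Nat.dvd_of_mem_divisors hz'
  refine mul_le_mul_of_nonneg_left ?_
    (mul_nonneg (mul_nonneg (by positivity) (nu_nonneg _ _)) (nu_nonneg _ _))
  have hdiv : ∀ u T, u ∣ M0 → T ∣ M1 → u * T ∣ M := by
    intro u T hu hT
    have := Nat.mul_dvd_mul hu hT
    rwa [low_mul_upp y hM.ne'] at this
  by_cases hex : ∃ u u', u ∣ M0 ∧ u' ∣ M0 ∧ P (u * z) (u' * z')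
  · obtain ⟨u1, u1', hu1, hu1', hP1⟩ := hex
    have hww := hw _ _ (hdiv _ _ hu1 hzd) (hdiv _ _ hu1' hzd') hP1
    rw [upp_of_mul hu1 hzd, upp_of_mul hu1' hzd'] at hww
    set x := w z z' with hx
    have hin : frm M0 (fun n n' => if P (n * z) (n' * z') then
          k (upp y (n * z)) (upp y (n' * z')) * bst S M0 (low y (n * z)) (low y (n' * z')) *
            min (F (n * z)) (G (n' * z')) else 0) ≤
        k z z' * frm M0 (fun u u' => if wd u u' = x then
          bst S M0 u u' * min (F (u * z)) (G (u' * z')) else 0) := by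
      unfold frm
      rw [Finset.mul_sum]
      refine Finset.sum_le_sum fun u hu => ?_
      rw [Finset.mul_sum]
      refine Finset.sum_le_sum fun u' hu' => ?_
      have hud := Nat.dvd_of_mem_divisors hu
      have hud' := Nat.dvd_of_mem_divisors hu'
      have hwt : 0 ≤ (Nat.gcd u u' : ℝ) * nu M0 u * nu M0 u' :=
        mul_nonneg (mul_nonneg (by positivity) (nu_nonneg _ _)) (nu_nonneg _ _)
      beta_reduce
      by_cases hPP : P (u * z) (u' * z')
      · have h2 := (hw _ _ (hdiv _ _ hud hzd) (hdiv _ _ hud' hzd') hPP).1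
        rw [low_of_mul hud hzd, low_of_mul hud' hzd', upp_of_mul hud hzd,
          upp_of_mul hud' hzd'] at h2
        rw [if_pos hPP, if_pos h2, low_of_mul hud hzd, low_of_mul hud' hzd',
          upp_of_mul hud hzd, upp_of_mul hud' hzd']
        exact le_of_eq (by ring)
      · rw [if_neg hPP, mul_zero]
        refine mul_nonneg (hk _ _) (mul_nonneg hwt ?_)
        split_ifs
        · exact mul_nonneg (bst_nonneg _ _ _ _) (le_min (hF _) (hG _))
        · exact le_rfl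
    refine hin.trans (mul_le_mul_of_nonneg_left (le_min ?_ ?_) (hk _ _))
    · refine (low_right_min hM0p S x (F := fun u => F (u * z)) (G := fun u => G (u * z'))
        (fun _ => hF _)).trans ?_
      rw [div_eq_mul_one_div, mul_comm]
      refine mul_le_mul_of_nonneg_right ?_ (hVf0 z)
      exact one_div_le_one_div_of_le hB0 hww.2.2
    · refine (low_left_min hM0p S x (F := fun u => F (u * z)) (G := fun u => G (u * z'))
        (fun _ => hG _)).trans ?_
      rw [div_eq_mul_one_div, mul_comm]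
      refine mul_le_mul_of_nonneg_right ?_ (hVg0 z')
      exact one_div_le_one_div_of_le hA0 hww.2.1
  · push Not at hex
    have h0 : frm M0 (fun n n' => if P (n * z) (n' * z') then
          k (upp y (n * z)) (upp y (n' * z')) * bst S M0 (low y (n * z)) (low y (n' * z')) *
            min (F (n * z)) (G (n' * z')) else 0) = 0 := by
      unfold frm
      refine Finset.sum_eq_zero fun u hu => Finset.sum_eq_zero fun u' hu' => ?_
      beta_reduce
      rw [if_neg (hex u u' (Nat.dvd_of_mem_divisors hu) (Nat.dvd_of_mem_divisors hu')), mul_zero]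
    refine (le_of_eq h0).trans ?_
    exact mul_nonneg (hk _ _) (le_min (mul_nonneg (by positivity) (hVf0 z))
      (mul_nonneg (by positivity) (hVg0 z')))

open Classical in
/-- **one class of words over a graph of zones** -/
theorem gb_class {M : ℕ} (hM : 0 < M) (y : ℕ) (S : Finset ℕ) {Z : Finset ι} {Z' : Finset ι'}
    {k : ι → ι' → ℕ → ℕ → ℝ} (hk : ∀ i j z z', 0 ≤ k i j z z') {C D : ℝ} (hC : 0 ≤ C)
    (hD : 0 ≤ D) {m : ι → ℕ → ℝ} {m' : ι' → ℕ → ℝ} (hm : ∀ i z, 0 ≤ m i z)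
    (hm' : ∀ j z, 0 ≤ m' j z) (hE : GBd (upp y M) Z Z' k C D m m')
    {A B : ℝ} (hA : 1 ≤ A) (hB : 1 ≤ B) (P : ι → ι' → ℕ → ℕ → Prop)
    (w : ι → ι' → ℕ → ℕ → ℕ × ℕ)
    (hw : ∀ i ∈ Z, ∀ j ∈ Z', ∀ b c, b ∣ M → c ∣ M → P i j b c →
      wd (low y b) (low y c) = w i j (upp y b) (upp y c) ∧
      A ≤ (w i j (upp y b) (upp y c)).1 ∧ B ≤ (w i j (upp y b) (upp y c)).2)
    {F : ι → ℕ → ℝ} {G : ι' → ℕ → ℝ} (hF : ∀ i b, 0 ≤ F i b) (hG : ∀ j b, 0 ≤ G j b)
    (hF1 : ∀ i b, F i b ≤ 1) (l : ℝ) (hl : 0 < l) :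
    ∑ i ∈ Z, ∑ j ∈ Z', frm M (fun b c => if P i j b c then
        k i j (upp y b) (upp y c) * bst S (low y M) (low y b) (low y c) *
          min (F i b) (G j c) else 0) ≤
      4 * C * (1 / l * (1 / B * ∑ i ∈ Z, mu (upp y M) (m i)
          (fun z => Ex (low y M) (fun u => F i (u * z)))) +
        l * D * (1 / A * ∑ j ∈ Z', mu (upp y M) (m' j)
          (fun z => Ex (low y M) (fun u => G j (u * z))))) := by
  have hB0 : 0 < B := by linarith
  have hA0 : 0 < A := by linarith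
  have h1 : ∑ i ∈ Z, ∑ j ∈ Z', frm M (fun b c => if P i j b c then
        k i j (upp y b) (upp y c) * bst S (low y M) (low y b) (low y c) *
          min (F i b) (G j c) else 0) ≤
      ∑ i ∈ Z, ∑ j ∈ Z', frm (upp y M) (fun z z' => k i j z z' *
        min (1 / B * Ex (low y M) (fun u => F i (u * z)))
          (1 / A * Ex (low y M) (fun u => G j (u * z')))) :=
    Finset.sum_le_sum fun i hi => Finset.sum_le_sum fun j hj =>
      row_class hM y S (hk i j) hA hB (P i j) (w i j) (hw i hi j hj) (hF i) (hG j)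
  refine h1.trans ?_
  have hV1 : ∀ i z, Ex (low y M) (fun u => F i (u * z)) ≤ 1 := fun i z =>
    (Ex_mono _ fun b _ => hF1 i (b * z)).trans (le_of_eq (Ex_const (low_pos y M) 1))
  have hlay := gb_layer (upp_pos y M) hk hC hD hm hm' hE
    (P := fun i z => 1 / B * Ex (low y M) (fun u => F i (u * z)))
    (Q := fun j z => 1 / A * Ex (low y M) (fun u => G j (u * z)))
    (fun i b => mul_nonneg (by positivity) (Ex_nonneg _ fun _ => hF _ _))
    (fun j b => mul_nonneg (by positivity) (Ex_nonneg _ fun _ => hG _ _))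
    (fun i b => by
      have h1 : 1 / B ≤ 1 := by rw [div_le_one hB0]; exact hB
      calc 1 / B * Ex (low y M) (fun u => F i (u * b)) ≤ 1 * 1 :=
            mul_le_mul h1 (hV1 i b) (Ex_nonneg _ fun _ => hF _ _) zero_le_one
        _ = 1 := one_mul 1) l hl
  refine hlay.trans (le_of_eq ?_)
  simp only [mu_mul, ← Finset.mul_sum]

open Classical in
/-- **the vector class over a graph of zones**: densities `ν X_i`, `ν X'_j`, weights `W i b`,
`W' j c ∈ [0,1]`, budgets `T` -/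
theorem graph_total {M : ℕ} (hM : 0 < M) (y : ℕ) (S : Finset ℕ) {Z : Finset ι} {Z' : Finset ι'}
    {k : ι → ι' → ℕ → ℕ → ℝ} (hk : ∀ i j z z', 0 ≤ k i j z z') {C D : ℝ} (hC : 0 ≤ C)
    (hD : 0 ≤ D) {X : ι → ℕ → ℝ} {X' : ι' → ℕ → ℝ} (hX : ∀ i z, 0 ≤ X i z)
    (hX' : ∀ j z, 0 ≤ X' j z)
    (hE : GBd (upp y M) Z Z' k C D (fun i z => nu (upp y M) z * X i z)
      (fun j z => nu (upp y M) z * X' j z))
    {A B : ℝ} (hA : 1 ≤ A) (hB : 1 ≤ B) (P : ι → ι' → ℕ → ℕ → Prop)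
    (w : ι → ι' → ℕ → ℕ → ℕ × ℕ)
    (hw : ∀ i ∈ Z, ∀ j ∈ Z', ∀ b c, b ∣ M → c ∣ M → P i j b c →
      wd (low y b) (low y c) = w i j (upp y b) (upp y c) ∧
      A ≤ (w i j (upp y b) (upp y c)).1 ∧ B ≤ (w i j (upp y b) (upp y c)).2)
    {W : ι → ℕ → ℝ} {W' : ι' → ℕ → ℝ} (hW0 : ∀ i b, 0 ≤ W i b) (hW1 : ∀ i b, W i b ≤ 1)
    (hW0' : ∀ j b, 0 ≤ W' j b)
    {f g : ℕ → ℝ} (hf0 : ∀ b, 0 ≤ f b) (hg0 : ∀ b, 0 ≤ g b) (hf1 : ∀ b, f b ≤ 1)
    {T : ℝ} (hT0 : 0 ≤ T)
    (hT : ∀ b, b ∣ M → ∑ i ∈ Z, X i (upp y b) * W i b ≤ T)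
    (hT' : ∀ b, b ∣ M → ∑ j ∈ Z', X' j (upp y b) * W' j b ≤ T) :
    ∑ i ∈ Z, ∑ j ∈ Z', frm M (fun b c => if P i j b c then
        k i j (upp y b) (upp y c) * bst S (low y M) (low y b) (low y c) *
          min (W i b * f b) (W' j c * g c) else 0) ≤
      8 * C * T * √D / √(A * B) * (√(Ex M f) * √(Ex M g)) := by
  have hA0 : 0 < A := by linarith
  have hB0 : 0 < B := by linarith
  have hEf : 0 ≤ Ex M f := Ex_nonneg _ hf0
  have hEg : 0 ≤ Ex M g := Ex_nonneg _ hg0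
  have key : ∀ l : ℝ, 0 < l → ∑ i ∈ Z, ∑ j ∈ Z', frm M (fun b c => if P i j b c then
        k i j (upp y b) (upp y c) * bst S (low y M) (low y b) (low y c) *
          min (W i b * f b) (W' j c * g c) else 0) ≤
      (4 * C) * (1 / l * (1 / B * (T * Ex M f)) + l * (D * (1 / A * (T * Ex M g)))) := by
    intro l hl
    have h := gb_class hM y S hk hC hD
      (m := fun i z => nu (upp y M) z * X i z) (m' := fun j z => nu (upp y M) z * X' j z)
      (fun i z => mul_nonneg (nu_nonneg _ _) (hX i z))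
      (fun j z => mul_nonneg (nu_nonneg _ _) (hX' j z)) hE hA hB P w hw
      (F := fun i b => W i b * f b) (G := fun j b => W' j b * g b)
      (fun i b => mul_nonneg (hW0 _ _) (hf0 _)) (fun j b => mul_nonneg (hW0' _ _) (hg0 _))
      (fun i b => mul_le_one₀ (hW1 _ _) (hf0 _) (hf1 _)) l hl
    refine h.trans ?_
    rw [mul_assoc l D]
    refine mul_le_mul_of_nonneg_left (add_le_add ?_ ?_) (by positivity)
    · refine mul_le_mul_of_nonneg_left ?_ (by positivity)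
      exact mul_le_mul_of_nonneg_left (budget_sum hM y Z X W f hf0 hT) (by positivity)
    · refine mul_le_mul_of_nonneg_left ?_ hl.le
      refine mul_le_mul_of_nonneg_left ?_ hD
      exact mul_le_mul_of_nonneg_left (budget_sum hM y Z' X' W' g hg0 hT') (by positivity)
  have h2 := le_two_sqrt_of_lam (by positivity : (0:ℝ) ≤ 4 * C)
    (by positivity : (0:ℝ) ≤ 1 / B * (T * Ex M f))
    (by positivity : (0:ℝ) ≤ D * (1 / A * (T * Ex M g))) key
  refine h2.trans (le_of_eq ?_)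
  have e1 : 1 / B * (T * Ex M f) * (D * (1 / A * (T * Ex M g))) =
      (T * T) * (D * (Ex M f * Ex M g)) / (A * B) := by
    field_simp
  rw [e1, Real.sqrt_div (by positivity), Real.sqrt_mul (by positivity),
    Real.sqrt_mul_self hT0, Real.sqrt_mul hD, Real.sqrt_mul hEf]
  ring

end Crest.Agent.R4C.GWrelHx482
end

-- ▼ part R4C/GWcore_482
section

/-!
# Row 4, GW section, vector case: sum over the cores (helper482)

`F : FL M` (in the application `M` = the upper part of the modulus and `F` = the restricted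
structure).  For every core `G` a graph of zones over the words `w ∣ PM F G` with the two-parameter
bound (conclusion of LEMMA V, sets depending on the zone)

`∑_{i,j} ∑_{w ∈ S i, w' ∈ S' j} ν_N w ν_N w' κ_G i j w w' ≤ C ((1/l) ∑ ν_N X_G + l D ∑ ν_N X'_G)`

gives the graph bound `GBd` / `VBd` for `M` itself, with zones `(G, i)`, kernel
`kk = κ_G i j (wd b) (wd c) / (VR G · gcd (wd b) (wd c))` on the pairs with `core b = core c = G`.
-/

set_option autoImplicit false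

open Finset
open Crest.Agent.R4C.Basex935 Crest.Agent.R4C.Cutx50 Crest.Agent.R4C.FLDefx935
open Crest.Agent.R4C.PureClsx863 Crest.Agent.R4C.GWrelHx482
open Crest.Agent.R4C.BoostRx398 (bst)

namespace Crest.Agent.R4C.GWcorex482

variable {M : ℕ} (F : FL M) {ι ι' : Type*}

open Classical in
/-- the kernel on the numbers -/
noncomputable def kk (κ : ℕ → ι → ι' → ℕ → ℕ → ℝ) (i : Σ _ : ℕ, ι) (j : Σ _ : ℕ, ι')
    (b c : ℕ) : ℝ :=
  if i.1 = j.1 ∧ core F b = i.1 ∧ core F c = i.1 then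
    κ i.1 i.2 j.2 (wd F b) (wd F c) / (VR F i.1 * (Nat.gcd (wd F b) (wd F c) : ℝ)) else 0

open Classical in
/-- the densities on the numbers -/
noncomputable def XX (X : ℕ → ι → ℕ → ℝ) (i : Σ _ : ℕ, ι) (b : ℕ) : ℝ :=
  if core F b = i.1 then X i.1 i.2 (wd F b) else 0

variable {F}

lemma kk_nonneg {κ : ℕ → ι → ι' → ℕ → ℕ → ℝ} (hκ : ∀ G i j w w', 0 ≤ κ G i j w w')
    (i : Σ _ : ℕ, ι) (j : Σ _ : ℕ, ι') (b c : ℕ) : 0 ≤ kk F κ i j b c := by
  unfold kk
  split_ifs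
  · exact div_nonneg (hκ _ _ _ _ _) (mul_nonneg (VR_nonneg _) (Nat.cast_nonneg _))
  · exact le_rfl

lemma XX_nonneg {X : ℕ → ι → ℕ → ℝ} (hX : ∀ G i w, 0 ≤ X G i w) (i : Σ _ : ℕ, ι) (b : ℕ) :
    0 ≤ XX F X i b := by
  unfold XX
  split_ifs
  · exact hX _ _ _
  · exact le_rfl

lemma VR_pos {G : ℕ} (hM : 0 < M) (hG : G ∈ cores F) : 0 < VR F G := by
  have hR := RR_pos hM hG
  unfold VR
  have h1 : (0 : ℝ) < RR F G := by exact_mod_cast hR
  have h2 : (0 : ℝ) < (RR F G).totient := by exact_mod_cast Nat.totient_pos.2 hR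
  positivity

/-- numbers of a class in a set -/
lemma sum_core {G : ℕ} (hM : 0 < M) (hG : G ∈ cores F) (S : Finset ℕ) (hS : S ⊆ M.divisors)
    (f : ℕ → ℝ) : ∑ b ∈ S with core F b = G, f b =
      ∑ w ∈ (PM F G).divisors with G * w ∈ S, f (G * w) := by
  classical
  have hG0 : 0 < G := Nat.pos_of_dvd_of_pos (mem_cores.1 hG).1.1 hM
  have e : S.filter (fun b => core F b = G) =
      ((PM F G).divisors.filter (fun w => G * w ∈ S)).image (fun w => G * w) := by
    ext b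
    rw [Finset.mem_filter, Finset.mem_image]
    constructor
    · rintro ⟨h1, h2⟩
      have hb := Nat.dvd_of_mem_divisors (hS h1)
      have h3 := core_mul_wd (F := F) hM hb
      have h4 := wd_dvd (F := F) hM hb
      rw [h2] at h3 h4
      refine ⟨wd F b, Finset.mem_filter.2 ⟨Nat.mem_divisors.2 ⟨h4, (PM_pos G).ne'⟩, ?_⟩, h3⟩
      rw [h3]; exact h1
    · rintro ⟨w, hw, rfl⟩
      rw [Finset.mem_filter] at hw
      exact ⟨hw.2, core_mul hM hG (Nat.dvd_of_mem_divisors hw.1)⟩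
  rw [e, Finset.sum_image]
  intro w _ w' _ h
  exact Nat.eq_of_mul_eq_mul_left hG0 h

/-- densities of a class -/
lemma dens_class {G : ℕ} (hM : 0 < M) (hG : G ∈ cores F) {κ' : Type*} (Y : ℕ → κ' → ℕ → ℝ)
    (T : Finset ℕ) (hT : T ⊆ M.divisors) (i : κ') :
    ∑ z ∈ T, nu M z * XX F Y ⟨G, i⟩ z =
      nu0 F G * ∑ w ∈ (PM F G).divisors.filter (fun w => G * w ∈ T),
        nu (PM F G) w * Y G i w := by
  classical
  have e1 : ∑ z ∈ T, nu M z * XX F Y ⟨G, i⟩ z =
      ∑ z ∈ T with core F z = G, nu M z * Y G i (wd F z) := by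
    rw [Finset.sum_filter]
    refine Finset.sum_congr rfl fun z _ => ?_
    unfold XX
    split_ifs <;> simp
  rw [e1, sum_core hM hG _ hT, Finset.mul_sum]
  refine Finset.sum_congr rfl fun w hw => ?_
  have hw' := Nat.dvd_of_mem_divisors (Finset.mem_filter.1 hw).1
  rw [nu_class hM hG hw', wd_mul hM hG hw']
  ring

/-- **SUM OVER THE CORES** -/
theorem gbd_of_cores (hM : 0 < M) {Zs : ℕ → Finset ι} {Zs' : ℕ → Finset ι'}
    {κ : ℕ → ι → ι' → ℕ → ℕ → ℝ} {C D : ℝ}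
    {X : ℕ → ι → ℕ → ℝ} {X' : ℕ → ι' → ℕ → ℝ}
    (h : ∀ G ∈ cores F, ∀ (S : ι → Finset ℕ) (S' : ι' → Finset ℕ),
      (∀ i, S i ⊆ (PM F G).divisors) → (∀ j, S' j ⊆ (PM F G).divisors) → ∀ l : ℝ, 0 < l →
      ∑ i ∈ Zs G, ∑ j ∈ Zs' G, ∑ w ∈ S i, ∑ w' ∈ S' j,
          nu (PM F G) w * nu (PM F G) w' * κ G i j w w' ≤
        C * (1 / l * (∑ i ∈ Zs G, ∑ w ∈ S i, nu (PM F G) w * X G i w) +
          l * D * ∑ j ∈ Zs' G, ∑ w' ∈ S' j, nu (PM F G) w' * X' G j w')) :
    GBd M ((cores F).sigma Zs) ((cores F).sigma Zs') (kk F κ) C D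
      (fun i z => nu M z * XX F X i z) (fun j z => nu M z * XX F X' j z) := by
  classical
  intro S S' hS hS' l hl
  -- words of the sets
  set R : ℕ → ι → Finset ℕ := fun G i => (PM F G).divisors.filter (fun w => G * w ∈ S ⟨G, i⟩)
    with hR
  set R' : ℕ → ι' → Finset ℕ := fun G j => (PM F G).divisors.filter (fun w => G * w ∈ S' ⟨G, j⟩)
    with hR'
  -- left side
  have hleft : ∀ G ∈ cores F, ∀ i : ι, ∀ G' ∈ cores F, ∀ j : ι',
      ∑ z ∈ S ⟨G, i⟩, ∑ z' ∈ S' ⟨G', j⟩,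
        (Nat.gcd z z' : ℝ) * nu M z * nu M z' * kk F κ ⟨G, i⟩ ⟨G', j⟩ z z' =
      if G = G' then nu0 F G * ∑ w ∈ R G i, ∑ w' ∈ R' G' j,
        nu (PM F G) w * nu (PM F G) w' * κ G i j w w' else 0 := by
    intro G hG i G' hG' j
    by_cases hGG : G = G'
    · subst hGG
      rw [if_pos rfl]
      have e1 : ∑ z ∈ S ⟨G, i⟩, ∑ z' ∈ S' ⟨G, j⟩,
          (Nat.gcd z z' : ℝ) * nu M z * nu M z' * kk F κ ⟨G, i⟩ ⟨G, j⟩ z z' =
          ∑ z ∈ S ⟨G, i⟩ with core F z = G, ∑ z' ∈ S' ⟨G, j⟩ with core F z' = G,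
            (Nat.gcd z z' : ℝ) * nu M z * nu M z' *
              (κ G i j (wd F z) (wd F z') / (VR F G * (Nat.gcd (wd F z) (wd F z') : ℝ))) := by
        rw [Finset.sum_filter]
        refine Finset.sum_congr rfl fun z _ => ?_
        by_cases hz : core F z = G
        · rw [if_pos hz, Finset.sum_filter]
          refine Finset.sum_congr rfl fun z' _ => ?_
          by_cases hz' : core F z' = G
          · rw [if_pos hz']
            unfold kk
            rw [if_pos ⟨rfl, hz, hz'⟩]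
          · rw [if_neg hz']
            unfold kk
            rw [if_neg (fun h => hz' h.2.2), mul_zero]
        · rw [if_neg hz]
          refine Finset.sum_eq_zero fun z' _ => ?_
          unfold kk
          rw [if_neg (fun h => hz h.2.1), mul_zero]
      rw [e1, sum_core hM hG _ (hS _), Finset.mul_sum]
      refine Finset.sum_congr rfl fun w hw => ?_
      rw [sum_core hM hG _ (hS' _), Finset.mul_sum]
      refine Finset.sum_congr rfl fun w' hw' => ?_
      have hwd := Nat.dvd_of_mem_divisors (Finset.mem_filter.1 hw).1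
      have hwd' := Nat.dvd_of_mem_divisors (Finset.mem_filter.1 hw').1
      rw [nu_class hM hG hwd, nu_class hM hG hwd', wd_mul hM hG hwd, wd_mul hM hG hwd',
        Nat.gcd_mul_left]
      have hV : VR F G ≠ 0 := (VR_pos hM hG).ne'
      have hw0 : 0 < w := Nat.pos_of_dvd_of_pos hwd (PM_pos G)
      have hg : (Nat.gcd w w' : ℝ) ≠ 0 := by
        exact_mod_cast (Nat.gcd_pos_of_pos_left _ hw0).ne'
      have h1 := mul_nu0 (F := F) hM hG
      push_cast
      calc (G : ℝ) * (Nat.gcd w w' : ℝ) * (nu0 F G * nu (PM F G) w) *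
            (nu0 F G * nu (PM F G) w') * (κ G i j w w' / (VR F G * (Nat.gcd w w' : ℝ)))
          = ((G : ℝ) * nu0 F G) * nu0 F G * (nu (PM F G) w * nu (PM F G) w' * κ G i j w w') *
            ((Nat.gcd w w' : ℝ) / (VR F G * (Nat.gcd w w' : ℝ))) := by ring
        _ = nu0 F G * (nu (PM F G) w * nu (PM F G) w' * κ G i j w w') := by
            rw [h1]
            field_simp
    · rw [if_neg hGG]
      refine Finset.sum_eq_zero fun z _ => Finset.sum_eq_zero fun z' _ => ?_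
      unfold kk
      rw [if_neg (fun h => hGG h.1), mul_zero]
  have e2 : ∑ i ∈ (cores F).sigma Zs, ∑ j ∈ (cores F).sigma Zs', ∑ z ∈ S i, ∑ z' ∈ S' j,
        (Nat.gcd z z' : ℝ) * nu M z * nu M z' * kk F κ i j z z' =
      ∑ G ∈ cores F, nu0 F G * ∑ i ∈ Zs G, ∑ j ∈ Zs' G, ∑ w ∈ R G i, ∑ w' ∈ R' G j,
        nu (PM F G) w * nu (PM F G) w' * κ G i j w w' := by
    rw [Finset.sum_sigma]
    refine Finset.sum_congr rfl fun G hG => ?_
    rw [Finset.mul_sum]
    refine Finset.sum_congr rfl fun i _ => ?_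
    rw [Finset.sum_sigma, Finset.sum_eq_single G]
    · rw [Finset.mul_sum]
      refine Finset.sum_congr rfl fun j _ => ?_
      rw [hleft G hG i G hG j, if_pos rfl]
    · intro G' hG' hne
      refine Finset.sum_eq_zero fun j _ => ?_
      rw [hleft G hG i G' hG' j, if_neg (fun h => hne h.symm)]
    · intro hn
      exact absurd hG hn
  rw [e2]
  have e3 : ∑ i ∈ (cores F).sigma Zs, ∑ z ∈ S i, nu M z * XX F X i z =
      ∑ G ∈ cores F, nu0 F G * ∑ i ∈ Zs G, ∑ w ∈ R G i, nu (PM F G) w * X G i w := by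
    rw [Finset.sum_sigma]
    refine Finset.sum_congr rfl fun G hG => ?_
    rw [Finset.mul_sum]
    exact Finset.sum_congr rfl fun i _ => dens_class hM hG X _ (hS _) i
  have e4 : ∑ j ∈ (cores F).sigma Zs', ∑ z ∈ S' j, nu M z * XX F X' j z =
      ∑ G ∈ cores F, nu0 F G * ∑ j ∈ Zs' G, ∑ w ∈ R' G j, nu (PM F G) w * X' G j w := by
    rw [Finset.sum_sigma]
    refine Finset.sum_congr rfl fun G hG => ?_
    rw [Finset.mul_sum]
    exact Finset.sum_congr rfl fun j _ => dens_class hM hG X' _ (hS' _) j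
  rw [e3, e4]
  have e5 : ∀ G ∈ cores F, nu0 F G * ∑ i ∈ Zs G, ∑ j ∈ Zs' G, ∑ w ∈ R G i, ∑ w' ∈ R' G j,
        nu (PM F G) w * nu (PM F G) w' * κ G i j w w' ≤
      nu0 F G * (C * (1 / l * (∑ i ∈ Zs G, ∑ w ∈ R G i, nu (PM F G) w * X G i w) +
          l * D * ∑ j ∈ Zs' G, ∑ w' ∈ R' G j, nu (PM F G) w' * X' G j w')) := fun G hG =>
    mul_le_mul_of_nonneg_left (h G hG (R G) (R' G) (fun i => Finset.filter_subset _ _)
      (fun j => Finset.filter_subset _ _) l hl) (nu0_nonneg G)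
  refine (Finset.sum_le_sum e5).trans (le_of_eq ?_)
  rw [Finset.mul_sum, Finset.mul_sum, ← Finset.sum_add_distrib, Finset.mul_sum]
  exact Finset.sum_congr rfl fun G _ => by ring


open Classical in
/-- **class of words over the worlds of all cores of the upper part**: per-core conclusion of
LEMMA V, low word = function of the high parts on the class, weights and budgets per core, and every
pair of the class is charged to one pair of zones of its core. -/
theorem core_total (hM : 0 < M) (y : ℕ) (St : Finset ℕ) (F1 : FL (upp y M))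
    {Zs : ℕ → Finset ι} {Zs' : ℕ → Finset ι'}
    {κ : ℕ → ι → ι' → ℕ → ℕ → ℝ} (hκ : ∀ G i j w w', 0 ≤ κ G i j w w')
    {C D : ℝ} (hC : 0 ≤ C) (hD : 0 ≤ D)
    {X : ℕ → ι → ℕ → ℝ} {X' : ℕ → ι' → ℕ → ℝ} (hX : ∀ G i w, 0 ≤ X G i w)
    (hX' : ∀ G j w, 0 ≤ X' G j w)
    (h : ∀ G ∈ cores F1, ∀ (S : ι → Finset ℕ) (S' : ι' → Finset ℕ),
      (∀ i, S i ⊆ (PM F1 G).divisors) → (∀ j, S' j ⊆ (PM F1 G).divisors) → ∀ l : ℝ, 0 < l →
      ∑ i ∈ Zs G, ∑ j ∈ Zs' G, ∑ w ∈ S i, ∑ w' ∈ S' j,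
          nu (PM F1 G) w * nu (PM F1 G) w' * κ G i j w w' ≤
        C * (1 / l * (∑ i ∈ Zs G, ∑ w ∈ S i, nu (PM F1 G) w * X G i w) +
          l * D * ∑ j ∈ Zs' G, ∑ w' ∈ S' j, nu (PM F1 G) w' * X' G j w'))
    {A B : ℝ} (hA : 1 ≤ A) (hB : 1 ≤ B) (P : ℕ → ℕ → Prop) (wrd : ℕ → ℕ → ℕ × ℕ)
    (hw : ∀ b c, b ∣ M → c ∣ M → P b c →
      FixedWordx423.wd (low y b) (low y c) = wrd (upp y b) (upp y c) ∧
      A ≤ (wrd (upp y b) (upp y c)).1 ∧ B ≤ (wrd (upp y b) (upp y c)).2)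
    {W : ℕ → ι → ℕ → ℝ} {W' : ℕ → ι' → ℕ → ℝ} (hW0 : ∀ G i b, 0 ≤ W G i b)
    (hW1 : ∀ G i b, W G i b ≤ 1) (hW0' : ∀ G j b, 0 ≤ W' G j b)
    {f g : ℕ → ℝ} (hf0 : ∀ b, 0 ≤ f b) (hg0 : ∀ b, 0 ≤ g b) (hf1 : ∀ b, f b ≤ 1)
    {T : ℝ} (hT0 : 0 ≤ T)
    (hT : ∀ b, b ∣ M → ∑ i ∈ Zs (core F1 (upp y b)),
      X (core F1 (upp y b)) i (wd F1 (upp y b)) * W (core F1 (upp y b)) i b ≤ T)
    (hT' : ∀ b, b ∣ M → ∑ j ∈ Zs' (core F1 (upp y b)),
      X' (core F1 (upp y b)) j (wd F1 (upp y b)) * W' (core F1 (upp y b)) j b ≤ T)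
    (K : ℕ → ℕ → ℝ)
    (hK : ∀ b c, b ∣ M → c ∣ M → 0 < K b c → P b c ∧
      core F1 (upp y b) = core F1 (upp y c) ∧
      ∃ i ∈ Zs (core F1 (upp y b)), ∃ j ∈ Zs' (core F1 (upp y b)),
        K b c ≤ κ (core F1 (upp y b)) i j (wd F1 (upp y b)) (wd F1 (upp y c)) /
            (VR F1 (core F1 (upp y b)) *
              (Nat.gcd (wd F1 (upp y b)) (wd F1 (upp y c)) : ℝ)) *
          bst St (low y M) (low y b) (low y c) *
          min (W (core F1 (upp y b)) i b * f b) (W' (core F1 (upp y b)) j c * g c)) :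
    frm M K ≤ 8 * C * T * √D / √(A * B) * (√(Ex M f) * √(Ex M g)) := by
  have hup := upp_pos y M
  have hE := gbd_of_cores (F := F1) hup h
  have key := graph_total hM y St (Z := (cores F1).sigma Zs) (Z' := (cores F1).sigma Zs')
    (k := kk F1 κ) (kk_nonneg hκ) hC hD (X := XX F1 X) (X' := XX F1 X') (XX_nonneg hX)
    (XX_nonneg hX') hE hA hB (fun _ _ b c => P b c) (fun _ _ => wrd)
    (fun _ _ _ _ b c hb hc hP => hw b c hb hc hP)
    (W := fun i b => W i.1 i.2 b) (W' := fun j b => W' j.1 j.2 b)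
    (fun _ _ => hW0 _ _ _) (fun _ _ => hW1 _ _ _) (fun _ _ => hW0' _ _ _) hf0 hg0 hf1 hT0
    (fun b hb => ?_) (fun b hb => ?_)
  · refine le_trans ?_ key
    -- the pairs are charged to one pair of zones
    have e1 : ∀ i ∈ (cores F1).sigma Zs,
        ∑ j ∈ (cores F1).sigma Zs', frm M (fun b c => if P b c then
          kk F1 κ i j (upp y b) (upp y c) * bst St (low y M) (low y b) (low y c) *
            min (W i.1 i.2 b * f b) (W' j.1 j.2 c * g c) else 0) =
        frm M (fun b c => ∑ j ∈ (cores F1).sigma Zs', if P b c then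
          kk F1 κ i j (upp y b) (upp y c) * bst St (low y M) (low y b) (low y c) *
            min (W i.1 i.2 b * f b) (W' j.1 j.2 c * g c) else 0) := fun i _ =>
      HeavyLx50.frm_sum _ M _
    rw [Finset.sum_congr rfl e1, HeavyLx50.frm_sum]
    refine HeavyLx50.frm_mono fun b c hb hc => ?_
    have hbst : 0 ≤ bst St (low y M) (low y b) (low y c) := VecNPx50.bst_nonneg _ _ _ _
    have hterm : ∀ i ∈ (cores F1).sigma Zs, ∀ j ∈ (cores F1).sigma Zs',
        0 ≤ (if P b c then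
          kk F1 κ i j (upp y b) (upp y c) * bst St (low y M) (low y b) (low y c) *
            min (W i.1 i.2 b * f b) (W' j.1 j.2 c * g c) else 0) := by
      intro i _ j _
      split_ifs
      · exact mul_nonneg (mul_nonneg (kk_nonneg hκ _ _ _ _) hbst)
          (le_min (mul_nonneg (hW0 _ _ _) (hf0 _)) (mul_nonneg (hW0' _ _ _) (hg0 _)))
      · exact le_rfl
    rcases le_or_gt (K b c) 0 with h0 | h0
    · exact h0.trans (Finset.sum_nonneg fun i hi => Finset.sum_nonneg fun j hj => hterm i hi j hj)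
    · obtain ⟨hP, hcc, i, hi, j, hj, hle⟩ := hK b c hb hc h0
      have hub : upp y b ∣ upp y M := upp_dvd y hM.ne' hb
      have hG := core_mem (F := F1) hup hub
      set G := core F1 (upp y b) with hGdef
      have hi' : (⟨G, i⟩ : Σ _ : ℕ, ι) ∈ (cores F1).sigma Zs := Finset.mem_sigma.2 ⟨hG, hi⟩
      have hj' : (⟨G, j⟩ : Σ _ : ℕ, ι') ∈ (cores F1).sigma Zs' := Finset.mem_sigma.2 ⟨hG, hj⟩
      refine le_trans ?_ (Finset.single_le_sum
        (fun i hi => Finset.sum_nonneg fun j hj => hterm i hi j hj) hi')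
      refine le_trans ?_ (Finset.single_le_sum (fun j hj => hterm _ hi' j hj) hj')
      rw [if_pos hP]
      refine hle.trans (le_of_eq ?_)
      unfold kk
      rw [if_pos ⟨rfl, hGdef.symm, hcc.symm⟩]
  · have hub : upp y b ∣ upp y M := upp_dvd y hM.ne' hb
    have hG := core_mem (F := F1) hup hub
    rw [Finset.sum_sigma, Finset.sum_eq_single (core F1 (upp y b))]
    · refine le_trans (le_of_eq (Finset.sum_congr rfl fun i _ => ?_)) (hT b hb)
      unfold XX
      rw [if_pos rfl]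
    · intro G _ hne
      refine Finset.sum_eq_zero fun i _ => ?_
      unfold XX
      rw [if_neg (fun h => hne h.symm), zero_mul]
    · intro hn; exact absurd hG hn
  · have hub : upp y b ∣ upp y M := upp_dvd y hM.ne' hb
    have hG := core_mem (F := F1) hup hub
    rw [Finset.sum_sigma, Finset.sum_eq_single (core F1 (upp y b))]
    · refine le_trans (le_of_eq (Finset.sum_congr rfl fun i _ => ?_)) (hT' b hb)
      unfold XX
      rw [if_pos rfl]
    · intro G _ hne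
      refine Finset.sum_eq_zero fun i _ => ?_
      unfold XX
      rw [if_neg (fun h => hne h.symm), zero_mul]
    · intro hn; exact absurd hG hn

end Crest.Agent.R4C.GWcorex482
end

-- ▼ part R4C/GWinstV2_24
section

/-!
# Row 4, GW section, vector case: one class and one scale `2^s`, all cores (helper24)

`win_total` : 482's `core_total` for the worlds `vw .. s G`.
-/

set_option autoImplicit false

open Finset
open Crest.Agent.R4C.Basex935 Crest.Agent.R4C.Cutx50 Crest.Agent.R4C.PrefixMx882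
open Crest.Agent.R4C.FLDefx935 Crest.Agent.R4C.Rulex945 Crest.Agent.R4C.PureClsx863
open Crest.Agent.R4C.PureL2x232 (hiFL)
open Crest.Agent.R4C.GWdefx982 Crest.Agent.R4C.VDefx24
open Crest.Agent.R4C.HDx529 (Y3 kapV gn)
open Crest.Agent.R4C.HighFLx863 (H0 hw)

namespace Crest.Agent.R4C.GWinstVx24

lemma fac01 {N w p : ℕ} (h : p ∈ free N w) : (1 : ℕ) ≤ p :=
  (Nat.prime_of_mem_primeFactors (mem_free.1 h).1).one_lt.le

lemma Wp_le_one' (Z : World) (a b w : ℕ) : Z.Wp a b w ≤ 1 := by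
  classical
  unfold World.Wp
  refine prod_le_one (fun p hp => ?_) fun p hp => ?_
  · have h2 : (1 : ℝ) ≤ p := by exact_mod_cast fac01 (mem_filter.1 hp).1
    have h3 : (1 : ℝ) / p ≤ 1 := by rw [div_le_one (by linarith)]; exact h2
    linarith
  · have h4 : (0 : ℝ) ≤ 1 / (p : ℝ) := by positivity
    linarith

lemma Y3_nonneg (Z : World) (z : Node) (w : ℕ) : 0 ≤ Y3 Z z w := by
  classical
  unfold Y3
  split_ifs
  · have := Wp_le_one' Z (Z.cut (Z.pz z)) (Z.cut (Z.nb (Z.nb z.1 w) w)) w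
    linarith
  · norm_num

lemma kapV_nonneg (Z : World) {KV : ℝ} (h : 0 ≤ KV) (z : Node) : 0 ≤ kapV Z KV z := by
  unfold kapV
  exact le_min zero_le_one (by positivity)

lemma XX_nonneg' (Z : World) {KV : ℝ} (h : 0 ≤ KV) (z : Node) (w : ℕ) : 0 ≤ XX Z KV z w := by
  classical
  unfold XX
  split_ifs
  · exact add_nonneg (Y3_nonneg Z z w) (kapV_nonneg Z h z)
  · exact le_rfl

variable {M : ℕ}

lemma Wb_nonneg (F : FL M) (P : Par) (Z : World) (y : ℕ) (z : Node) (w b : ℕ) :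
    0 ≤ Wb F P Z y z w b := by
  classical
  unfold Wb Act
  exact FamBudx252.VA_nonneg (fun p hp => fac01 (mem_filter.1 hp).1) _ _

lemma Wb_le_one (F : FL M) (P : Par) (Z : World) (y : ℕ) (z : Node) (w b : ℕ) :
    Wb F P Z y z w b ≤ 1 := by
  classical
  unfold Wb Act
  exact FamBudx252.VA_le_one (fun p hp => fac01 (mem_filter.1 hp).1) _ _

open Classical in
/-- **one class, one scale, all cores** -/
theorem win_total (hM : 0 < M) (F : FL M) (P : Par) (δ : ℝ) (a a' s : ℕ) {C1 Δ KV T : ℝ} {k : ℕ}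
    (hC1 : 1 ≤ C1) (hKV : 0 ≤ KV) (hk : C1 * Δ ≤ 2 ^ k) (hT0 : 0 ≤ T)
    (hok : ∀ G ∈ cores (hiFL hM (yc a a') F), ∀ Z : World, Z = vw hM F P δ a a' s G →
      (gn Z (RR Z a a') KV).Ok (fun _ => nu Z.N) (fun _ => nu Z.N) C1 Δ ∧
      (gn Z (fun ν ν' => RR Z a a' ν' ν) KV).Ok (fun _ => nu Z.N) (fun _ => nu Z.N) C1 Δ)
    (hT : ∀ b, b ∣ M → ∀ (Z : World) (w : ℕ), Z = vw hM F P δ a a' s (H0 hM F (yc a a') b) →
      w = hw hM F (yc a a') b →
      ∑ z ∈ Z.Zs.filter (fun z => w ∈ (Z.Nd z).biUnion Z.S),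
        (Y3 Z z w + kapV Z KV z) * Wb F P Z (yc a a') z w b ≤ T)
    (Q : ℕ → ℕ → Prop) (wrd : ℕ → ℕ → ℕ × ℕ)
    (hq : ∀ b c, b ∣ M → c ∣ M → Q b c →
      FixedWordx423.wd (low (yc a a') b) (low (yc a a') c) =
        wrd (upp (yc a a') b) (upp (yc a a') c) ∧
      (2 : ℝ) ^ a ≤ (wrd (upp (yc a a') b) (upp (yc a a') c)).1 ∧
      (2 : ℝ) ^ a' ≤ (wrd (upp (yc a a') b) (upp (yc a a') c)).2)
    {f g : ℕ → ℝ} (hf0 : ∀ b, 0 ≤ f b) (hg0 : ∀ b, 0 ≤ g b) (hf1 : ∀ b, f b ≤ 1)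
    (K : ℕ → ℕ → ℝ)
    (hK : ∀ b c, b ∣ M → c ∣ M → 0 < K b c → Q b c ∧
      H0 hM F (yc a a') b = H0 hM F (yc a a') c ∧
      ∀ Z : World, Z = vw hM F P δ a a' s (H0 hM F (yc a a') b) →
      ∃ z ∈ Z.Zs, ∃ z' ∈ Z.Zs, K b c ≤
        kap2 Z (RR Z a a') z z' (hw hM F (yc a a') b) (hw hM F (yc a a') c) /
            (VR (hiFL hM (yc a a') F) (H0 hM F (yc a a') b) *
              (Nat.gcd (hw hM F (yc a a') b) (hw hM F (yc a a') c) : ℝ)) *
          BoostRx398.bst (BoostTopx19.prQ (yc a a')) (low (yc a a') M) (low (yc a a') b)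
            (low (yc a a') c) *
          min (Wb F P Z (yc a a') z (hw hM F (yc a a') b) b * f b)
            (Wb F P Z (yc a a') z' (hw hM F (yc a a') c) c * g c)) :
    frm M K ≤ 8 * (4 * C1 + 4) * T * √((k : ℝ) + 4) / √((2 : ℝ) ^ a * 2 ^ a') *
      (√(Ex M f) * √(Ex M g)) := by
  set y := yc a a' with hy
  have hC : (0 : ℝ) ≤ 4 * C1 + 4 := by linarith
  have hD : (0 : ℝ) ≤ (k : ℝ) + 4 := by positivity
  refine GWcorex482.core_total hM y (BoostTopx19.prQ y) (hiFL hM y F)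
    (Zs := fun G => (vw hM F P δ a a' s G).Zs) (Zs' := fun G => (vw hM F P δ a a' s G).Zs)
    (κ := fun G z z' w w' => kap2 (vw hM F P δ a a' s G) (RR (vw hM F P δ a a' s G) a a') z z' w w')
    (fun G i j w w' => kap2_nonneg _ _ _ _ _) hC hD
    (X := fun G z w => XX (vw hM F P δ a a' s G) KV z w)
    (X' := fun G z w => XX (vw hM F P δ a a' s G) KV z w)
    (fun G i w => XX_nonneg' _ hKV _ _) (fun G i w => XX_nonneg' _ hKV _ _) ?_
    (one_le_pow₀ (by norm_num)) (one_le_pow₀ (by norm_num)) Q wrd hq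
    (W := fun G z b => Wb F P (vw hM F P δ a a' s G) y z (PureClsx863.wd (hiFL hM y F) (upp y b)) b)
    (W' := fun G z b => Wb F P (vw hM F P δ a a' s G) y z (PureClsx863.wd (hiFL hM y F) (upp y b)) b)
    (fun G i b => Wb_nonneg _ _ _ _ _ _ _) (fun G i b => Wb_le_one _ _ _ _ _ _ _)
    (fun G i b => Wb_nonneg _ _ _ _ _ _ _) hf0 hg0 hf1 hT0 ?_ ?_ K ?_
  · intro G hG S S' _ _ l hl
    obtain ⟨h1, h2⟩ := hok G hG _ rfl
    exact core_set h1 h2 hk S S' hl
  · intro b hb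
    have h1 := hT b hb _ _ rfl rfl
    refine le_trans (le_of_eq ?_) h1
    rw [sum_filter]
    refine sum_congr rfl fun z _ => ?_
    show XX _ KV z _ * _ = _
    unfold XX
    by_cases h2 : hw hM F y b ∈
        ((vw hM F P δ a a' s (H0 hM F y b)).Nd z).biUnion (vw hM F P δ a a' s (H0 hM F y b)).S
    · rw [if_pos h2]
      exact congrArg₂ (· * ·) (if_pos h2) rfl
    · rw [if_neg h2]
      exact (congrArg₂ (· * ·) (if_neg h2) rfl).trans (zero_mul _)
  · intro b hb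
    have h1 := hT b hb _ _ rfl rfl
    refine le_trans (le_of_eq ?_) h1
    rw [sum_filter]
    refine sum_congr rfl fun z _ => ?_
    show XX _ KV z _ * _ = _
    unfold XX
    by_cases h2 : hw hM F y b ∈
        ((vw hM F P δ a a' s (H0 hM F y b)).Nd z).biUnion (vw hM F P δ a a' s (H0 hM F y b)).S
    · rw [if_pos h2]
      exact congrArg₂ (· * ·) (if_pos h2) rfl
    · rw [if_neg h2]
      exact (congrArg₂ (· * ·) (if_neg h2) rfl).trans (zero_mul _)
  · intro b c hb hc hpos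
    obtain ⟨h1, h2, h3⟩ := hK b c hb hc hpos
    obtain ⟨z, hz, z', hz', h4⟩ := h3 _ rfl
    exact ⟨h1, h2, z, hz, z', hz', h4⟩

end Crest.Agent.R4C.GWinstVx24
end

-- ▼ part R4C/GWinstV3_24

/-!
# Row 4, GW section, vector case: the total of one class (helper24)

* `vcl_vp` : the pair data of helper19 for the pairs of the class;
* `wrd` : the low word as a function of the high words (`word_unique`);
* `card_win` : at most three scales `s` for each `b`;
* **`ttot`** : `TOk γ → TBud γ → TPair γ X0 → TTot γ X0`;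
* **`cls_vec`** : `ClsOK γ (clsV γ)` from the three targets.
-/

set_option autoImplicit false

open Finset
open Crest.Agent.R4C.Basex935 Crest.Agent.R4C.Cutx50 Crest.Agent.R4C.PrefixMx882
open Crest.Agent.R4C.FLDefx935 Crest.Agent.R4C.Rulex945 Crest.Agent.R4C.PureClsx863
open Crest.Agent.R4C.PureL2x232 (hiFL)
open Crest.Agent.R4C.GWdefx982 Crest.Agent.R4C.VDefx24 Crest.Agent.R4C.VTopx179
open Crest.Agent.R4C.Splitx945 Crest.Agent.R4C.Spinex946 Crest.Agent.R4C.Bridgex882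
open Crest.Agent.R4C.CrCoinx935 Crest.Agent.R4C.CrCountx935
open Crest.Agent.R4C.HDx529 (Y3 kapV gn)
open Crest.Agent.R4C.HighFLx863 (H0 hw)
open Crest.Agent.R4C.B1Levx52 (offW one_le_offW)

namespace Crest.Agent.R4C.GWinstVx24

/-! ### numerics -/

lemma exists_pow8 : ∃ m1 : ℕ, ∀ i : ℕ, m1 ≤ i → 4 * (i + 1) ^ 8 ≤ 2 ^ i := by
  have h1 : Filter.Tendsto (fun n : ℕ => ((n : ℝ)) ^ 8 * (1 / 2 : ℝ) ^ n) Filter.atTop (nhds 0) :=
    tendsto_pow_const_mul_const_pow_of_abs_lt_one 8 (by norm_num)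
  have h2 := (h1.eventually (gt_mem_nhds (show (0 : ℝ) < 1 / 8 by norm_num)))
  rw [Filter.eventually_atTop] at h2
  obtain ⟨m, hm⟩ := h2
  refine ⟨m, fun i hi => ?_⟩
  have h3 := hm (i + 1) (by omega)
  have h4 : (1 / 2 : ℝ) ^ (i + 1) = 1 / 2 ^ (i + 1) := by rw [one_div_pow]
  rw [h4, mul_one_div, div_lt_iff₀ (by positivity)] at h3
  have h5 : (4 : ℝ) * ((i : ℝ) + 1) ^ 8 ≤ 2 ^ i := by
    have e2 : (2 : ℝ) ^ (i + 1) = 2 ^ i * 2 := pow_succ _ _
    rw [e2] at h3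
    push_cast at h3
    linarith
  exact_mod_cast h5

lemma ev_pow8 : Ev (fun _ _ A m0 => 1 ≤ A → ∀ i, m0 ≤ i → 4 * (i + 1) ^ 8 ≤ 2 ^ (A * i)) := by
  obtain ⟨m1, h⟩ := exists_pow8
  refine Ev.of_m0 fun cp η A _ _ => ⟨m1, fun m0 hm hA i hi => ?_⟩
  refine (h i (hm.trans hi)).trans (Nat.pow_le_pow_right (by norm_num) ?_)
  exact Nat.le_mul_of_pos_left i hA

open Classical in
/-- at most three scales -/
lemma card_win (a y b N : ℕ) : ((range N).filter fun s => win a s y b).card ≤ 3 := by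
  rcases ((range N).filter fun s => win a s y b).eq_empty_or_nonempty with h | h
  · rw [h]; simp
  · set s0 := ((range N).filter fun s => win a s y b).min' h with hs0
    have hm := min'_mem _ h
    rw [← hs0, mem_filter] at hm
    have hsub : (range N).filter (fun s => win a s y b) ⊆ Ico s0 (s0 + 3) := by
      intro s hs
      rw [mem_Ico]
      refine ⟨min'_le _ s hs, ?_⟩
      by_contra hc
      push Not at hc
      rw [mem_filter] at hs
      have h1 := hs.2.1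
      have h2 := hm.2.2
      have h3 : 2 ^ (a + s0 + 3) ≤ 2 ^ (a + s) := Nat.pow_le_pow_right (by norm_num) (by omega)
      have h4 : 2 ^ (a + s0 + 3) = 2 * 2 ^ (a + s0 + 2) := by ring
      omega
    calc _ ≤ (Ico s0 (s0 + 3)).card := card_le_card hsub
      _ = 3 := by simp

variable {M : ℕ}

/-- pair data for the class -/
lemma vcl_vp (hM : 0 < M) (F : FL M) (P : Par) {Q : ℕ → ℕ → ℕ → ℤ → Prop} {a a' e i b c : ℕ}
    {h : ℤ} (hb : b ∣ M) (hc : c ∣ M) (hL : 0 < P.L) (h8 : 4 * (i + 1) ^ 8 ≤ P.cut i)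
    (hl : h ∈ Lnk P.γ P.L b c) (hV : VCi F P Q a a' e i b c h) :
    VecPairx19.VP hM F P (yc a a') i (H0 hM F (yc a a') b) (hw hM F (yc a a') b)
      (hw hM F (yc a a') c) (low (P.cut i) (b / Nat.gcd b c)) (low (P.cut i) (c / Nat.gcd b c))
      (Nat.gcd (low (yc a a') b) (low (yc a a') c)) b c h := by
  obtain ⟨hfar, _, hpure, hsm, hcl, _⟩ := hV
  refine VecPairx19.exists_vp_cls hM F P hb hc hL hfar hpure hl hcl ?_
  have h1 : low (P.cut i) (b / Nat.gcd b c) * low (P.cut i) (c / Nat.gcd b c) < (i + 1) ^ 8 := by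
    exact_mod_cast hsm
  omega

/-- the low word over a pair of high words -/
def IsWrd (F : FL M) (P : Par) (Q : ℕ → ℕ → ℕ → ℤ → Prop) (a a' e z z' : ℕ) (x : ℕ × ℕ) : Prop :=
  ∃ b c h, b ∣ M ∧ c ∣ M ∧ h ∈ Lnk P.γ P.L b c ∧ VC F P Q a a' e b c h ∧
    upp (yc a a') b = z ∧ upp (yc a a') c = z' ∧
    x = FixedWordx423.wd (low (yc a a') b) (low (yc a a') c)

open Classical in
/-- the low word as a function of the high words -/
noncomputable def wrd (F : FL M) (P : Par) (Q : ℕ → ℕ → ℕ → ℤ → Prop) (a a' e z z' : ℕ) : ℕ × ℕ :=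
  if h : ∃ x, IsWrd F P Q a a' e z z' x then h.choose else (1, 1)

lemma isWrd_unique (hM : 0 < M) {F : FL M} {P : Par} {Q : ℕ → ℕ → ℕ → ℤ → Prop} {a a' e z z' : ℕ}
    {x x1 : ℕ × ℕ} (hL : 0 < P.L) (h8 : ∀ i, P.m0 ≤ i → 4 * (i + 1) ^ 8 ≤ P.cut i)
    (h : IsWrd F P Q a a' e z z' x) (h1 : IsWrd F P Q a a' e z z' x1) : x = x1 := by
  obtain ⟨b, c, h, hb, hc, hl, ⟨i, hV⟩, e1, e2, rfl⟩ := h
  obtain ⟨b1, c1, h', hb1, hc1, hl1, ⟨i1, hV1⟩, e1', e2', rfl⟩ := h1
  have v := vcl_vp hM F P hb hc hL (h8 i hV.1.m0) hl hV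
  have v1 := vcl_vp hM F P hb1 hc1 hL (h8 i1 hV1.1.m0) hl1 hV1
  obtain ⟨q1, q2⟩ := VecPairx19.word_unique v hV.2.1 v1 hV1.2.1 (e1.trans e1'.symm)
    (e2.trans e2'.symm) (by rw [hV.2.2.2.2.1.2.2, hV1.2.2.2.2.1.2.2])
  rw [v.wd_eq, v1.wd_eq, q1, q2]

lemma wrd_eq (hM : 0 < M) {F : FL M} {P : Par} {Q : ℕ → ℕ → ℕ → ℤ → Prop} {a a' e b c : ℕ}
    {h : ℤ} (hL : 0 < P.L) (h8 : ∀ i, P.m0 ≤ i → 4 * (i + 1) ^ 8 ≤ P.cut i)
    (hb : b ∣ M) (hc : c ∣ M) (hl : h ∈ Lnk P.γ P.L b c) (hV : VC F P Q a a' e b c h) :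
    FixedWordx423.wd (low (yc a a') b) (low (yc a a') c) =
      wrd F P Q a a' e (upp (yc a a') b) (upp (yc a a') c) := by
  classical
  have hex : ∃ x, IsWrd F P Q a a' e (upp (yc a a') b) (upp (yc a a') c) x :=
    ⟨_, b, c, h, hb, hc, hl, hV, rfl, rfl, rfl⟩
  unfold wrd
  rw [dif_pos hex]
  exact isWrd_unique hM hL h8 ⟨b, c, h, hb, hc, hl, hV, rfl, rfl, rfl⟩ hex.choose_spec

lemma wrd_bounds (hM : 0 < M) {F : FL M} {P : Par} {Q : ℕ → ℕ → ℕ → ℤ → Prop} {a a' e b c : ℕ}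
    {h : ℤ} (hL : 0 < P.L) (h8 : ∀ i, P.m0 ≤ i → 4 * (i + 1) ^ 8 ≤ P.cut i)
    (hb : b ∣ M) (hc : c ∣ M) (hl : h ∈ Lnk P.γ P.L b c) (hV : VC F P Q a a' e b c h) :
    (2 : ℝ) ^ a ≤ (wrd F P Q a a' e (upp (yc a a') b) (upp (yc a a') c)).1 ∧
      (2 : ℝ) ^ a' ≤ (wrd F P Q a a' e (upp (yc a a') b) (upp (yc a a') c)).2 := by
  rw [← wrd_eq hM hL h8 hb hc hl hV]
  obtain ⟨i, hVi⟩ := hV
  have v := vcl_vp hM F P hb hc hL (h8 i hVi.1.m0) hl hVi
  rw [v.wd_eq]
  obtain ⟨b1, _, b3, _⟩ := hVi.2.2.2.2.1.bounds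
  constructor
  · show (2 : ℝ) ^ a ≤ ((low (P.cut i) (b / Nat.gcd b c) : ℕ) : ℝ)
    exact_mod_cast b1
  · show (2 : ℝ) ^ a' ≤ ((low (P.cut i) (c / Nat.gcd b c) : ℕ) : ℝ)
    exact_mod_cast b3

lemma Ex_ind {S : Finset ℕ} (hS : S ⊆ M.divisors) (p : ℕ → Prop) [DecidablePred p] :
    Ex M (fun b => if b ∈ S ∧ p b then 1 else 0) = ∑ b ∈ S, nu M b * (if p b then 1 else 0) := by
  classical
  unfold Ex
  have e : ∀ b ∈ M.divisors, nu M b * (if b ∈ S ∧ p b then (1 : ℝ) else 0) =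
      if b ∈ S then nu M b * (if p b then 1 else 0) else 0 := by
    intro b _
    by_cases h1 : b ∈ S
    · by_cases h2 : p b
      · simp [h1, h2]
      · simp [h1, h2]
    · simp [h1]
  rw [sum_congr rfl e, sum_ite_mem, inter_eq_right.2 hS]

open Classical in
/-- sum over the scales -/
lemma sum_win {S : Finset ℕ} (hS : S ⊆ M.divisors) (a y N : ℕ) :
    ∑ s ∈ range N, Ex M (fun b => if b ∈ S ∧ win a s y b then 1 else 0) ≤
      3 * ∑ b ∈ S, nu M b := by
  have e : ∀ s ∈ range N, Ex M (fun b => if b ∈ S ∧ win a s y b then 1 else 0) =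
      ∑ b ∈ S, nu M b * (if win a s y b then 1 else 0) := fun s _ => Ex_ind hS _
  rw [sum_congr rfl e, sum_comm, mul_sum]
  refine sum_le_sum fun b _ => ?_
  rw [← mul_sum]
  have h1 : ∑ s ∈ range N, (if win a s y b then (1 : ℝ) else 0) ≤ 3 := by
    rw [← sum_filter, sum_const, nsmul_eq_mul, mul_one]
    exact_mod_cast card_win a y b N
  have h2 := mul_le_mul_of_nonneg_left h1 (nu_nonneg M b)
  linarith

open Classical in
/-- **the total of one class** -/
theorem ttot {γ : ℝ} {X0 : ℕ} (hOk : TOk γ) (hBud : TBud γ) (hPair : TPair γ X0) :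
    TTot γ X0 := by
  refine ((((hOk.and hBud).and hPair).and Ev.basic).and ev_pow8).mono ?_
  rintro cp η A m0 ⟨⟨⟨⟨⟨C1, KV, kk, hC1, hKV, hOk⟩, hBud⟩, Cw, hCw, hPair⟩, hcp, _, hη, _, hη1,
    hA, hm0⟩, h8'⟩
  obtain ⟨T, hT0, hBud⟩ := hBud KV kk hKV
  obtain ⟨kC, hkC⟩ : ∃ kC : ℕ, C1 ≤ 2 ^ kC := by
    obtain ⟨n, hn⟩ := pow_unbounded_of_one_lt C1 (show (1 : ℝ) < 2 by norm_num)
    exact ⟨n, hn.le⟩
  set C' : ℝ := Cw + 1 with hC'
  have hC'0 : 0 < C' := by linarith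
  refine ⟨C' * (8 * (4 * C1 + 4) * T * ((kC : ℝ) + kk + 4)) * 3, 2, by positivity,
    fun L M B F hS a a' e S S' hSB hSB' => ?_⟩
  set P := ParOf cp A m0 γ L M B with hP
  set q := VC F P (QQ cp A m0 γ L M B F) a a' e with hq
  set y := yc a a' with hy
  have hM := hS.hM
  have hLp : 0 < P.L := hS.hL
  have hm1 : 1 ≤ P.m0 := by
    show 1 ≤ m0
    omega
  have h8 : ∀ i, P.m0 ≤ i → 4 * (i + 1) ^ 8 ≤ P.cut i := h8' hA
  have hSM : S ⊆ M.divisors := hSB.trans hS.hB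
  have hSM' : S' ⊆ M.divisors := hSB'.trans hS.hB
  set R : ℝ := (2 : ℝ) ^ ((a + a' : ℝ) / 4) with hR
  have hR0 : 0 < R := Real.rpow_pos_of_pos (by norm_num) _
  -- good pairs at the scale `s`
  set Ps : ℕ → ℕ → ℕ → Prop := fun s b c => b ∈ S ∧ c ∈ S' ∧ b ≠ c ∧ ∃ h ∈ Lnk γ L b c,
    ¬ killedB (lamOf cp A m0 γ L M B F) b c h ∧ q b c h ∧ H0 hM F y b = H0 hM F y c ∧
    win a s y b ∧ win a' s y c ∧
    ∀ (Z : World) (w w' : ℕ), Z = vw hM F P (1 / (4 * A)) a a' s (H0 hM F y b) →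
        w = hw hM F y b → w' = hw hM F y c →
        ∃ z ∈ Z.Zs, ∃ z' ∈ Z.Zs,
        boostB M (lamOf cp A m0 γ L M B F) b c h ≤
          Cw * R * (offW F X0 b * offW F X0 c) *
          (kap2 Z (RR Z a a') z z' w w' /
            (VR (hiFL hM y F) (H0 hM F y b) * (Nat.gcd w w' : ℝ)) *
          BoostRx398.bst (BoostTopx19.prQ y) (low y M) (low y b) (low y c) *
          min (Wb F P Z y z w b) (Wb F P Z y z' w' c)) with hPs
  set K : ℕ → ℕ → ℕ → ℝ := fun s b c => if Ps s b c then Wv F P X0 q b c / (C' * R) else 0 with hK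
  have hK0 : ∀ s b c, 0 ≤ K s b c := by
    intro s b c
    simp only [hK]
    split_ifs
    · exact div_nonneg (Wv_nonneg _ _) (by positivity)
    · exact le_rfl
  -- one scale
  have hwin : ∀ s, frm M (K s) ≤ 8 * (4 * C1 + 4) * (T * (1 + a + a')) *
      √(((kC + kk * (a + a' + 1) : ℕ) : ℝ) + 4) / √((2 : ℝ) ^ a * 2 ^ a') *
      (√(Ex M (fun b => if b ∈ S ∧ win a s y b then 1 else 0)) *
        √(Ex M (fun b => if b ∈ S' ∧ win a' s y b then 1 else 0))) := by
    intro s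
    refine win_total hM F P (1 / (4 * A)) a a' s (C1 := C1) (Δ := 2 ^ (kk * (a + a' + 1)))
      (KV := KV * 2 ^ (kk * (a + a'))) (T := T * (1 + a + a')) hC1 (by positivity) ?_
      (by positivity) (fun G hG Z hZ => hOk L M B F hS a a' s G hG Z hZ)
      (fun b hb Z w hZ hw' => hBud L M B F hS a a' s b hb Z w hZ hw')
      (fun b c => b ∈ B ∧ c ∈ B ∧ ∃ h ∈ Lnk γ L b c, q b c h)
      (wrd F P (QQ cp A m0 γ L M B F) a a' e) ?_
      (fun b => by split_ifs <;> norm_num) (fun b => by split_ifs <;> norm_num)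
      (fun b => by split_ifs <;> norm_num) (K s) ?_
    · rw [pow_add]
      exact mul_le_mul_of_nonneg_right hkC (by positivity)
    · rintro b c hb hc ⟨_, _, h, hl, hq'⟩
      exact ⟨wrd_eq hM hLp h8 hb hc hl hq', wrd_bounds hM hLp h8 hb hc hl hq'⟩
    · intro b c hb hc hpos
      have hps : Ps s b c := by
        by_contra hcon
        simp only [hK] at hpos
        rw [if_neg hcon] at hpos
        exact lt_irrefl _ hpos
      obtain ⟨hbS, hcS, hne, h, hl, hnk, hqh, hH, hwb, hwc, hZ⟩ := hps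
      refine ⟨⟨hSB hbS, hSB' hcS, h, hl, hqh⟩, hH, fun Z hZe => ?_⟩
      obtain ⟨z, hz, z', hz', hle⟩ := hZ Z _ _ hZe rfl rfl
      refine ⟨z, hz, z', hz', ?_⟩
      have hu := VC_unique (F := F) (P := P) (Q := QQ cp A m0 γ L M B F) (a := a) (a' := a')
        (e := e) (b := b) (c := c) hLp hm1
      have hWv : Wv F P X0 q b c = boostB M (lamR F P) b c h / (offW F X0 b * offW F X0 c) := by
        unfold Wv
        rw [if_neg hne, oS_one (fun h' h1 _ h2 => hu h' h1 h hl h2 hqh) hl hnk hqh]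
      have hps' : Ps s b c := ⟨hbS, hcS, hne, h, hl, hnk, hqh, hH, hwb, hwc, hZ⟩
      have o1 := offW_pos (F := F) (X0 := X0) b
      have o2 := offW_pos (F := F) (X0 := X0) c
      have o12 : 0 < offW F X0 b * offW F X0 c := mul_pos o1 o2
      rw [if_pos (⟨hbS, hwb⟩ : b ∈ S ∧ win a s y b), if_pos (⟨hcS, hwc⟩ : c ∈ S' ∧ win a' s y c),
        mul_one, mul_one]
      show (if Ps s b c then Wv F P X0 q b c / (C' * R) else 0) ≤ _
      rw [if_pos hps', hWv]
      set V : ℝ := kap2 Z (RR Z a a') z z' (hw hM F y b) (hw hM F y c) /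
            (VR (hiFL hM y F) (H0 hM F y b) * (Nat.gcd (hw hM F y b) (hw hM F y c) : ℝ)) *
          BoostRx398.bst (BoostTopx19.prQ y) (low y M) (low y b) (low y c) *
          min (Wb F P Z y z (hw hM F y b) b) (Wb F P Z y z' (hw hM F y c) c) with hV
      have hb0 : 0 ≤ boostB M (lamR F P) b c h := boostB_nonneg _ _ _ _ _
      have hV0 : 0 ≤ V := by
        have hv1 : 0 ≤ VR (hiFL hM y F) (H0 hM F y b) := VR_nonneg _
        refine mul_nonneg (mul_nonneg (div_nonneg (kap2_nonneg _ _ _ _ _)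
          (mul_nonneg hv1 (Nat.cast_nonneg _))) (VecNPx50.bst_nonneg _ _ _ _))
          (le_min (Wb_nonneg _ _ _ _ _ _ _) (Wb_nonneg _ _ _ _ _ _ _))
      rw [div_div, div_le_iff₀ (by positivity)]
      have hle' : boostB M (lamR F P) b c h ≤ Cw * R * (offW F X0 b * offW F X0 c) * V := hle
      refine hle'.trans ?_
      have h1 : Cw * (R * (offW F X0 b * offW F X0 c) * V) ≤
          C' * (R * (offW F X0 b * offW F X0 c) * V) :=
        mul_le_mul_of_nonneg_right (by linarith) (by positivity)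
      calc Cw * R * (offW F X0 b * offW F X0 c) * V
          = Cw * (R * (offW F X0 b * offW F X0 c) * V) := by ring
        _ ≤ C' * (R * (offW F X0 b * offW F X0 c) * V) := h1
        _ = _ := by ring
  -- the sum over the scales dominates
  have hsum : ∑ b ∈ S, ∑ c ∈ S', (Nat.gcd b c : ℝ) * nu M b * nu M c * Wv F P X0 q b c ≤
      C' * R * ∑ s ∈ range (M + 1), frm M (K s) := by
    have e1 : ∀ s, ∑ b ∈ S, ∑ c ∈ S', (Nat.gcd b c : ℝ) * nu M b * nu M c * K s b c ≤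
        frm M (K s) := by
      intro s
      unfold frm
      have hnn : ∀ b c, 0 ≤ (Nat.gcd b c : ℝ) * nu M b * nu M c * K s b c := fun b c =>
        mul_nonneg (BoxKitx179.gn M b c) (hK0 s b c)
      calc ∑ b ∈ S, ∑ c ∈ S', (Nat.gcd b c : ℝ) * nu M b * nu M c * K s b c
          ≤ ∑ b ∈ S, ∑ c ∈ M.divisors, (Nat.gcd b c : ℝ) * nu M b * nu M c * K s b c :=
            sum_le_sum fun b _ => sum_le_sum_of_subset_of_nonneg hSM' fun c _ _ => hnn b c
        _ ≤ ∑ b ∈ M.divisors, ∑ c ∈ M.divisors, (Nat.gcd b c : ℝ) * nu M b * nu M c * K s b c :=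
            sum_le_sum_of_subset_of_nonneg hSM fun b _ _ => sum_nonneg fun c _ => hnn b c
    have e2 : ∑ s ∈ range (M + 1), ∑ b ∈ S, ∑ c ∈ S',
        (Nat.gcd b c : ℝ) * nu M b * nu M c * K s b c ≤ ∑ s ∈ range (M + 1), frm M (K s) :=
      sum_le_sum fun s _ => e1 s
    refine le_trans ?_ (mul_le_mul_of_nonneg_left e2 (by positivity : (0 : ℝ) ≤ C' * R))
    have e3 : ∑ s ∈ range (M + 1), ∑ b ∈ S, ∑ c ∈ S',
        (Nat.gcd b c : ℝ) * nu M b * nu M c * K s b c =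
        ∑ b ∈ S, ∑ c ∈ S', (Nat.gcd b c : ℝ) * nu M b * nu M c *
          ∑ s ∈ range (M + 1), K s b c := by
      rw [sum_comm]
      refine sum_congr rfl fun b _ => ?_
      rw [sum_comm]
      refine sum_congr rfl fun c _ => ?_
      rw [mul_sum]
    rw [e3, mul_sum]
    refine sum_le_sum fun b hb => ?_
    rw [mul_sum]
    refine sum_le_sum fun c hc => ?_
    rw [mul_left_comm]
    refine mul_le_mul_of_nonneg_left ?_ (BoxKitx179.gn M b c)
    rcases Wv_cases (F := F) (P := P) (X0 := X0) (q := q) (b := b) (c := c)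
      (VC_unique hLp hm1) with h0 | ⟨hne, h, hl, hnk, hqh, hW⟩
    · rw [h0]
      exact mul_nonneg (by positivity) (sum_nonneg fun s _ => hK0 s b c)
    · obtain ⟨hH, s, hwb, hwc, hZ⟩ := hPair L M B F hS a a' e b (hSB hb) c (hSB' hc) hne h hl hnk hqh
      have hps : Ps s b c := ⟨hb, hc, hne, h, hl, hnk, hqh, hH, hwb, hwc, hZ⟩
      have hs : s ∈ range (M + 1) := by
        rw [mem_range]
        by_contra hcon
        push Not at hcon
        have h1 : 2 ^ (a + s) ≤ 2 * low y b := hwb.1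
        have hbM := hS.dvd (hSB hb)
        have h2 : low y b ≤ M := (Nat.le_of_dvd (Nat.pos_of_dvd_of_pos hbM hM)
          (low_dvd_self y b)).trans (Nat.le_of_dvd hM hbM)
        have h3 : 2 ^ (M + 1) ≤ 2 ^ (a + s) := Nat.pow_le_pow_right (by norm_num) (by omega)
        have h4 : M < 2 ^ M := Nat.lt_two_pow_self
        have h5 : 2 ^ (M + 1) = 2 * 2 ^ M := by ring
        omega
      have h1 := single_le_sum (f := fun s => K s b c) (fun s _ => hK0 s b c) hs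
      have h2 : K s b c = Wv F P X0 q b c / (C' * R) := if_pos hps
      have h3 := mul_le_mul_of_nonneg_left (h2 ▸ h1) (by positivity : 0 ≤ C' * R)
      rw [mul_div_cancel₀ _ (by positivity)] at h3
      exact h3
  -- numbers
  set mS := ∑ b ∈ S, nu M b with hmS
  set mS' := ∑ c ∈ S', nu M c with hmS'
  have hm0' : 0 ≤ mS := sum_nonneg fun b _ => nu_nonneg M b
  have hm0'' : 0 ≤ mS' := sum_nonneg fun b _ => nu_nonneg M b
  set D : ℝ := 8 * (4 * C1 + 4) * (T * (1 + a + a')) *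
      √(((kC + kk * (a + a' + 1) : ℕ) : ℝ) + 4) / √((2 : ℝ) ^ a * 2 ^ a') with hD
  have hD0 : 0 ≤ D := by positivity
  have hs1 : ∑ s ∈ range (M + 1), frm M (K s) ≤ D * (3 * √(mS * mS')) := by
    refine (sum_le_sum fun s _ => hwin s).trans ?_
    rw [← mul_sum]
    refine mul_le_mul_of_nonneg_left ?_ hD0
    refine (Real.sum_sqrt_mul_sqrt_le (range (M + 1))
      (fun s => Ex_nonneg M fun b => by split_ifs <;> norm_num)
      (fun s => Ex_nonneg M fun b => by split_ifs <;> norm_num)).trans ?_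
    have h1 := Real.sqrt_le_sqrt (sum_win hSM a y (M + 1))
    have h2 := Real.sqrt_le_sqrt (sum_win hSM' a' y (M + 1))
    refine (mul_le_mul h1 h2 (Real.sqrt_nonneg _) (Real.sqrt_nonneg _)).trans (le_of_eq ?_)
    rw [← hmS, ← hmS', ← Real.sqrt_mul (by positivity)]
    have e1 : 3 * mS * (3 * mS') = 3 ^ 2 * (mS * mS') := by ring
    rw [e1, Real.sqrt_mul (by positivity), Real.sqrt_sq (by norm_num)]
  refine hsum.trans ((mul_le_mul_of_nonneg_left hs1 (by positivity)).trans ?_)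
  set n : ℕ := a + a' with hn
  have hn0 : (0 : ℝ) ≤ (n : ℝ) := Nat.cast_nonneg n
  have hsq : √(((kC + kk * (n + 1) : ℕ) : ℝ) + 4) ≤ ((kC : ℝ) + kk + 4) * (1 + n) := by
    rw [Real.sqrt_le_left (by positivity)]
    push_cast
    have h1 : (kC : ℝ) + kk * (n + 1) + 4 ≤ ((kC : ℝ) + kk + 4) * (1 + n) := by
      have : (0 : ℝ) ≤ (kC : ℝ) * n := by positivity
      nlinarith
    have h2 : (1 : ℝ) ≤ ((kC : ℝ) + kk + 4) * (1 + n) := by
      have h3 : (0 : ℝ) ≤ kC := Nat.cast_nonneg _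
      have h4 : (0 : ℝ) ≤ kk := Nat.cast_nonneg _
      nlinarith
    nlinarith
  have hpow : (2 : ℝ) ^ a * 2 ^ a' = 2 ^ n := by rw [hn, pow_add]
  have hp0 : (0 : ℝ) < (2 : ℝ) ^ n := by positivity
  have hRn : R = ((2 : ℝ) ^ n) ^ (1 / 4 : ℝ) := by
    rw [hR, ← Real.rpow_natCast, ← Real.rpow_mul (by norm_num)]
    congr 1
    rw [hn]
    push_cast
    ring
  have hRS : R / √((2 : ℝ) ^ n) = ((2 : ℝ) ^ n) ^ (-(1 / 4) : ℝ) := by
    rw [hRn, Real.sqrt_eq_rpow, ← Real.rpow_sub hp0]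
    norm_num
  have haa : (1 : ℝ) + a + a' = 1 + n := by rw [hn]; push_cast; ring
  have hDle : R * D ≤ 8 * (4 * C1 + 4) * T * ((kC : ℝ) + kk + 4) * (1 + (n : ℝ)) ^ 2 *
      ((2 : ℝ) ^ n) ^ (-(1 / 4) : ℝ) := by
    rw [hD, hpow, haa]
    have h1 : R * (8 * (4 * C1 + 4) * (T * (1 + (n : ℝ))) * √(((kC + kk * (n + 1) : ℕ) : ℝ) + 4) /
        √((2 : ℝ) ^ n)) = 8 * (4 * C1 + 4) * (T * (1 + (n : ℝ))) *
        √(((kC + kk * (n + 1) : ℕ) : ℝ) + 4) * (R / √((2 : ℝ) ^ n)) := by ring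
    rw [h1, hRS]
    have h2 : 0 ≤ ((2 : ℝ) ^ n) ^ (-(1 / 4) : ℝ) := Real.rpow_nonneg hp0.le _
    refine mul_le_mul_of_nonneg_right ?_ h2
    calc 8 * (4 * C1 + 4) * (T * (1 + (n : ℝ))) * √(((kC + kk * (n + 1) : ℕ) : ℝ) + 4)
        ≤ 8 * (4 * C1 + 4) * (T * (1 + (n : ℝ))) * (((kC : ℝ) + kk + 4) * (1 + n)) :=
          mul_le_mul_of_nonneg_left hsq (by positivity)
      _ = _ := by ring
  have hsqrt := Real.sqrt_nonneg (mS * mS')
  calc C' * R * (D * (3 * √(mS * mS'))) = C' * 3 * √(mS * mS') * (R * D) := by ring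
    _ ≤ C' * 3 * √(mS * mS') * (8 * (4 * C1 + 4) * T * ((kC : ℝ) + kk + 4) * (1 + (n : ℝ)) ^ 2 *
      ((2 : ℝ) ^ n) ^ (-(1 / 4) : ℝ)) := mul_le_mul_of_nonneg_left hDle (by positivity)
    _ = _ := by ring

/-- **the vector class from the three targets** -/
theorem cls_vec {γ : ℝ} {X0 : ℕ} (hOk : TOk γ) (hBud : TBud γ) (hPair : TPair γ X0) :
    ClsOK γ (clsV γ) := cls_vec_of_total (ttot hOk hBud hPair)

end Crest.Agent.R4C.GWinstVx24
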