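import Crest.Agent.R4C.GWnode_863
import Crest.Agent.R4C.GWcell_284
import Crest.Agent.R4C.GWasm_982
import Crest.Agent.R4C.CellLaw_276
import Crest.Agent.R4C.GWrelW_8_Mg
import Crest.Agent.R4C.LinkOn_617
import Crest.Agent.R4C.Budget_966
import Crest.Agent.R4C.HDdef_529
import Crest.Agent.R4C.RelDeg_15

-- ▼ part R4C/ZCell_60
section

/-!
# Row 4, GW section: one cell per zone and prefix (helper60)

World `Z` of `GWdef_982`, growth `128 θ(i)² ≤ 2^i`.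

* `frac_pin`    : two points `y, y'` of depth `< K` at scale `t m`, `|m y - m y' - z| < 3/t`,
                  prime factors of `m` `≥ K`: `z = m z₁`.
* `cell_up`     : same node at `j0`, both light at the next node `j` (same prefix): same node at `j`.
* **`cell_unique`** : two nodes of one zone with the same index and the same prefix are equal.
* `lab_eq_of_zone` : word form.
-/

set_option autoImplicit false

open Finset
open Crest.Agent.R4C.Basex935 Crest.Agent.R4C.Cutx50 Crest.Agent.R4C.PrefixMx882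
open Crest.Agent.R4C.Cellx863 Crest.Agent.R4C.GWdefx982
open Crest.Agent.R4C.NHx656 (On frac_unique)
open Crest.Agent.R4C.GWcellx284 (tt_pos Q_mul mesh_pos' four_le_e1 dist_of_cell pos_eq)
open Crest.Agent.R4C.GWnodex863

namespace Crest.Agent.R4C.ZCellx60

/-! ### arithmetic -/

/-- a small number is coprime to a number with large prime factors -/
lemma coprime_of_lt {k m : ℕ} {K : ℝ} (hk : 0 < k) (hkK : (k : ℝ) < K)
    (hm : ∀ p : ℕ, p.Prime → p ∣ m → K ≤ p) : Nat.Coprime k m := by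
  refine Nat.Coprime.symm (Nat.coprime_of_dvd ?_)
  intro p hp hpm hpk
  have h1 := hm p hp hpm
  have h2 : (p : ℝ) ≤ k := by exact_mod_cast Nat.le_of_dvd hk hpk
  linarith

/-- two points of depth `< K` at the scale `t m` whose multiples by `m` agree up to `3/t`: the
integer part is a multiple of `m` -/
lemma frac_pin {K t y y' : ℝ} {m : ℕ} {z : ℤ} (hm0 : 0 < m) (ht : 0 < t)
    (hm : ∀ p : ℕ, p.Prime → p ∣ m → K ≤ p) (hK : 8 * K ^ 2 ≤ t)
    (h : On K y (t * m)) (h' : On K y' (t * m)) (hz : |(m : ℝ) * y - m * y' - z| < 3 / t) :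
    ∃ z₁ : ℤ, z = m * z₁ := by
  have hK1 : 1 < K := h.one_lt
  have hmR : (0 : ℝ) < m := by exact_mod_cast hm0
  obtain ⟨a, k, hk, hak⟩ := h
  obtain ⟨a', k', hk', hak'⟩ := h'
  have hk0 : (0 : ℝ) < k := by exact_mod_cast hk
  have hk0' : (0 : ℝ) < k' := by exact_mod_cast hk'
  have e0 : ∀ (b : ℤ) (l : ℕ) (x : ℝ), (0 : ℝ) < l →
      t * |(m : ℝ) * x - ((m * b : ℤ) : ℝ) / l| = t * m * |x - b / l| := by
    intro b l x _
    have : (m : ℝ) * x - ((m * b : ℤ) : ℝ) / l = m * (x - b / l) := by push_cast; ring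
    rw [this, abs_mul, Nat.abs_cast, mul_assoc]
  have h1 : (k : ℝ) * max 1 (t * |(m : ℝ) * y - ((m * a : ℤ) : ℝ) / k|) < K := by
    rw [e0 a k y hk0]; exact hak
  have h2 : (k' : ℝ) * max 1 (t * |(m : ℝ) * y - ((m * a' + z * k' : ℤ) : ℝ) / k'|) < 4 * K := by
    have e1 : (m : ℝ) * y - ((m * a' + z * k' : ℤ) : ℝ) / k' =
        ((m : ℝ) * y' - ((m * a' : ℤ) : ℝ) / k') + ((m : ℝ) * y - m * y' - z) := by
      push_cast
      field_simp
      ring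
    have h3 : t * |(m : ℝ) * y - ((m * a' + z * k' : ℤ) : ℝ) / k'| ≤ t * m * |y' - a' / k'| + 3 := by
      rw [e1]
      have h4 := abs_add_le ((m : ℝ) * y' - ((m * a' : ℤ) : ℝ) / k') ((m : ℝ) * y - m * y' - z)
      have h5 := mul_le_mul_of_nonneg_left h4 ht.le
      rw [mul_add, e0 a' k' y' hk0'] at h5
      have h6 : t * |(m : ℝ) * y - m * y' - z| ≤ 3 := by
        rw [lt_div_iff₀ ht] at hz
        linarith
      linarith
    have h7 : max 1 (t * |(m : ℝ) * y - ((m * a' + z * k' : ℤ) : ℝ) / k'|) ≤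
        4 * max 1 (t * m * |y' - a' / k'|) := by
      have h8 := le_max_left (1 : ℝ) (t * m * |y' - a' / k'|)
      have h9 := le_max_right (1 : ℝ) (t * m * |y' - a' / k'|)
      exact max_le (by linarith) (by linarith)
    calc (k' : ℝ) * max 1 (t * |(m : ℝ) * y - ((m * a' + z * k' : ℤ) : ℝ) / k'|)
        ≤ k' * (4 * max 1 (t * m * |y' - a' / k'|)) := mul_le_mul_of_nonneg_left h7 hk0'.le
      _ = 4 * (k' * max 1 (t * m * |y' - a' / k'|)) := by ring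
      _ < 4 * K := by linarith
  have h3 : K * (4 * K) * (1 / t + 1 / t) ≤ 1 := by
    have : K * (4 * K) * (1 / t + 1 / t) = 8 * K ^ 2 / t := by ring
    rw [this, div_le_one ht]; exact hK
  have h4 := frac_unique hk hk' ht ht h1 h2 h3
  -- `m a k' = (m a' + z k') k`
  have hkK : (k : ℝ) < K :=
    lt_of_le_of_lt (by nlinarith [le_max_left (1 : ℝ) (t * m * |y - a / k|)]) hak
  have hkK' : (k' : ℝ) < K :=
    lt_of_le_of_lt (by nlinarith [le_max_left (1 : ℝ) (t * m * |y' - a' / k'|)]) hak'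
  have c1 : Nat.Coprime k m := coprime_of_lt hk hkK hm
  have c2 : Nat.Coprime k' m := coprime_of_lt hk' hkK' hm
  have h5 : (m : ℤ) ∣ z * (k * k' : ℕ) := by
    refine ⟨a * k' - a' * k, ?_⟩
    push_cast
    linarith
  have h6 : IsCoprime (m : ℤ) ((k * k' : ℕ) : ℤ) := by
    rw [Nat.isCoprime_iff_coprime]
    exact (Nat.Coprime.mul_left c1 c2).symm
  exact h6.dvd_of_dvd_mul_right h5

/-- floors: `X - X'` close to `Q z₁`, `Q₀ ≥ 3` divides the difference of the floors and `Q` -/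
lemma floor_pin {X X' : ℝ} {Q Q0 : ℕ} {z₁ : ℤ} (hQ0 : 3 ≤ Q0) (hd : Q0 ∣ Q)
    (h : |X - X' - Q * z₁| < 3 / 2) (hc : ⌊X⌋ ≡ ⌊X'⌋ [ZMOD (Q0 : ℤ)]) :
    ⌊X⌋ ≡ ⌊X'⌋ [ZMOD (Q : ℤ)] := by
  have h1 := Int.floor_le X
  have h2 := Int.lt_floor_add_one X
  have h3 := Int.floor_le X'
  have h4 := Int.lt_floor_add_one X'
  rw [abs_lt] at h
  have h5 : |⌊X⌋ - ⌊X'⌋ - Q * z₁| ≤ 2 := by
    have a1 : ((⌊X⌋ - ⌊X'⌋ - Q * z₁ : ℤ) : ℝ) < 3 := by push_cast; linarith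
    have a2 : (-3 : ℝ) < ((⌊X⌋ - ⌊X'⌋ - Q * z₁ : ℤ) : ℝ) := by push_cast; linarith
    have b1 : (⌊X⌋ - ⌊X'⌋ - Q * z₁ : ℤ) < 3 := by exact_mod_cast a1
    have b2 : (-3 : ℤ) < (⌊X⌋ - ⌊X'⌋ - Q * z₁ : ℤ) := by exact_mod_cast a2
    rw [abs_le]
    omega
  have h6 : (Q0 : ℤ) ∣ ⌊X⌋ - ⌊X'⌋ - Q * z₁ := by
    refine dvd_sub ?_ ?_
    · exact (Int.modEq_iff_dvd.1 hc.symm)
    · exact Dvd.dvd.mul_right (by exact_mod_cast hd) _
  have h7 : ⌊X⌋ - ⌊X'⌋ - Q * z₁ = 0 := by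
    refine Int.eq_zero_of_abs_lt_dvd h6 ?_
    have : (3 : ℤ) ≤ Q0 := by exact_mod_cast hQ0
    omega
  refine Int.modEq_iff_dvd.2 ⟨-z₁, ?_⟩
  linarith

/-! ### the world -/

variable {Z : World}

lemma three_le_Q (hZ : Z.Ok) {i w : ℕ} (hnd : Z.nd i w) : 3 ≤ Z.Q i w := by
  have h1 := Q_mul hZ hnd
  have h2 := mesh_bounds hZ.hL (four_le_e1 hZ hnd)
  have h3 : (8 : ℝ) * Z.L ≤ Z.e i w := by
    refine le_trans ?_ hnd.2.1
    have : (8 : ℝ) ≤ 2 ^ i := by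
      calc (8 : ℝ) = 2 ^ 3 := by norm_num
        _ ≤ 2 ^ i := pow_le_pow_right₀ (by norm_num) (hZ.hi0.trans hnd.1)
    exact mul_le_mul_of_nonneg_right this hZ.hL.le
  by_contra hlt
  push Not at hlt
  have h4 : (Z.Q i w : ℝ) ≤ 2 := by exact_mod_cast (by omega : Z.Q i w ≤ 2)
  have h5 : (Z.Q i w : ℝ) * mesh Z.L (Z.e1 w) ≤ 2 * (3 * Z.L) :=
    mul_le_mul h4 h2.2 (by have := hZ.hL; linarith) (by norm_num)
  have := hZ.hL
  linarith

/-- the cell index in terms of the point at the node `i` -/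
lemma cel_eq (hZ : Z.Ok) {i w : ℕ} (hw : 0 < w) (hnd : Z.nd i w) :
    Z.cel w = ⌊(Z.Q i w : ℝ) * Z.yy i w + Z.σ⌋ := by
  have hμ := mesh_pos' hZ hnd
  have h1 := Q_mul hZ hnd
  unfold World.cel Nc
  congr 2
  rw [pos_eq (i := i) hw, ← h1]
  field_simp

/-- the point at a lower node -/
lemma yy_down (hZ : Z.Ok) {i j w : ℕ} (hw : 0 < w) (hij : i ≤ j) :
    ∃ m : ℕ, 0 < m ∧ low (Z.cut j) w = low (Z.cut i) w * m ∧ Z.yy i w = m * Z.yy j w ∧
      Z.tt j w = Z.tt i w * m ∧ (∀ p : ℕ, p.Prime → p ∣ m → Z.cut i < p) := by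
  have hcut := hZ.hcut hij
  have hd : low (Z.cut i) w ∣ low (Z.cut j) w := by
    rw [← low_low hcut w]; exact low_dvd_self _ _
  obtain ⟨m, hm⟩ := hd
  have hl0 : 0 < low (Z.cut i) w := low_pos _ _
  have hm0 : 0 < m := by
    rcases Nat.eq_zero_or_pos m with h | h
    · rw [h, mul_zero] at hm
      exact absurd hm (low_pos _ _).ne'
    · exact h
  have hup : upp (Z.cut i) w = m * upp (Z.cut j) w := by
    have h1 := low_mul_upp (Z.cut i) hw.ne'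
    have h2 := low_mul_upp (Z.cut j) hw.ne'
    rw [hm] at h2
    have h3 : low (Z.cut i) w * upp (Z.cut i) w = low (Z.cut i) w * (m * upp (Z.cut j) w) := by
      rw [h1, ← mul_assoc]; exact h2.symm
    exact Nat.eq_of_mul_eq_mul_left hl0 h3
  refine ⟨m, hm0, hm, ?_, ?_, ?_⟩
  · unfold World.yy
    rw [hup]; push_cast; ring
  · unfold World.tt World.e
    rw [hm]; push_cast; ring
  · intro p hp hpm
    by_contra hle
    push Not at hle
    have h1 : (low (Z.cut j) w).factorization p = (low (Z.cut i) w).factorization p := by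
      rw [fact_low, fact_low, if_pos hle, if_pos (hle.trans hcut)]
    have h2 : (low (Z.cut j) w).factorization p =
        (low (Z.cut i) w).factorization p + m.factorization p := by
      rw [hm, Nat.factorization_mul hl0.ne' hm0.ne']; rfl
    have h3 : 1 ≤ m.factorization p :=
      (hp.dvd_iff_one_le_factorization hm0.ne').1 hpm
    omega

/-- **step**: the same node at `j0`, both points of depth `< 4 θ(j0)` at `j > j0`, same prefix at
`j`: the same node at `j` -/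
theorem cell_up (hZ : Z.Ok) (hθ : ∀ i, Z.i0 ≤ i → 128 * Z.θ i ^ 2 ≤ 2 ^ i) {j0 j w w' : ℕ}
    (hw : 0 < w) (hw' : 0 < w') (hj : j0 ≤ j) (hnd0 : Z.nd j0 w) (hnd : Z.nd j w)
    (hlow : low (Z.cut j) w = low (Z.cut j) w') (hlab : Z.lab j0 w = Z.lab j0 w')
    (h1 : On (4 * Z.θ j0) (Z.yy j w) (Z.tt j w)) (h2 : On (4 * Z.θ j0) (Z.yy j w') (Z.tt j w')) :
    Z.lab j w = Z.lab j w' := by
  obtain ⟨m, hm0, hm, hy, ht, hp⟩ := yy_down hZ hw hj
  obtain ⟨m', hm0', hm', hy', ht', hp'⟩ := yy_down hZ hw' hj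
  have hlow0 : low (Z.cut j0) w = low (Z.cut j0) w' := low_of_lab hlab
  have hmm : m' = m := by
    rw [hlow, hlow0, hm'] at hm
    exact Nat.eq_of_mul_eq_mul_left (low_pos _ _) hm
  subst hmm
  have htt0 : Z.tt j0 w = Z.tt j0 w' := by unfold World.tt; rw [e_congr hlow0]
  have ht0 := tt_pos hZ j0 w
  have hcel0 : Z.cel w ≡ Z.cel w' [ZMOD (Z.Q j0 w : ℤ)] := by
    have h := congrArg (fun ν : Node => ν.2.2) hlab
    have h' : Z.cel w % (Z.Q j0 w : ℤ) = Z.cel w' % (Z.Q j0 w' : ℤ) := h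
    rw [← Q_congr hZ hnd0 hlow0] at h'
    exact h'
  obtain ⟨z, hz⟩ := dist_of_cell hZ hw hw' hnd0 hlow0 hcel0
  have h2i : (2 : ℝ) ^ j0 ≤ Z.tt j0 w := by
    unfold World.tt
    rw [le_div_iff₀ hZ.hL]
    exact hnd0.2.1
  have hθ0 := hZ.hθ j0 hnd0.1
  have hθ1 := hθ j0 hnd0.1
  have hcut2 : (2 : ℝ) ^ j0 ≤ Z.cut j0 := by exact_mod_cast hZ.hcut2 j0
  have hpK : ∀ p : ℕ, p.Prime → p ∣ m' → 4 * Z.θ j0 ≤ p := by
    intro p hpp hpm
    have a1 : (Z.cut j0 : ℝ) < p := by exact_mod_cast hp p hpp hpm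
    nlinarith
  rw [ht] at h1
  rw [ht', ← htt0] at h2
  rw [hy, hy'] at hz
  obtain ⟨z₁, hz₁⟩ := frac_pin (K := 4 * Z.θ j0) hm0 ht0 hpK
    (by nlinarith) h1 h2 hz
  -- floors
  have hmR : (0 : ℝ) < m' := by exact_mod_cast hm0
  have hd : |Z.yy j w - Z.yy j w' - z₁| < 3 / Z.tt j w := by
    have e1 : (m' : ℝ) * Z.yy j w - m' * Z.yy j w' - z = m' * (Z.yy j w - Z.yy j w' - z₁) := by
      rw [hz₁]; push_cast; ring
    rw [e1, abs_mul, Nat.abs_cast, lt_div_iff₀ ht0] at hz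
    rw [ht, lt_div_iff₀ (mul_pos ht0 hmR)]
    nlinarith
  have hQQ : Z.Q j w' = Z.Q j w := (Q_congr hZ hnd hlow).symm
  have hndw' : Z.nd j w' := (nd_congr' hlow).1 hnd
  have hQpos : (0 : ℝ) < Z.Q j w := by
    have := three_le_Q hZ hnd
    exact_mod_cast (by omega : 0 < Z.Q j w)
  have hbound : (Z.Q j w : ℝ) * (3 / Z.tt j w) ≤ 3 / 2 := by
    have hμ := (mesh_bounds hZ.hL (four_le_e1 hZ hnd)).1
    have hμ0 := mesh_pos' hZ hnd
    have h3 := Q_mul hZ hnd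
    have he : (0 : ℝ) < Z.e j w := by exact_mod_cast e_pos hZ j w
    have hL := hZ.hL
    unfold World.tt
    rw [← h3]
    have : (Z.Q j w : ℝ) * (3 / ((Z.Q j w : ℝ) * mesh Z.L (Z.e1 w) / Z.L)) =
        3 * Z.L / mesh Z.L (Z.e1 w) := by
      field_simp
    rw [this, div_le_div_iff₀ hμ0 (by norm_num)]
    linarith
  have hfl : |((Z.Q j w : ℝ) * Z.yy j w + Z.σ) - ((Z.Q j w : ℝ) * Z.yy j w' + Z.σ) -
      (Z.Q j w : ℝ) * z₁| < 3 / 2 := by
    have e1 : ((Z.Q j w : ℝ) * Z.yy j w + Z.σ) - ((Z.Q j w : ℝ) * Z.yy j w' + Z.σ) -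
      (Z.Q j w : ℝ) * z₁ = (Z.Q j w : ℝ) * (Z.yy j w - Z.yy j w' - z₁) := by ring
    rw [e1, abs_mul, Nat.abs_cast]
    calc (Z.Q j w : ℝ) * |Z.yy j w - Z.yy j w' - z₁| < (Z.Q j w : ℝ) * (3 / Z.tt j w) :=
        mul_lt_mul_of_pos_left hd hQpos
      _ ≤ 3 / 2 := hbound
  have c1 := cel_eq hZ hw hnd
  have c2 := cel_eq hZ hw' hndw'
  rw [hQQ] at c2
  have key := floor_pin (three_le_Q hZ hnd0) (Q_dvd hZ hnd0 hj) hfl (by
    rw [← c1, ← c2]; exact hcel0)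
  rw [← c1, ← c2] at key
  unfold World.lab
  rw [hlow, hQQ]
  exact Prod.ext rfl (Prod.ext rfl key)

/-- the previous node -/
lemma prev_spec {j w : ℕ} (h : Z.hasPrev j w) :
    Z.prev j w < j ∧ Z.nd (Z.prev j w) w ∧ ∀ i, i < j → Z.nd i w → i ≤ Z.prev j w := by
  classical
  obtain ⟨i', h1, h2⟩ := h
  have h3 : Z.prev j w < j ∧ Z.nd (Z.prev j w) w := by
    unfold World.prev
    exact Nat.findGreatest_spec (P := fun i' => i' < j ∧ Z.nd i' w) h1.le ⟨h1, h2⟩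
  refine ⟨h3.1, h3.2, fun i h4 h5 => ?_⟩
  unfold World.prev
  exact Nat.le_findGreatest h4.le ⟨h4, h5⟩

/-- **two words of one zone with the same prefix at the node `j` are in one node at `j`** -/
theorem lab_eq_of_zone (hZ : Z.Ok) (hθ : ∀ i, Z.i0 ≤ i → 128 * Z.θ i ^ 2 ≤ 2 ^ i) {w w' : ℕ}
    (hw : w ∣ Z.N) (hw' : w' ∣ Z.N) : ∀ {j : ℕ}, Z.nd j w →
    low (Z.cut j) w = low (Z.cut j) w' → Z.zone j w = Z.zone j w' → Z.lab j w = Z.lab j w' := by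
  intro j
  induction j using Nat.strong_induction_on with
  | _ j ih =>
    intro hnd hlow hz
    have hw0 : 0 < w := Nat.pos_of_dvd_of_pos hw hZ.hN
    have hw0' : 0 < w' := Nat.pos_of_dvd_of_pos hw' hZ.hN
    have hnd' : Z.nd j w' := (nd_congr' hlow).1 hnd
    have hbb : Z.bi j w = Z.bi j w' := congrArg (fun ν : Node => ν.1) hz
    by_cases hb : Z.birth j w
    · rw [zone_of_birth hb] at hz
      have h1 : Z.bi j w' = j := by rw [← hbb]; exact bi_of_birth hb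
      have h2 : Z.zone j w' = Z.lab j w' := by unfold World.zone; rw [h1]
      rw [hz, h2]
    · have hb' : ¬ Z.birth j w' := by
        intro hb'
        have h1 : Z.bi j w = j := by rw [hbb]; exact bi_of_birth hb'
        exact hb (h1 ▸ birth_bi hnd)
      have hl : Z.hasPrev j w ∧ Z.light j w := by
        by_contra hc; exact hb ⟨hnd, hc⟩
      have hl' : Z.hasPrev j w' ∧ Z.light j w' := by
        by_contra hc; exact hb' ⟨hnd', hc⟩
      obtain ⟨p1, p2, p3⟩ := prev_spec hl.1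
      obtain ⟨q1, q2, q3⟩ := prev_spec hl'.1
      have hpq : Z.prev j w' = Z.prev j w := by
        refine le_antisymm ?_ ?_
        · exact p3 _ q1 ((nd_congr hZ q1.le hlow).2 q2)
        · exact q3 _ p1 ((nd_congr hZ p1.le hlow).1 p2)
      have hlow0 := low_congr hZ p1.le hlow
      -- the zone at `prev`
      have hbi : ∀ {u : ℕ}, Z.nd j u → ¬ Z.birth j u → Z.prev j u < j → Z.nd (Z.prev j u) u →
          (∀ i, i < j → Z.nd i u → i ≤ Z.prev j u) → Z.zone (Z.prev j u) u = Z.zone j u := by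
        intro u hu1 hu2 hu3 hu4 hu5
        have h1 := birth_bi hu1
        have h2 : Z.bi j u < j := by
          rcases Nat.lt_or_ge (Z.bi j u) j with h | h
          · exact h
          · exact absurd (le_antisymm (bi_le j u) h ▸ h1) hu2
        have h3 : Z.bi j u ≤ Z.prev j u := hu5 _ h2 h1.1
        have h4 : Z.bi (Z.prev j u) u = Z.bi j u :=
          le_antisymm (le_bi ((bi_le _ _).trans hu3.le) (birth_bi hu4)) (le_bi h3 h1)
        unfold World.zone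
        rw [h4]
      have hz0 : Z.zone (Z.prev j w) w = Z.zone (Z.prev j w) w' := by
        rw [hbi hnd hb p1 p2 p3]
        have h1 := hbi hnd' hb' q1 q2 q3
        rw [hpq] at h1
        rw [h1]; exact hz
      have hlab := ih _ p1 p2 hlow0 hz0
      have o1 := GWcellx284.on_of_light hZ hw hnd hl.2
      have o2 := GWcellx284.on_of_light hZ hw' hnd' hl'.2
      rw [hpq] at o2
      exact cell_up hZ hθ hw0 hw0' p1.le p2 hnd hlow hlab o1 o2

/-- **one cell per zone and prefix** -/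
theorem cell_unique (hZ : Z.Ok) (hθ : ∀ i, Z.i0 ≤ i → 128 * Z.θ i ^ 2 ≤ 2 ^ i) {z ν ν' : Node}
    (hν : ν ∈ Z.Nd z) (hν' : ν' ∈ Z.Nd z) (h1 : ν.1 = ν'.1) (h2 : ν.2.1 = ν'.2.1) : ν = ν' := by
  obtain ⟨w, a1, a2, a3, a4⟩ := (mem_Nd hZ).1 hν
  obtain ⟨w', b1, b2, b3, b4⟩ := (mem_Nd hZ).1 hν'
  have hl : low (Z.cut ν.1) w = ν.2.1 := congrArg (fun ν : Node => ν.2.1) a3
  have hl' : low (Z.cut ν'.1) w' = ν'.2.1 := congrArg (fun ν : Node => ν.2.1) b3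
  rw [← h1] at b2 b3 b4 hl'
  have h3 := lab_eq_of_zone hZ hθ a1 b1 a2 (by rw [hl, hl', h2]) (by rw [a4, b4])
  rw [← a3, ← b3, h3]

end Crest.Agent.R4C.ZCellx60
end

-- ▼ part R4C/HypW_473
section

/-!
# Row 4, GW section: from the words of a node to the law of the letters above the cut (helper473)

Over the world `Z` of `GWdef_982`:

* `nd_congr`, `first_congr`, `prev_congr` : functions of the prefix.
* `pos_of_mem` : the words of a node `ν` (index `i`): `upp (cut i) w * γ ∈ [α, α + 3/t] + ℤ`,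
  `t = tt i w`, `α = α(ν)`.
* `two_targets` : within `1/t` of one of two targets.
* `on_down_world` : `On` at a higher index gives `On` at a lower index.
* `node_law` : `∑_{w ∈ S ν, Ev w} nu w ≤ g ν (Bx + Bl + 2/cut i)`.
-/

set_option autoImplicit false

open Finset
open Crest.Agent.R4C.Basex935 Crest.Agent.R4C.Cutx50 Crest.Agent.R4C.PrefixMx882
open Crest.Agent.R4C.Cellx863 (Nc mesh Qe)
open Crest.Agent.R4C.NHx656 (On)
open Crest.Agent.R4C.GWdefx982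
open Crest.Agent.R4C.GWhx656 (law)

namespace Crest.Agent.R4C.HypWx473

variable {Z : World}

/-! ### functions of the prefix -/

lemma low_congr (hcut : Monotone Z.cut) {i' i w w' : ℕ} (h : i' ≤ i)
    (hl : low (Z.cut i) w = low (Z.cut i) w') : low (Z.cut i') w = low (Z.cut i') w' := by
  rw [← low_low (hcut h) w, hl, low_low (hcut h) w']

lemma e_congr (hcut : Monotone Z.cut) {i' i w w' : ℕ} (h : i' ≤ i)
    (hl : low (Z.cut i) w = low (Z.cut i) w') : Z.e i' w = Z.e i' w' := by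
  unfold World.e
  rw [low_congr hcut h hl]

lemma tt_congr (hcut : Monotone Z.cut) {i' i w w' : ℕ} (h : i' ≤ i)
    (hl : low (Z.cut i) w = low (Z.cut i) w') : Z.tt i' w = Z.tt i' w' := by
  unfold World.tt
  rw [e_congr hcut h hl]

lemma nd_congr (hcut : Monotone Z.cut) {i' i w w' : ℕ} (h : i' ≤ i)
    (hl : low (Z.cut i) w = low (Z.cut i) w') : Z.nd i' w ↔ Z.nd i' w' := by
  unfold World.nd
  rw [e_congr hcut h hl]

lemma first_le {i w : ℕ} (h : Z.nd i w) : Z.first w ≤ i := by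
  classical
  unfold World.first
  rw [dif_pos ⟨i, h⟩]
  exact Nat.find_min' _ h

lemma nd_first {i w : ℕ} (h : Z.nd i w) : Z.nd (Z.first w) w := by
  classical
  unfold World.first
  rw [dif_pos ⟨i, h⟩]
  exact Nat.find_spec (⟨i, h⟩ : ∃ i, Z.nd i w)

lemma first_congr (hcut : Monotone Z.cut) {i w w' : ℕ} (hw : Z.nd i w) (hw' : Z.nd i w')
    (hl : low (Z.cut i) w = low (Z.cut i) w') : Z.first w = Z.first w' := by
  have h1 := first_le hw
  have h2 := first_le hw'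
  refine le_antisymm ?_ ?_
  · exact first_le ((nd_congr hcut h2 hl).2 (nd_first hw'))
  · exact first_le ((nd_congr hcut h1 hl).1 (nd_first hw))

lemma e1_congr (hcut : Monotone Z.cut) {i w w' : ℕ} (hw : Z.nd i w) (hw' : Z.nd i w')
    (hl : low (Z.cut i) w = low (Z.cut i) w') : Z.e1 w = Z.e1 w' := by
  unfold World.e1
  rw [← first_congr hcut hw hw' hl]
  exact e_congr hcut (first_le hw) hl


/-- words of a node -/
lemma mem_S {ν : Node} {w : ℕ} : w ∈ Z.S ν ↔ (w ∣ Z.N ∧ Z.N ≠ 0) ∧ Z.nd ν.1 w ∧ Z.lab ν.1 w = ν := by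
  classical
  unfold World.S
  rw [mem_filter, Nat.mem_divisors]

lemma low_of_mem {ν : Node} {w : ℕ} (h : w ∈ Z.S ν) : low (Z.cut ν.1) w = ν.2.1 := by
  have h1 := (mem_S.1 h).2.2
  unfold World.lab at h1
  exact congrArg (fun x : Node => x.2.1) h1

lemma cel_of_mem {ν : Node} {w : ℕ} (h : w ∈ Z.S ν) : Z.cel w % (Z.Q ν.1 w : ℤ) = ν.2.2 := by
  have h1 := (mem_S.1 h).2.2
  unfold World.lab at h1
  exact congrArg (fun x : Node => x.2.2) h1

/-- `4 L ≤ e₁` -/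
lemma four_le_e1 (hZ : Z.Ok) {i w : ℕ} (h : Z.nd i w) : 4 * Z.L ≤ Z.e1 w := by
  have h1 := nd_first h
  have h2 : (2 : ℝ) ^ Z.first w * Z.L ≤ Z.e (Z.first w) w := h1.2.1
  have h3 : (2 : ℝ) ^ 3 ≤ 2 ^ Z.first w := pow_le_pow_right₀ (by norm_num) (hZ.hi0.trans h1.1)
  have h4 := hZ.hL
  unfold World.e1
  nlinarith

lemma e1_dvd (hcut : Monotone Z.cut) {i w : ℕ} (h : Z.nd i w) : Z.e1 w ∣ Z.e i w := by
  unfold World.e1 World.e
  refine Nat.mul_dvd_mul_left _ ?_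
  rw [← low_low (hcut (first_le h)) w]
  exact low_dvd_self _ _

lemma e_pos (hZ : Z.Ok) (i w : ℕ) : 0 < Z.e i w := Nat.mul_pos hZ.hG (low_pos _ _)

lemma tt_pos (hZ : Z.Ok) (i w : ℕ) : 0 < Z.tt i w :=
  div_pos (by exact_mod_cast e_pos hZ i w) hZ.hL

/-- **position of the words of a node** -/
theorem pos_of_mem (hZ : Z.Ok) (ν : Node) : ∃ α : ℝ, ∀ w ∈ Z.S ν, ∃ m : ℤ,
    α ≤ Z.yy ν.1 w - m ∧ Z.yy ν.1 w - m ≤ α + 3 / Z.tt ν.1 w := by
  classical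
  by_cases hne : (Z.S ν).Nonempty
  swap
  · exact ⟨0, fun w hw => absurd ⟨w, hw⟩ hne⟩
  obtain ⟨w₀, hw₀⟩ := hne
  have h₀ := (mem_S.1 hw₀).2.1
  refine ⟨((ν.2.2 : ℝ) - Z.σ) * mesh Z.L (Z.e1 w₀) / (Z.e ν.1 w₀ : ℝ), fun w hw => ?_⟩
  have hnd := (mem_S.1 hw).2.1
  have hl : low (Z.cut ν.1) w = low (Z.cut ν.1) w₀ := by rw [low_of_mem hw, low_of_mem hw₀]
  have he1 : Z.e1 w = Z.e1 w₀ := e1_congr hZ.hcut hnd h₀ hl
  have he : Z.e ν.1 w = Z.e ν.1 w₀ := e_congr hZ.hcut le_rfl hl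
  rw [← he1, ← he]
  set μ := mesh Z.L (Z.e1 w) with hμdef
  have h4 := four_le_e1 hZ hnd
  obtain ⟨m1, m2⟩ := Cellx863.mesh_bounds hZ.hL h4
  have hμ : 0 < μ := Cellx863.mesh_pos hZ.hL h4
  have hQ : (Z.Q ν.1 w : ℝ) * μ = Z.e ν.1 w := Cellx863.Qe_mul hZ.hL h4 (e1_dvd hZ.hcut hnd)
  have hc := cel_of_mem hw
  have heR : (0 : ℝ) < Z.e ν.1 w := by exact_mod_cast e_pos hZ ν.1 w
  refine ⟨Z.cel w / (Z.Q ν.1 w : ℤ), ?_⟩
  set k : ℤ := Z.cel w / (Z.Q ν.1 w : ℤ) with hk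
  have hdm : (Z.cel w : ℝ) = (ν.2.2 : ℝ) + (Z.Q ν.1 w : ℝ) * k := by
    have := Int.emod_add_mul_ediv (Z.cel w) (Z.Q ν.1 w : ℤ)
    rw [hc] at this
    exact_mod_cast this.symm
  have hpos : (Z.e ν.1 w : ℝ) * Z.yy ν.1 w = ((Z.G0 * w : ℕ) : ℝ) * Z.γ := by
    have e0 : Z.G0 * w = Z.e ν.1 w * upp (Z.cut ν.1) w := by
      unfold World.e
      have hw0 : w ≠ 0 := by
        rintro rfl
        exact (mem_S.1 hw).1.2 (Nat.eq_zero_of_zero_dvd (mem_S.1 hw).1.1)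
      rw [mul_assoc, low_mul_upp _ hw0]
    rw [e0]
    unfold World.yy
    push_cast
    ring
  have r1 := Cellx863.rp_le (γ := Z.γ) (σ := Z.σ) hμ (Z.G0 * w)
  have r2 := Cellx863.lt_rp (γ := Z.γ) (σ := Z.σ) hμ (Z.G0 * w)
  have hrp : Cellx863.rp Z.γ μ Z.σ (Z.G0 * w) = ((ν.2.2 : ℝ) - Z.σ) * μ + Z.e ν.1 w * k := by
    unfold Cellx863.rp
    have : (Nc Z.γ μ Z.σ (Z.G0 * w) : ℝ) = (Z.cel w : ℝ) := rfl
    rw [this, hdm, ← hQ]
    ring
  rw [hrp, ← hpos] at r1 r2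
  have h3 : 3 / Z.tt ν.1 w = 3 * Z.L / Z.e ν.1 w := by
    unfold World.tt
    have := hZ.hL
    field_simp
  constructor
  · rw [div_le_iff₀ heR]
    linarith
  · rw [h3, ← add_div, le_div_iff₀ heR]
    linarith

/-- within `1/t` of one of two targets -/
theorem two_targets (hZ : Z.Ok) (ν : Node) : ∃ AA : Finset ℝ, AA.card ≤ 2 ∧ ∀ w ∈ Z.S ν,
    ∃ α ∈ AA, ∃ m : ℤ, |Z.yy ν.1 w - α - m| ≤ 1 / Z.tt ν.1 w := by
  classical
  by_cases hne : (Z.S ν).Nonempty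
  swap
  · exact ⟨∅, by simp, fun w hw => absurd ⟨w, hw⟩ hne⟩
  obtain ⟨w₀, hw₀⟩ := hne
  obtain ⟨α, hα⟩ := pos_of_mem hZ ν
  refine ⟨{α + 1 / Z.tt ν.1 w₀, α + 5 / 2 / Z.tt ν.1 w₀}, card_le_two, fun w hw => ?_⟩
  have hl : low (Z.cut ν.1) w = low (Z.cut ν.1) w₀ := by rw [low_of_mem hw, low_of_mem hw₀]
  have ht : Z.tt ν.1 w = Z.tt ν.1 w₀ := tt_congr hZ.hcut le_rfl hl
  obtain ⟨m, h1, h2⟩ := hα w hw
  have htp := tt_pos hZ ν.1 w
  rw [← ht]
  set t := Z.tt ν.1 w with htd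
  have e1 : 5 / 2 / t = 5 / 2 * (1 / t) := by ring
  have e2 : 3 / t = 3 * (1 / t) := by ring
  have hp : 0 < 1 / t := by positivity
  rw [e2] at h2
  by_cases hcase : Z.yy ν.1 w - m ≤ α + 2 * (1 / t)
  · refine ⟨α + 1 / t, by simp, m, ?_⟩
    rw [abs_le]
    constructor <;> linarith
  · push Not at hcase
    refine ⟨α + 5 / 2 / t, by simp, m, ?_⟩
    rw [e1, abs_le]
    constructor <;> linarith


/-! ### passage to the law of the letters -/




end Crest.Agent.R4C.HypWx473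
end

-- ▼ part R4C/HDelta_60
section

/-!
# Row 4, GW section, vector case: `GN.Ok` over the world of `GWdef_982` (helper60, second hand of (C))

* `kV Z K z`   : `min 1 (K / (pz z + 1))`, `1` on the first zones.
* `y3 Z K z w` : loss of coins between `cut (pz z)` and the second next birth, plus `kV`.
* `Tgt`        : within `1/tt` of a target.
* `HypT Z C1 c`: the natural hypothesis for a finite set of targets (529's (A)).
* `RelP Z R Δ` : what is used of the relation on nodes: same prefix, degree, targets (both orders),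
                 one birth (952's (5)), pushing down.
* **`gn_ok`**  : `GN.Ok (gn Z R K) ν ν (4 C1) Δ`.
-/

set_option autoImplicit false

open Finset
open Crest.Agent.R4C.Basex935 Crest.Agent.R4C.Cutx50 Crest.Agent.R4C.PrefixMx882
open Crest.Agent.R4C.GWdefx982 Crest.Agent.R4C.GWrelx8 Crest.Agent.R4C.GWrelWx8
open Crest.Agent.R4C.NHx656 (On)
open Crest.Agent.R4C.GWnodex863

namespace Crest.Agent.R4C.HDeltax60

section defs

variable (Z : World)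

/-- additive part of the payment -/
noncomputable def kV (K : ℝ) (z : Node) : ℝ :=
  if Z.i0 ≤ Z.pz z then min 1 (K / ((Z.pz z : ℝ) + 1)) else 1

open Classical in
/-- loss of coins in three gaps -/
noncomputable def Y3 (z : Node) (w : ℕ) : ℝ :=
  if Z.hasNb z.1 w ∧ Z.hasNb (Z.nb z.1 w) w then
    1 - Z.Wp (Z.cut (Z.pz z)) (Z.cut (Z.nb (Z.nb z.1 w) w)) w else 1

/-- the payment -/
noncomputable def y3 (K : ℝ) (z : Node) (w : ℕ) : ℝ := Y3 Z z w + kV Z K z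

/-- the point of `w` at `i` is within `1/tt` of a target -/
def Tgt (AA : Finset ℝ) (i w : ℕ) : Prop :=
  ∃ α ∈ AA, ∃ m : ℤ, |Z.yy i w - α - m| ≤ 1 / Z.tt i w

/-- the event of `HypT` -/
def Evt (AA : Finset ℝ) (K0 s : ℝ) (i n w : ℕ) : Prop :=
  Z.nd i w ∧ low (Z.cut i) w = n ∧ Tgt Z AA i w ∧ ¬ On K0 (Z.yy i w) (Z.tt i w) ∧
    ∃ b1 b2, i < b1 ∧ b1 < b2 ∧ Z.birth b1 w ∧ Z.birth b2 w ∧
      1 - Z.Wp (Z.cut i) (Z.cut b2) w ≤ s

open Classical in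
/-- **natural hypothesis with a finite set of targets** -/
def HypT (C1 c : ℝ) : Prop :=
  ∀ (i n : ℕ) (AA : Finset ℝ) (K0 s : ℝ), Z.i0 ≤ i → 1 ≤ K0 → K0 ≤ Z.θ i → 0 ≤ s → s ≤ 1 →
    ∑ w ∈ Z.N.divisors with Evt Z AA K0 s i n w, nu Z.N w ≤
      C1 * (s + AA.card * (K0 ^ (-c) + (2 : ℝ) ^ (-(c * i))) + 1 / ((i : ℝ) + 1)) *
        nu (low (Z.cut i) Z.N) n

/-- properties of the relation -/
structure RelP (R : Node → Node → Prop) (Δ : ℝ) : Prop where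
  idx : ∀ {ν ν'}, R ν ν' → ν.1 = ν'.1 ∧ ν.2.1 = ν'.2.1
  /-- degree -/
  deg : ∀ (ν : Node) (T : Finset Node), (∀ ν' ∈ T, R ν ν') → (T.card : ℝ) ≤ Δ
  /-- targets of the partners -/
  tgtO : ∀ ν : Node, ∃ AA : Finset ℝ, (AA.card : ℝ) ≤ Δ ∧
    ∀ ν', R ν ν' → ∀ w ∈ Z.S ν', Tgt Z AA ν'.1 w
  /-- targets of the changers at a lower node of the partner -/
  tgtI : ∀ m : Node, ∃ AA : Finset ℝ, (AA.card : ℝ) ≤ Δ ∧
    ∀ n n', R n n' → m.1 ≤ n'.1 → Z.S n' ⊆ Z.S m → (Z.S n').Nonempty →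
      ∀ w ∈ Z.S n, Z.nd m.1 w → Tgt Z AA m.1 w
  /-- at most one new birth -/
  one : ∀ {z z' m n n' w}, n ∈ Z.Nd z → n' ∈ Z.Nd z' → m ∈ Z.Nd z' → m.1 ≤ n'.1 →
    Z.S n' ⊆ Z.S m → (Z.S n').Nonempty → R n n' → w ∈ Z.S n → m.1 < z.1 →
      Z.pz z = m.1 ∧ ¬ On (Z.θ m.1) (Z.yy m.1 w) (Z.tt m.1 w)

/-- the graph of nodes -/
noncomputable def gn (R : Node → Node → Prop) (K : ℝ) : GN Node Node ℕ where
  Zs := Z.Zs
  Nd := Z.Nd
  S := fun _ ν => Z.S ν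
  A := Z.A
  rk := fun ν => ν.1
  g := Z.g
  R := fun _ n _ n' => R n n'
  y := y3 Z K
  y' := y3 Z K

end defs

variable {Z : World}

/-! ### the payment -/


lemma Wp_le_one (a b w : ℕ) : Z.Wp a b w ≤ 1 := by
  classical
  unfold World.Wp
  refine Finset.prod_le_one (fun p hp => ?_) fun p hp => ?_
  · have hpp := Nat.prime_of_mem_primeFactors (mem_free.1 (mem_filter.1 hp).1).1
    have h1 : (1 : ℝ) ≤ p := by exact_mod_cast hpp.one_le
    have h2 : 1 / (p : ℝ) ≤ 1 := by rw [div_le_one (by linarith)]; exact h1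
    linarith
  · have : 0 ≤ 1 / (p : ℝ) := by positivity
    linarith

lemma Y3_nonneg (z : Node) (w : ℕ) : 0 ≤ Y3 Z z w := by
  unfold Y3
  split_ifs
  · linarith [Wp_le_one (Z := Z) (Z.cut (Z.pz z)) (Z.cut (Z.nb (Z.nb z.1 w) w)) w]
  · exact zero_le_one

lemma kV_pos {K : ℝ} (hK : 0 < K) (z : Node) : 0 < kV Z K z := by
  unfold kV
  split_ifs
  · refine lt_min one_pos (div_pos hK ?_)
    positivity
  · exact one_pos


lemma kV_lt {K t : ℝ} {z : Node} (ht : t < 1) (h : kV Z K z ≤ t) :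
    Z.i0 ≤ Z.pz z ∧ K / ((Z.pz z : ℝ) + 1) ≤ t := by
  unfold kV at h
  split_ifs at h with h1
  · refine ⟨h1, ?_⟩
    rcases min_le_iff.1 h with h2 | h2
    · linarith
    · exact h2
  · linarith

/-- `pz z = prev z.1 w` for the words of `z` -/
lemma pz_eq (hZ : Z.Ok) {z : Node} {w : ℕ} (hw : w ∈ Z.S z) : Z.pz z = Z.prev z.1 w := by
  classical
  have hne : (Z.S z).Nonempty := ⟨w, hw⟩
  unfold World.pz
  rw [dif_pos hne]
  exact S_prev hZ hne.choose_spec hw le_rfl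

/-- everything about a word of a node with small payment -/
lemma small (hZ : Z.Ok) {K t : ℝ} (hK : 0 < K) (ht : t < 1) {z n : Node} {w : ℕ}
    (hn : n ∈ Z.Nd z) (hw : w ∈ Z.S n) (hy : y3 Z K z w ≤ t) :
    Z.i0 ≤ Z.pz z ∧ K / ((Z.pz z : ℝ) + 1) ≤ t ∧ Z.pz z < z.1 ∧ z.1 ≤ n.1 ∧
    Z.birth z.1 w ∧ Z.prev z.1 w = Z.pz z ∧ Z.hasPrev z.1 w ∧
    ∃ b1 b2, n.1 < b1 ∧ b1 < b2 ∧ Z.birth b1 w ∧ Z.birth b2 w ∧
      ∀ i, Z.pz z ≤ i → 1 - Z.Wp (Z.cut i) (Z.cut b2) w ≤ t := by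
  classical
  obtain ⟨h1, h2, h3, h4, h5⟩ := Nd_all hZ hn hw
  have hY0 := Y3_nonneg (Z := Z) z w
  have hk0 := kV_pos (Z := Z) hK z
  have hkt : kV Z K z ≤ t := by unfold y3 at hy; linarith
  have hYt : Y3 Z z w ≤ t := by unfold y3 at hy; linarith
  obtain ⟨a1, a2⟩ := kV_lt ht hkt
  have hpz := pz_eq hZ h2
  have hi0 := hZ.hi0
  have hprev0 : Z.prev z.1 w ≠ 0 := by omega
  have hprev := Nat.findGreatest_of_ne_zero (P := fun i' => i' < z.1 ∧ Z.nd i' w)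
    (n := z.1) (m := Z.prev z.1 w) rfl hprev0
  have hb : Z.hasNb z.1 w ∧ Z.hasNb (Z.nb z.1 w) w := by
    by_contra hcon
    unfold Y3 at hYt
    rw [if_neg hcon] at hYt
    linarith
  obtain ⟨p1, _, p3⟩ := GWbirthx33.nb_spec hb.1
  obtain ⟨q1, _, q3⟩ := GWbirthx33.nb_spec hb.2
  have hi1 : n.1 < Z.nb z.1 w := by
    by_contra hcon
    have h6 := le_bi (not_lt.1 hcon) p3
    omega
  refine ⟨a1, a2, by omega, h3, h4, hpz.symm, ⟨_, hprev.1, hprev.2⟩,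
    Z.nb z.1 w, Z.nb (Z.nb z.1 w) w, hi1, q1, p3, q3, fun i hi => ?_⟩
  unfold Y3 at hYt
  rw [if_pos hb] at hYt
  have h7 := GWbirthx33.Wp_le (Z := Z) (w := w) (hZ.hcut hi)
    (le_refl (Z.cut (Z.nb (Z.nb z.1 w) w)))
  linarith

/-! ### the mass bound -/

/-- masses of sets of words with small payment over one prefix -/
lemma mass_small (hZ : Z.Ok) {K C1 c Δ : ℝ} (hK : 0 < K) (hC1 : 0 ≤ C1)
    (hθm : ∀ i j, Z.i0 ≤ i → i ≤ j → Z.θ i ≤ Z.θ j) (hH : HypT Z C1 c) (hΔ : 0 ≤ Δ) (hc : 0 ≤ c)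
    (hnum : ∀ p : ℕ, Z.i0 ≤ p → Δ * (Z.θ p ^ (-c) + (2 : ℝ) ^ (-(c * p))) + 1 / ((p : ℝ) + 1) ≤
      K / ((p : ℝ) + 1))
    {i n : ℕ} {AA : Finset ℝ} (hAA : (AA.card : ℝ) ≤ Δ) {t : ℝ} (ht0 : 0 < t) (ht1 : t < 1)
    (U : Finset ℕ) (hU : ∀ w ∈ U, w ∣ Z.N ∧ Z.nd i w ∧ low (Z.cut i) w = n ∧ Tgt Z AA i w ∧
      ∃ p, Z.i0 ≤ p ∧ p ≤ i ∧ K / ((p : ℝ) + 1) ≤ t ∧ ¬ On (Z.θ p) (Z.yy i w) (Z.tt i w) ∧
        ∃ b1 b2, i < b1 ∧ b1 < b2 ∧ Z.birth b1 w ∧ Z.birth b2 w ∧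
          1 - Z.Wp (Z.cut i) (Z.cut b2) w ≤ t) :
    ∑ w ∈ U, nu Z.N w ≤ 2 * C1 * t * nu (low (Z.cut i) Z.N) n := by
  classical
  rcases U.eq_empty_or_nonempty with hE | ⟨w0, hw0⟩
  · rw [hE, sum_empty]
    have := nu_nonneg (low (Z.cut i) Z.N) n
    positivity
  obtain ⟨-, -, -, -, q, hq1, hq2, hq3, -⟩ := hU w0 hw0
  have hex : ∃ p : ℕ, Z.i0 ≤ p ∧ K / ((p : ℝ) + 1) ≤ t := ⟨q, hq1, hq3⟩
  set p0 := Nat.find hex with hp0
  obtain ⟨hp1, hp2⟩ := Nat.find_spec hex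
  have hpi : p0 ≤ i := (Nat.find_min' hex ⟨hq1, hq3⟩).trans hq2
  have hθ1 : 1 < Z.θ p0 := hZ.hθ _ hp1
  have hsub : U ⊆ Z.N.divisors.filter fun w => Evt Z AA (Z.θ p0) t i n w := by
    intro w hw
    obtain ⟨h1, h2, h3, h4, p, h5, h6, h7, h8, b1, b2, h9, h10, h11, h12, h13⟩ := hU w hw
    rw [mem_filter, Nat.mem_divisors]
    refine ⟨⟨h1, hZ.hN.ne'⟩, h2, h3, h4, fun hon => h8 ?_, b1, b2, h9, h10, h11, h12, h13⟩
    exact hon.mono (hθm _ _ hp1 (Nat.find_min' hex ⟨h5, h7⟩))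
  have hmain := hH i n AA (Z.θ p0) t (hp1.trans hpi) hθ1.le (hθm _ _ hp1 hpi) ht0.le ht1.le
  refine (sum_le_sum_of_subset_of_nonneg hsub fun w _ _ => nu_nonneg _ _).trans
    (hmain.trans ?_)
  refine mul_le_mul_of_nonneg_right ?_ (nu_nonneg _ _)
  have h2i : (2 : ℝ) ^ (-(c * i)) ≤ (2 : ℝ) ^ (-(c * p0)) := by
    refine Real.rpow_le_rpow_of_exponent_le (by norm_num) ?_
    have : (p0 : ℝ) ≤ i := by exact_mod_cast hpi
    have := mul_le_mul_of_nonneg_left this hc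
    linarith
  have h1i : 1 / ((i : ℝ) + 1) ≤ 1 / ((p0 : ℝ) + 1) := by
    refine one_div_le_one_div_of_le (by positivity) ?_
    have : (p0 : ℝ) ≤ i := by exact_mod_cast hpi
    linarith
  have hθp : 0 ≤ Z.θ p0 ^ (-c) := Real.rpow_nonneg (by linarith) _
  have h2p : 0 ≤ (2 : ℝ) ^ (-(c * i)) := Real.rpow_nonneg (by norm_num) _
  have h3 : (AA.card : ℝ) * (Z.θ p0 ^ (-c) + (2 : ℝ) ^ (-(c * i))) ≤
      Δ * (Z.θ p0 ^ (-c) + (2 : ℝ) ^ (-(c * p0))) := by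
    refine mul_le_mul hAA (by linarith) (by linarith) hΔ
  have h4 := hnum p0 hp1
  have h5 : t + (AA.card : ℝ) * (Z.θ p0 ^ (-c) + (2 : ℝ) ^ (-(c * i))) + 1 / ((i : ℝ) + 1) ≤
      2 * t := by linarith
  calc C1 * (t + AA.card * (Z.θ p0 ^ (-c) + (2 : ℝ) ^ (-(c * i))) + 1 / ((i : ℝ) + 1))
      ≤ C1 * (2 * t) := mul_le_mul_of_nonneg_left h5 hC1
    _ = 2 * C1 * t := by ring

/-- mass of a set of words with a given prefix -/
lemma mass_prefix (hZ : Z.Ok) {i n : ℕ} (U : Finset ℕ)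
    (hU : ∀ w ∈ U, w ∣ Z.N ∧ low (Z.cut i) w = n) :
    ∑ w ∈ U, nu Z.N w ≤ nu (low (Z.cut i) Z.N) n := by
  classical
  rcases U.eq_empty_or_nonempty with hE | ⟨w0, hw0⟩
  · rw [hE, sum_empty]; exact nu_nonneg _ _
  obtain ⟨a1, a2⟩ := hU w0 hw0
  have hd : n ∣ low (Z.cut i) Z.N := by rw [← a2]; exact low_dvd _ hZ.hN.ne' a1
  have hsub : U ⊆ Z.N.divisors.filter fun w => low (Z.cut i) w = n := by
    intro w hw
    obtain ⟨b1, b2⟩ := hU w hw
    rw [mem_filter, Nat.mem_divisors]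
    exact ⟨⟨b1, hZ.hN.ne'⟩, b2⟩
  refine (sum_le_sum_of_subset_of_nonneg hsub fun w _ _ => nu_nonneg _ _).trans ?_
  exact (Lawx69.prob_part_eq (fun p => p ≤ Z.cut i) hZ.hN hd).le

/-! ### the multiplicities -/

section main

variable {R : Node → Node → Prop} {K C1 c Δ : ℝ}

lemma g_eq {n n' : Node} (h : n.1 = n'.1 ∧ n.2.1 = n'.2.1) : Z.g n = Z.g n' := by
  unfold World.g
  rw [h.1, h.2]

lemma low_node (hZ : Z.Ok) {n : Node} {w : ℕ} (hw : w ∈ Z.S n) :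
    w ∣ Z.N ∧ Z.nd n.1 w ∧ low (Z.cut n.1) w = n.2.1 ∧ Z.lab n.1 w = n := by
  obtain ⟨h1, h2, h3⟩ := (mem_S hZ).1 hw
  refine ⟨h1, h2, ?_, h3⟩
  rw [← h3]; rfl

/-- first order -/
lemma H1_aux (hZ : Z.Ok) (hR : RelP Z R Δ) (hK : 0 < K) (hC1 : 1 ≤ C1) (hΔ : 2 ≤ Δ) (hc : 0 ≤ c)
    (hθm : ∀ i j, Z.i0 ≤ i → i ≤ j → Z.θ i ≤ Z.θ j) (hH : HypT Z C1 c)
    (hnum : ∀ p : ℕ, Z.i0 ≤ p → Δ * (Z.θ p ^ (-c) + (2 : ℝ) ^ (-(c * p))) + 1 / ((p : ℝ) + 1) ≤
      K / ((p : ℝ) + 1)) {z n : Node} (hz : z ∈ Z.Zs) (hn : n ∈ Z.Nd z) {t : ℝ} (ht : 0 < t) :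
    ∑ z' ∈ (gn Z R K).Zs, ∑ n' ∈ (gn Z R K).Out z n z',
      ∑ w ∈ ((gn Z R K).S z' n').filter (fun w => (gn Z R K).y' z' w ≤ t), nu Z.N w ≤
      4 * C1 * t * Z.g n := by
  classical
  set G := gn Z R K with hG
  set U : Finset ℕ := Z.N.divisors.filter fun w => (GN.pairs1 G z n t w).Nonempty with hUdef
  have hpair : ∀ {w : ℕ} {x : (_ : Node) × Node}, x ∈ GN.pairs1 G z n t w →
      x.2 ∈ Z.Nd x.1 ∧ R n x.2 ∧ w ∈ Z.S x.2 ∧ y3 Z K x.1 w ≤ t := by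
    intro w x hx
    unfold GN.pairs1 at hx
    rw [mem_filter, mem_sigma] at hx
    obtain ⟨⟨-, h2⟩, h3, h4⟩ := hx
    unfold GN.Out at h2
    rw [mem_filter] at h2
    exact ⟨h2.1, h2.2, h3, h4⟩
  have hmem : ∀ w, (GN.pairs1 G z n t w).Nonempty → w ∈ U := by
    intro w hw
    obtain ⟨x, hx⟩ := hw
    rw [hUdef, mem_filter, Nat.mem_divisors]
    exact ⟨⟨(low_node hZ (hpair hx).2.2.1).1, hZ.hN.ne'⟩, x, hx⟩
  have hcard : ∀ w ∈ U, ((GN.pairs1 G z n t w).card : ℝ) ≤ 1 := by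
    intro w _
    have : (GN.pairs1 G z n t w).card ≤ 1 := by
      rw [Finset.card_le_one]
      intro x hx y hy
      obtain ⟨a1, a2, a3, -⟩ := hpair hx
      obtain ⟨b1, b2, b3, -⟩ := hpair hy
      obtain ⟨-, -, -, c1⟩ := low_node hZ a3
      obtain ⟨-, -, -, c2⟩ := low_node hZ b3
      have e1 : x.2.1 = y.2.1 := (hR.idx a2).1.symm.trans (hR.idx b2).1
      have e2 : x.2 = y.2 := by rw [← c1, ← c2, e1]
      have e3 : x.1 = y.1 := by
        rw [← (Nd_all hZ a1 a3).1, ← (Nd_all hZ b1 b3).1, e1]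
      exact Sigma.ext e3 (heq_of_eq e2)
    exact_mod_cast this
  obtain ⟨AA, hAA, hAA2⟩ := hR.tgtO n
  have hmass : ∑ w ∈ U, nu Z.N w ≤ 2 * C1 * t * Z.g n := by
    by_cases ht1 : t < 1
    · refine mass_small (n := n.2.1) hZ hK (by linarith) hθm hH (by linarith) hc hnum hAA ht ht1 U ?_
      intro w hw
      rw [hUdef, mem_filter] at hw
      obtain ⟨x, hx⟩ := hw.2
      obtain ⟨a1, a2, a3, a4⟩ := hpair hx
      obtain ⟨b1, b2, b3, b4⟩ := low_node hZ a3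
      obtain ⟨i1, i2⟩ := hR.idx a2
      obtain ⟨c1, c2, c3, c4, c5, c6, c7, β1, β2, d1, d2, d3, d4, d5⟩ := small hZ hK ht1 a1 a3 a4
      have htg := hAA2 _ a2 w a3
      rw [← i1] at b2 b3 c4 d1 htg
      rw [← i2] at b3
      refine ⟨b1, b2, b3, htg, Z.pz x.1, c1, by omega, c2, ?_, β1, β2, d1, d2, d3, d4, d5 _ (by omega)⟩
      have := GWbirthx33.not_on_later hZ b1 c5 c7 c4
      rwa [c6] at this
    · have h1 : ∑ w ∈ U, nu Z.N w ≤ Z.g n := by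
        refine mass_prefix (n := n.2.1) hZ U ?_
        intro w hw
        rw [hUdef, mem_filter] at hw
        obtain ⟨x, hx⟩ := hw.2
        obtain ⟨a1, a2, a3, a4⟩ := hpair hx
        obtain ⟨b1, b2, b3, b4⟩ := low_node hZ a3
        obtain ⟨i1, i2⟩ := hR.idx a2
        rw [← i1, ← i2] at b3
        exact ⟨b1, b3⟩
      have hg := (g_pos hZ hn).le
      have ht2 : 1 ≤ t := not_lt.1 ht1
      have : 1 ≤ 2 * C1 * t := by nlinarith
      nlinarith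
  refine (H1_of_mult G (fun _ => nu Z.N) (nu Z.N) (fun w => nu_nonneg _ _) (fun _ _ => le_rfl)
    (z := z) (n := n) (t := t) (μ := 1) zero_le_one U hmem hcard hmass).trans ?_
  have hg := (g_pos hZ hn).le
  have : 0 ≤ 2 * C1 * t * Z.g n := by positivity
  linarith

/-- one node -/
lemma H0_aux (hZ : Z.Ok) (hK : 0 < K) (hC1 : 1 ≤ C1) (hΔ : 2 ≤ Δ) (hc : 0 ≤ c)
    (hθm : ∀ i j, Z.i0 ≤ i → i ≤ j → Z.θ i ≤ Z.θ j) (hH : HypT Z C1 c)
    (hnum : ∀ p : ℕ, Z.i0 ≤ p → Δ * (Z.θ p ^ (-c) + (2 : ℝ) ^ (-(c * p))) + 1 / ((p : ℝ) + 1) ≤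
      K / ((p : ℝ) + 1)) {z n : Node} (hn : n ∈ Z.Nd z) {t : ℝ} (ht : 0 < t) :
    ∑ w ∈ (Z.S n).filter (fun w => y3 Z K z w ≤ t), nu Z.N w ≤ 4 * C1 * t * Z.g n := by
  classical
  have hg := (g_pos hZ hn).le
  have key : ∑ w ∈ (Z.S n).filter (fun w => y3 Z K z w ≤ t), nu Z.N w ≤ 2 * C1 * t * Z.g n := by
    by_cases ht1 : t < 1
    · obtain ⟨AA, hAA, hAA2⟩ := HypWx473.two_targets hZ n
      have hAA' : (AA.card : ℝ) ≤ Δ := by
        have : (AA.card : ℝ) ≤ 2 := by exact_mod_cast hAA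
        linarith
      refine mass_small (n := n.2.1) hZ hK (by linarith) hθm hH (by linarith) hc hnum hAA' ht ht1
        _ ?_
      intro w hw
      rw [mem_filter] at hw
      obtain ⟨hwS, hwy⟩ := hw
      obtain ⟨b1, b2, b3, b4⟩ := low_node hZ hwS
      obtain ⟨c1, c2, c3, c4, c5, c6, c7, β1, β2, d1, d2, d3, d4, d5⟩ := small hZ hK ht1 hn hwS hwy
      refine ⟨b1, b2, b3, hAA2 w hwS, Z.pz z, c1, by omega, c2, ?_, β1, β2, d1, d2, d3, d4,
        d5 _ (by omega)⟩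
      have := GWbirthx33.not_on_later hZ b1 c5 c7 c4
      rwa [c6] at this
    · have h1 : ∑ w ∈ (Z.S n).filter (fun w => y3 Z K z w ≤ t), nu Z.N w ≤ Z.g n := by
        refine mass_prefix (n := n.2.1) hZ _ ?_
        intro w hw
        obtain ⟨b1, b2, b3, b4⟩ := low_node hZ (mem_filter.1 hw).1
        exact ⟨b1, b3⟩
      have ht2 : 1 ≤ t := not_lt.1 ht1
      have : 1 ≤ 2 * C1 * t := by nlinarith
      nlinarith
  have : 0 ≤ 2 * C1 * t * Z.g n := by positivity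
  linarith

/-- second order -/
lemma H2_aux (hZ : Z.Ok) (hθ : ∀ i, Z.i0 ≤ i → 128 * Z.θ i ^ 2 ≤ 2 ^ i) (hR : RelP Z R Δ)
    (hK : 0 < K) (hC1 : 1 ≤ C1) (hΔ : 2 ≤ Δ) (hc : 0 ≤ c)
    (hθm : ∀ i j, Z.i0 ≤ i → i ≤ j → Z.θ i ≤ Z.θ j) (hH : HypT Z C1 c)
    (hnum : ∀ p : ℕ, Z.i0 ≤ p → Δ * (Z.θ p ^ (-c) + (2 : ℝ) ^ (-(c * p))) + 1 / ((p : ℝ) + 1) ≤
      K / ((p : ℝ) + 1)) {z' m : Node} (hz : z' ∈ Z.Zs) (hm : m ∈ Z.Nd z') {t : ℝ} (ht : 0 < t) :
    ∑ n' ∈ (gn Z R K).Bl z' m, ∑ z ∈ (gn Z R K).Zs, ∑ n ∈ (gn Z R K).In z' n' z,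
      ∑ w ∈ ((gn Z R K).A z n).filter (fun w => (gn Z R K).y z w ≤ t), nu Z.N w ≤
      4 * C1 * t * Z.g m := by
  classical
  set G := gn Z R K with hG
  set U : Finset ℕ := Z.N.divisors.filter fun w => (GN.pairs2 G z' m t w).Nonempty with hUdef
  have hpair : ∀ {w : ℕ} {x : (_ : Node) × (_ : Node) × Node}, x ∈ GN.pairs2 G z' m t w →
      x.1 ∈ Z.Nd z' ∧ m.1 ≤ x.1.1 ∧ Z.S x.1 ⊆ Z.S m ∧ (Z.S x.1).Nonempty ∧
      x.2.2 ∈ Z.Nd x.2.1 ∧ R x.2.2 x.1 ∧ w ∈ Z.A x.2.1 x.2.2 ∧ w ∈ Z.S x.2.2 ∧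
      y3 Z K x.2.1 w ≤ t := by
    intro w x hx
    unfold GN.pairs2 at hx
    rw [mem_filter, mem_sigma, mem_sigma] at hx
    obtain ⟨⟨h1, -, h2⟩, h3, h4⟩ := hx
    unfold GN.Bl at h1
    unfold GN.In at h2
    rw [mem_filter] at h1 h2
    exact ⟨h1.1, h1.2.1, h1.2.2.1, h1.2.2.2, h2.1, h2.2, h3, A_sub _ _ h3, h4⟩
  -- the prefix at `m`
  have hpre : ∀ {w : ℕ} {x : (_ : Node) × (_ : Node) × Node}, x ∈ GN.pairs2 G z' m t w →
      Z.nd m.1 w ∧ low (Z.cut m.1) w = m.2.1 := by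
    intro w x hx
    obtain ⟨h1, h2, h3, ⟨u, hu⟩, h5, h6, -, h7, -⟩ := hpair hx
    obtain ⟨-, a2, a3, -⟩ := low_node hZ h7
    obtain ⟨-, b2, b3, -⟩ := low_node hZ hu
    obtain ⟨-, c2, c3, -⟩ := low_node hZ (h3 hu)
    obtain ⟨i1, i2⟩ := hR.idx h6
    have e1 : low (Z.cut x.1.1) w = low (Z.cut x.1.1) u := by
      rw [b3, ← i2, ← i1, a3]
    have e2 := low_congr hZ h2 e1
    exact ⟨(nd_congr' e2).2 c2, e2.trans c3⟩
  have hmem : ∀ w, (GN.pairs2 G z' m t w).Nonempty → w ∈ U := by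
    intro w hw
    obtain ⟨x, hx⟩ := hw
    rw [hUdef, mem_filter, Nat.mem_divisors]
    exact ⟨⟨(low_node hZ (hpair hx).2.2.2.2.2.2.2.1).1, hZ.hN.ne'⟩, x, hx⟩
  -- multiplicity
  have hcard : ∀ w ∈ U, ((GN.pairs2 G z' m t w).card : ℝ) ≤ 2 := by
    intro w _
    have hinj : Set.InjOn (fun x : (_ : Node) × (_ : Node) × Node => decide (x.2.1.1 ≤ m.1))
        (GN.pairs2 G z' m t w : Set ((_ : Node) × (_ : Node) × Node)) := by
      intro x hx y hy hxy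
      have hx' := hpair (mem_coe.1 hx)
      have hy' := hpair (mem_coe.1 hy)
      obtain ⟨x1, x2, x3, x4, x5, x6, x7, x8, -⟩ := hx'
      obtain ⟨y1, y2, y3', y4, y5, y6, y7, y8, -⟩ := hy'
      obtain ⟨px, -⟩ := hpre (mem_coe.1 hx)
      obtain ⟨cx1, cx2, cx3, cx4, cx5⟩ := Nd_all hZ x5 x8
      obtain ⟨cy1, cy2, cy3, cy4, cy5⟩ := Nd_all hZ y5 y8
      obtain ⟨ix1, ix2⟩ := hR.idx x6
      obtain ⟨iy1, iy2⟩ := hR.idx y6
      -- the zones agree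
      have hzz : x.2.1 = y.2.1 := by
        have hlab : ∀ {a : Node}, w ∈ Z.S a → Z.lab a.1 w = a := fun h => ((mem_S hZ).1 h).2.2
        have h1 : x.2.1.1 = y.2.1.1 := by
          simp only [decide_eq_decide] at hxy
          by_cases hle : x.2.1.1 ≤ m.1
          · have hle' := hxy.1 hle
            -- both are the last birth up to `m`
            have a1 : Z.bi m.1 w = x.2.1.1 := by
              refine le_antisymm ?_ (le_bi hle cx4)
              rw [← cx5]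
              exact le_bi ((bi_le _ _).trans (by omega)) (birth_bi px)
            have a2 : Z.bi m.1 w = y.2.1.1 := by
              refine le_antisymm ?_ (le_bi hle' cy4)
              rw [← cy5]
              exact le_bi ((bi_le _ _).trans (by omega)) (birth_bi px)
            rw [← a1, a2]
          · have hle' : ¬ y.2.1.1 ≤ m.1 := fun h => hle (hxy.2 h)
            obtain ⟨a1, -⟩ := hR.one x5 x1 hm x2 x3 x4 x6 x8 (not_le.1 hle)
            obtain ⟨b1, -⟩ := hR.one y5 y1 hm y2 y3' y4 y6 y8 (not_le.1 hle')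
            rw [pz_eq hZ cx2] at a1
            rw [pz_eq hZ cy2] at b1
            have p1 := (ZCellx60.prev_spec (Z := Z) (j := x.2.1.1) (w := w)
              ⟨m.1, not_le.1 hle, px⟩).2.2
            have p2 := (ZCellx60.prev_spec (Z := Z) (j := y.2.1.1) (w := w)
              ⟨m.1, not_le.1 hle', px⟩).2.2
            rcases lt_trichotomy x.2.1.1 y.2.1.1 with h | h | h
            · have := p2 _ h cx4.1
              omega
            · exact h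
            · have := p1 _ h cy4.1
              omega
        rw [← hlab cx2, ← hlab cy2, h1]
      -- the nodes agree
      have hnn : x.2.2 = y.2.2 := by
        by_contra hne
        have := A_disj hZ x.2.1 x.2.2 x5 y.2.2 (by rw [hzz]; exact y5) hne
        refine disjoint_left.1 this x7 ?_
        rw [hzz]; exact y7
      have hn'n' : x.1 = y.1 := by
        refine ZCellx60.cell_unique hZ hθ x1 y1 ?_ ?_
        · rw [← ix1, ← iy1, hnn]
        · rw [← ix2, ← iy2, hnn]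
      refine Sigma.ext hn'n' (heq_of_eq (Sigma.ext hzz (heq_of_eq hnn)))
    have h2 := Finset.card_le_card_of_injOn (s := GN.pairs2 G z' m t w) (t := (univ : Finset Bool))
      (fun x : (_ : Node) × (_ : Node) × Node => decide (x.2.1.1 ≤ m.1)) (fun _ _ => mem_univ _) hinj
    have h3 : (univ : Finset Bool).card = 2 := rfl
    rw [h3] at h2
    exact_mod_cast h2
  obtain ⟨AA, hAA, hAA2⟩ := hR.tgtI m
  have hmass : ∑ w ∈ U, nu Z.N w ≤ 2 * C1 * t * Z.g m := by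
    by_cases ht1 : t < 1
    · refine mass_small (n := m.2.1) hZ hK (by linarith) hθm hH (by linarith) hc hnum hAA ht ht1 U ?_
      intro w hw
      rw [hUdef, mem_filter] at hw
      obtain ⟨x, hx⟩ := hw.2
      obtain ⟨x1, x2, x3, x4, x5, x6, x7, x8, x9⟩ := hpair hx
      obtain ⟨px1, px2⟩ := hpre hx
      obtain ⟨b1, b2, b3, b4⟩ := low_node hZ x8
      obtain ⟨i1, i2⟩ := hR.idx x6
      obtain ⟨c1, c2, c3, c4, c5, c6, c7, β1, β2, d1, d2, d3, d4, d5⟩ := small hZ hK ht1 x5 x8 x9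
      have htg := hAA2 _ _ x6 x2 x3 x4 w x8 px1
      refine ⟨b1, px1, px2, htg, Z.pz x.2.1, c1, ?_, c2, ?_, β1, β2, by omega, d2, d3, d4, d5 _ ?_⟩
      · by_cases hle : x.2.1.1 ≤ m.1
        · omega
        · exact (hR.one x5 x1 hm x2 x3 x4 x6 x8 (not_le.1 hle)).1.le
      · by_cases hle : x.2.1.1 ≤ m.1
        · have := GWbirthx33.not_on_later hZ b1 c5 c7 hle
          rwa [c6] at this
        · obtain ⟨e1, e2⟩ := hR.one x5 x1 hm x2 x3 x4 x6 x8 (not_le.1 hle)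
          rw [e1]; exact e2
      · by_cases hle : x.2.1.1 ≤ m.1
        · omega
        · exact (hR.one x5 x1 hm x2 x3 x4 x6 x8 (not_le.1 hle)).1.le
    · have h1 : ∑ w ∈ U, nu Z.N w ≤ Z.g m := by
        refine mass_prefix (n := m.2.1) hZ U ?_
        intro w hw
        rw [hUdef, mem_filter] at hw
        obtain ⟨x, hx⟩ := hw.2
        exact ⟨(low_node hZ (hpair hx).2.2.2.2.2.2.2.1).1, (hpre hx).2⟩
      have hg := (g_pos hZ hm).le
      have ht2 : 1 ≤ t := not_lt.1 ht1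
      have : 1 ≤ 2 * C1 * t := by nlinarith
      nlinarith
  refine (H2_of_mult G (fun _ => nu Z.N) (nu Z.N) (fun w => nu_nonneg _ _) (fun _ _ => le_rfl)
    (z' := z') (m := m) (t := t) (μ := 2) zero_le_two U hmem hcard hmass).trans ?_
  linarith


end main

end Crest.Agent.R4C.HDeltax60
end

-- ▼ part R4C/VDepth_952
section

/-!
# Row 4, GW section, vector case, leaf (B2): depth along a run and along a link (helper952)

Over `GWdef_982.World`; word level, independent of the relation file.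

* `on_run_mul` : all prime factors of `m` are `≥ K2`, `2 K1 K2 ≤ t`:
  `On K1 (m y) t`, `On K2 y (t m)` ⟹ `On K1 y (t m)`.
* `split` : `yy i w = m * yy j w`, `tt j w = tt i w * m`, prime factors of `m` above `cut i`.
* `Grow Z D` : the numerical conditions on `θ`.
* `on_up` : `On K1` at the index `i`, `On K2` at `j ≥ i` ⟹ `On K1` at `j`.
* `const_depth` : nodes `j0 < j` of `w`, no birth in `(j0, j]` ⟹ `On (4 θ j0)` at `j`.
* `on_link_word`, `on_link_node` : transfer of the depth along a link.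
* `one_birth` : `On (D θ j0)` at `j` ⟹ every birth `b` of `w` in `(j0, j]` has `prev b w = j0`;
  `not_on_of_birth` : then `w` is not `On (θ j0)` at `j0`.
* `left_zone` : the form used in the second order hypothesis of lemma V.
-/

set_option autoImplicit false

open Finset
open Crest.Agent.R4C.Basex935 Crest.Agent.R4C.Cutx50
open Crest.Agent.R4C.GWdefx982 Crest.Agent.R4C.GWnodex863
open Crest.Agent.R4C.NHx656 (On frac_unique)
open Crest.Agent.R4C.LinkOnx617 (on_link on_reduced)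
open Crest.Agent.R4C.GWcellx284 (on_cell on_of_light tt_pos)

namespace Crest.Agent.R4C.VDepthx952

/-! ### one point, several letters -/

/-- the depth is constant along letters `≥ K2` as long as it is `< K2` -/
theorem on_run_mul {K1 K2 y t : ℝ} {m : ℕ} (hm : 0 < m)
    (hmp : ∀ p : ℕ, p.Prime → p ∣ m → K2 ≤ p) (ht : 0 < t) (hKK : 2 * K1 * K2 ≤ t)
    (h1 : On K1 (m * y) t) (h2 : On K2 y (t * m)) : On K1 y (t * m) := by
  obtain ⟨a1, k1, hk1, hl1⟩ := h1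
  obtain ⟨a, k, hk, hg, hl⟩ := on_reduced h2
  have hm0 : (0:ℝ) < m := by exact_mod_cast hm
  have hk0 : (0:ℝ) < k := by exact_mod_cast hk
  have hk10 : (0:ℝ) < k1 := by exact_mod_cast hk1
  have hkK : (k:ℝ) < K2 := by nlinarith [le_max_left (1:ℝ) (t * m * |y - a / k|)]
  -- the fraction `m a / k` at `m y`
  have e1 : t * |(m:ℝ) * y - ((m * a : ℤ) : ℝ) / k| = t * m * |y - a / k| := by
    have e : (m:ℝ) * y - ((m * a : ℤ) : ℝ) / k = m * (y - a / k) := by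
      push_cast; ring
    rw [e, abs_mul, abs_of_pos hm0]; ring
  have hl' : (k:ℝ) * max 1 (t * |(m:ℝ) * y - ((m * a : ℤ) : ℝ) / k|) < K2 := by rw [e1]; exact hl
  have hu := frac_unique hk1 hk ht ht hl1 hl' (by
    rw [← two_mul, mul_one_div, ← mul_div_assoc, div_le_one ht]
    linarith)
  -- `k ∣ k1`
  have hdv : (k:ℤ) ∣ (k1:ℤ) := by
    have h3 : (k:ℤ) ∣ (m * a) * k1 := ⟨a1, by linarith⟩
    have hc1 : IsCoprime (k:ℤ) (a:ℤ) := by
      rw [Int.isCoprime_iff_gcd_eq_one, Int.gcd_comm]; exact hg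
    have hc2 : IsCoprime (k:ℤ) (m:ℤ) := by
      rw [Nat.isCoprime_iff_coprime]
      refine Nat.Coprime.symm (Nat.coprime_of_dvd fun p hp hpm hpk => ?_)
      have h4 := hmp p hp hpm
      have h5 : (p:ℝ) ≤ k := by exact_mod_cast Nat.le_of_dvd hk hpk
      linarith
    exact (hc2.mul_right hc1).dvd_of_dvd_mul_left h3
  have hkk1 : (k:ℝ) ≤ k1 := by
    have := Nat.le_of_dvd hk1 (Int.natCast_dvd_natCast.1 hdv)
    exact_mod_cast this
  refine ⟨a, k, hk, ?_⟩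
  have e2 : ((m * a : ℤ) : ℝ) / k = a1 / k1 := by
    rw [div_eq_div_iff hk0.ne' hk10.ne']
    have h5 : ((a1 * k : ℤ) : ℝ) = ((m * a * k1 : ℤ) : ℝ) := by exact_mod_cast hu
    push_cast at h5 ⊢
    linarith
  rw [← e1, e2]
  refine lt_of_le_of_lt (mul_le_mul_of_nonneg_right hkk1 ?_) hl1
  exact le_trans zero_le_one (le_max_left _ _)

section world

variable {Z : World}

/-! ### two cuts of one word -/

/-- letters of `w` in `(cut i, cut j]` -/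
def lt (Z : World) (i j w : ℕ) : ℕ := upp (Z.cut i) (low (Z.cut j) w)

lemma lt_pos (i j w : ℕ) : 0 < lt Z i j w := upp_pos _ _

lemma cut_lt_of_dvd {i j w p : ℕ} (hp : p.Prime) (h : p ∣ lt Z i j w) : Z.cut i < p :=
  not_le.1 (prime_dvd_part (S := fun p => ¬ p ≤ Z.cut i) hp h)

lemma yy_split {i j w : ℕ} (hij : Z.cut i ≤ Z.cut j) :
    Z.yy i w = (lt Z i j w : ℝ) * Z.yy j w := by
  have e : upp (Z.cut i) w = upp (Z.cut i) (low (Z.cut j) w) * upp (Z.cut j) w := by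
    refine Nat.eq_of_factorization_eq (upp_pos _ _).ne'
      (mul_ne_zero (upp_pos _ _).ne' (upp_pos _ _).ne') fun p => ?_
    rw [Nat.factorization_mul (upp_pos _ _).ne' (upp_pos _ _).ne', Finsupp.add_apply, fact_upp,
      fact_upp, fact_upp, fact_low]
    by_cases h2 : p ≤ Z.cut i
    · have h3 : p ≤ Z.cut j := h2.trans hij
      simp [h2, h3]
    · by_cases h3 : p ≤ Z.cut j <;> simp [h2, h3]
  unfold World.yy lt
  rw [e]
  push_cast
  ring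

lemma tt_split {i j w : ℕ} (hij : Z.cut i ≤ Z.cut j) :
    Z.tt j w = Z.tt i w * (lt Z i j w : ℝ) := by
  have e : low (Z.cut j) w = low (Z.cut i) w * upp (Z.cut i) (low (Z.cut j) w) := by
    have h3 := low_mul_upp (Z.cut i) (low_pos (Z.cut j) w).ne'
    rw [low_low hij] at h3
    exact h3.symm
  unfold World.tt World.e lt
  rw [e]
  have h4 : upp (Z.cut i) (low (Z.cut i) w * upp (Z.cut i) (low (Z.cut j) w)) =
      upp (Z.cut i) (low (Z.cut j) w) := by rw [← e]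
  rw [h4]
  push_cast
  ring

/-- (O2) along the cuts -/
lemma on_push {i j w : ℕ} {K : ℝ} (hij : Z.cut i ≤ Z.cut j) (h : On K (Z.yy j w) (Z.tt j w)) :
    On K (Z.yy i w) (Z.tt i w) := by
  rw [tt_split hij] at h
  rw [yy_split hij]
  exact h.push


lemma tt_congr {i w w' : ℕ} (hl : low (Z.cut i) w = low (Z.cut i) w') : Z.tt i w = Z.tt i w' := by
  unfold World.tt; rw [e_congr hl]

lemma le_tt (h : Z.Ok) {i w : ℕ} (hn : Z.nd i w) : (2:ℝ) ^ i ≤ Z.tt i w := by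
  unfold World.tt
  rw [le_div_iff₀ h.hL]
  exact hn.2.1

/-! ### numerical conditions -/

/-- the conditions on the thresholds -/
structure Grow (Z : World) (D : ℝ) : Prop where
  hD : 4 ≤ D
  mono : ∀ i j, Z.i0 ≤ i → i ≤ j → Z.θ i ≤ Z.θ j
  small : ∀ i, Z.i0 ≤ i → 2 * (D * Z.θ i) ^ 2 ≤ 2 ^ i
  gr : ∀ i j, Z.i0 ≤ i → 2 * i ≤ j → D * Z.θ i ≤ Z.θ j

section grow

variable {D : ℝ}

lemma Grow.pos (h : Z.Ok) (hG : Grow Z D) {i : ℕ} (hi : Z.i0 ≤ i) : 1 < D * Z.θ i := by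
  have h1 := h.hθ i hi
  have h2 := hG.hD
  nlinarith

lemma Grow.le_pow (h : Z.Ok) (hG : Grow Z D) {i : ℕ} (hi : Z.i0 ≤ i) : D * Z.θ i ≤ 2 ^ i := by
  have h1 := hG.small i hi
  have h2 := hG.pos h hi
  nlinarith

/-- letters above the cut are above `D θ` -/
lemma Grow.le_letter (h : Z.Ok) (hG : Grow Z D) {i j w p : ℕ} (hi : Z.i0 ≤ i) (hp : p.Prime)
    (hd : p ∣ lt Z i j w) : D * Z.θ i ≤ p := by
  have h1 := hG.le_pow h hi
  have h2 : ((2 ^ i : ℕ) : ℝ) ≤ Z.cut i := by exact_mod_cast h.hcut2 i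
  have h3 : (Z.cut i : ℝ) < p := by exact_mod_cast cut_lt_of_dvd hp hd
  push_cast at h2
  linarith

/-- **the depth is constant between two cuts** : `On K1` at `i`, `On K2` at `j ≥ i` -/
theorem on_up (h : Z.Ok) (hG : Grow Z D) {i j w : ℕ} {K1 K2 : ℝ} (hi : Z.nd i w)
    (hij : Z.cut i ≤ Z.cut j) (hK1 : K1 ≤ D * Z.θ i) (hK2 : K2 ≤ D * Z.θ i)
    (h1 : On K1 (Z.yy i w) (Z.tt i w)) (h2 : On K2 (Z.yy j w) (Z.tt j w)) :
    On K1 (Z.yy j w) (Z.tt j w) := by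
  rw [tt_split hij] at h2 ⊢
  rw [yy_split hij] at h1
  refine on_run_mul (lt_pos _ _ _) (fun p hp hd => ?_) (tt_pos h _ _) ?_ h1 h2
  · exact hK2.trans (hG.le_letter h hi.1 hp hd)
  · have a1 := h1.one_lt
    have a2 := h2.one_lt
    have a3 := hG.small i hi.1
    have a4 := le_tt h hi
    have a5 : K1 * K2 ≤ (D * Z.θ i) * (D * Z.θ i) :=
      mul_le_mul hK1 hK2 (by linarith) (by linarith)
    nlinarith

/-! ### along a run of light nodes -/

/-- **constant depth** : no birth in `(j0, j]` -/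
theorem const_depth (h : Z.Ok) (hG : Grow Z D) {j0 w : ℕ} (hw : w ∣ Z.N) (hn0 : Z.nd j0 w) :
    ∀ j, j0 < j → Z.nd j w → (∀ b, j0 < b → b ≤ j → ¬ Z.birth b w) →
      On (4 * Z.θ j0) (Z.yy j w) (Z.tt j w) := by
  intro j
  induction j using Nat.strong_induction_on with
  | _ j ih =>
    intro hj hn hno
    have hhp : Z.hasPrev j w := ⟨j0, hj, hn0⟩
    obtain ⟨p1, p2, p3⟩ := Budgetx966.prev_spec hhp
    have hlight : Z.light j w := by
      by_contra hc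
      exact hno j hj le_rfl ⟨hn, fun hh => hc hh.2⟩
    have hon := on_of_light h hw hn hlight
    have hge : j0 ≤ Z.prev j w := p3 j0 hj hn0
    rcases Nat.eq_or_lt_of_le hge with he | hlt
    · rw [← he] at hon; exact hon
    · have hIH := ih (Z.prev j w) p1 hlt p2 (fun b hb1 hb2 => hno b hb1 (hb2.trans p1.le))
      have hθ0 := h.hθ _ (hn0.1)
      have hθp := h.hθ _ (p2.1)
      have hD := hG.hD
      refine on_up h hG p2 (h.hcut p1.le) ?_ ?_ hIH hon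
      · have hm := hG.mono j0 (Z.prev j w) hn0.1 hge
        nlinarith
      · nlinarith

/-! ### transfer along a link -/

/-- transfer of the depth along a link of two words over one prefix -/
theorem on_link_word (h : Z.Ok) {K R : ℝ} {u v j w w' : ℕ} {n : ℤ} (hu : 1 ≤ u)
    (hlow : low (Z.cut j) w = low (Z.cut j) w')
    (hl : |(u:ℝ) * Z.yy j w - v * Z.yy j w' + n| ≤ R / Z.tt j w)
    (hon : On K (Z.yy j w') (Z.tt j w')) : On ((u + v + R) * K) (Z.yy j w) (Z.tt j w) := by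
  have ht := tt_pos h j w
  rw [← tt_congr hlow] at hon
  refine on_link (m := -n) hu ht ?_ hon
  rw [le_div_iff₀ ht] at hl
  have e : (u:ℝ) * Z.yy j w - v * Z.yy j w' - ((-n : ℤ) : ℝ) =
      (u:ℝ) * Z.yy j w - v * Z.yy j w' + n := by push_cast; ring
  rw [e]
  linarith

/-- transfer along a link of two nodes -/
theorem on_link_node (h : Z.Ok) {K R : ℝ} {u v : ℕ} {n : ℤ} {ν ν' : Node} (h1 : ν.1 = ν'.1)
    (h2 : ν.2.1 = ν'.2.1) {w1 w1' w w' : ℕ} (hw1 : w1 ∈ Z.S ν) (hw1' : w1' ∈ Z.S ν')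
    (hw : w ∈ Z.S ν) (hw' : w' ∈ Z.S ν') (hu : 1 ≤ u)
    (hl : |(u:ℝ) * Z.yy ν.1 w1 - v * Z.yy ν.1 w1' + n| ≤ R / Z.tt ν.1 w1)
    (hon : On K (Z.yy ν.1 w') (Z.tt ν.1 w')) :
    On (16 * (u + v + R) * K) (Z.yy ν.1 w) (Z.tt ν.1 w) := by
  have a1 : On (4 * K) (Z.yy ν'.1 w1') (Z.tt ν'.1 w1') := by
    refine on_cell h hw1' hw' ?_
    rw [← h1]; exact hon
  rw [← h1] at a1
  have hlow : low (Z.cut ν.1) w1 = low (Z.cut ν.1) w1' := by
    have b1 := low_of_lab (((mem_S h).1 hw1).2.2.trans (show ν = Z.lab ν.1 w1 from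
      (((mem_S h).1 hw1).2.2).symm))
    have b2 : low (Z.cut ν.1) w1 = ν.2.1 := congrArg (fun x : Node => x.2.1) ((mem_S h).1 hw1).2.2
    have b3 : low (Z.cut ν'.1) w1' = ν'.2.1 :=
      congrArg (fun x : Node => x.2.1) ((mem_S h).1 hw1').2.2
    rw [b2, h2, ← b3, h1]
  have a2 := on_link_word h hu hlow hl a1
  have a3 := on_cell h hw hw1 a2
  have e : 4 * ((u + v + R) * (4 * K)) = 16 * (u + v + R) * K := by ring
  rw [e] at a3
  exact a3


/-! ### births -/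

/-- **a birth with a previous node is deep at every later cut** -/
theorem not_on_later (h : Z.Ok) {b i w : ℕ} (hw : w ∣ Z.N) (hb : Z.birth b w)
    (hp : Z.hasPrev b w) (hbi : b ≤ i) : ¬ On (Z.θ (Z.prev b w)) (Z.yy i w) (Z.tt i w) := by
  intro hon
  exact hb.2 ⟨hp, w, mem_S_lab h hw hb.1, on_push (h.hcut hbi) hon⟩

/-- **one birth** : a word which is `On (D θ j0)` at `j` has its births of `(j0, j]` only at the
first node after `j0` -/
theorem one_birth (h : Z.Ok) (hG : Grow Z D) {j0 j w : ℕ} (hw : w ∣ Z.N) (hn0 : Z.nd j0 w)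
    (hon : On (D * Z.θ j0) (Z.yy j w) (Z.tt j w)) {b : ℕ} (hb : Z.birth b w) (h1 : j0 < b)
    (h2 : b ≤ j) : Z.prev b w = j0 := by
  have hhp : Z.hasPrev b w := ⟨j0, h1, hn0⟩
  obtain ⟨p1, p2, p3⟩ := Budgetx966.prev_spec hhp
  have hge : j0 ≤ Z.prev b w := p3 j0 h1 hn0
  rcases Nat.eq_or_lt_of_le hge with he | hlt
  · exact he.symm
  · exfalso
    have hgr := Budgetx966.nd_growth h h.hcut2 hn0 p2 hlt
    exact not_on_later h hw hb hhp h2 (hon.mono (hG.gr j0 _ hn0.1 hgr))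

/-- then `w` is deep at `j0` as well -/
theorem not_on_of_birth (h : Z.Ok) (hG : Grow Z D) {j0 j w : ℕ} (hw : w ∣ Z.N)
    (hn0 : Z.nd j0 w) (hon : On (D * Z.θ j0) (Z.yy j w) (Z.tt j w)) {b : ℕ}
    (hb : Z.birth b w) (h1 : j0 < b) (h2 : b ≤ j) :
    ¬ On (Z.θ j0) (Z.yy j0 w) (Z.tt j0 w) := by
  intro hc
  have hhp : Z.hasPrev b w := ⟨j0, h1, hn0⟩
  have e := one_birth h hG hw hn0 hon hb h1 h2
  have hθ := h.hθ j0 hn0.1
  have hD := hG.hD
  have a1 := on_up h hG hn0 (h.hcut (h1.le.trans h2)) (by nlinarith) le_rfl hc hon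
  have a2 := not_on_later h hw hb hhp h2
  rw [e] at a2
  exact a2 a1


/-- the zone of a linked word: born at or below `j0`, or at the first node after `j0` -/
theorem zone_cases (h : Z.Ok) (hG : Grow Z D) {j0 j w : ℕ} (hw : w ∣ Z.N) (hn0 : Z.nd j0 w)
    (hj : j0 ≤ j) (hon : j0 < j → On (D * Z.θ j0) (Z.yy j w) (Z.tt j w)) :
    Z.zone j w = Z.zone j0 w ∨
      (j0 < (Z.zone j w).1 ∧ (Z.zone j w).1 ≤ j ∧ Z.birth (Z.zone j w).1 w ∧
        Z.prev (Z.zone j w).1 w = j0 ∧ Z.hasPrev (Z.zone j w).1 w ∧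
        ¬ On (Z.θ j0) (Z.yy j0 w) (Z.tt j0 w)) := by
  classical
  have h0 : Z.bi j0 w ≤ j0 := bi_le _ _
  have hb0 := birth_bi hn0
  rcases Nat.lt_or_ge j0 (Z.bi j w) with hlt | hle
  · right
    have hfst : (Z.zone j w).1 = Z.bi j w := rfl
    have hbj : Z.bi j w ≤ j := bi_le _ _
    have hj' : j0 < j := hlt.trans_le hbj
    have hb : Z.birth (Z.bi j w) w := by
      unfold World.bi
      exact Nat.findGreatest_spec (P := fun i' => Z.birth i' w) (h0.trans hj) hb0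
    rw [hfst]
    exact ⟨hlt, hbj, hb, one_birth h hG hw hn0 (hon hj') hb hlt hbj, ⟨j0, hlt, hn0⟩,
      not_on_of_birth h hG hw hn0 (hon hj') hb hlt hbj⟩
  · left
    have h1 : Z.bi j w = Z.bi j0 w := by
      refine le_antisymm ?_ ?_
      · refine le_bi hle ?_
        unfold World.bi
        exact Nat.findGreatest_spec (P := fun i' => Z.birth i' w) (h0.trans hj) hb0
      · exact le_bi (h0.trans hj) hb0
    unfold World.zone
    rw [h1]

/-! ### the second order form -/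

/-- the link of two nodes over one prefix -/
def Lkn (Z : World) (R : ℝ) (u v : ℕ) (ν ν' : Node) : Prop :=
  ν.1 = ν'.1 ∧ ν.2.1 = ν'.2.1 ∧ ∃ w ∈ Z.S ν, ∃ w' ∈ Z.S ν', ∃ n : ℤ,
    |(u:ℝ) * Z.yy ν.1 w - v * Z.yy ν.1 w' + n| ≤ R / Z.tt ν.1 w

/-- **H2, the words** : `ν ∈ Nd z`, `w ∈ S ν`, `ν'` a node of the zone `z'` below the node `m` of
`z'`, `ν` linked with `ν'`.  Then `w` passes through the prefix of `m`, and `z` is the zone of `w` at
`m.1`, or `z` is born at the first node of `w` after `m.1` (so `pz z = m.1`) and `w` is not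
`On (θ m.1)` at `m.1`. -/
theorem left_zone (h : Z.Ok) {R : ℝ} {u v : ℕ} (hu : 1 ≤ u) (hG : Grow Z D)
    (hDR : 64 * (u + v + R) ≤ D) {z z' ν ν' m : Node} (hν : ν ∈ Z.Nd z) (hν' : ν' ∈ Z.Nd z')
    (hm : m ∈ Z.Nd z') (hmν : m.1 ≤ ν'.1) (hsub : Z.S ν' ⊆ Z.S m) (hl : Lkn Z R u v ν ν')
    {w : ℕ} (hw : w ∈ Z.S ν) :
    Z.nd m.1 w ∧ low (Z.cut m.1) w = m.2.1 ∧
    (Z.zone m.1 w = z ∨
      (m.1 < z.1 ∧ z.1 ≤ ν.1 ∧ Z.birth z.1 w ∧ Z.prev z.1 w = m.1 ∧ Z.hasPrev z.1 w ∧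
        Z.pz z = m.1 ∧ ¬ On (Z.θ m.1) (Z.yy m.1 w) (Z.tt m.1 w))) := by
  obtain ⟨h1, h2, w1, hw1, w1', hw1', n, hln⟩ := hl
  -- the partner word `w1'`
  obtain ⟨c1, c2, c3⟩ := (mem_S h).1 hw1'
  have hw1m := hsub hw1'
  obtain ⟨m1, m2, m3⟩ := (mem_S h).1 hw1m
  obtain ⟨a1, a2, a3⟩ := (mem_S h).1 hw
  have hlow : low (Z.cut ν.1) w = low (Z.cut ν.1) w1' := by
    have b2 : low (Z.cut ν.1) w = ν.2.1 := congrArg (fun x : Node => x.2.1) a3
    have b3 : low (Z.cut ν'.1) w1' = ν'.2.1 := congrArg (fun x : Node => x.2.1) c3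
    rw [b2, h2, ← b3, h1]
  have hmν' : m.1 ≤ ν.1 := by rw [h1]; exact hmν
  have hlowm : low (Z.cut m.1) w = low (Z.cut m.1) w1' := low_congr h hmν' hlow
  have hndm : Z.nd m.1 w := (nd_congr' hlowm).2 m2
  have hlowm2 : low (Z.cut m.1) w = m.2.1 := by
    rw [hlowm]
    exact congrArg (fun x : Node => x.2.1) m3
  refine ⟨hndm, hlowm2, ?_⟩
  -- the partner has no birth in `(m.1, ν'.1]`
  obtain ⟨z1, z2, z3, z4, z5⟩ := Nd_all h hν' hw1'
  obtain ⟨y1, y2, y3, y4, y5⟩ := Nd_all h hm hw1m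
  have hno : ∀ b, m.1 < b → b ≤ ν'.1 → ¬ Z.birth b w1' := fun b hb1 hb2 =>
    not_birth_of_bi_lt (by rw [z5]; omega) hb2
  have hon : m.1 < ν.1 → On (D * Z.θ m.1) (Z.yy ν.1 w) (Z.tt ν.1 w) := by
    intro hlt
    have hlt' : m.1 < ν'.1 := by rw [← h1]; exact hlt
    have d1 := const_depth h hG c1 m2 ν'.1 hlt' c2 hno
    rw [← h1] at d1
    have d2 := on_link_node h h1 h2 hw1 hw1' hw hw1' hu hln d1
    refine d2.mono ?_
    have hθ := h.hθ m.1 m2.1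
    nlinarith
  have hzone : Z.zone ν.1 w = z := (Nd_all h hν hw).1
  have hzc := zone_cases h hG a1 hndm hmν' hon
  rw [hzone] at hzc
  rcases hzc with hz | ⟨e1, e2, e3, e4, e5, e6⟩
  · exact Or.inl hz.symm
  · refine Or.inr ⟨e1, e2, e3, e4, e5, ?_, e6⟩
    rw [Budgetx966.pz_eq h (z := z) (w := w) ?_, e4]
    exact (mem_zone h).2 ⟨a1, e3, by
      obtain ⟨_, f2, _, _, _⟩ := Nd_all h hν hw
      exact ((mem_S h).1 f2).2.2⟩



end grow

end world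

end Crest.Agent.R4C.VDepthx952
end

-- ▼ part R4C/HDeltaG_60

/-!
# Row 4, GW section, vector case: `GN.Ok` over the world of `GWdef_982`, general payment (helper60)

`HDelta_60` with (1) any payment `y` with `Pay Z K y`, (2) the error `KE / (i + 1)` in the natural
hypothesis, (3) only `s ≤ 1/2` there, (4) the relation of `RelDeg_15`, the depth of `VDepth_952`.

* **`ok_of_pay`** : `Pay Z K y`, `RelP`, `HypS` ⟹ `(gnY Z R y).Ok ν ν (4 C1) Δ`.
* **`relP_rel`** : `RelP Z (Rel Z W R0) Δ` (targets, push down, degree, one birth).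
* **`ok_529`** : `(HDx529.gn Z (Rel Z W R0) KV).Ok ν ν (4 C1) Δ` from `HDx529.HypT Z C1 c KE`.
-/

set_option autoImplicit false

open Finset
open Crest.Agent.R4C.Basex935 Crest.Agent.R4C.Cutx50 Crest.Agent.R4C.PrefixMx882
open Crest.Agent.R4C.GWdefx982 Crest.Agent.R4C.GWrelx8 Crest.Agent.R4C.GWrelWx8
open Crest.Agent.R4C.NHx656 (On)
open Crest.Agent.R4C.GWnodex863
open Crest.Agent.R4C.HDeltax60 (Tgt Evt RelP pz_eq mass_prefix g_eq low_node)

namespace Crest.Agent.R4C.HDeltaGx60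

section defs

variable (Z : World)

open Classical in
/-- the natural hypothesis with a finite set of targets, `K0 ≤ θ i`, `s ≤ 1/2` -/
def HypS (C1 c KE : ℝ) : Prop :=
  ∀ (i n : ℕ) (AA : Finset ℝ) (K0 s : ℝ), Z.i0 ≤ i → 1 ≤ K0 → K0 ≤ Z.θ i → 0 ≤ s → s ≤ 1 / 2 →
    ∑ w ∈ Z.N.divisors with Evt Z AA K0 s i n w, nu Z.N w ≤
      C1 * (s + AA.card * (K0 ^ (-c) + (2 : ℝ) ^ (-(c * i))) + KE / ((i : ℝ) + 1)) *
        nu (low (Z.cut i) Z.N) n

/-- a payment: positive; where it is small the three gaps lose little and `K / (pz + 1)` is small -/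
structure Pay (K : ℝ) (y : Node → ℕ → ℝ) : Prop where
  pos : ∀ z w, 0 < y z w
  small : ∀ {z n : Node} {w : ℕ} {t : ℝ}, n ∈ Z.Nd z → w ∈ Z.S n → t ≤ 1 / 2 → y z w ≤ t →
    HDx529.Y3 Z z w ≤ t ∧ Z.i0 ≤ Z.pz z ∧ K / ((Z.pz z : ℝ) + 1) ≤ t

/-- the graph of nodes with the payment `y` -/
noncomputable def gnY (R : Node → Node → Prop) (y : Node → ℕ → ℝ) : GN Node Node ℕ where
  Zs := Z.Zs
  Nd := Z.Nd
  S := fun _ ν => Z.S ν
  A := Z.A
  rk := fun ν => ν.1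
  g := Z.g
  R := fun _ n _ n' => R n n'
  y := y
  y' := y

end defs

variable {Z : World}

/-! ### the payment -/

/-- everything about a word of a node with small payment -/
lemma small (hZ : Z.Ok) {K t : ℝ} {y : Node → ℕ → ℝ} (hP : Pay Z K y) (ht : t ≤ 1 / 2)
    {z n : Node} {w : ℕ}
    (hn : n ∈ Z.Nd z) (hw : w ∈ Z.S n) (hy : y z w ≤ t) :
    Z.i0 ≤ Z.pz z ∧ K / ((Z.pz z : ℝ) + 1) ≤ t ∧ Z.pz z < z.1 ∧ z.1 ≤ n.1 ∧
    Z.birth z.1 w ∧ Z.prev z.1 w = Z.pz z ∧ Z.hasPrev z.1 w ∧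
    ∃ b1 b2, n.1 < b1 ∧ b1 < b2 ∧ Z.birth b1 w ∧ Z.birth b2 w ∧
      ∀ i, Z.pz z ≤ i → 1 - Z.Wp (Z.cut i) (Z.cut b2) w ≤ t := by
  classical
  obtain ⟨h1, h2, h3, h4, h5⟩ := Nd_all hZ hn hw
  obtain ⟨hYt, a1, a2⟩ := hP.small hn hw ht hy
  have hpz := pz_eq hZ h2
  have hi0 := hZ.hi0
  have hprev0 : Z.prev z.1 w ≠ 0 := by omega
  have hprev := Nat.findGreatest_of_ne_zero (P := fun i' => i' < z.1 ∧ Z.nd i' w)
    (n := z.1) (m := Z.prev z.1 w) rfl hprev0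
  have hb : Z.hasNb z.1 w ∧ Z.hasNb (Z.nb z.1 w) w := by
    by_contra hcon
    unfold HDx529.Y3 at hYt
    rw [if_neg hcon] at hYt
    linarith
  obtain ⟨p1, _, p3⟩ := GWbirthx33.nb_spec hb.1
  obtain ⟨q1, _, q3⟩ := GWbirthx33.nb_spec hb.2
  have hi1 : n.1 < Z.nb z.1 w := by
    by_contra hcon
    have h6 := le_bi (not_lt.1 hcon) p3
    omega
  refine ⟨a1, a2, by omega, h3, h4, hpz.symm, ⟨_, hprev.1, hprev.2⟩,
    Z.nb z.1 w, Z.nb (Z.nb z.1 w) w, hi1, q1, p3, q3, fun i hi => ?_⟩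
  unfold HDx529.Y3 at hYt
  rw [if_pos hb] at hYt
  have h7 := GWbirthx33.Wp_le (Z := Z) (w := w) (hZ.hcut hi)
    (le_refl (Z.cut (Z.nb (Z.nb z.1 w) w)))
  linarith

/-! ### the mass bound -/

/-- masses of sets of words with small payment over one prefix -/
lemma mass_small (hZ : Z.Ok) {K C1 c KE Δ : ℝ} (hKE : 0 ≤ KE) (hC1 : 0 ≤ C1)
    (hθm : ∀ i j, Z.i0 ≤ i → i ≤ j → Z.θ i ≤ Z.θ j) (hH : HypS Z C1 c KE) (hΔ : 0 ≤ Δ) (hc : 0 ≤ c)
    (hnum : ∀ p : ℕ, Z.i0 ≤ p → Δ * (Z.θ p ^ (-c) + (2 : ℝ) ^ (-(c * p))) + KE / ((p : ℝ) + 1) ≤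
      K / ((p : ℝ) + 1))
    {i n : ℕ} {AA : Finset ℝ} (hAA : (AA.card : ℝ) ≤ Δ) {t : ℝ} (ht0 : 0 < t) (ht1 : t ≤ 1 / 2)
    (U : Finset ℕ) (hU : ∀ w ∈ U, w ∣ Z.N ∧ Z.nd i w ∧ low (Z.cut i) w = n ∧ Tgt Z AA i w ∧
      ∃ p, Z.i0 ≤ p ∧ p ≤ i ∧ K / ((p : ℝ) + 1) ≤ t ∧ ¬ On (Z.θ p) (Z.yy i w) (Z.tt i w) ∧
        ∃ b1 b2, i < b1 ∧ b1 < b2 ∧ Z.birth b1 w ∧ Z.birth b2 w ∧
          1 - Z.Wp (Z.cut i) (Z.cut b2) w ≤ t) :
    ∑ w ∈ U, nu Z.N w ≤ 2 * C1 * t * nu (low (Z.cut i) Z.N) n := by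
  classical
  rcases U.eq_empty_or_nonempty with hE | ⟨w0, hw0⟩
  · rw [hE, sum_empty]
    have := nu_nonneg (low (Z.cut i) Z.N) n
    positivity
  obtain ⟨-, -, -, -, q, hq1, hq2, hq3, -⟩ := hU w0 hw0
  have hex : ∃ p : ℕ, Z.i0 ≤ p ∧ K / ((p : ℝ) + 1) ≤ t := ⟨q, hq1, hq3⟩
  set p0 := Nat.find hex with hp0
  obtain ⟨hp1, hp2⟩ := Nat.find_spec hex
  have hpi : p0 ≤ i := (Nat.find_min' hex ⟨hq1, hq3⟩).trans hq2
  have hθ1 : 1 < Z.θ p0 := hZ.hθ _ hp1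
  have hsub : U ⊆ Z.N.divisors.filter fun w => Evt Z AA (Z.θ p0) t i n w := by
    intro w hw
    obtain ⟨h1, h2, h3, h4, p, h5, h6, h7, h8, b1, b2, h9, h10, h11, h12, h13⟩ := hU w hw
    rw [mem_filter, Nat.mem_divisors]
    refine ⟨⟨h1, hZ.hN.ne'⟩, h2, h3, h4, fun hon => h8 ?_, b1, b2, h9, h10, h11, h12, h13⟩
    exact hon.mono (hθm _ _ hp1 (Nat.find_min' hex ⟨h5, h7⟩))
  have hmain := hH i n AA (Z.θ p0) t (hp1.trans hpi) hθ1.le (hθm _ _ hp1 hpi) ht0.le ht1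
  refine (sum_le_sum_of_subset_of_nonneg hsub fun w _ _ => nu_nonneg _ _).trans
    (hmain.trans ?_)
  refine mul_le_mul_of_nonneg_right ?_ (nu_nonneg _ _)
  have h2i : (2 : ℝ) ^ (-(c * i)) ≤ (2 : ℝ) ^ (-(c * p0)) := by
    refine Real.rpow_le_rpow_of_exponent_le (by norm_num) ?_
    have : (p0 : ℝ) ≤ i := by exact_mod_cast hpi
    have := mul_le_mul_of_nonneg_left this hc
    linarith
  have h1i : KE / ((i : ℝ) + 1) ≤ KE / ((p0 : ℝ) + 1) := by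
    refine div_le_div_of_nonneg_left hKE (by positivity) ?_
    have : (p0 : ℝ) ≤ i := by exact_mod_cast hpi
    linarith
  have hθp : 0 ≤ Z.θ p0 ^ (-c) := Real.rpow_nonneg (by linarith) _
  have h2p : 0 ≤ (2 : ℝ) ^ (-(c * i)) := Real.rpow_nonneg (by norm_num) _
  have h3 : (AA.card : ℝ) * (Z.θ p0 ^ (-c) + (2 : ℝ) ^ (-(c * i))) ≤
      Δ * (Z.θ p0 ^ (-c) + (2 : ℝ) ^ (-(c * p0))) := by
    refine mul_le_mul hAA (by linarith) (by linarith) hΔ
  have h4 := hnum p0 hp1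
  have h5 : t + (AA.card : ℝ) * (Z.θ p0 ^ (-c) + (2 : ℝ) ^ (-(c * i))) + KE / ((i : ℝ) + 1) ≤
      2 * t := by linarith
  calc C1 * (t + AA.card * (Z.θ p0 ^ (-c) + (2 : ℝ) ^ (-(c * i))) + KE / ((i : ℝ) + 1))
      ≤ C1 * (2 * t) := mul_le_mul_of_nonneg_left h5 hC1
    _ = 2 * C1 * t := by ring

/-! ### the multiplicities -/

section main

variable {R : Node → Node → Prop} {y : Node → ℕ → ℝ} {K C1 c KE Δ : ℝ}

/-- first order -/
lemma H1_aux (hZ : Z.Ok) (hR : RelP Z R Δ) (hP : Pay Z K y) (hKE : 0 ≤ KE) (hC1 : 1 ≤ C1) (hΔ : 2 ≤ Δ) (hc : 0 ≤ c)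
    (hθm : ∀ i j, Z.i0 ≤ i → i ≤ j → Z.θ i ≤ Z.θ j) (hH : HypS Z C1 c KE)
    (hnum : ∀ p : ℕ, Z.i0 ≤ p → Δ * (Z.θ p ^ (-c) + (2 : ℝ) ^ (-(c * p))) + KE / ((p : ℝ) + 1) ≤
      K / ((p : ℝ) + 1)) {z n : Node} (hz : z ∈ Z.Zs) (hn : n ∈ Z.Nd z) {t : ℝ} (ht : 0 < t) :
    ∑ z' ∈ (gnY Z R y).Zs, ∑ n' ∈ (gnY Z R y).Out z n z',
      ∑ w ∈ ((gnY Z R y).S z' n').filter (fun w => (gnY Z R y).y' z' w ≤ t), nu Z.N w ≤
      4 * C1 * t * Z.g n := by
  classical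
  set G := gnY Z R y with hG
  set U : Finset ℕ := Z.N.divisors.filter fun w => (GN.pairs1 G z n t w).Nonempty with hUdef
  have hpair : ∀ {w : ℕ} {x : (_ : Node) × Node}, x ∈ GN.pairs1 G z n t w →
      x.2 ∈ Z.Nd x.1 ∧ R n x.2 ∧ w ∈ Z.S x.2 ∧ y x.1 w ≤ t := by
    intro w x hx
    unfold GN.pairs1 at hx
    rw [mem_filter, mem_sigma] at hx
    obtain ⟨⟨-, h2⟩, h3, h4⟩ := hx
    unfold GN.Out at h2
    rw [mem_filter] at h2
    exact ⟨h2.1, h2.2, h3, h4⟩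
  have hmem : ∀ w, (GN.pairs1 G z n t w).Nonempty → w ∈ U := by
    intro w hw
    obtain ⟨x, hx⟩ := hw
    rw [hUdef, mem_filter, Nat.mem_divisors]
    exact ⟨⟨(low_node hZ (hpair hx).2.2.1).1, hZ.hN.ne'⟩, x, hx⟩
  have hcard : ∀ w ∈ U, ((GN.pairs1 G z n t w).card : ℝ) ≤ 1 := by
    intro w _
    have : (GN.pairs1 G z n t w).card ≤ 1 := by
      rw [Finset.card_le_one]
      intro x hx y hy
      obtain ⟨a1, a2, a3, -⟩ := hpair hx
      obtain ⟨b1, b2, b3, -⟩ := hpair hy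
      obtain ⟨-, -, -, c1⟩ := low_node hZ a3
      obtain ⟨-, -, -, c2⟩ := low_node hZ b3
      have e1 : x.2.1 = y.2.1 := (hR.idx a2).1.symm.trans (hR.idx b2).1
      have e2 : x.2 = y.2 := by rw [← c1, ← c2, e1]
      have e3 : x.1 = y.1 := by
        rw [← (Nd_all hZ a1 a3).1, ← (Nd_all hZ b1 b3).1, e1]
      exact Sigma.ext e3 (heq_of_eq e2)
    exact_mod_cast this
  obtain ⟨AA, hAA, hAA2⟩ := hR.tgtO n
  have hmass : ∑ w ∈ U, nu Z.N w ≤ 2 * C1 * t * Z.g n := by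
    by_cases ht1 : t ≤ 1 / 2
    · refine mass_small (n := n.2.1) hZ hKE (by linarith) hθm hH (by linarith) hc hnum hAA ht ht1 U ?_
      intro w hw
      rw [hUdef, mem_filter] at hw
      obtain ⟨x, hx⟩ := hw.2
      obtain ⟨a1, a2, a3, a4⟩ := hpair hx
      obtain ⟨b1, b2, b3, b4⟩ := low_node hZ a3
      obtain ⟨i1, i2⟩ := hR.idx a2
      obtain ⟨c1, c2, c3, c4, c5, c6, c7, β1, β2, d1, d2, d3, d4, d5⟩ := small hZ hP ht1 a1 a3 a4
      have htg := hAA2 _ a2 w a3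
      rw [← i1] at b2 b3 c4 d1 htg
      rw [← i2] at b3
      refine ⟨b1, b2, b3, htg, Z.pz x.1, c1, by omega, c2, ?_, β1, β2, d1, d2, d3, d4, d5 _ (by omega)⟩
      have := GWbirthx33.not_on_later hZ b1 c5 c7 c4
      rwa [c6] at this
    · have h1 : ∑ w ∈ U, nu Z.N w ≤ Z.g n := by
        refine mass_prefix (n := n.2.1) hZ U ?_
        intro w hw
        rw [hUdef, mem_filter] at hw
        obtain ⟨x, hx⟩ := hw.2
        obtain ⟨a1, a2, a3, a4⟩ := hpair hx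
        obtain ⟨b1, b2, b3, b4⟩ := low_node hZ a3
        obtain ⟨i1, i2⟩ := hR.idx a2
        rw [← i1, ← i2] at b3
        exact ⟨b1, b3⟩
      have hg := (g_pos hZ hn).le
      have ht2 : 1 / 2 < t := not_le.1 ht1
      have : 1 ≤ 2 * C1 * t := by nlinarith
      nlinarith
  refine (H1_of_mult G (fun _ => nu Z.N) (nu Z.N) (fun w => nu_nonneg _ _) (fun _ _ => le_rfl)
    (z := z) (n := n) (t := t) (μ := 1) zero_le_one U hmem hcard hmass).trans ?_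
  have hg := (g_pos hZ hn).le
  have : 0 ≤ 2 * C1 * t * Z.g n := by positivity
  linarith

/-- one node -/
lemma H0_aux (hZ : Z.Ok) (hP : Pay Z K y) (hKE : 0 ≤ KE) (hC1 : 1 ≤ C1) (hΔ : 2 ≤ Δ) (hc : 0 ≤ c)
    (hθm : ∀ i j, Z.i0 ≤ i → i ≤ j → Z.θ i ≤ Z.θ j) (hH : HypS Z C1 c KE)
    (hnum : ∀ p : ℕ, Z.i0 ≤ p → Δ * (Z.θ p ^ (-c) + (2 : ℝ) ^ (-(c * p))) + KE / ((p : ℝ) + 1) ≤
      K / ((p : ℝ) + 1)) {z n : Node} (hn : n ∈ Z.Nd z) {t : ℝ} (ht : 0 < t) :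
    ∑ w ∈ (Z.S n).filter (fun w => y z w ≤ t), nu Z.N w ≤ 4 * C1 * t * Z.g n := by
  classical
  have hg := (g_pos hZ hn).le
  have key : ∑ w ∈ (Z.S n).filter (fun w => y z w ≤ t), nu Z.N w ≤ 2 * C1 * t * Z.g n := by
    by_cases ht1 : t ≤ 1 / 2
    · obtain ⟨AA, hAA, hAA2⟩ := HypWx473.two_targets hZ n
      have hAA' : (AA.card : ℝ) ≤ Δ := by
        have : (AA.card : ℝ) ≤ 2 := by exact_mod_cast hAA
        linarith
      refine mass_small (n := n.2.1) hZ hKE (by linarith) hθm hH (by linarith) hc hnum hAA' ht ht1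
        _ ?_
      intro w hw
      rw [mem_filter] at hw
      obtain ⟨hwS, hwy⟩ := hw
      obtain ⟨b1, b2, b3, b4⟩ := low_node hZ hwS
      obtain ⟨c1, c2, c3, c4, c5, c6, c7, β1, β2, d1, d2, d3, d4, d5⟩ := small hZ hP ht1 hn hwS hwy
      refine ⟨b1, b2, b3, hAA2 w hwS, Z.pz z, c1, by omega, c2, ?_, β1, β2, d1, d2, d3, d4,
        d5 _ (by omega)⟩
      have := GWbirthx33.not_on_later hZ b1 c5 c7 c4
      rwa [c6] at this
    · have h1 : ∑ w ∈ (Z.S n).filter (fun w => y z w ≤ t), nu Z.N w ≤ Z.g n := by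
        refine mass_prefix (n := n.2.1) hZ _ ?_
        intro w hw
        obtain ⟨b1, b2, b3, b4⟩ := low_node hZ (mem_filter.1 hw).1
        exact ⟨b1, b3⟩
      have ht2 : 1 / 2 < t := not_le.1 ht1
      have : 1 ≤ 2 * C1 * t := by nlinarith
      nlinarith
  have : 0 ≤ 2 * C1 * t * Z.g n := by positivity
  linarith

/-- second order -/
lemma H2_aux (hZ : Z.Ok) (hθ : ∀ i, Z.i0 ≤ i → 128 * Z.θ i ^ 2 ≤ 2 ^ i) (hR : RelP Z R Δ)
    (hP : Pay Z K y) (hKE : 0 ≤ KE) (hC1 : 1 ≤ C1) (hΔ : 2 ≤ Δ) (hc : 0 ≤ c)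
    (hθm : ∀ i j, Z.i0 ≤ i → i ≤ j → Z.θ i ≤ Z.θ j) (hH : HypS Z C1 c KE)
    (hnum : ∀ p : ℕ, Z.i0 ≤ p → Δ * (Z.θ p ^ (-c) + (2 : ℝ) ^ (-(c * p))) + KE / ((p : ℝ) + 1) ≤
      K / ((p : ℝ) + 1)) {z' m : Node} (hz : z' ∈ Z.Zs) (hm : m ∈ Z.Nd z') {t : ℝ} (ht : 0 < t) :
    ∑ n' ∈ (gnY Z R y).Bl z' m, ∑ z ∈ (gnY Z R y).Zs, ∑ n ∈ (gnY Z R y).In z' n' z,
      ∑ w ∈ ((gnY Z R y).A z n).filter (fun w => (gnY Z R y).y z w ≤ t), nu Z.N w ≤
      4 * C1 * t * Z.g m := by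
  classical
  set G := gnY Z R y with hG
  set U : Finset ℕ := Z.N.divisors.filter fun w => (GN.pairs2 G z' m t w).Nonempty with hUdef
  have hpair : ∀ {w : ℕ} {x : (_ : Node) × (_ : Node) × Node}, x ∈ GN.pairs2 G z' m t w →
      x.1 ∈ Z.Nd z' ∧ m.1 ≤ x.1.1 ∧ Z.S x.1 ⊆ Z.S m ∧ (Z.S x.1).Nonempty ∧
      x.2.2 ∈ Z.Nd x.2.1 ∧ R x.2.2 x.1 ∧ w ∈ Z.A x.2.1 x.2.2 ∧ w ∈ Z.S x.2.2 ∧
      y x.2.1 w ≤ t := by
    intro w x hx
    unfold GN.pairs2 at hx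
    rw [mem_filter, mem_sigma, mem_sigma] at hx
    obtain ⟨⟨h1, -, h2⟩, h3, h4⟩ := hx
    unfold GN.Bl at h1
    unfold GN.In at h2
    rw [mem_filter] at h1 h2
    exact ⟨h1.1, h1.2.1, h1.2.2.1, h1.2.2.2, h2.1, h2.2, h3, A_sub _ _ h3, h4⟩
  -- the prefix at `m`
  have hpre : ∀ {w : ℕ} {x : (_ : Node) × (_ : Node) × Node}, x ∈ GN.pairs2 G z' m t w →
      Z.nd m.1 w ∧ low (Z.cut m.1) w = m.2.1 := by
    intro w x hx
    obtain ⟨h1, h2, h3, ⟨u, hu⟩, h5, h6, -, h7, -⟩ := hpair hx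
    obtain ⟨-, a2, a3, -⟩ := low_node hZ h7
    obtain ⟨-, b2, b3, -⟩ := low_node hZ hu
    obtain ⟨-, c2, c3, -⟩ := low_node hZ (h3 hu)
    obtain ⟨i1, i2⟩ := hR.idx h6
    have e1 : low (Z.cut x.1.1) w = low (Z.cut x.1.1) u := by
      rw [b3, ← i2, ← i1, a3]
    have e2 := low_congr hZ h2 e1
    exact ⟨(nd_congr' e2).2 c2, e2.trans c3⟩
  have hmem : ∀ w, (GN.pairs2 G z' m t w).Nonempty → w ∈ U := by
    intro w hw
    obtain ⟨x, hx⟩ := hw
    rw [hUdef, mem_filter, Nat.mem_divisors]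
    exact ⟨⟨(low_node hZ (hpair hx).2.2.2.2.2.2.2.1).1, hZ.hN.ne'⟩, x, hx⟩
  -- multiplicity
  have hcard : ∀ w ∈ U, ((GN.pairs2 G z' m t w).card : ℝ) ≤ 2 := by
    intro w _
    have hinj : Set.InjOn (fun x : (_ : Node) × (_ : Node) × Node => decide (x.2.1.1 ≤ m.1))
        (GN.pairs2 G z' m t w : Set ((_ : Node) × (_ : Node) × Node)) := by
      intro x hx y hy hxy
      have hx' := hpair (mem_coe.1 hx)
      have hy' := hpair (mem_coe.1 hy)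
      obtain ⟨x1, x2, x3, x4, x5, x6, x7, x8, -⟩ := hx'
      obtain ⟨y1, y2, y3', y4, y5, y6, y7, y8, -⟩ := hy'
      obtain ⟨px, -⟩ := hpre (mem_coe.1 hx)
      obtain ⟨cx1, cx2, cx3, cx4, cx5⟩ := Nd_all hZ x5 x8
      obtain ⟨cy1, cy2, cy3, cy4, cy5⟩ := Nd_all hZ y5 y8
      obtain ⟨ix1, ix2⟩ := hR.idx x6
      obtain ⟨iy1, iy2⟩ := hR.idx y6
      -- the zones agree
      have hzz : x.2.1 = y.2.1 := by
        have hlab : ∀ {a : Node}, w ∈ Z.S a → Z.lab a.1 w = a := fun h => ((mem_S hZ).1 h).2.2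
        have h1 : x.2.1.1 = y.2.1.1 := by
          simp only [decide_eq_decide] at hxy
          by_cases hle : x.2.1.1 ≤ m.1
          · have hle' := hxy.1 hle
            -- both are the last birth up to `m`
            have a1 : Z.bi m.1 w = x.2.1.1 := by
              refine le_antisymm ?_ (le_bi hle cx4)
              rw [← cx5]
              exact le_bi ((bi_le _ _).trans (by omega)) (birth_bi px)
            have a2 : Z.bi m.1 w = y.2.1.1 := by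
              refine le_antisymm ?_ (le_bi hle' cy4)
              rw [← cy5]
              exact le_bi ((bi_le _ _).trans (by omega)) (birth_bi px)
            rw [← a1, a2]
          · have hle' : ¬ y.2.1.1 ≤ m.1 := fun h => hle (hxy.2 h)
            obtain ⟨a1, -⟩ := hR.one x5 x1 hm x2 x3 x4 x6 x8 (not_le.1 hle)
            obtain ⟨b1, -⟩ := hR.one y5 y1 hm y2 y3' y4 y6 y8 (not_le.1 hle')
            rw [pz_eq hZ cx2] at a1
            rw [pz_eq hZ cy2] at b1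
            have p1 := (ZCellx60.prev_spec (Z := Z) (j := x.2.1.1) (w := w)
              ⟨m.1, not_le.1 hle, px⟩).2.2
            have p2 := (ZCellx60.prev_spec (Z := Z) (j := y.2.1.1) (w := w)
              ⟨m.1, not_le.1 hle', px⟩).2.2
            rcases lt_trichotomy x.2.1.1 y.2.1.1 with h | h | h
            · have := p2 _ h cx4.1
              omega
            · exact h
            · have := p1 _ h cy4.1
              omega
        rw [← hlab cx2, ← hlab cy2, h1]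
      -- the nodes agree
      have hnn : x.2.2 = y.2.2 := by
        by_contra hne
        have := A_disj hZ x.2.1 x.2.2 x5 y.2.2 (by rw [hzz]; exact y5) hne
        refine disjoint_left.1 this x7 ?_
        rw [hzz]; exact y7
      have hn'n' : x.1 = y.1 := by
        refine ZCellx60.cell_unique hZ hθ x1 y1 ?_ ?_
        · rw [← ix1, ← iy1, hnn]
        · rw [← ix2, ← iy2, hnn]
      refine Sigma.ext hn'n' (heq_of_eq (Sigma.ext hzz (heq_of_eq hnn)))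
    have h2 := Finset.card_le_card_of_injOn (s := GN.pairs2 G z' m t w) (t := (univ : Finset Bool))
      (fun x : (_ : Node) × (_ : Node) × Node => decide (x.2.1.1 ≤ m.1)) (fun _ _ => mem_univ _) hinj
    have h3 : (univ : Finset Bool).card = 2 := rfl
    rw [h3] at h2
    exact_mod_cast h2
  obtain ⟨AA, hAA, hAA2⟩ := hR.tgtI m
  have hmass : ∑ w ∈ U, nu Z.N w ≤ 2 * C1 * t * Z.g m := by
    by_cases ht1 : t ≤ 1 / 2
    · refine mass_small (n := m.2.1) hZ hKE (by linarith) hθm hH (by linarith) hc hnum hAA ht ht1 U ?_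
      intro w hw
      rw [hUdef, mem_filter] at hw
      obtain ⟨x, hx⟩ := hw.2
      obtain ⟨x1, x2, x3, x4, x5, x6, x7, x8, x9⟩ := hpair hx
      obtain ⟨px1, px2⟩ := hpre hx
      obtain ⟨b1, b2, b3, b4⟩ := low_node hZ x8
      obtain ⟨i1, i2⟩ := hR.idx x6
      obtain ⟨c1, c2, c3, c4, c5, c6, c7, β1, β2, d1, d2, d3, d4, d5⟩ := small hZ hP ht1 x5 x8 x9
      have htg := hAA2 _ _ x6 x2 x3 x4 w x8 px1
      refine ⟨b1, px1, px2, htg, Z.pz x.2.1, c1, ?_, c2, ?_, β1, β2, by omega, d2, d3, d4, d5 _ ?_⟩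
      · by_cases hle : x.2.1.1 ≤ m.1
        · omega
        · exact (hR.one x5 x1 hm x2 x3 x4 x6 x8 (not_le.1 hle)).1.le
      · by_cases hle : x.2.1.1 ≤ m.1
        · have := GWbirthx33.not_on_later hZ b1 c5 c7 hle
          rwa [c6] at this
        · obtain ⟨e1, e2⟩ := hR.one x5 x1 hm x2 x3 x4 x6 x8 (not_le.1 hle)
          rw [e1]; exact e2
      · by_cases hle : x.2.1.1 ≤ m.1
        · omega
        · exact (hR.one x5 x1 hm x2 x3 x4 x6 x8 (not_le.1 hle)).1.le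
    · have h1 : ∑ w ∈ U, nu Z.N w ≤ Z.g m := by
        refine mass_prefix (n := m.2.1) hZ U ?_
        intro w hw
        rw [hUdef, mem_filter] at hw
        obtain ⟨x, hx⟩ := hw.2
        exact ⟨(low_node hZ (hpair hx).2.2.2.2.2.2.2.1).1, (hpre hx).2⟩
      have hg := (g_pos hZ hm).le
      have ht2 : 1 / 2 < t := not_le.1 ht1
      have : 1 ≤ 2 * C1 * t := by nlinarith
      nlinarith
  refine (H2_of_mult G (fun _ => nu Z.N) (nu Z.N) (fun w => nu_nonneg _ _) (fun _ _ => le_rfl)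
    (z' := z') (m := m) (t := t) (μ := 2) zero_le_two U hmem hcard hmass).trans ?_
  linarith

/-- **`GN.Ok` over the world** -/
theorem ok_of_pay (hZ : Z.Ok) (hθ : ∀ i, Z.i0 ≤ i → 128 * Z.θ i ^ 2 ≤ 2 ^ i) (hR : RelP Z R Δ)
    (hP : Pay Z K y) (hKE : 0 ≤ KE) (hC1 : 1 ≤ C1) (hΔ : 2 ≤ Δ) (hc : 0 ≤ c)
    (hθm : ∀ i j, Z.i0 ≤ i → i ≤ j → Z.θ i ≤ Z.θ j) (hH : HypS Z C1 c KE)
    (hnum : ∀ p : ℕ, Z.i0 ≤ p → Δ * (Z.θ p ^ (-c) + (2 : ℝ) ^ (-(c * p))) + KE / ((p : ℝ) + 1) ≤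
      K / ((p : ℝ) + 1)) :
    (gnY Z R y).Ok (fun _ => nu Z.N) (fun _ => nu Z.N) (4 * C1) Δ where
  C0 := by linarith
  Δ1 := by linarith
  lam := fun z _ => lamNd hZ z
  g0 := fun z _ n hn => g_pos hZ hn
  gR := fun z _ n _ z' _ n' _ h => g_eq (hR.idx h)
  f0 := fun _ w => nu_nonneg _ _
  f0' := fun _ w => nu_nonneg _ _
  y0 := fun z w => hP.pos z w
  y0' := fun z w => hP.pos z w
  deg := by
    classical
    intro z hz n hn
    have hdisj : Set.PairwiseDisjoint (↑(gnY Z R y).Zs : Set Node)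
        (fun z' => (gnY Z R y).Out z n z') := by
      intro z1 _ z2 _ hne
      rw [Function.onFun, disjoint_left]
      intro n' h1 h2
      unfold GN.Out at h1 h2
      rw [mem_filter] at h1 h2
      obtain ⟨w, hw, hw1⟩ := (mem_Nd_S hZ).1 h1.1
      exact hne (hw1.symm.trans (Nd_all hZ h2.1 hw).1)
    have h1 := card_biUnion hdisj
    have h2 := hR.deg n ((gnY Z R y).Zs.biUnion fun z' => (gnY Z R y).Out z n z') (by
      intro ν' hν'
      rw [mem_biUnion] at hν'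
      obtain ⟨z', _, h3⟩ := hν'
      unfold GN.Out at h3
      exact (mem_filter.1 h3).2)
    rw [h1] at h2
    push_cast at h2
    exact h2
  H0 := fun z' _ n' hn' t ht => H0_aux hZ hP hKE hC1 hΔ hc hθm hH hnum hn' ht
  H1 := fun z hz n hn t ht => H1_aux hZ hR hP hKE hC1 hΔ hc hθm hH hnum hz hn ht
  H2 := fun z' hz' m hm t ht => H2_aux hZ hθ hR hP hKE hC1 hΔ hc hθm hH hnum hz' hm ht

end main



/-! ### the relation of `RelDeg_15` -/

open Crest.Agent.R4C.RelDegx15 (Rel Dl)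

/-- **the properties of the relation on nodes** -/
theorem relP_rel (hZ : Z.Ok) (hσ : Z.σ ≤ 1) {W : Finset (ℕ × ℕ)} (hW : ∀ p ∈ W, 0 < p.1 ∧ 0 < p.2)
    {R0 D Δ : ℝ} (hR : 0 ≤ R0) (hG : VDepthx952.Grow Z D)
    (hD : ∀ p ∈ W, 64 * ((p.1 : ℝ) + p.2 + R0) ≤ D)
    (hΔ1 : 3 * (Dl W R0 : ℝ) ≤ Δ) (hΔ2 : 3 * (Dl (W.image Prod.swap) R0 : ℝ) ≤ Δ) :
    RelP Z (Rel Z W R0) Δ where
  idx := fun h => ⟨h.1, h.2.1⟩
  deg := by
    classical
    intro ν T hT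
    have h1 := RelDegx15.card_rel_le hZ hσ (fun p hp => (hW p hp).2) hR T ν
    have h2 : (T.filter fun ν' => Rel Z W R0 ν ν') = T := filter_true_of_mem hT
    rw [h2] at h1
    have h3 : (T.card : ℝ) ≤ Dl W R0 := by exact_mod_cast h1
    have h4 : (0 : ℝ) ≤ Dl W R0 := Nat.cast_nonneg _
    linarith
  tgtO := by
    intro ν
    obtain ⟨AA, h1, h2⟩ := RelDegx15.exists_targets hZ hσ (fun p hp => (hW p hp).2) hR ν
    refine ⟨AA, ?_, fun ν' hν' w hw => ?_⟩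
    · have h3 : (AA.card : ℝ) ≤ 3 * (Dl W R0 : ℝ) := by exact_mod_cast h1
      linarith
    · have h3 := h2 ν' hν' w hw
      rw [hν'.1] at h3
      exact h3
  tgtI := by
    classical
    intro m
    have hWs : ∀ p ∈ W.image Prod.swap, 0 < p.2 := by
      intro p hp
      obtain ⟨q, hq, rfl⟩ := mem_image.1 hp
      exact (hW q hq).1
    obtain ⟨AA, h1, h2⟩ := RelDegx15.exists_targets hZ hσ hWs hR m
    refine ⟨AA, ?_, fun n n' hnn hm hsub hne w hw hnd => ?_⟩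
    · have h3 : (AA.card : ℝ) ≤ 3 * (Dl (W.image Prod.swap) R0 : ℝ) := by exact_mod_cast h1
      linarith
    · obtain ⟨w', hw'⟩ := hne
      obtain ⟨a1, a2, a3⟩ := hnn.down_node hZ hm hw hw' (hsub hw')
      exact h2 _ (RelDegx15.rel_swap hZ a3) w a2
  one := by
    intro z z' m n n' w hn hn' hm hmn hsub _ hnn hw hlt
    obtain ⟨e1, e2, w1, hw1, w1', hw1', p, hp, h, hl⟩ := hnn
    obtain ⟨-, -, hc⟩ := VDepthx952.left_zone hZ (u := p.1) (v := p.2) (hW p hp).1 hG (hD p hp) hn hn'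
      hm hmn hsub ⟨e1, e2, w1, hw1, w1', hw1', h, hl⟩ hw
    rcases hc with hc | hc
    · exfalso
      have h1 : z.1 = Z.bi m.1 w := by rw [← hc]; rfl
      have h2 := bi_le (Z := Z) m.1 w
      omega
    · exact ⟨hc.2.2.2.2.2.1, hc.2.2.2.2.2.2⟩

/-! ### the form of `HDdef_529` -/

lemma pay_529 (hZ : Z.Ok) {KV : ℝ} (hKV : 1 ≤ KV) :
    Pay Z KV (fun z w => HDx529.Y3 Z z w + HDx529.kapV Z KV z) where
  pos := fun z w => by
    have h1 : 0 ≤ HDx529.Y3 Z z w := by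
      unfold HDx529.Y3
      split_ifs
      · linarith [HDeltax60.Wp_le_one (Z := Z) (Z.cut (Z.pz z)) (Z.cut (Z.nb (Z.nb z.1 w) w)) w]
      · exact zero_le_one
    have h2 : 0 < HDx529.kapV Z KV z := by
      unfold HDx529.kapV
      refine lt_min one_pos (div_pos (by linarith) ?_)
      positivity
    linarith
  small := by
    classical
    intro z n w t hn hw ht hy
    have h1 : 0 ≤ HDx529.Y3 Z z w := by
      unfold HDx529.Y3
      split_ifs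
      · linarith [HDeltax60.Wp_le_one (Z := Z) (Z.cut (Z.pz z)) (Z.cut (Z.nb (Z.nb z.1 w) w)) w]
      · exact zero_le_one
    have h2 : 0 < HDx529.kapV Z KV z := by
      unfold HDx529.kapV
      refine lt_min one_pos (div_pos (by linarith) ?_)
      positivity
    have h3 : HDx529.kapV Z KV z ≤ t := by linarith
    have h4 : KV / ((Z.pz z : ℝ) + 1) ≤ t := by
      unfold HDx529.kapV at h3
      rcases min_le_iff.1 h3 with h | h
      · linarith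
      · exact h
    refine ⟨by linarith, ?_, h4⟩
    by_contra hcon
    have hS := (Nd_all hZ hn hw).2.1
    have h0 : Z.pz z = 0 := by
      rw [pz_eq hZ hS]
      by_contra h5
      have hprev := Nat.findGreatest_of_ne_zero (P := fun i' => i' < z.1 ∧ Z.nd i' w)
        (n := z.1) (m := Z.prev z.1 w) rfl h5
      have h6 := hprev.2.1
      rw [pz_eq hZ hS] at hcon
      exact hcon h6
    rw [h0] at h4
    norm_num at h4
    linarith

/-- `HypT` of `HDdef_529` gives the hypothesis used here -/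
lemma hypS_529 (hZ : Z.Ok) (hθ : ∀ i, Z.i0 ≤ i → 128 * Z.θ i ^ 2 ≤ 2 ^ i) {C1 c KE : ℝ}
    (hC1 : 0 ≤ C1) (h : HDx529.HypT Z C1 c KE) : HypS Z C1 c KE := by
  classical
  intro i n AA K0 s hi hK0 hKθ hs hs2
  have hθ1 := hZ.hθ i hi
  have h2 := hθ i hi
  have hK2 : K0 ≤ 2 ^ i := by nlinarith
  have h3 := h i n AA K0 s hi hK0 hK2 hs hs2
  have hsub : (Z.N.divisors.filter fun w => Evt Z AA K0 s i n w) ⊆ HDx529.badT Z i n AA K0 s := by
    intro w hw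
    rw [mem_filter] at hw
    obtain ⟨hw1, a1, a2, a3, a4, b1, b2, c1, c2, c3, c4, c5⟩ := hw
    unfold HDx529.badT
    rw [mem_filter]
    exact ⟨hw1, a1, a2, a3, a4, b1, b2, c1, c2, c3.1, c4, c5⟩
  refine (sum_le_sum_of_subset_of_nonneg hsub fun w _ _ => nu_nonneg _ _).trans (h3.trans ?_)
  refine mul_le_mul_of_nonneg_right ?_ (nu_nonneg _ _)
  refine mul_le_mul_of_nonneg_left ?_ hC1
  have h4 : (0 : ℝ) ≤ (AA.card : ℝ) * (2 : ℝ) ^ (-(c * i)) := by positivity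
  linarith [mul_add (AA.card : ℝ) (K0 ^ (-c)) ((2 : ℝ) ^ (-(c * i)))]

/-- **`GN.Ok` for the data of `HDdef_529` and the relation of `RelDeg_15`** -/
theorem ok_529 (hZ : Z.Ok) (hσ : Z.σ ≤ 1) {W : Finset (ℕ × ℕ)} (hW : ∀ p ∈ W, 0 < p.1 ∧ 0 < p.2)
    {R0 D Δ KV C1 c KE : ℝ} (hR : 0 ≤ R0) (hG : VDepthx952.Grow Z D)
    (hD : ∀ p ∈ W, 64 * ((p.1 : ℝ) + p.2 + R0) ≤ D)
    (hΔ : 2 ≤ Δ) (hΔ1 : 3 * (Dl W R0 : ℝ) ≤ Δ) (hΔ2 : 3 * (Dl (W.image Prod.swap) R0 : ℝ) ≤ Δ)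
    (hθ : ∀ i, Z.i0 ≤ i → 128 * Z.θ i ^ 2 ≤ 2 ^ i) (hKV : 1 ≤ KV) (hC1 : 1 ≤ C1) (hc : 0 ≤ c)
    (hKE : 0 ≤ KE) (hH : HDx529.HypT Z C1 c KE)
    (hnum : ∀ p : ℕ, Z.i0 ≤ p → Δ * (Z.θ p ^ (-c) + (2 : ℝ) ^ (-(c * p))) + KE / ((p : ℝ) + 1) ≤
      KV / ((p : ℝ) + 1)) :
    (HDx529.gn Z (Rel Z W R0) KV).Ok (fun _ => nu Z.N) (fun _ => nu Z.N) (4 * C1) Δ :=
  ok_of_pay hZ hθ (relP_rel hZ hσ hW hR hG hD hΔ1 hΔ2) (pay_529 hZ hKV) hKE hC1 hΔ hc hG.mono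
    (hypS_529 hZ hθ (by linarith) hH) hnum

end Crest.Agent.R4C.HDeltaGx60
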