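import Crest.Agent.R4C.PairR_14
import Crest.Agent.R4C.Kept_559
import Crest.Agent.R4C.TwistKK_863
import Crest.Agent.R4C.LPhi_808

/-!
# Row 4, BLOCK S5 v1 (6.1): decomposition of a labelled pair at the cut `y` (helper500, note 3383)

`b = g s`, `c = g s'`, `s, s'` coprime, good at the cut `x` (`= P0(T)`), tree labels `a/k`, `a'/k'`,
same point (`gap = 0`), all explained differing primes `≤ y ≤ x` (`Top`).

* `lab_of_TC`, `inLat` : labels and lattice relation of the low words `low x s`, `low x s'`;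
* `expl_of_r` : the primes of `r` (`low x s = k₁ r`) are explained;
* `upp_low_x` : `upp y (low x s) = upp y k₁` : in `(y, x]` only the primes of the denominators differ;
* **`kt_of`** (A) : the low words below `y` satisfy the twisted relation `LPhix808.RT`;
* **`kk_of`** (B) : the twist is in `TwistKKx863.KK` of `z0 = upp y g · upp x s`;
* **`kz_of`** (C) : `z0, z0'` is a kept pair (`Keptx559.KZ`);
* `cover_rich` : `PairRx14.cover_good` with all data (`LPair`: labels, not short, `Top`);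
* `CL` = class (L) at the cut `y`, depth in `[K, 2K]`; **`ldec`** : all conclusions (`Dec`);
* `light_of` (D) : deep for `thrS` ⇒ light at the end of the block, or the block base is tiny.
-/

set_option autoImplicit false

namespace Crest.Agent.R4C.LDecx500

open Crest.Agent.R4C.FLDefx935 Crest.Agent.R4C.BoostCx972 Crest.Agent.R4C.CrCoinx935
  Crest.Agent.R4C.S7cx14 Crest.Agent.R4C.S7dx14 Crest.Agent.R4C.Chainx81
  Crest.Agent.R4C.Cutx50 Crest.Agent.R4C.S2bx284 Crest.Agent.R4C.S2x232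
  Crest.Agent.R4C.Centx949 Crest.Agent.R4C.Pairx14

variable {M : ℕ} {F : FL M}

/-! ### multiplicativity of the cuts -/

lemma low_mul (x : ℕ) {a b : ℕ} (ha : a ≠ 0) (hb : b ≠ 0) : low x (a * b) = low x a * low x b := by
  refine Nat.eq_of_factorization_eq (low_pos _ _).ne' (mul_ne_zero (low_pos _ _).ne'
    (low_pos _ _).ne') fun p => ?_
  rw [Nat.factorization_mul (low_pos _ _).ne' (low_pos _ _).ne', Finsupp.add_apply, fact_low,
    fact_low, fact_low, Nat.factorization_mul ha hb, Finsupp.add_apply]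
  split_ifs <;> rfl

lemma upp_mul (x : ℕ) {a b : ℕ} (ha : a ≠ 0) (hb : b ≠ 0) : upp x (a * b) = upp x a * upp x b := by
  refine Nat.eq_of_factorization_eq (upp_pos _ _).ne' (mul_ne_zero (upp_pos _ _).ne'
    (upp_pos _ _).ne') fun p => ?_
  rw [Nat.factorization_mul (upp_pos _ _).ne' (upp_pos _ _).ne', Finsupp.add_apply, fact_upp,
    fact_upp, fact_upp, Nat.factorization_mul ha hb, Finsupp.add_apply]
  split_ifs <;> rfl

lemma upp_one_of {y n : ℕ} (h : ∀ p, p.Prime → p ∣ n → p ≤ y) : upp y n = 1 := by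
  refine Nat.eq_of_factorization_eq (upp_pos _ _).ne' one_ne_zero fun p => ?_
  rw [fact_upp, Nat.factorization_one, Finsupp.zero_apply]
  by_cases hp : p ≤ y
  · simp [hp]
  · rw [if_pos hp]
    by_cases hpp : p.Prime
    · exact Nat.factorization_eq_zero_of_not_dvd fun hd => hp (h p hpp hd)
    · exact Nat.factorization_eq_zero_of_not_prime _ hpp

lemma low_one_of {y n : ℕ} (h : ∀ p, p.Prime → p ∣ n → y < p) : low y n = 1 := by
  refine Nat.eq_of_factorization_eq (low_pos _ _).ne' one_ne_zero fun p => ?_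
  rw [fact_low, Nat.factorization_one, Finsupp.zero_apply]
  by_cases hp : p ≤ y
  · rw [if_pos hp]
    by_cases hpp : p.Prime
    · exact Nat.factorization_eq_zero_of_not_dvd fun hd => absurd (h p hpp hd) (by omega)
    · exact Nat.factorization_eq_zero_of_not_prime _ hpp
  · rw [if_neg hp]

/-- `low x s = low y s * upp y (low x s)` for `y ≤ x` -/
lemma low_split {x y : ℕ} (hyx : y ≤ x) (s : ℕ) : low y s * upp y (low x s) = low x s := by
  have h1 := low_mul_upp y (low_pos x s).ne'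
  rwa [low_low hyx] at h1

/-- `upp y s = upp y (low x s) * upp x s` for `y ≤ x` -/
lemma upp_split {x y s : ℕ} (hyx : y ≤ x) (hs : s ≠ 0) :
    upp y s = upp y (low x s) * upp x s := by
  have h1 := upp_mul y (low_pos x s).ne' (upp_pos x s).ne'
  rw [low_mul_upp x hs] at h1
  rw [h1]
  congr 1
  refine Nat.eq_of_factorization_eq (upp_pos _ _).ne' (upp_pos _ _).ne' fun p => ?_
  rw [fact_upp, fact_upp]
  by_cases hp : p ≤ y
  · have : p ≤ x := by omega
    simp [hp, this]
  · simp [hp]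

/-! ### labels -/

/-- coprimality of a deficit word with a small number -/
lemma coprime_ell {x k : ℕ} {c : ℕ} (hk : 0 < k) (hkx : k ≤ x) :
    Nat.Coprime (F.ell x c) k := by
  refine Nat.Coprime.symm (Nat.coprime_of_dvd fun p hp h1 h2 => ?_)
  obtain ⟨h3, _⟩ := FL.prime_dvd_ell hp h2
  have := Nat.le_of_dvd hk h1
  omega


/-- `s * f` in terms of the low word -/
lemma s_mul_fr {x g s s' : ℕ} (hM : 0 < M) (hb : g * s ∣ M) (hc : g * s' ∣ M)
    (hcop : Nat.Coprime s s') (hx : F.good x (g * s) (g * s')) {a : ℤ} {k : ℕ} (hk : 0 < k) :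
    (s : ℚ) * fr F x (g * s) a k = (low x s : ℚ) * (((F.ell x (g * s') : ℕ) * a : ℤ) : ℚ) / k := by
  have hg0 : g * s ≠ 0 := (Nat.pos_of_dvd_of_pos hb hM).ne'
  have hs : 0 < s := Nat.pos_of_ne_zero fun h => hg0 (by rw [h, mul_zero])
  have hup := upp_cof hM hb hc hcop hx
  have hl : 0 < F.lam x (g * s) := FL.lam_pos x _
  have h3 : (low x s : ℚ) * upp x s = s := by exact_mod_cast low_mul_upp x hs.ne'
  have hupQ : (upp x s : ℚ) = F.lam x (g * s) * F.ell x (g * s') := by exact_mod_cast hup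
  have hlQ : (F.lam x (g * s) : ℚ) ≠ 0 := by exact_mod_cast hl.ne'
  have hkQ : (k : ℚ) ≠ 0 := by
    have : k ≠ 0 := by omega
    exact_mod_cast this
  rw [← h3, hupQ]
  unfold fr
  push_cast
  field_simp

/-- the lattice relation of the low words -/
lemma inLat {x g s s' : ℕ} {h : ℤ} (hM : 0 < M) (hb : g * s ∣ M) (hc : g * s' ∣ M)
    (hcop : Nat.Coprime s s') (hx : F.good x (g * s) (g * s')) {a a' : ℤ} {k k' : ℕ}
    (hk : 0 < k) (hk' : 0 < k')
    (h0 : gap (fr F x (g * s) a k) (fr F x (g * s') a' k') s s' h = 0) :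
    (low x s : ℤ) * ((F.ell x (g * s') : ℕ) * a) * k' -
      (low x s' : ℤ) * ((F.ell x (g * s) : ℕ) * a') * k + h * (k * k') = 0 := by
  have e1 := s_mul_fr (F := F) hM hb hc hcop hx (a := a) hk
  have e2 := s_mul_fr (F := F) hM hc hb hcop.symm (FL.good_symm hb hc hx) (a := a') hk'
  have hkQ : (k : ℚ) ≠ 0 := by
    have : k ≠ 0 := by omega
    exact_mod_cast this
  have hkQ' : (k' : ℚ) ≠ 0 := by
    have : k' ≠ 0 := by omega
    exact_mod_cast this
  unfold BoostCx972.gap at h0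
  rw [e1, e2] at h0
  have h1 : (low x s : ℚ) * (((F.ell x (g * s') : ℕ) * a : ℤ) : ℚ) * k' -
      (low x s' : ℚ) * (((F.ell x (g * s) : ℕ) * a' : ℤ) : ℚ) * k + h * (k * k') = 0 := by
    field_simp at h0
    linear_combination h0
  exact_mod_cast h1

/-- **the primes of `r` are explained** -/
lemma expl_of_r {x g s s' : ℕ} {h : ℤ} (hM : 0 < M) (hb : g * s ∣ M) (hc : g * s' ∣ M)
    (hcop : Nat.Coprime s s') (hx : F.good x (g * s) (g * s')) {a a' : ℤ} {k k' : ℕ}
    (hk : 0 < k) (ha' : IsCoprime a' (k' : ℤ))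
    (h0 : gap (fr F x (g * s) a k) (fr F x (g * s') a' k') s s' h = 0)
    {κ k₁ k₁' r r' : ℕ} (ek : k = κ * k₁) (ek' : k' = κ * k₁') (eS : low x s = k₁ * r)
    (eS' : low x s' = k₁' * r')
    (rel : (r : ℤ) * ((F.ell x (g * s') : ℕ) * a) - r' * ((F.ell x (g * s) : ℕ) * a') + h * κ = 0)
    {p : ℕ} (hp : p.Prime) (hpr : p ∣ r) :
    p ∣ alC (g * s) (g * s') (fr F x (g * s) a k) (fr F x (g * s') a' k') := by
  have hg0 : g * s ≠ 0 := (Nat.pos_of_dvd_of_pos hb hM).ne'
  have hg0' : g * s' ≠ 0 := (Nat.pos_of_dvd_of_pos hc hM).ne'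
  have hs : 0 < s := Nat.pos_of_ne_zero fun h => hg0 (by rw [h, mul_zero])
  have hs' : 0 < s' := Nat.pos_of_ne_zero fun h => hg0' (by rw [h, mul_zero])
  have hg : 0 < g := Nat.pos_of_ne_zero fun h => hg0 (by rw [h, zero_mul])
  have hpz : Prime (p : ℤ) := Nat.prime_iff_prime_int.1 hp
  have hpS : p ∣ low x s := by rw [eS]; exact hpr.mul_left _
  have hps : p ∣ s := hpS.trans (low_dvd_self x s)
  have hpx : p ≤ x := prime_dvd_part (fun p => p ≤ x) hp hpS
  have hps' : ¬ p ∣ s' := fun hd => by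
    have := Nat.dvd_gcd hps hd
    rw [hcop.gcd_eq_one] at this
    exact hp.one_lt.ne' (Nat.dvd_one.1 this)
  have hpk : ¬ p ∣ k' := by
    intro hd
    rw [ek'] at hd
    rcases (hp.dvd_mul).1 hd with h1 | h1
    · have h2 : (p : ℤ) ∣ r' * ((F.ell x (g * s) : ℕ) * a') := by
        have e : (r' : ℤ) * ((F.ell x (g * s) : ℕ) * a') =
            r * ((F.ell x (g * s') : ℕ) * a) + h * κ := by linear_combination -rel
        rw [e]
        exact dvd_add ((Int.natCast_dvd_natCast.2 hpr).mul_right _)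
          ((Int.natCast_dvd_natCast.2 h1).mul_left _)
      rcases hpz.dvd_or_dvd h2 with h3 | h3
      · have h4 : p ∣ low x s' := by rw [eS']; exact (Int.natCast_dvd_natCast.1 h3).mul_left _
        exact hps' (h4.trans (low_dvd_self x s'))
      · rcases hpz.dvd_or_dvd h3 with h4 | h4
        · have := (FL.prime_dvd_ell hp (Int.natCast_dvd_natCast.1 h4)).1
          omega
        · have h5 : (p : ℤ) ∣ k' := by
            rw [ek']; push_cast
            exact (Int.natCast_dvd_natCast.2 h1).mul_right _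
          exact hpz.not_isUnit (ha'.isUnit_of_dvd' h4 h5)
    · have h4 : p ∣ low x s' := by rw [eS']; exact h1.mul_right _
      exact hps' (h4.trans (low_dvd_self x s'))
  set f := fr F x (g * s) a k with hf
  set f' := fr F x (g * s') a' k' with hf'
  have hden : ¬ p ∣ f'.den := by
    intro hd
    have h1 : f'.den ∣ k' * F.lam x (g * s') := fr_den_dvd a' k'
    rcases (hp.dvd_mul).1 (hd.trans h1) with h2 | h2
    · exact hpk h2
    · have := (FL.prime_dvd_lam hM hc hp h2).1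
      omega
  refine dvd_al_of_kill' hg hs hs' hcop h0 hp hps hps' hden fun c hc' => ?_
  have hκk : ¬ p ∣ κ := fun hd => hpk (by rw [ek']; exact hd.mul_right _)
  -- integer relation
  have e1 : (s : ℚ) * f = (low x s : ℚ) * (((F.ell x (g * s') : ℕ) * a : ℤ) : ℚ) / k := by
    rw [hf]; exact s_mul_fr hM hb hc hcop hx hk
  have hκ0 : (κ : ℚ) ≠ 0 := by
    have : κ ≠ 0 := fun h => hk.ne' (by rw [ek, h, zero_mul])
    exact_mod_cast this
  have hk₁0 : (k₁ : ℚ) ≠ 0 := by
    have : k₁ ≠ 0 := fun h => hk.ne' (by rw [ek, h, mul_zero])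
    exact_mod_cast this
  have hD0 : (f'.den : ℚ) ≠ 0 := by exact_mod_cast f'.den_pos.ne'
  have e2 : (r : ℤ) * ((F.ell x (g * s') : ℕ) * a) * f'.den - s' * f'.num * κ + h * κ * f'.den
      = 0 := by
    have h1 : (s : ℚ) * f - s' * f' + h = 0 := h0
    rw [e1, eS] at h1
    have h2 : f' = (f'.num : ℚ) / f'.den := (Rat.num_div_den f').symm
    have h3 : (r : ℚ) * ((F.ell x (g * s') : ℕ) * a) * f'.den - s' * f'.num * κ +
        h * κ * f'.den = 0 := by
      have h4 : ((k₁ * r : ℕ) : ℚ) * (((F.ell x (g * s') : ℕ) * a : ℤ) : ℚ) / (k : ℚ) =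
          r * ((F.ell x (g * s') : ℕ) * a) / κ := by
        rw [ek]
        push_cast
        field_simp
      rw [h4] at h1
      have h5 : (r : ℚ) * ((F.ell x (g * s') : ℕ) * a) / κ - s' * ((f'.num : ℚ) / f'.den) + h = 0 := by
        rw [← h2]; exact h1
      field_simp at h5
      linear_combination h5
    exact_mod_cast h3
  have h6 : (p : ℤ) ∣ κ * (f'.den * (h + s' * c)) := by
    have e : (κ : ℤ) * (f'.den * (h + s' * c)) = κ * s' * (f'.num + f'.den * c) -
        r * ((F.ell x (g * s') : ℕ) * a) * f'.den := by linear_combination e2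
    rw [e]
    refine dvd_sub (hc'.mul_left _) ?_
    exact ((Int.natCast_dvd_natCast.2 hpr).mul_right _).mul_right _
  rcases hpz.dvd_or_dvd h6 with h7 | h7
  · exact absurd (Int.natCast_dvd_natCast.1 h7) hκk
  · rcases hpz.dvd_or_dvd h7 with h8 | h8
    · exact absurd (Int.natCast_dvd_natCast.1 h8) hden
    · exact h8

/-- all explained differing primes are `≤ y` -/
def Top (x y g s s' : ℕ) (f f' : ℚ) : Prop :=
  ∀ p : ℕ, p.Prime → y < p → p ≤ x → ¬ p ∣ alC (g * s) (g * s') f f' ∧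
    ¬ p ∣ alC (g * s') (g * s) f' f

/-- **in `(y, x]` only the primes of the denominators differ** -/
theorem upp_low_x {x y g s s' : ℕ} {h : ℤ} (hM : 0 < M) (hb : g * s ∣ M) (hc : g * s' ∣ M)
    (hcop : Nat.Coprime s s') (hx : F.good x (g * s) (g * s')) {a a' : ℤ} {k k' : ℕ}
    (hk : 0 < k) (hk' : 0 < k') (ha : IsCoprime a (k : ℤ)) (ha' : IsCoprime a' (k' : ℤ))
    (hkx : k ≤ x) (hkx' : k' ≤ x)
    (h0 : gap (fr F x (g * s) a k) (fr F x (g * s') a' k') s s' h = 0)
    (htop : Top x y g s s' (fr F x (g * s) a k) (fr F x (g * s') a' k')) :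
    upp y (low x s) = upp y (k / Nat.gcd k k') ∧ upp y (low x s') = upp y (k' / Nat.gcd k k') ∧
      k / Nat.gcd k k' ∣ low x s ∧ k' / Nat.gcd k k' ∣ low x s' := by
  have hz := inLat hM hb hc hcop hx hk hk' h0
  have hce : IsCoprime ((F.ell x (g * s') : ℕ) * a : ℤ) (k : ℤ) :=
    ((Nat.isCoprime_iff_coprime).2 (coprime_ell hk hkx)).mul_left ha
  have hce' : IsCoprime ((F.ell x (g * s) : ℕ) * a' : ℤ) (k' : ℤ) :=
    ((Nat.isCoprime_iff_coprime).2 (coprime_ell hk' hkx')).mul_left ha'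
  obtain ⟨κ, k₁, k₁', r, r', hκ, ek, ek', hc1, eS, eS', rel⟩ :=
    KillS2x949.structure_ hk hk' hce hce' hz
  have hκ0 : 0 < κ := by rw [hκ]; exact Nat.gcd_pos_of_pos_left _ hk
  have hd : k / Nat.gcd k k' = k₁ := by
    rw [← hκ, ek]; exact Nat.mul_div_cancel_left _ hκ0
  have hd' : k' / Nat.gcd k k' = k₁' := by
    rw [← hκ, ek']; exact Nat.mul_div_cancel_left _ hκ0
  have hS := (low_pos x s).ne'
  have hS' := (low_pos x s').ne'
  rw [eS] at hS
  rw [eS'] at hS'
  have key : ∀ p : ℕ, p.Prime → p ∣ r → p ≤ y := by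
    intro p hp hpr
    by_contra hc
    have hpx : p ≤ x := prime_dvd_part (fun p => p ≤ x) hp
      (show p ∣ low x s by rw [eS]; exact hpr.mul_left _)
    exact (htop p hp (by omega) hpx).1
      (expl_of_r hM hb ‹_› hcop hx hk ha' h0 ek ek' eS eS' rel hp hpr)
  have key' : ∀ p : ℕ, p.Prime → p ∣ r' → p ≤ y := by
    intro p hp hpr
    by_contra hc
    have hpx : p ≤ x := prime_dvd_part (fun p => p ≤ x) hp
      (show p ∣ low x s' by rw [eS']; exact hpr.mul_left _)
    refine (htop p hp (by omega) hpx).2 ?_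
    exact expl_of_r ‹0 < M› ‹g * s' ∣ M› hb hcop.symm (FL.good_symm hb ‹_› hx) hk' ha
      (gap_symm h0) ek' ek eS' eS (h := -h) (by linear_combination -rel) hp hpr
  refine ⟨?_, ?_, ?_, ?_⟩
  · rw [hd, eS, upp_mul y (left_ne_zero_of_mul hS) (right_ne_zero_of_mul hS),
      upp_one_of key, mul_one]
  · rw [hd', eS', upp_mul y (left_ne_zero_of_mul hS') (right_ne_zero_of_mul hS'),
      upp_one_of key', mul_one]
  · rw [hd, eS]; exact dvd_mul_right _ _
  · rw [hd', eS']; exact dvd_mul_right _ _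

/-! ### the twisted relation of the words below `y` -/



/-! ### the high words -/

/-- **(6.1)** `upp y (g s) = κ z0` -/
lemma upp_gs {x y g s : ℕ} (hyx : y ≤ x) (hg : g ≠ 0) (hs : s ≠ 0) :
    upp y (g * s) = upp y (low x s) * (upp y g * upp x s) := by
  rw [upp_mul y hg hs, upp_split hyx hs]
  ring

lemma low_gs (y : ℕ) {g s : ℕ} (hg : g ≠ 0) (hs : s ≠ 0) : low y (g * s) = low y g * low y s :=
  low_mul y hg hs

lemma coprime_low (y : ℕ) {s s' : ℕ} (h : Nat.Coprime s s') : Nat.Coprime (low y s) (low y s') :=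
  (h.coprime_dvd_left (low_dvd_self _ _)).coprime_dvd_right (low_dvd_self _ _)

lemma coprime_upp (y : ℕ) {s s' : ℕ} (h : Nat.Coprime s s') : Nat.Coprime (upp y s) (upp y s') :=
  (h.coprime_dvd_left (upp_dvd_self _ _)).coprime_dvd_right (upp_dvd_self _ _)

/-- `gcd` of the low words -/
lemma gcd_low {y g s s' : ℕ} (hg : g ≠ 0) (hs : s ≠ 0) (hs' : s' ≠ 0) (hcop : Nat.Coprime s s') :
    Nat.gcd (low y (g * s)) (low y (g * s')) = low y g := by
  rw [low_gs y hg hs, low_gs y hg hs', Nat.gcd_mul_left, (coprime_low y hcop).gcd_eq_one, mul_one]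

/-- `gcd` of the high words -/
lemma gcd_upp {y g s s' : ℕ} (hg : g ≠ 0) (hs : s ≠ 0) (hs' : s' ≠ 0) (hcop : Nat.Coprime s s') :
    Nat.gcd (upp y (g * s)) (upp y (g * s')) = upp y g := by
  rw [upp_mul y hg hs, upp_mul y hg hs', Nat.gcd_mul_left, (coprime_upp y hcop).gcd_eq_one,
    mul_one]

/-- `gcd` of the untwisted high words -/
lemma gcd_z0 {x y g s s' : ℕ} (hcop : Nat.Coprime s s') :
    Nat.gcd (upp y g * upp x s) (upp y g * upp x s') = upp y g := by
  rw [Nat.gcd_mul_left, (coprime_upp x hcop).gcd_eq_one, mul_one]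

/-- the letters of `z0` above `x` are those of `g s` -/
lemma fact_z0 {x y g s p : ℕ} (hyx : y ≤ x) (hg : g ≠ 0) (hs : s ≠ 0) (hp : x < p) :
    (upp y g * upp x s).factorization p = (g * s).factorization p := by
  rw [Nat.factorization_mul (upp_pos _ _).ne' (upp_pos _ _).ne', Finsupp.add_apply, fact_upp,
    fact_upp, if_pos (by omega), if_pos (by omega), Nat.factorization_mul hg hs,
    Finsupp.add_apply]

/-- the letters of `z0` at or below `x` are those of `upp y g` -/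
lemma fact_z0' {x y g s p : ℕ} (hp : p ≤ x) :
    (upp y g * upp x s).factorization p = (upp y g).factorization p := by
  rw [Nat.factorization_mul (upp_pos _ _).ne' (upp_pos _ _).ne', Finsupp.add_apply, fact_upp x s,
    if_neg (by omega), add_zero]

lemma z0_dvd {x y g s : ℕ} (hM : 0 < M) (hyx : y ≤ x) (hb : g * s ∣ M) :
    upp y g * upp x s ∣ upp y M := by
  have hg0 : g * s ≠ 0 := (Nat.pos_of_dvd_of_pos hb hM).ne'
  have h1 := upp_dvd y hM.ne' hb
  rw [upp_gs hyx (left_ne_zero_of_mul hg0) (right_ne_zero_of_mul hg0)] at h1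
  exact (Dvd.intro_left _ rfl).trans h1

lemma upp_upp_z0 {x y g s : ℕ} (hyx : y ≤ x) : upp y (upp y g * upp x s) = upp y g * upp x s := by
  rw [upp_mul y (upp_pos _ _).ne' (upp_pos _ _).ne', upp_upp le_rfl]
  congr 1
  refine Nat.eq_of_factorization_eq (upp_pos _ _).ne' (upp_pos _ _).ne' fun p => ?_
  rw [fact_upp, fact_upp]
  by_cases hp : p ≤ x
  · simp [hp]
  · have : ¬ p ≤ y := by omega
    simp [this]

/-! ### kept pairs -/

open Crest.Agent.R4C.NonPurex559 Crest.Agent.R4C.NonPureBlkx559 Crest.Agent.R4C.Keptx559 in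
/-- **(6.1)(C)** the untwisted high words are a kept pair -/
theorem kz_of {x y g s s' j0 jB : ℕ} (hM : 0 < M) (hb : g * s ∣ M) (hc : g * s' ∣ M)
    (hyx : y ≤ x) (hj : j0 ≤ jB) (hX : Xj jB ≤ x)
    (hgood : F.good (Xj jB) (g * s) (g * s')) (hκ : upp y (low x s) ≤ Xj jB)
    (hκ' : upp y (low x s') ≤ Xj jB) :
    KZ (PureL2x232.hiFL hM y F) j0 (upp y g * upp x s) (upp y g * upp x s') := by
  classical
  have hg0 : g * s ≠ 0 := (Nat.pos_of_dvd_of_pos hb hM).ne'
  have hg0' : g * s' ≠ 0 := (Nat.pos_of_dvd_of_pos hc hM).ne'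
  have hg := left_ne_zero_of_mul hg0
  have hs := right_ne_zero_of_mul hg0
  have hs' := right_ne_zero_of_mul hg0'
  set z0 := upp y g * upp x s with hz0
  set z0' := upp y g * upp x s' with hz0'
  have hd : z0 ∣ M := (z0_dvd hM hyx hb).trans (upp_dvd_self _ _)
  have hd' : z0' ∣ M := (z0_dvd hM hyx hc).trans (upp_dvd_self _ _)
  have hzp : 0 < z0 := Nat.mul_pos (upp_pos _ _) (upp_pos _ _)
  have hzp' : 0 < z0' := Nat.mul_pos (upp_pos _ _) (upp_pos _ _)
  by_cases hne : z0 = z0'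
  · exact Or.inl hne
  have hex : ∃ q, z0.factorization q ≠ z0'.factorization q := by
    by_contra hcon
    push Not at hcon
    exact hne (Nat.eq_of_factorization_eq hzp.ne' hzp'.ne' hcon)
  set q := Nat.find hex with hq
  have hqne : z0.factorization q ≠ z0'.factorization q := Nat.find_spec hex
  have hqmin : ∀ r, r < q → z0.factorization r = z0'.factorization r := fun r hr => by
    by_contra hcon
    exact Nat.find_min hex hr hcon
  have hqp : q.Prime := by
    by_contra hnp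
    apply hqne
    rw [Nat.factorization_eq_zero_of_not_prime _ hnp, Nat.factorization_eq_zero_of_not_prime _ hnp]
  have hxq : x < q := by
    by_contra hcon
    apply hqne
    rw [hz0, hz0', fact_z0' (not_lt.1 hcon), fact_z0' (not_lt.1 hcon)]
  set l := Nat.log 2 q with hl
  have hq0 : q ≠ 0 := hqp.ne_zero
  have hl1 : 1 ≤ l := by
    have := Nat.log_mono_right (b := 2) hqp.two_le
    have h2 : Nat.log 2 2 = 1 := by norm_num
    omega
  have hql : 2 ^ l ≤ q := Nat.pow_log_le_self 2 hq0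
  have hqu : q < 2 ^ (l + 1) := Nat.lt_pow_succ_log_self (by norm_num) q
  set j := Nat.log 2 l with hjdef
  have hjl : 2 ^ j ≤ l := Nat.pow_log_le_self 2 (by omega)
  have hju : l < 2 ^ (j + 1) := Nat.lt_pow_succ_log_self (by norm_num) l
  have hq1 : Xj j < q := by
    have h1 : 2 ^ (2 ^ j) ≤ q := (Nat.pow_le_pow_right (by norm_num) hjl).trans hql
    have h2 : 0 < 2 ^ (2 ^ j) := by positivity
    unfold Xj
    omega
  have hq2 : q ≤ Xj (j + 1) := by
    have h1 : 2 ^ (l + 1) ≤ 2 ^ (2 ^ (j + 1)) := Nat.pow_le_pow_right (by norm_num) (by omega)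
    unfold Xj
    omega
  have hjB : jB ≤ j := by
    have h1 : Xj jB < q := lt_of_le_of_lt hX hxq
    have h2 : 2 ^ (2 ^ jB) ≤ q := by
      unfold Xj at h1
      omega
    have h3 : 2 ^ jB ≤ l := Nat.le_log_of_pow_le (by norm_num) h2
    exact Nat.le_log_of_pow_le (by norm_num) h3
  have hXX : Xj jB ≤ Xj j := by
    unfold Xj
    have h1 : 2 ^ (2 ^ jB) ≤ 2 ^ (2 ^ j) :=
      Nat.pow_le_pow_right (by norm_num) (Nat.pow_le_pow_right (by norm_num) hjB)
    omega
  have hkept : KeptAt F y j z0 z0' := by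
    refine ⟨fun r _ _ hr => hqmin r (lt_of_le_of_lt hr hq1), ⟨q, hqp, by omega, hq2, hqne⟩, ?_⟩
    have hfac : ∀ {s : ℕ}, g * s ≠ 0 → upp y (low x s) ≤ Xj jB → ∀ p : ℕ, p.Prime →
        max y (Xj j) < p → (g * s).factorization p = (upp y g * upp x s).factorization p := by
      intro s h0 hle p hp hmax
      have hs0 := right_ne_zero_of_mul h0
      have hg0 := left_ne_zero_of_mul h0
      have hy : y < p := lt_of_le_of_lt (le_max_left _ _) hmax
      have hXp : Xj j < p := lt_of_le_of_lt (le_max_right _ _) hmax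
      have h1 : (g * s).factorization p = (upp y (g * s)).factorization p := by
        rw [fact_upp, if_pos (by omega)]
      have h2 : (upp y (low x s)).factorization p = 0 := by
        refine Nat.factorization_eq_zero_of_not_dvd fun hd => ?_
        have := Nat.le_of_dvd (upp_pos _ _) hd
        omega
      rw [h1, upp_gs hyx hg0 hs0, Nat.factorization_mul (upp_pos _ _).ne'
        (mul_ne_zero (upp_pos _ _).ne' (upp_pos _ _).ne'), Finsupp.add_apply, h2, zero_add]
    exact TwistKKx863.good_congr hb hd (hfac hg0 hκ) (hfac hg0' hκ')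
      (FL.good_mono (hXX.trans (le_max_right _ _)) hgood)
  have h1 := kept_KZ hM F (hj.trans hjB) hd hd' hkept
  rwa [hz0, hz0', upp_upp_z0 hyx, upp_upp_z0 hyx] at h1

/-! ### displacement and depth -/



lemma dep_swap {k k' : ℕ} {t δ δ' : ℝ} {u v : ℕ} :
    S2bx284.dep k' k t δ' δ v u = S2bx284.dep k k' t δ δ' u v := by
  unfold S2bx284.dep
  rw [Nat.lcm_comm, max_comm (t * v * |δ'|)]



/-! ### the twists -/

/-- the denominator of the label at the scale `2^m`, a function of `lam` -/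
noncomputable def lb (P : Rulex945.Par) (m l : ℕ) : ℕ := by
  classical
  exact if h : ∃ (k : ℕ), ∃ a : ℤ, 0 < k ∧ IsCoprime a (k : ℤ) ∧ (k : ℝ) ≤ P.E m ∧
    |(l : ℝ) * P.γ - a / k| ≤ P.E m / 2 ^ m then Classical.choose h else 0

lemma lb_eq {P : Rulex945.Par} {m l k : ℕ} {a : ℤ} (hE : 2 * P.E m ^ 3 < 2 ^ m) (hk : 0 < k)
    (hc : IsCoprime a (k : ℤ)) (hkE : (k : ℝ) ≤ P.E m)
    (hd : |(l : ℝ) * P.γ - a / k| ≤ P.E m / 2 ^ m) : lb P m l = k := by
  classical
  have h : ∃ (k : ℕ), ∃ a : ℤ, 0 < k ∧ IsCoprime a (k : ℤ) ∧ (k : ℝ) ≤ P.E m ∧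
    |(l : ℝ) * P.γ - a / k| ≤ P.E m / 2 ^ m := ⟨k, a, hk, hc, hkE, hd⟩
  have e : lb P m l = Classical.choose h := by
    unfold lb
    rw [dif_pos h]
  obtain ⟨a', hk', hc', hkE', hd'⟩ := Classical.choose_spec h
  rw [e]
  set k' := Classical.choose h with hk'def
  have hkR : (0 : ℝ) < k := by exact_mod_cast hk
  have hkR' : (0 : ℝ) < k' := by exact_mod_cast hk'
  have hE0 : 0 < P.E m := hkR.trans_le hkE
  have h2m : (0 : ℝ) < 2 ^ m := by positivity
  set X : ℤ := a * k' - a' * k with hX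
  have e1 : (X : ℝ) = (k * k') * (((l : ℝ) * P.γ - a' / k') - ((l : ℝ) * P.γ - a / k)) := by
    rw [hX]; push_cast; field_simp; ring
  have h1 : |(X : ℝ)| < 1 := by
    rw [e1, abs_mul, abs_of_pos (mul_pos hkR hkR')]
    have h2 := abs_sub ((l : ℝ) * P.γ - a' / k') ((l : ℝ) * P.γ - a / k)
    calc (k * k' : ℝ) * |((l : ℝ) * P.γ - a' / k') - ((l : ℝ) * P.γ - a / k)|
        ≤ (P.E m * P.E m) * (P.E m / 2 ^ m + P.E m / 2 ^ m) := by
          refine mul_le_mul (mul_le_mul hkE hkE' hkR'.le hE0.le) ?_ (abs_nonneg _) (by positivity)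
          linarith
      _ = (2 * P.E m ^ 3) / 2 ^ m := by ring
      _ < 1 := by rw [div_lt_one h2m]; exact hE
  have hX0 : X = 0 := by
    have : |X| < 1 := by exact_mod_cast h1
    exact Int.abs_lt_one_iff.1 this
  have e2 : a * (k' : ℤ) = a' * k := by rw [hX] at hX0; linarith
  have d1 : (k : ℤ) ∣ k' := hc.symm.dvd_of_dvd_mul_left ⟨a', by rw [e2]; ring⟩
  have d2 : (k' : ℤ) ∣ k := hc'.symm.dvd_of_dvd_mul_left ⟨a, by rw [← e2]; ring⟩
  exact Nat.dvd_antisymm (Int.natCast_dvd_natCast.1 d2) (Int.natCast_dvd_natCast.1 d1)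


/-! ### the pairs of class (L) -/

/-- labelled pair of the scale `2^m`: tree labels of both members, same point, not short,
explained primes `≤ y` -/
structure LPair (F : FL M) (P : Rulex945.Par) (m y g s s' : ℕ) (h : ℤ) (a : ℤ) (k : ℕ) (a' : ℤ)
    (k' : ℕ) : Prop where
  tb : Pairx14.TC F P.γ P.L (P.E m) (P.cut m) (g * s) a k
  tc : Pairx14.TC F P.γ P.L (P.E m) (P.cut m) (g * s') a' k'
  pt : BoostCx972.gap (fr F (P.cut m) (g * s) a k) (fr F (P.cut m) (g * s') a' k') s s' h = 0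
  ns : ¬ S2bx284.IsShort k k' ((2 : ℝ) ^ m)
    (upp (P.cut m) s * P.γ - (((F.ell (P.cut m) (g * s') : ℕ) * a : ℤ) : ℝ) / k)
    (upp (P.cut m) s' * P.γ - (((F.ell (P.cut m) (g * s) : ℕ) * a' : ℤ) : ℝ) / k')
    (low (P.cut m) s) (low (P.cut m) s')
  top : Top (P.cut m) y g s s' (fr F (P.cut m) (g * s) a k) (fr F (P.cut m) (g * s') a' k')



lemma isShort_swap {k k' : ℕ} {t δ δ' : ℝ} {u v : ℕ} (h : S2bx284.IsShort k' k t δ' δ v u) :
    S2bx284.IsShort k k' t δ δ' u v := by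
  unfold S2bx284.IsShort at h ⊢
  rw [dep_swap, mul_comm (v : ℝ)] at h
  exact h

namespace LPair

variable {P : Rulex945.Par} {m y y' g s s' : ℕ} {h : ℤ} {a a' : ℤ} {k k' : ℕ}

lemma mono (hp : LPair F P m y g s s' h a k a' k') (hy : y ≤ y') :
    LPair F P m y' g s s' h a k a' k' :=
  ⟨hp.tb, hp.tc, hp.pt, hp.ns, fun p hpp h1 h2 => hp.top p hpp (by omega) h2⟩

lemma swap (hp : LPair F P m y g s s' h a k a' k') : LPair F P m y g s' s (-h) a' k' a k :=
  ⟨hp.tc, hp.tb, gap_symm hp.pt, fun h => hp.ns (isShort_swap h),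
    fun p hpp h1 h2 => ⟨(hp.top p hpp h1 h2).2, (hp.top p hpp h1 h2).1⟩⟩

end LPair



open Crest.Agent.R4C.Keptx559 in
/-- the conclusions of (6.1) for a pair `b, c` of class (L) at the cut `y` -/
structure Dec (hM : 0 < M) (F : FL M) (P : Rulex945.Par) (y j0 N : ℕ) (R K : ℝ) (b c : ℕ)
    (m κ κ' z0 z0' : ℕ) : Prop where
  hm : P.m0 ≤ m
  ez : upp y b = κ * z0
  ez' : upp y c = κ' * z0'
  dz : z0 ∣ upp y M
  dz' : z0' ∣ upp y M
  pos : 0 < κ
  pos' : 0 < κ'
  kk : κ ∈ TwistKKx863.KK F P.γ P.L ((2 : ℝ) ^ (Nat.log 2 (Nat.gcd (low y b) (low y c)))) R N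
    P.cut (lb P) (Finset.range (P.N + 1)) z0
  kk' : κ' ∈ TwistKKx863.KK F P.γ P.L ((2 : ℝ) ^ (Nat.log 2 (Nat.gcd (low y b) (low y c)))) R N
    P.cut (lb P) (Finset.range (P.N + 1)) z0'
  gz : Nat.gcd (upp y b) (upp y c) = Nat.gcd z0 z0'
  kz : KZ (PureL2x232.hiFL hM y F) j0 z0 z0'
  size : (κ : ℝ) * κ' ≤ 2 * K
  /-- `t0 / 2 ≤ 2^m ≤ 2 t0`, `t0 = 2^i gcd(z,z') / L` -/
  sc1 : (2 : ℝ) ^ (Nat.log 2 (Nat.gcd (low y b) (low y c))) * Nat.gcd (upp y b) (upp y c) / P.L ≤
    2 * 2 ^ m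
  sc2 : (2 : ℝ) ^ m ≤
    2 * ((2 : ℝ) ^ (Nat.log 2 (Nat.gcd (low y b) (low y c))) * Nat.gcd (upp y b) (upp y c) / P.L)
  rt : 64 ≤ K → ∀ U : ℝ, (κ : ℝ) * κ' ≤ U →
    LPhix808.RT ((upp y b / Nat.gcd (upp y b) (upp y c) : ℕ) * P.γ)
      ((upp y c / Nat.gcd (upp y b) (upp y c) : ℕ) * P.γ) (2 ^ m) (P.E m) (K / U)
      (K ^ ((1 : ℝ) / 3) / U) (low y b / Nat.gcd (low y b) (low y c))
      (low y c / Nat.gcd (low y b) (low y c))


/-! ### lightness -/


end Crest.Agent.R4C.LDecx500
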