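import Crest.Agent.R4C.VDef_24
import Crest.Agent.R4C.ClsExc_634
import Crest.Agent.R4C.Cover_946
import Crest.Agent.R4C.ClsHvy_281
import Crest.Agent.R4C.DomPc_284
import Crest.Agent.R4C.Fin_946
import Crest.Agent.R4C.VTop_179
import Crest.Agent.R4C.ErrN_516
import Crest.Agent.R4C.RelDeg_15
import Crest.Agent.R4C.HDdef_529
import Crest.Agent.R4C.HDeltaG_60
import Crest.Agent.R4C.DictV_20
import Crest.Agent.R4C.FamBud3_252
import Crest.Agent.R4C.GWwt_360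
import Crest.Agent.R4C.KyPure_971
import Crest.Agent.R4C.PairR_14
import Crest.Agent.R4C.Cell_863
import Crest.Agent.R4C.NHdef_656
import Crest.Agent.R4C.Rule_945
import Crest.Agent.R4C.Split_945
import Crest.Agent.R4C.SpineDef_946
import Crest.Agent.R4C.GWnode_863
import Crest.Agent.R4C.VecPair_19
import Crest.Agent.R4C.HyOf_281

-- ▼ part R4C/ClsDomV_305
section

/-!
# Row 4, class CDomP: from the vector classes `VC a a' e` to `ClsOK (cDomP)` (helper305)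

* `clsVC` : the union of the classes `VC a a' e`, `e ≤ 1` (VDef_24);
* `hvy_imp` : `VDef_24.HvyR` implies `ExcRow_634.HvyR`;
* `domPS_of` : `ClsOK clsVC → ClsOK clsDomPS` (heavy members: `ClsExc_634.cls_exc`; `CHvy`: 281);
* `domP_of`, `nh_domP_of` : `ClsOK clsVC → ClsOK cDomP`, `ClsOK (nH cDomP)`.
-/

set_option autoImplicit false

open Finset

namespace Crest.Agent.R4C.ClsDomVx305

open Crest.Agent.R4C.Basex935 Crest.Agent.R4C.Cutx50 Crest.Agent.R4C.PrefixMx882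
open Crest.Agent.R4C.FLDefx935 Crest.Agent.R4C.Rulex945
open Crest.Agent.R4C.Splitx945 Crest.Agent.R4C.Spinex946 Crest.Agent.R4C.Bridgex882
open Crest.Agent.R4C.CrCoinx935 Crest.Agent.R4C.Coverx946
open Crest.Agent.R4C.VDefx24 Crest.Agent.R4C.DomPcx284

/-- the vector classes in the form of the spine -/
def clsVC (γ : ℝ) : Cls := fun cp _ A m0 L M B F b c h =>
  ∃ a a' e, e ≤ 1 ∧ VC F (ParOf cp A m0 γ L M B) (QQ cp A m0 γ L M B F) a a' e b c h

/-- heavy exceptions: floor exponent ⟹ real exponent -/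
lemma hvy_imp {M : ℕ} {F : FL M} {B : Finset ℕ} {L : ℝ} (hL : 0 ≤ L) {A : ℕ} {R : ℝ}
    (hR : 0 ≤ R) {i b : ℕ} (h : VDefx24.HvyR F B L A R i b) :
    ExcRowx634.HvyR F B L A R i b := by
  obtain ⟨k, h1, h2, h3, h4⟩ := h
  refine ⟨k, h1, h2, h3.trans ?_, h4⟩
  refine mul_le_mul_of_nonneg_right ?_ hL
  refine mul_le_mul_of_nonneg_left ?_ (by positivity)
  show (2 : ℝ) ^ (k / A) ≤ (2 : ℝ) ^ (1 / (A : ℝ) * k)
  rw [← Real.rpow_natCast]
  refine Real.rpow_le_rpow_of_exponent_le (by norm_num) ?_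
  have h5 : ((k / A : ℕ) : ℝ) ≤ (k : ℝ) / A := Nat.cast_div_le
  calc ((k / A : ℕ) : ℝ) ≤ (k : ℝ) / A := h5
    _ = 1 / (A : ℝ) * k := by ring

/-- **cover**: small pure dominant pairs = vector classes + heavy members + `CHvy` -/
theorem domPS_of {γ : ℝ} (h : ClsOK γ (clsVC γ)) : ClsOK γ (clsDomPS γ) := by
  refine (h.or ((ClsExcx634.cls_exc γ).or (ClsHvyx281.cls_hvy γ))).mono
    (Ev.of_forall fun cp η A m0 L M B F hS b _ c _ _ x _ _ hx => ?_)
  obtain ⟨i, h1, h2, h3, h4⟩ := hx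
  by_cases hv : CHvy F (ParOf cp A m0 γ L M B) (FLExx326.ind B) (1 / 20) b c x
  · exact Or.inr (Or.inr hv)
  have hR : (0 : ℝ) ≤ 4 * ((i : ℝ) + 1) ^ 8 := by positivity
  have hs : low (2 ^ (A * i)) (b / Nat.gcd b c) * low (2 ^ (A * i)) (c / Nat.gcd b c) ≤
      (i + 1) ^ 8 := by
    have h5 : ((low (2 ^ (A * i)) (b / Nat.gcd b c) * low (2 ^ (A * i)) (c / Nat.gcd b c) : ℕ) : ℝ)
        < (((i + 1) ^ 8 : ℕ) : ℝ) := by
      push_cast
      exact h4
    exact_mod_cast h5.le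
  by_cases hb : VDefx24.HvyR F B L A (4 * ((i : ℝ) + 1) ^ 8) (i - 1) b
  · exact Or.inr (Or.inl ⟨i, h1, h3, hs, Or.inl (hvy_imp hS.hL.le hR hb)⟩)
  by_cases hc : VDefx24.HvyR F B L A (4 * ((i : ℝ) + 1) ^ 8) (i - 1) c
  · exact Or.inr (Or.inl ⟨i, h1, h3, hs, Or.inr (hvy_imp hS.hL.le hR hc)⟩)
  obtain ⟨a, a', e, he, hcl⟩ := VecPairx19.exists_vcl (P := ParOf cp A m0 γ L M B) (i := i)
    (b := b) (c := c)
  exact Or.inl ⟨a, a', e, he, i, h1, h2, h3, h4, hcl, hb, hc, hv⟩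

/-- the class `CDomP` -/
theorem domP_of {γ : ℝ} (h : ClsOK γ (clsVC γ)) : ClsOK γ (cDomP γ) :=
  cls_domP_of_small (domPS_of h)

/-- the class `CDomP` off `CHvy` -/
theorem nh_domP_of {γ : ℝ} (h : ClsOK γ (clsVC γ)) : ClsOK γ (nH γ (cDomP γ)) :=
  nH_ok (domP_of h)

end Crest.Agent.R4C.ClsDomVx305
end

-- ▼ part R4C/Last_79
section

/-!
# Row 4: S0004 from the class total `TTot` of the vector world (helper79, ledger check)
-/

set_option autoImplicit false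

open MeasureTheory Filter

namespace Crest.Agent.R4C.Lastx79

open Crest.Agent.R4C.Spinex946 Crest.Agent.R4C.Splitx945

/-- S0004 from the vector class alone -/
theorem of_cls {γ : ℝ} (h : ClsOK γ (Crest.Agent.R4C.ClsDomVx305.clsVC γ))
    (ψ : ℕ → ℝ) (hψ : ∀ q, 0 ≤ ψ q)
    (hdiv : ¬ Summable fun q : ℕ => (Nat.totient q : ℝ) / q * ψ q) :
    ∀ᵐ x : ℝ, ∃ᶠ q : ℕ in atTop, |(q : ℝ) * x - γ - round ((q : ℝ) * x - γ)| < ψ q :=
  Crest.Agent.R4C.Finx946.finS (Crest.Agent.R4C.TgtSx398.tgtS γ)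
    (Crest.Agent.R4C.ClsDomVx305.nh_domP_of h) ψ hψ hdiv


end Crest.Agent.R4C.Lastx79
end

-- ▼ part R4C/HypVw_516
section

/-!
# Row 4, GW section, vector case: `HDx529.HypT` for the world `vw` of `VDef_24` (helper516)

`hyp_vw` : for all small `cp`, ..., large `m0` the natural hypothesis per prefix holds in every world
`vw` with constants depending on `cp, η, A` only and `KE = 18 (a + a' + 4)`.
-/

set_option autoImplicit false

open Finset
open Crest.Agent.R4C.Basex935 Crest.Agent.R4C.Cutx50 Crest.Agent.R4C.PrefixMx882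
open Crest.Agent.R4C.FLDefx935 Crest.Agent.R4C.Rulex945 Crest.Agent.R4C.PureClsx863
open Crest.Agent.R4C.PureL2x232 (hiFL)
open Crest.Agent.R4C.GWdefx982 Crest.Agent.R4C.Spinex946 Crest.Agent.R4C.VDefx24
open Crest.Agent.R4C.DictVx20 (WV)

namespace Crest.Agent.R4C.HypVwx516

lemma HypT_mono {Z : World} {C1 C1' c KE : ℝ} (hKE : 0 ≤ KE) (hC : C1 ≤ C1')
    (h : HDx529.HypT Z C1 c KE) : HDx529.HypT Z C1' c KE := by
  intro i n Λ K0 s hi hK0 hKi hs hs2
  refine (h i n Λ K0 s hi hK0 hKi hs hs2).trans ?_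
  refine mul_le_mul_of_nonneg_right (mul_le_mul_of_nonneg_right hC ?_) (nu_nonneg _ _)
  have : 0 ≤ K0 ^ (-c) := Real.rpow_nonneg (by linarith) _
  positivity

/-- `2^{k/(4A)}` against the threshold -/
lemma theta_ge {cp : ℝ} {A k : ℕ} (hcp : 0 < cp) (hA : 1 / (2 * cp) ≤ A) (hk : 12 / cp ≤ k) :
    3 * ((2 : ℝ) ^ k) ^ (1 / (4 * (A : ℝ))) ≤ (2 : ℝ) ^ (cp * k) / 16 := by
  have hA0 : (0 : ℝ) < A := lt_of_lt_of_le (by positivity) hA
  have hk0 : (0 : ℝ) ≤ k := Nat.cast_nonneg k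
  have h1 : ((2 : ℝ) ^ k) ^ (1 / (4 * (A : ℝ))) ≤ (2 : ℝ) ^ (cp * k / 2) := by
    rw [← Real.rpow_natCast, ← Real.rpow_mul (by norm_num)]
    refine Real.rpow_le_rpow_of_exponent_le (by norm_num) ?_
    have h2 : 1 / (4 * (A : ℝ)) ≤ cp / 2 := by
      rw [div_le_div_iff₀ (by positivity) (by norm_num)]
      rw [div_le_iff₀ (by positivity)] at hA
      nlinarith
    calc (k : ℝ) * (1 / (4 * (A : ℝ))) ≤ k * (cp / 2) := mul_le_mul_of_nonneg_left h2 hk0
      _ = cp * k / 2 := by ring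
  have h3 : (48 : ℝ) ≤ (2 : ℝ) ^ (cp * k / 2) := by
    have h4 : (6 : ℝ) ≤ cp * k / 2 := by
      rw [div_le_iff₀ hcp] at hk
      linarith
    calc (48 : ℝ) ≤ (2 : ℝ) ^ (6 : ℝ) := by norm_num
      _ ≤ _ := Real.rpow_le_rpow_of_exponent_le (by norm_num) h4
  have h5 : (2 : ℝ) ^ (cp * k) = (2 : ℝ) ^ (cp * k / 2) * (2 : ℝ) ^ (cp * k / 2) := by
    rw [← Real.rpow_add (by norm_num)]
    congr 1
    ring
  have h6 : 0 < (2 : ℝ) ^ (cp * k / 2) := Real.rpow_pos_of_pos (by norm_num) _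
  rw [h5, le_div_iff₀ (by norm_num)]
  nlinarith

/-- the threshold against `q^{1/(4A)}`, `q > 2^{A i}` -/
lemma theta_le {cp : ℝ} {A i q : ℕ} (hcp : cp ≤ 1 / 4) (hA : 1 ≤ A) (hq : 2 ^ (A * i) < q) :
    4 * ((2 : ℝ) ^ (cp * i) / 16) ≤ 3 * (q : ℝ) ^ (1 / (4 * (A : ℝ))) := by
  have hA0 : (0 : ℝ) < A := by exact_mod_cast hA
  have hi0 : (0 : ℝ) ≤ i := Nat.cast_nonneg i
  have h1 : (2 : ℝ) ^ ((i : ℝ) / 4) ≤ (q : ℝ) ^ (1 / (4 * (A : ℝ))) := by
    have h2 : ((2 : ℝ) ^ (A * i)) ^ (1 / (4 * (A : ℝ))) = (2 : ℝ) ^ ((i : ℝ) / 4) := by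
      rw [← Real.rpow_natCast, ← Real.rpow_mul (by norm_num)]
      congr 1
      push_cast
      field_simp
    rw [← h2]
    refine Real.rpow_le_rpow (by positivity) ?_ (by positivity)
    exact_mod_cast hq.le
  have h3 : (2 : ℝ) ^ (cp * i) ≤ (2 : ℝ) ^ ((i : ℝ) / 4) := by
    refine Real.rpow_le_rpow_of_exponent_le (by norm_num) ?_
    nlinarith
  have h4 : 0 < (2 : ℝ) ^ (cp * i) := Real.rpow_pos_of_pos (by norm_num) _
  linarith

section vw

variable {cp η γ L : ℝ} {A m0 M : ℕ} {B : Finset ℕ} {F : FL M}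

/-- the world `vw` has the nominal coins -/
theorem wv_vw (hM : 0 < M) (hcp4 : cp ≤ 1 / 4) (hA : 1 ≤ A) (a a' s G : ℕ) :
    WV (vw hM F (ParOf cp A m0 γ L M B) (1 / (4 * A)) a a' s G) (ParOf cp A m0 γ L M B)
      (1 / (4 * (A : ℝ))) (a + a' + 3) where
  cut := rfl
  γ := rfl
  coin := fun _ _ => Iff.rfl
  hθ := fun _ _ _ hq => theta_le hcp4 hA hq

end vw

/-- the first index needed by `hypT_WV` -/
noncomputable def mT (A : ℕ) : ℕ := by
  classical
  exact if h : 32 ≤ A then (ErrNx516.hypT_WV A h).choose_spec.choose_spec.choose else 0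

/-- **the natural hypothesis per prefix in the worlds `vw`** -/
theorem hyp_vw (γ : ℝ) : Ev fun cp η A m0 => ∃ C1 c : ℝ, 1 ≤ C1 ∧ 0 < c ∧
    ∀ (L : ℝ) (M : ℕ) (B : Finset ℕ) (F : FL M) (hS : Setup η L M B F) (a a' s G : ℕ),
      G ∈ cores (hiFL hS.hM (yc a a') F) →
      ∀ Z : World, Z = vw hS.hM F (ParOf cp A m0 γ L M B) (1 / (4 * A)) a a' s G → Z.Ok →
        HDx529.HypT Z C1 c (18 * (((a + a' + 3 : ℕ) : ℝ) + 1)) := by
  classical
  refine ((((Ev.basic.and (Ev.le_A fun cp _ => max 32 (1 / (2 * cp)))).and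
    (Ev.le_m0 fun cp _ _ => 12 / cp)).and (Ev.le_m0 fun _ _ A => (mT A : ℝ)))).mono ?_
  rintro cp η A m0 ⟨⟨⟨⟨hcp, hcp2, _, _, _, hA1, _⟩, hA⟩, hm⟩, hmT⟩
  have hA32 : 32 ≤ A := by
    have : (32 : ℝ) ≤ A := (le_max_left _ _).trans hA
    exact_mod_cast this
  have hmT' : (ErrNx516.hypT_WV A hA32).choose_spec.choose_spec.choose ≤ m0 := by
    have h1 : mT A ≤ m0 := by exact_mod_cast hmT
    unfold mT at h1
    rwa [dif_pos hA32] at h1
  obtain ⟨hC, hc, h⟩ := (ErrNx516.hypT_WV A hA32).choose_spec.choose_spec.choose_spec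
  refine ⟨max 1 (ErrNx516.hypT_WV A hA32).choose,
    (ErrNx516.hypT_WV A hA32).choose_spec.choose, le_max_left _ _, hc, ?_⟩
  intro L M B F hS a a' s G _ Z hZ hOk
  subst hZ
  have hi0 : m0 ≤ (vw hS.hM F (ParOf cp A m0 γ L M B) (1 / (4 * A)) a a' s G).i0 :=
    le_max_left _ _
  refine HypT_mono (by positivity) (le_max_right _ _) ?_
  refine h _ (ParOf cp A m0 γ L M B) (a + a' + 3) hOk
    (wv_vw hS.hM (by linarith) hA1 a a' s G) (fun k => rfl) rfl (fun k hk => ?_)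
    (hmT'.trans hi0)
  have hk1 : (m0 : ℝ) ≤ k := by exact_mod_cast hi0.trans hk
  exact theta_ge hcp ((le_max_right _ _).trans hA) (hm.trans hk1)

end Crest.Agent.R4C.HypVwx516
end

-- ▼ part R4C/TBud_322
section

/-!
# Row 4, GW section, vector case: the worlds `vw` are `Ok`; target `TBud` of `VDef_24` (helper322)

* `vw_ok'` : `World.Ok (vw ..)` for any `Par` with `2^i ≤ cut i`, `16 < E i` (`i ≥ m0`), `3 ≤ m0`,
  `M / L ≤ N`;
* `vw_ok`  : the same in `Ev` form at `ParOf` (all `Setup`, all `a a' s G`);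
* **`tbud γ : TBud γ`**, `T = 9 + log2 KV + k`.
-/

set_option autoImplicit false

open Finset
open Crest.Agent.R4C.Basex935 Crest.Agent.R4C.Cutx50 Crest.Agent.R4C.PrefixMx882
open Crest.Agent.R4C.FLDefx935 Crest.Agent.R4C.Rulex945 Crest.Agent.R4C.PureClsx863
open Crest.Agent.R4C.PureL2x232 (hiFL)
open Crest.Agent.R4C.GWdefx982 Crest.Agent.R4C.NHx656
open Crest.Agent.R4C.Splitx945 Crest.Agent.R4C.Spinex946 Crest.Agent.R4C.Bridgex882
open Crest.Agent.R4C.CrCoinx935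
open Crest.Agent.R4C.VDefx24
open Crest.Agent.R4C.HDx529 (Y3 kapV gn)

namespace Crest.Agent.R4C.TBudx322

/-- the worlds are `Ok`, general parameters -/
theorem vw_ok' {M : ℕ} (hM : 0 < M) (F : FL M) {P : Par} {δ : ℝ} {a a' s G : ℕ}
    (hG : G ∈ cores (hiFL hM (yc a a') F)) (hL : 0 < P.L) (hcut : Monotone P.cut)
    (hcut2 : ∀ i, 2 ^ i ≤ P.cut i) (hm0 : 3 ≤ P.m0) (hN : (M : ℝ) / P.L ≤ P.N)
    (hE : ∀ i, P.m0 ≤ i → 16 < P.E i) : (vw hM F P δ a a' s G).Ok where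
  hN := PM_pos G
  hG := Nat.pos_of_dvd_of_pos (mem_cores.1 hG).1.1 (upp_pos _ _)
  hL := by
    show 0 < P.L / 2 ^ s
    positivity
  hcut := hcut
  hcut2 := hcut2
  hi0 := hm0.trans (le_max_left _ _)
  htop := by
    show ((G * PM (hiFL hM (yc a a') F) G : ℕ) : ℝ) < 2 ^ (P.N + s + 1) * (P.L / 2 ^ s)
    have h0 : upp (yc a a') M ≤ M := Nat.le_of_dvd hM (upp_dvd_self _ _)
    have h1 : G * PM (hiFL hM (yc a a') F) G ≤ M :=
      (Nat.le_of_dvd (upp_pos _ _) (mul_PM_dvd (upp_pos _ _) hG)).trans h0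
    have h2 : ((G * PM (hiFL hM (yc a a') F) G : ℕ) : ℝ) ≤ M := by exact_mod_cast h1
    have h3 : (M : ℝ) ≤ P.N * P.L := (div_le_iff₀ hL).1 hN
    have h4 : (P.N : ℝ) < 2 ^ (P.N + 1) := by
      have h5 : P.N < 2 ^ P.N := Nat.lt_two_pow_self
      have h6 : (P.N : ℝ) < 2 ^ P.N := by exact_mod_cast h5
      have h7 : (2 : ℝ) ^ P.N ≤ 2 ^ (P.N + 1) := pow_le_pow_right₀ (by norm_num) (by omega)
      linarith
    have h8 : (P.N : ℝ) * P.L < 2 ^ (P.N + 1) * P.L := mul_lt_mul_of_pos_right h4 hL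
    have h9 : (2 : ℝ) ^ (P.N + s + 1) * (P.L / 2 ^ s) = 2 ^ (P.N + 1) * P.L := by
      have h10 : (2 : ℝ) ^ (P.N + s + 1) = 2 ^ (P.N + 1) * 2 ^ s := by
        rw [← pow_add]; congr 1; omega
      rw [h10]
      field_simp
    rw [h9]
    linarith
  hσ := le_rfl
  hθ := fun i hi => by
    show 1 < P.E i / 16
    have h1 := hE i ((le_max_left _ _).trans hi)
    linarith
  hK1 := le_rfl
  hc := one_pos

/-- the numerical conditions at `ParOf` -/
lemma par_cond {cp : ℝ} {A m0 : ℕ} (hcp : 0 < cp) (hA : 1 ≤ A) (hm0 : 5 / cp ≤ m0) :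
    ∀ (γ L : ℝ) (M : ℕ) (B : Finset ℕ), 0 < L →
      Monotone (ParOf cp A m0 γ L M B).cut ∧ (∀ i, 2 ^ i ≤ (ParOf cp A m0 γ L M B).cut i) ∧
      (M : ℝ) / (ParOf cp A m0 γ L M B).L ≤ (ParOf cp A m0 γ L M B).N ∧
      (∀ i, (ParOf cp A m0 γ L M B).m0 ≤ i → 16 < (ParOf cp A m0 γ L M B).E i) := by
  intro γ L M B hL
  refine ⟨fun i j hij => Nat.pow_le_pow_right (by norm_num) (Nat.mul_le_mul_left A hij),
    fun i => Nat.pow_le_pow_right (by norm_num) (Nat.le_mul_of_pos_left i hA), Nat.le_ceil _,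
    fun i hi => ?_⟩
  show (16 : ℝ) < (2 : ℝ) ^ (cp * i)
  have hi' : (m0 : ℝ) ≤ i := by exact_mod_cast hi
  have h1 : (4 : ℝ) < cp * i := by
    have h2 : 5 ≤ m0 * cp := (div_le_iff₀ hcp).1 hm0
    nlinarith
  calc (16 : ℝ) = (2 : ℝ) ^ (4 : ℝ) := by norm_num
    _ < (2 : ℝ) ^ (cp * i) := Real.rpow_lt_rpow_of_exponent_lt (by norm_num) h1

/-- **the worlds are `Ok`**, `Ev` form -/
theorem vw_ok (γ : ℝ) : Ev fun cp η A m0 => ∀ (L : ℝ) (M : ℕ) (B : Finset ℕ) (F : FL M)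
    (hS : Setup η L M B F) (δ : ℝ) (a a' s G : ℕ), G ∈ cores (hiFL hS.hM (yc a a') F) →
    (vw hS.hM F (ParOf cp A m0 γ L M B) δ a a' s G).Ok := by
  refine ((Ev.basic.and (Ev.le_m0 fun cp _ _ => 5 / cp)).and (Ev.le_m0 fun _ _ _ => 3)).mono ?_
  rintro cp η A m0 ⟨⟨⟨h1, _, _, _, _, h6, _⟩, h8⟩, h9⟩ L M B F hS δ a a' s G hG
  obtain ⟨c1, c2, c3, c4⟩ := par_cond h1 h6 h8 γ L M B hS.hL
  exact vw_ok' hS.hM F hG hS.hL c1 c2 (by exact_mod_cast h9) c3 c4

open Classical in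
/-- **target `TBud`** -/
theorem tbud (γ : ℝ) : TBud γ := by
  refine (vw_ok γ).mono ?_
  intro cp η A m0 hok KV k hKV
  have hlog : 0 ≤ Real.logb 2 KV := Real.logb_nonneg (by norm_num) hKV
  refine ⟨9 + Real.logb 2 KV + k, by positivity, ?_⟩
  intro L M B F hS a a' s b hb Z w hZ hw
  have hZok : Z.Ok := by
    rw [hZ]
    exact hok L M B F hS _ a a' s _ (HighFLx863.H0_mem hS.hM F hb)
  have hwN : w ∣ Z.N := by
    rw [hZ, hw]
    exact HighFLx863.hw_dvd hS.hM F hb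
  set P := ParOf cp A m0 γ L M B with hP
  set KV' : ℝ := KV * 2 ^ (k * (a + a')) with hKV'
  have hKV0 : 0 < KV := by linarith
  have h1' : (1 : ℝ) ≤ (2 : ℝ) ^ (k * (a + a')) := one_le_pow₀ (by norm_num)
  have hK1 : 1 ≤ KV' := by rw [hKV']; nlinarith
  have hK0 : 0 < KV' := by linarith
  set D : ℕ := ⌈KV'⌉₊ with hD
  have hD1 : 1 ≤ D := Nat.one_le_ceil_iff.2 hK0
  have hAct : ∀ p ∈ Act F P Z.N (yc a a') w b, 1 ≤ p := by
    intro p hp
    unfold Act at hp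
    have h2 := (mem_filter.1 hp).2.1
    omega
  have key := FamBudx252.budget_act hZok hwN hAct hD1
  have hlogD : (Nat.log 2 D : ℝ) ≤ 1 + Real.logb 2 KV + k * (a + a') := by
    have hc0 : D ≠ 0 := by omega
    have h4 : (2 : ℝ) ^ (Nat.log 2 D) ≤ (D : ℝ) := by
      exact_mod_cast Nat.pow_log_le_self 2 hc0
    have h5 : (D : ℝ) ≤ 2 * KV' := by
      have := (Nat.ceil_lt_add_one hK0.le).le
      linarith
    have h7 := Real.logb_le_logb_of_le (by norm_num : (1 : ℝ) < 2) (by positivity) (h4.trans h5)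
    rw [Real.logb_mul (by norm_num) hK0.ne', Real.logb_self_eq_one (by norm_num),
      Real.logb_pow, Real.logb_self_eq_one (by norm_num), mul_one, hKV',
      Real.logb_mul hKV0.ne' (by positivity), Real.logb_pow,
      Real.logb_self_eq_one (by norm_num)] at h7
    push_cast at h7
    linarith
  have hsum : ∑ z ∈ Z.Zs.filter (fun z => w ∈ (Z.Nd z).biUnion Z.S),
      (Y3 Z z w + kapV Z KV' z) * Wb F P Z (yc a a') z w b ≤
      ∑ z ∈ Z.Zs with w ∈ Z.zd.zone z, FamBudx252.VA Z (Act F P Z.N (yc a a') w b) w z.1 *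
        (FamBudx252.Y3 Z z w + min 1 ((D : ℝ) / ((Z.pz z : ℝ) + 1))) := by
    have hset : Z.Zs.filter (fun z => w ∈ (Z.Nd z).biUnion Z.S) =
        Z.Zs.filter (fun z => w ∈ Z.zd.zone z) := by
      refine filter_congr fun z _ => ?_
      exact Iff.rfl
    rw [hset]
    refine sum_le_sum fun z _ => ?_
    rw [mul_comm]
    refine mul_le_mul_of_nonneg_left ?_ (FamBudx252.VA_nonneg hAct w z.1)
    refine add_le_add (le_of_eq rfl) ?_
    unfold kapV
    exact min_le_min le_rfl (div_le_div_of_nonneg_right (Nat.le_ceil _) (by positivity))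
  refine hsum.trans (key.trans ?_)
  have ha : (0 : ℝ) ≤ (a : ℝ) := Nat.cast_nonneg a
  have ha' : (0 : ℝ) ≤ (a' : ℝ) := Nat.cast_nonneg a'
  have hk : (0 : ℝ) ≤ (k : ℝ) := Nat.cast_nonneg k
  nlinarith [mul_nonneg hlog ha, mul_nonneg hlog ha']

end Crest.Agent.R4C.TBudx322
end

-- ▼ part R4C/RelGn_15
section

/-!
# Row 4, GW section, vector case: `RelDeg_15.Rel` in the data `gn` of `HDdef_529` (helper15)

* `relOk`, `relOk_swap` : `RelOk` for `Rel Z W R` and for its transpose;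
* `gn_deg`, `gn_deg_swap` : the field `deg` of `GN.Ok`, both orders;
* `gR` : related nodes have the same mass;
* `Dl_real_le` : `Dl (Cl A B) R ≤ 2 A B² (R + 4 A + 4 B + 1)`.
-/

set_option autoImplicit false

open Finset
open Crest.Agent.R4C.GWdefx982 Crest.Agent.R4C.HDx529

namespace Crest.Agent.R4C.RelDegx15

variable {Z : World}


/-- the transposed relation -/
def RelT (Z : World) (W : Finset (ℕ × ℕ)) (R : ℝ) (ν ν' : Node) : Prop := Rel Z W R ν' ν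

lemma relT_iff (hZ : Z.Ok) {W : Finset (ℕ × ℕ)} {R : ℝ} {ν ν' : Node} :
    RelT Z W R ν ν' ↔ Rel Z (W.image Prod.swap) R ν ν' := by
  constructor
  · intro h
    exact rel_swap hZ h
  · intro h
    have h1 := rel_swap hZ h
    have e : (W.image Prod.swap).image Prod.swap = W := by
      ext p
      simp only [mem_image]
      constructor
      · rintro ⟨q, ⟨r, hr, rfl⟩, rfl⟩
        rwa [Prod.swap_swap]
      · intro hp
        exact ⟨p.swap, ⟨p, hp, rfl⟩, Prod.swap_swap p⟩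
    rw [e] at h1
    exact h1


/-- the class of the transposed relation -/
lemma relT_Cl (hZ : Z.Ok) {A B : ℕ} {R : ℝ} {ν ν' : Node} :
    RelT Z (Cl A B) R ν ν' ↔ Rel Z (Cl B A) R ν ν' := by
  rw [relT_iff hZ, Cl_swap]





end Crest.Agent.R4C.RelDegx15
namespace Crest.Agent.R4C.RelDegx15.Rel
end Crest.Agent.R4C.RelDegx15.Rel
end

-- ▼ part R4C/TOk_60
section

/-!
# Row 4, GW section, vector case: the target `TOk` of `VDef_24` (helper60)

* `pow8_le`, `sup_bd`, `cls_lt` : numerics;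
* `grow_vw`, `sq_vw` : the conditions of `VDepth_952` and `ZCell_60` for the worlds `vw`;
* `Dl_bd` : `3 Dl (Cl (2^a) (2^a')) 2 ≤ 2^(7 (a + a' + 1))`;
* **`tok`** : `TOk γ`.
-/

set_option autoImplicit false

open Finset
open Crest.Agent.R4C.Basex935 Crest.Agent.R4C.Cutx50 Crest.Agent.R4C.PrefixMx882
open Crest.Agent.R4C.FLDefx935 Crest.Agent.R4C.Rulex945 Crest.Agent.R4C.PureClsx863
open Crest.Agent.R4C.PureL2x232 (hiFL)
open Crest.Agent.R4C.GWdefx982 Crest.Agent.R4C.VDefx24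
open Crest.Agent.R4C.Splitx945 Crest.Agent.R4C.Spinex946 Crest.Agent.R4C.Bridgex882
open Crest.Agent.R4C.CrCoinx935
open Crest.Agent.R4C.HDx529 (gn)
open Crest.Agent.R4C.RelDegx15 (Rel Cl Dl)

namespace Crest.Agent.R4C.TOkx60

/-! ### numerics -/

lemma pow8_le {cp : ℝ} (hcp : 0 < cp) : ∃ m1 : ℕ, ∀ i : ℕ, m1 ≤ i →
    384 * ((i : ℝ) + 1) ^ 8 ≤ (2 : ℝ) ^ (cp * i) := by
  have hr : (1 : ℝ) < (2 : ℝ) ^ cp := Real.one_lt_rpow (by norm_num) hcp
  have h := (isLittleO_pow_const_const_pow_of_one_lt (R := ℝ) 8 hr).def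
    (c := 1 / 98304) (by norm_num)
  obtain ⟨m, hm⟩ := Filter.eventually_atTop.1 h
  refine ⟨max m 1, fun i hi => ?_⟩
  have h1 := hm i ((le_max_left _ _).trans hi)
  have hi1 : (1 : ℝ) ≤ i := by exact_mod_cast (le_max_right _ _).trans hi
  rw [Real.norm_of_nonneg (by positivity), Real.norm_of_nonneg (by positivity)] at h1
  have h2 : ((i : ℝ) + 1) ^ 8 ≤ (2 * i) ^ 8 :=
    pow_le_pow_left₀ (by positivity) (by linarith) 8
  have h3 : (2 : ℝ) ^ (cp * i) = ((2 : ℝ) ^ cp) ^ i := by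
    rw [Real.rpow_mul (by norm_num), Real.rpow_natCast]
  rw [h3]
  have h4 : (2 * (i : ℝ)) ^ 8 = 256 * (i : ℝ) ^ 8 := by ring
  linarith

lemma lin_exp {δ : ℝ} (hδ : 0 < δ) (p : ℕ) :
    ((p : ℝ) + 1) * (2 : ℝ) ^ (-(δ * p)) ≤ 1 + 1 / (δ * Real.log 2) := by
  have hl : 0 < Real.log 2 := Real.log_pos (by norm_num)
  set d : ℝ := δ * Real.log 2 with hd
  have hd0 : 0 < d := by positivity
  have e1 : (2 : ℝ) ^ (-(δ * p)) = Real.exp (-(d * p)) := by
    rw [Real.rpow_def_of_pos (by norm_num)]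
    congr 1
    rw [hd]; ring
  rw [e1]
  have h1 := Real.add_one_le_exp (d * p)
  have hp : (0 : ℝ) ≤ p := Nat.cast_nonneg p
  have h2 : ((p : ℝ) + 1) ≤ (1 + 1 / d) * Real.exp (d * p) := by
    have h3 : ((p : ℝ) + 1) ≤ (1 + 1 / d) * (d * p + 1) := by
      have e : (1 + 1 / d) * (d * p + 1) = d * p + 1 + p + 1 / d := by
        field_simp; ring
      rw [e]
      have : 0 ≤ d * p := by positivity
      have : 0 < 1 / d := by positivity
      linarith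
    refine h3.trans (mul_le_mul_of_nonneg_left h1 (by positivity))
  calc ((p : ℝ) + 1) * Real.exp (-(d * p))
      ≤ ((1 + 1 / d) * Real.exp (d * p)) * Real.exp (-(d * p)) :=
        mul_le_mul_of_nonneg_right h2 (Real.exp_pos _).le
    _ = 1 + 1 / d := by
        rw [mul_assoc, ← Real.exp_add]
        simp

lemma sup_bd {c cp : ℝ} (hc : 0 < c) (hcp : 0 < cp) : ∃ K : ℝ, 0 ≤ K ∧ ∀ p : ℕ,
    ((p : ℝ) + 1) * (((2 : ℝ) ^ (cp * p) / 16) ^ (-c) + (2 : ℝ) ^ (-(c * p))) ≤ K := by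
  have hl : 0 < Real.log 2 := Real.log_pos (by norm_num)
  refine ⟨16 ^ c * (1 + 1 / (c * cp * Real.log 2)) + (1 + 1 / (c * Real.log 2)), by positivity,
    fun p => ?_⟩
  have e1 : ((2 : ℝ) ^ (cp * p) / 16) ^ (-c) = 16 ^ c * (2 : ℝ) ^ (-(c * cp * p)) := by
    rw [Real.div_rpow (by positivity) (by norm_num), ← Real.rpow_mul (by norm_num),
      Real.rpow_neg (by norm_num : (0 : ℝ) ≤ 16), div_inv_eq_mul, mul_comm]
    congr 2
    ring
  have h1 := lin_exp (mul_pos hc hcp) p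
  have h2 := lin_exp hc p
  have h3 : (0 : ℝ) ≤ 16 ^ c := by positivity
  rw [e1, mul_add]
  have h4 : ((p : ℝ) + 1) * (16 ^ c * (2 : ℝ) ^ (-(c * cp * p))) ≤
      16 ^ c * (1 + 1 / (c * cp * Real.log 2)) := by
    calc ((p : ℝ) + 1) * (16 ^ c * (2 : ℝ) ^ (-(c * cp * p)))
        = 16 ^ c * (((p : ℝ) + 1) * (2 : ℝ) ^ (-(c * cp * p))) := by ring
      _ ≤ _ := mul_le_mul_of_nonneg_left h1 h3
  linarith

lemma cls_lt {a a' i : ℕ} (h : iA a a' ≤ i) : 2 ^ (a + a') < (i + 1) ^ 8 := by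
  have hne : {i : ℕ | 2 ^ (a + a') < (i + 1) ^ 8}.Nonempty := by
    refine ⟨2 ^ (a + a'), ?_⟩
    show 2 ^ (a + a') < (2 ^ (a + a') + 1) ^ 8
    exact (Nat.lt_succ_self _).trans_le (Nat.le_self_pow (by norm_num) _)
  have h1 : 2 ^ (a + a') < (iA a a' + 1) ^ 8 := Nat.sInf_mem hne
  exact h1.trans_le (Nat.pow_le_pow_left (by omega) 8)

/-- the constant of `Grow` -/
noncomputable def DD (a a' : ℕ) : ℝ := 64 * (2 * 2 ^ a + 2 * 2 ^ a' + 2)

lemma DD_le (a a' : ℕ) : DD a a' ≤ 384 * 2 ^ (a + a') := by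
  unfold DD
  have h1 : (1 : ℝ) ≤ 2 ^ a := one_le_pow₀ (by norm_num)
  have h2 : (1 : ℝ) ≤ 2 ^ a' := one_le_pow₀ (by norm_num)
  rw [pow_add]
  nlinarith

lemma Dl_bd (a a' : ℕ) :
    3 * (Dl (Cl (2 ^ a) (2 ^ a')) 2 : ℝ) ≤ 2 ^ (7 * (a + a' + 1)) := by
  have h := RelDegx15.Dl_le (A := 2 ^ a) (B := 2 ^ a') 2
  have h1 : ⌊(2 : ℝ) / 2⌋₊ = 1 := by norm_num
  rw [h1] at h
  have h2 : 3 * Dl (Cl (2 ^ a) (2 ^ a')) 2 ≤ 2 ^ (7 * (a + a' + 1)) := by
    have a1 : 1 ≤ 2 ^ a := Nat.one_le_two_pow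
    have a2 : 1 ≤ 2 ^ a' := Nat.one_le_two_pow
    have e : 2 ^ (7 * (a + a' + 1)) = 128 * ((2 ^ a) ^ 7 * (2 ^ a') ^ 7) := by
      rw [← pow_mul, ← pow_mul, ← pow_add]
      rw [show (128 : ℕ) = 2 ^ 7 by norm_num, ← pow_add]
      congr 1
      ring
    rw [e]
    generalize 2 ^ a = x at *
    generalize 2 ^ a' = y at *
    have h3 : 2 * 1 + 4 * x + 4 * y + 1 ≤ 11 * (x * y) := by nlinarith
    calc 3 * Dl (Cl x y) 2 ≤ 3 * (2 * x * y ^ 2 * (2 * 1 + 4 * x + 4 * y + 1)) :=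
          Nat.mul_le_mul_left _ h
      _ ≤ 3 * (2 * x * y ^ 2 * (11 * (x * y))) :=
          Nat.mul_le_mul_left _ (Nat.mul_le_mul_left _ h3)
      _ = 66 * (x ^ 2 * y ^ 3) := by ring
      _ ≤ 128 * (x ^ 7 * y ^ 7) := by
          refine Nat.mul_le_mul (by norm_num) (Nat.mul_le_mul ?_ ?_)
          · exact Nat.pow_le_pow_right a1 (by norm_num)
          · exact Nat.pow_le_pow_right a2 (by norm_num)
  exact_mod_cast h2

/-! ### the worlds -/

section vw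

variable {cp η γ L δ : ℝ} {A m0 M : ℕ} {B : Finset ℕ} {F : FL M}

lemma theta_vw (hM : 0 < M) (a a' s G i : ℕ) :
    (vw hM F (ParOf cp A m0 γ L M B) δ a a' s G).θ i = (2 : ℝ) ^ (cp * i) / 16 := rfl

lemma i0_vw (hM : 0 < M) {a a' s G i : ℕ}
    (h : (vw hM F (ParOf cp A m0 γ L M B) δ a a' s G).i0 ≤ i) : m0 ≤ i ∧ iA a a' ≤ i :=
  ⟨(le_max_left _ _).trans h, ((le_max_right _ _).trans (le_max_right _ _)).trans h⟩

lemma DD_vw (hm : ∀ i : ℕ, m0 ≤ i → 384 * ((i : ℝ) + 1) ^ 8 ≤ (2 : ℝ) ^ (cp * i)) (hM : 0 < M)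
    {a a' s G i : ℕ} (h : (vw hM F (ParOf cp A m0 γ L M B) δ a a' s G).i0 ≤ i) :
    DD a a' ≤ (2 : ℝ) ^ (cp * i) := by
  obtain ⟨h1, h2⟩ := i0_vw hM h
  have h3 : ((2 ^ (a + a') : ℕ) : ℝ) < (((i + 1) ^ 8 : ℕ) : ℝ) := by exact_mod_cast cls_lt h2
  push_cast at h3
  have h4 := hm i h1
  have h5 := DD_le a a'
  linarith

lemma pow_le_two {cp : ℝ} (hcp0 : 0 < cp) {n : ℕ} (hn : (n : ℝ) * cp ≤ 1) (i : ℕ) :
    ((2 : ℝ) ^ (cp * i)) ^ n ≤ 2 ^ i := by
  rw [← Real.rpow_natCast, ← Real.rpow_mul (by norm_num), ← Real.rpow_natCast (2 : ℝ) i]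
  refine Real.rpow_le_rpow_of_exponent_le (by norm_num) ?_
  have hi : (0 : ℝ) ≤ i := Nat.cast_nonneg i
  nlinarith

theorem grow_vw (hcp0 : 0 < cp) (hcp : cp ≤ 1 / 4)
    (hm : ∀ i : ℕ, m0 ≤ i → 384 * ((i : ℝ) + 1) ^ 8 ≤ (2 : ℝ) ^ (cp * i)) (hM : 0 < M)
    (a a' s G : ℕ) :
    VDepthx952.Grow (vw hM F (ParOf cp A m0 γ L M B) δ a a' s G) (DD a a') where
  hD := by
    unfold DD
    have h1 : (1 : ℝ) ≤ 2 ^ a := one_le_pow₀ (by norm_num)
    have h2 : (1 : ℝ) ≤ 2 ^ a' := one_le_pow₀ (by norm_num)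
    linarith
  mono := by
    intro i j _ hij
    rw [theta_vw, theta_vw]
    refine div_le_div_of_nonneg_right ?_ (by norm_num)
    refine Real.rpow_le_rpow_of_exponent_le (by norm_num) ?_
    have : (i : ℝ) ≤ j := by exact_mod_cast hij
    nlinarith
  small := by
    intro i hi
    have h1 := DD_vw hm hM hi
    have h2 := pow_le_two hcp0 (n := 4) (by push_cast; linarith) i
    rw [theta_vw]
    set E : ℝ := (2 : ℝ) ^ (cp * i) with hE
    have hE0 : 0 < E := Real.rpow_pos_of_pos (by norm_num) _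
    have hD0 : 0 ≤ DD a a' := by unfold DD; positivity
    have h3 : DD a a' * (E / 16) ≤ E * (E / 16) := mul_le_mul_of_nonneg_right h1 (by positivity)
    have h4 : (DD a a' * (E / 16)) ^ 2 ≤ (E * (E / 16)) ^ 2 :=
      pow_le_pow_left₀ (by positivity) h3 2
    have h5 : (E * (E / 16)) ^ 2 = E ^ 4 / 256 := by ring
    have h6 : 0 < E ^ 4 := by positivity
    linarith
  gr := by
    intro i j hi hij
    have h1 := DD_vw hm hM hi
    rw [theta_vw, theta_vw]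
    set E : ℝ := (2 : ℝ) ^ (cp * i) with hE
    have hE0 : 0 < E := Real.rpow_pos_of_pos (by norm_num) _
    have h2 : E * E ≤ (2 : ℝ) ^ (cp * j) := by
      rw [hE, ← Real.rpow_add (by norm_num)]
      refine Real.rpow_le_rpow_of_exponent_le (by norm_num) ?_
      have : (2 : ℝ) * i ≤ j := by exact_mod_cast hij
      nlinarith
    have h3 : DD a a' * (E / 16) ≤ E * (E / 16) := mul_le_mul_of_nonneg_right h1 (by positivity)
    linarith

lemma sq_vw (hcp0 : 0 < cp) (hcp : cp ≤ 1 / 4) (hM : 0 < M) (a a' s G i : ℕ) :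
    128 * (vw hM F (ParOf cp A m0 γ L M B) δ a a' s G).θ i ^ 2 ≤ 2 ^ i := by
  rw [theta_vw]
  have h2 := pow_le_two hcp0 (n := 2) (by push_cast; linarith) i
  have h3 : (0 : ℝ) < 2 ^ i := by positivity
  have h4 : 128 * ((2 : ℝ) ^ (cp * i) / 16) ^ 2 = ((2 : ℝ) ^ (cp * i)) ^ 2 / 2 := by ring
  rw [h4]
  linarith

end vw

/-- the members of the class -/
lemma cl_cond {a a' : ℕ} : ∀ p ∈ Cl (2 ^ a) (2 ^ a'), 64 * ((p.1 : ℝ) + p.2 + 2) ≤ DD a a' := by
  intro p hp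
  have h := (RelDegx15.mem_Cl.1 hp).1
  have h1 : ((p.1 : ℕ) : ℝ) ≤ 2 * 2 ^ a := by exact_mod_cast h.1.2.le
  have h2 : ((p.2 : ℕ) : ℝ) ≤ 2 * 2 ^ a' := by exact_mod_cast h.2.2.le
  unfold DD
  linarith

lemma cl_pos {a a' : ℕ} : ∀ p ∈ Cl (2 ^ a) (2 ^ a'), 0 < p.1 ∧ 0 < p.2 := by
  intro p hp
  have h := (RelDegx15.mem_Cl.1 hp).1
  have a1 : 1 ≤ 2 ^ a := Nat.one_le_two_pow
  have a2 : 1 ≤ 2 ^ a' := Nat.one_le_two_pow
  omega

lemma DD_symm (a a' : ℕ) : DD a a' = DD a' a := by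
  unfold DD; ring

/-- **target `TOk`** -/
theorem tok (γ : ℝ) : TOk γ := by
  have hpow : Ev fun cp _ _ m0 => ∀ i : ℕ, m0 ≤ i →
      384 * ((i : ℝ) + 1) ^ 8 ≤ (2 : ℝ) ^ (cp * i) := by
    refine Ev.of_m0 fun cp η A h1 _ => ?_
    obtain ⟨m1, hm1⟩ := pow8_le h1
    exact ⟨m1, fun m0 hm i hi => hm1 i (hm.trans hi)⟩
  refine (((Ev.basic.and hpow).and (TBudx322.vw_ok γ)).and (HypVwx516.hyp_vw γ)).mono ?_
  rintro cp η A m0 ⟨⟨⟨⟨hcp0, hcp, -⟩, hm⟩, hok⟩, C1, c, hC1, hc, hyp⟩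
  have hcp4 : cp ≤ 1 / 4 := by linarith
  obtain ⟨K, hK0, hK⟩ := sup_bd hc hcp0
  refine ⟨4 * C1, 1 + 128 * K + 72, 7, by linarith, by linarith, ?_⟩
  intro L M B F hS a a' s G hG Z hZ
  have hZok : Z.Ok := by rw [hZ]; exact hok L M B F hS _ a a' s G hG
  have hH := hyp L M B F hS a a' s G hG Z hZ hZok
  have hσ : Z.σ ≤ 1 := by rw [hZ]; exact zero_le_one
  have hGr : VDepthx952.Grow Z (DD a a') := by rw [hZ]; exact grow_vw hcp0 hcp4 hm hS.hM a a' s G
  have hsq : ∀ i, Z.i0 ≤ i → 128 * Z.θ i ^ 2 ≤ 2 ^ i := by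
    intro i _
    rw [hZ]; exact sq_vw hcp0 hcp4 hS.hM a a' s G i
  have hθ : ∀ p : ℕ, Z.θ p = (2 : ℝ) ^ (cp * p) / 16 := by
    intro p; rw [hZ]; rfl
  set n : ℕ := a + a' with hn
  have hP : (1 : ℝ) ≤ 2 ^ (7 * n) := one_le_pow₀ (by norm_num)
  have hKV : (1 : ℝ) ≤ (1 + 128 * K + 72) * 2 ^ (7 * n) := by nlinarith
  have hKE : (0 : ℝ) ≤ 18 * (((n + 3 : ℕ) : ℝ) + 1) := by positivity
  have hΔ : (2 : ℝ) ≤ 2 ^ (7 * (n + 1)) := by
    calc (2 : ℝ) = 2 ^ 1 := by norm_num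
      _ ≤ _ := pow_le_pow_right₀ (by norm_num) (by omega)
  have hnum : ∀ p : ℕ, Z.i0 ≤ p → 2 ^ (7 * (n + 1)) * (Z.θ p ^ (-c) + (2 : ℝ) ^ (-(c * p))) +
      18 * (((n + 3 : ℕ) : ℝ) + 1) / ((p : ℝ) + 1) ≤
      (1 + 128 * K + 72) * 2 ^ (7 * n) / ((p : ℝ) + 1) := by
    intro p _
    have hp0 : (0 : ℝ) < (p : ℝ) + 1 := by positivity
    have h1 := hK p
    rw [← hθ] at h1
    have h2 : (Z.θ p ^ (-c) + (2 : ℝ) ^ (-(c * p))) ≤ K / ((p : ℝ) + 1) := by
      rw [le_div_iff₀ hp0]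
      linarith
    have h3 : (2 : ℝ) ^ (7 * (n + 1)) = 128 * 2 ^ (7 * n) := by
      rw [mul_add, pow_add]; norm_num; ring
    have h4 : ((n + 3 : ℕ) : ℝ) + 1 ≤ 4 * 2 ^ (7 * n) := by
      have h5 : n + 1 ≤ 2 ^ n := Nat.lt_two_pow_self
      have h6 : (2 : ℕ) ^ n ≤ 2 ^ (7 * n) := Nat.pow_le_pow_right (by norm_num) (by omega)
      have h7 : n + 3 + 1 ≤ 4 * 2 ^ (7 * n) := by omega
      exact_mod_cast h7
    have h8 : 2 ^ (7 * (n + 1)) * (Z.θ p ^ (-c) + (2 : ℝ) ^ (-(c * p))) ≤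
        128 * K * 2 ^ (7 * n) / ((p : ℝ) + 1) := by
      rw [h3]
      calc 128 * 2 ^ (7 * n) * (Z.θ p ^ (-c) + (2 : ℝ) ^ (-(c * p)))
          ≤ 128 * 2 ^ (7 * n) * (K / ((p : ℝ) + 1)) :=
            mul_le_mul_of_nonneg_left h2 (by positivity)
        _ = _ := by ring
    have h9 : 18 * (((n + 3 : ℕ) : ℝ) + 1) / ((p : ℝ) + 1) ≤
        72 * 2 ^ (7 * n) / ((p : ℝ) + 1) := by
      refine div_le_div_of_nonneg_right ?_ hp0.le
      linarith
    have h10 : (1 + 128 * K + 72) * 2 ^ (7 * n) / ((p : ℝ) + 1) =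
        2 ^ (7 * n) / ((p : ℝ) + 1) + 128 * K * 2 ^ (7 * n) / ((p : ℝ) + 1) +
          72 * 2 ^ (7 * n) / ((p : ℝ) + 1) := by ring
    have h11 : (0 : ℝ) ≤ 2 ^ (7 * n) / ((p : ℝ) + 1) := by positivity
    rw [h10]
    linarith
  have hD1 := Dl_bd a a'
  have hD2 := Dl_bd a' a
  rw [show a' + a + 1 = n + 1 by omega] at hD2
  constructor
  · have h := HDeltaGx60.ok_529 hZok hσ (W := Cl (2 ^ a) (2 ^ a')) cl_pos (R0 := 2) zero_le_two hGr
      cl_cond hΔ hD1 (by rw [RelDegx15.Cl_swap]; exact hD2) hsq hKV hC1 hc.le hKE hH hnum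
    exact h
  · have h := HDeltaGx60.ok_529 hZok hσ (W := Cl (2 ^ a') (2 ^ a)) cl_pos (R0 := 2) zero_le_two
      (D := DD a a') hGr (by rw [DD_symm]; exact cl_cond) hΔ hD2
      (by rw [RelDegx15.Cl_swap]; exact hD1) hsq hKV hC1 hc.le hKE hH hnum
    have e : (fun ν ν' => RR Z a a' ν' ν) = Rel Z (Cl (2 ^ a') (2 ^ a)) 2 := by
      funext ν ν'
      exact propext (RelDegx15.relT_Cl hZok)
    rw [e]
    exact h

end Crest.Agent.R4C.TOkx60
end

-- ▼ part R4C/DictW_20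
section

/-!
# Row 4, GW section, vector case: actual coins, form `ix` (helper20; literal form of helper13)

* `AllAct Z lam b w X` : every (nominal) coin of the world at a free prime of `w` above `X` is an
  actual coin of `b`;
* `Wb Z lam a b w j` : product of the actual coins in `(a, cut j]`, `0` unless `AllAct (cut j)`;
* `Wb_cond` : the hypotheses of `budget3_kap`;  `Wb_budget` : the budget itself;
* `allAct_of` : `AllAct` above the birth of the zone of a node above which `b` has no exception;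
* `Wa_le_Wb` : the pair weight at that node is at most the weight of the zone.
-/

set_option autoImplicit false

namespace Crest.Agent.R4C.DictVx20

open Finset Crest.Agent.R4C.FLDefx935 Crest.Agent.R4C.Cutx50 Crest.Agent.R4C.Rulex945
  Crest.Agent.R4C.NHx656 Crest.Agent.R4C.PureClsx863 Crest.Agent.R4C.DictAx20
  Crest.Agent.R4C.NodeMassRx634 Crest.Agent.R4C.NodeMassx634 Crest.Agent.R4C.F5bx20
open Crest.Agent.R4C.FLExx326 (ind ind_nonneg)
open Crest.Agent.R4C.PrefixMx882 (free mem_free)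
open Crest.Agent.R4C.GWdefx982 Crest.Agent.R4C.GWnodex863 Crest.Agent.R4C.FamBudx252

variable {Z : World}

/-- every coin of the world above `X` is an actual coin of `b` -/
def AllAct (Z : World) (lam : ℕ → ℕ → Option ℤ) (b w X : ℕ) : Prop :=
  ∀ q ∈ free Z.N w, X < q → Z.coin w q → lam b q = none

lemma AllAct.mono {lam : ℕ → ℕ → Option ℤ} {b w X Y : ℕ} (h : AllAct Z lam b w X)
    (hXY : X ≤ Y) : AllAct Z lam b w Y := fun q hq h1 h2 => h q hq (lt_of_le_of_lt hXY h1) h2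







/-- **all coins above the birth of the zone are actual** -/
theorem allAct_of {M : ℕ} {F : FL M} {P : Par} {A : ℕ} {B : Finset ℕ} {δ ε : ℝ} {s : ℕ}
    (hP : ParT M P A B δ ε) (h : Z.Ok) (hZ : WV Z P δ s)
    {X0 b om w : ℕ} {V : ℝ} (hS : Sc P s om Z.L V) (hvb : VB F X0 b om Z.G0 w)
    (hX0 : ∀ i, Z.nd i w → X0 ≤ Z.cut i) (hM : 0 < M) (hwN : w ∣ Z.N) (hwM : w ∣ M)
    {hf : ℕ → ℝ} (hh : ∀ k : ℕ, (2 : ℝ) ^ ((1 / (A : ℝ)) * k) ≤ hf k) {U : ℝ} (hU : U = δ / ε)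
    {K : ℕ} (hK : M ≤ 2 ^ K) {l : ℕ} (hl : Z.nd l w)
    (hne : ¬ ExcF F (ind B) P.L hf (HU U) (A * l + 1) K b) :
    AllAct Z (lamR F P) b w (Z.cut (Z.bi l w)) := by
  have hb := birth_bi hl
  exact fun q hq h1 h2 => hcoin_of hP h hZ hS hvb hX0 hM hwN hwM hh hU hK (Z.bi l w) l hb.1 hl
    (bi_le l w) (fun k h3 h4 h5 => by have := le_bi h4 h5; omega) hne q hq h1 h2


end Crest.Agent.R4C.DictVx20
end

-- ▼ part R4C/GoodV_20
section

/-!
# Row 4, GW section, vector case: weight side of `VDef_24.TPair` (helper20)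

In the literal terms of `VDef_24` (`Z = vw .. (H0 b)`, `w = hw b`, window `win`):

* `wv_vw` : the world of `VDef_24` is a world with nominal coins (`DictV_20.WV`);
* `yc_le` : `yc a a' ≤ cut i` for `i ≥ iA a a'`, `i ≥ 1`, `10 ≤ A`;
* `good_birth` : outside `HvyR (l-1)` all nominal coins above the birth of the zone of the node `l`
  are actual coins of `b`;
* `act_le_Wb` : the product of the actual coins of `b` in `(y, cut l]` is `≤ Wb` of the zone.
-/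

set_option autoImplicit false

open Finset
open Crest.Agent.R4C.Basex935 Crest.Agent.R4C.Cutx50 Crest.Agent.R4C.PrefixMx882
open Crest.Agent.R4C.FLDefx935 Crest.Agent.R4C.Rulex945 Crest.Agent.R4C.PureClsx863
open Crest.Agent.R4C.PureL2x232 (hiFL)
open Crest.Agent.R4C.GWdefx982 Crest.Agent.R4C.NHx656
open Crest.Agent.R4C.Splitx945 Crest.Agent.R4C.Spinex946
open Crest.Agent.R4C.VDefx24
open Crest.Agent.R4C.DictVx20 (WV VB Sc AllAct allAct_of)

namespace Crest.Agent.R4C.GoodVx20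

variable {cp : ℝ} {A m0 : ℕ} {γ L : ℝ} {M : ℕ} {B : Finset ℕ} {F : FL M}

lemma pow_quarter {A i q : ℕ} (hA : 1 ≤ A) (hq : 2 ^ (A * i) ≤ q) :
    (2 : ℝ) ^ ((1 / 4 : ℝ) * i) ≤ (q : ℝ) ^ (1 / (4 * (A : ℝ))) := by
  have hA0 : (0 : ℝ) < A := by exact_mod_cast hA
  have h1 : ((2 : ℝ) ^ ((A : ℝ) * i)) ≤ q := by
    have : ((2 ^ (A * i) : ℕ) : ℝ) ≤ q := by exact_mod_cast hq
    rw [← Nat.cast_mul, Real.rpow_natCast]
    exact_mod_cast this
  have h2 := Real.rpow_le_rpow (by positivity) h1 (by positivity : (0 : ℝ) ≤ 1 / (4 * (A : ℝ)))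
  rw [← Real.rpow_mul (by norm_num)] at h2
  refine le_trans (le_of_eq ?_) h2
  congr 1
  field_simp

/-- **the world of `VDef_24` has nominal coins** -/
theorem wv_vw (hM : 0 < M) (hA : 1 ≤ A) (hcp : cp ≤ 1 / 4) {a a' s G : ℕ} :
    WV (vw hM F (ParOf cp A m0 γ L M B) (1 / (4 * A)) a a' s G) (ParOf cp A m0 γ L M B)
      (1 / (4 * A)) (a + a' + 3) where
  cut := rfl
  γ := rfl
  coin := fun _ _ => Iff.rfl
  hθ := by
    intro i _ q hq
    have hq' : 2 ^ (A * i) ≤ q := le_of_lt hq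
    show 4 * ((2 : ℝ) ^ (cp * i) / 16) ≤ 3 * (q : ℝ) ^ (1 / (4 * (A : ℝ)))
    have h1 := pow_quarter hA hq'
    have h2 : (2 : ℝ) ^ (cp * i) ≤ (2 : ℝ) ^ ((1 / 4 : ℝ) * i) :=
      Real.rpow_le_rpow_of_exponent_le (by norm_num)
        (mul_le_mul_of_nonneg_right hcp (Nat.cast_nonneg _))
    have h3 : (0 : ℝ) ≤ (q : ℝ) ^ (1 / (4 * (A : ℝ))) := Real.rpow_nonneg (Nat.cast_nonneg _) _
    linarith

lemma iA_spec (a a' : ℕ) : 2 ^ (a + a') < (iA a a' + 1) ^ 8 := by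
  have h : ({i : ℕ | 2 ^ (a + a') < (i + 1) ^ 8} : Set ℕ).Nonempty := by
    refine ⟨2 ^ (a + a'), ?_⟩
    show 2 ^ (a + a') < (2 ^ (a + a') + 1) ^ 8
    calc 2 ^ (a + a') < 2 ^ (a + a') + 1 := Nat.lt_succ_self _
      _ = (2 ^ (a + a') + 1) ^ 1 := (pow_one _).symm
      _ ≤ _ := Nat.pow_le_pow_right (Nat.succ_pos _) (by norm_num)
  exact Nat.sInf_mem h

/-- the low cut is below the first cut of the world -/
lemma yc_le {a a' i A : ℕ} (hA : 10 ≤ A) (hi : 1 ≤ i) (h : iA a a' ≤ i) :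
    yc a a' ≤ 2 ^ (A * i) := by
  have h1 := iA_spec a a'
  have h2 : (iA a a' + 1) ^ 8 ≤ (i + 1) ^ 8 := Nat.pow_le_pow_left (by omega) 8
  have h3 : i + 1 ≤ 2 ^ i := Nat.lt_two_pow_self
  have h4 : (i + 1) ^ 8 ≤ (2 ^ i) ^ 8 := Nat.pow_le_pow_left h3 8
  have h5 : (4 : ℕ) ≤ 2 ^ (2 * i) := by
    calc (4 : ℕ) = 2 ^ 2 := by norm_num
      _ ≤ _ := Nat.pow_le_pow_right (by norm_num) (by omega)
  unfold yc
  calc 2 ^ (a + a' + 2) = 2 ^ (a + a') * 4 := by rw [pow_add]; norm_num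
    _ ≤ (2 ^ i) ^ 8 * 2 ^ (2 * i) := Nat.mul_le_mul (h1.le.trans (h2.trans h4)) h5
    _ = 2 ^ (10 * i) := by rw [← pow_mul, ← pow_add]; congr 1; ring
    _ ≤ 2 ^ (A * i) := Nat.pow_le_pow_right (by norm_num) (Nat.mul_le_mul_right _ hA)

lemma hf_ge {A k : ℕ} {R : ℝ} (hA : 1 ≤ A) (hR : 1 ≤ R) :
    (2 : ℝ) ^ ((1 / (A : ℝ)) * k) ≤ 2 * R * 2 ^ (k / A) := by
  have hA0 : (0 : ℝ) < A := by exact_mod_cast hA
  have h1 : (1 / (A : ℝ)) * k ≤ ((k / A + 1 : ℕ) : ℝ) := by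
    rw [one_div, inv_mul_eq_div, div_le_iff₀ hA0]
    have h2 : k < (k / A + 1) * A := by
      have h3 := Nat.div_add_mod k A
      have h4 := Nat.mod_lt k hA
      calc k = A * (k / A) + k % A := h3.symm
        _ < A * (k / A) + A := by omega
        _ = _ := by ring
    exact_mod_cast h2.le
  calc (2 : ℝ) ^ ((1 / (A : ℝ)) * k) ≤ (2 : ℝ) ^ (((k / A + 1 : ℕ) : ℝ)) :=
        Real.rpow_le_rpow_of_exponent_le (by norm_num) h1
    _ = 2 * 1 * 2 ^ (k / A) := by rw [Real.rpow_natCast, pow_succ]; ring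
    _ ≤ _ := by
        refine mul_le_mul_of_nonneg_right ?_ (by positivity)
        linarith

/-- the data of one word -/
theorem sc_vw (hL : 0 < L) {a a' s y b : ℕ} (h1 : 2 ^ s ≤ 2 * low y b)
    (h2 : low y b < 2 ^ (a + a' + s + 2)) :
    Sc (ParOf cp A m0 γ L M B) (a + a' + 3) (low y b) (L / 2 ^ s) (2 ^ s) where
  hL := hL
  hV := by positivity
  hL' := rfl
  hs := by omega
  lo := by exact_mod_cast h1
  hi := by
    have h3 : ((low y b : ℕ) : ℝ) ≤ ((2 ^ (a + a' + s + 2) : ℕ) : ℝ) := by exact_mod_cast h2.le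
    refine h3.trans (le_of_eq ?_)
    push_cast
    rw [← pow_add]
    congr 1
    omega

lemma win_lo {a s y b : ℕ} (h : win a s y b) : 2 ^ s ≤ 2 * low y b :=
  le_trans (Nat.pow_le_pow_right (by norm_num) (by omega)) h.1

lemma win_hi {a s y b : ℕ} (a' : ℕ) (h : win a s y b) : low y b < 2 ^ (a + a' + s + 2) :=
  lt_of_lt_of_le h.2 (Nat.pow_le_pow_right (by norm_num) (by omega))

lemma win_hi' {a' s y b : ℕ} (a : ℕ) (h : win a' s y b) : low y b < 2 ^ (a + a' + s + 2) :=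
  lt_of_lt_of_le h.2 (Nat.pow_le_pow_right (by norm_num) (by omega))

/-- **all nominal coins above the birth of the zone are actual coins of `b`** -/
theorem good_birth (hM : 0 < M) (hL : 0 < L) (hA : 10 ≤ A) (hcp : cp ≤ 1 / 4) {a a' s b l : ℕ}
    (hb : b ∣ M) {Z : World}
    (hZ : Z = vw hM F (ParOf cp A m0 γ L M B) (1 / (4 * A)) a a' s
      (HighFLx863.H0 hM F (yc a a') b)) (hok : Z.Ok)
    (h1 : 2 ^ s ≤ 2 * low (yc a a') b) (h2 : low (yc a a') b < 2 ^ (a + a' + s + 2))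
    (hl : Z.nd l (HighFLx863.hw hM F (yc a a') b)) {R : ℝ} (hR : 1 ≤ R)
    (hne : ¬ HvyR F B L A R (l - 1) b) :
    AllAct Z (lamR F (ParOf cp A m0 γ L M B)) b (HighFLx863.hw hM F (yc a a') b)
      (Z.cut (Z.bi l (HighFLx863.hw hM F (yc a a') b))) := by
  have hA1 : 1 ≤ A := by omega
  set P := ParOf cp A m0 γ L M B with hP
  set w := HighFLx863.hw hM F (yc a a') b with hwd
  set G := HighFLx863.H0 hM F (yc a a') b with hGd
  have hpt : Crest.Agent.R4C.F5bx20.ParT M P A B (1 / (4 * (A : ℝ))) (1 / 20) :=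
    Crest.Agent.R4C.F5bx20.parT_ParOf hA1 hL
  have hi0 : Z.i0 = max P.m0 (max (GWinstx982.iD (hiFL hM (yc a a') F) P G) (iA a a')) := by
    rw [hZ]; rfl
  have hcutZ : Z.cut = P.cut := by rw [hZ]; rfl
  have hun : ∀ n, ∃ i, n ≤ P.cut i := by
    intro n
    refine ⟨n, ?_⟩
    show n ≤ 2 ^ (A * n)
    exact (Nat.lt_two_pow_self (n := n)).le.trans
      (Nat.pow_le_pow_right (by norm_num) (Nat.le_mul_of_pos_left n (by omega)))
  have hi3 : 1 ≤ Z.i0 := by have := hok.hi0; omega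
  have hy : yc a a' ≤ P.cut Z.i0 :=
    yc_le hA hi3 (by rw [hi0]; exact (le_max_right _ _).trans (le_max_right _ _))
  have hD : D (hiFL hM (yc a a') F) G ≤ P.cut Z.i0 :=
    GWinstx982.D_le_cut hpt.cut_mono hun
      (by rw [hi0]; exact (le_max_left _ _).trans (le_max_right _ _))
  have hvb : VB F (P.cut Z.i0) b (low (yc a a') b) Z.G0 w := by
    have e : Z.G0 = G := by rw [hZ]; rfl
    rw [e]
    exact Crest.Agent.R4C.DictVx20.VB.of_high hM hb hy hD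
  have hwN : w ∣ Z.N := by
    have e : Z.N = PM (hiFL hM (yc a a') F) G := by rw [hZ]; rfl
    rw [e]
    exact HighFLx863.hw_dvd hM F hb
  have hup : 0 < upp (yc a a') M := upp_pos _ _
  have hwM : w ∣ M :=
    (Dvd.intro_left _ (HighFLx863.H0_mul_hw hM F hb)).trans
      ((upp_dvd (yc a a') hM.ne' hb).trans (Dvd.intro_left _ (low_mul_upp (yc a a') hM.ne')))
  have hS : Sc P (a + a' + 3) (low (yc a a') b) Z.L (2 ^ s) := by
    have e : Z.L = L / 2 ^ s := by rw [hZ]; rfl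
    rw [e]
    exact sc_vw hL h1 h2
  have hwv : WV Z P (1 / (4 * (A : ℝ))) (a + a' + 3) := by
    rw [hZ]
    exact wv_vw hM hA1 hcp
  refine allAct_of hpt hok hwv hS hvb (fun i hi => by
      rw [hcutZ]; exact hpt.cut_mono hi.1) hM hwN hwM
    (hf := fun k => 2 * R * 2 ^ (k / A)) (fun k => hf_ge hA1 hR) (U := 5 / (A : ℝ)) ?_
    (K := M + 1) ?_ hl ?_
  · have : (A : ℝ) ≠ 0 := by exact_mod_cast (by omega : A ≠ 0)
    field_simp
    norm_num
  · exact (Nat.lt_two_pow_self (n := M)).le.trans (Nat.pow_le_pow_right (by norm_num) (by omega))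
  · rintro ⟨k, hk1, hk2⟩
    refine hne ⟨k, le_trans ?_ hk1, hk2⟩
    have : A * (l - 1) ≤ A * l := Nat.mul_le_mul_left _ (Nat.sub_le _ _)
    omega

/-- **`Good` of `FamBudA_252` at the birth of the zone** -/
theorem good_birth' (hM : 0 < M) (hL : 0 < L) (hA : 10 ≤ A) (hcp : cp ≤ 1 / 4) {a a' s b l : ℕ}
    (hb : b ∣ M) {Z : World}
    (hZ : Z = vw hM F (ParOf cp A m0 γ L M B) (1 / (4 * A)) a a' s
      (HighFLx863.H0 hM F (yc a a') b)) (hok : Z.Ok)
    (h1 : 2 ^ s ≤ 2 * low (yc a a') b) (h2 : low (yc a a') b < 2 ^ (a + a' + s + 2))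
    (hl : Z.nd l (HighFLx863.hw hM F (yc a a') b)) {R : ℝ} (hR : 1 ≤ R)
    (hne : ¬ HvyR F B L A R (l - 1) b) :
    FamBudx252.Good Z (Act F (ParOf cp A m0 γ L M B) Z.N (yc a a')
        (HighFLx863.hw hM F (yc a a') b) b)
      (HighFLx863.hw hM F (yc a a') b) (Z.bi l (HighFLx863.hw hM F (yc a a') b)) := by
  classical
  intro q hq hc hlt
  have h3 := good_birth hM hL hA hcp hb hZ hok h1 h2 hl hR hne q hq hlt hc
  have hb1 := (GWnodex863.birth_bi (Z := Z) hl).1.1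
  have hcutZ : Z.cut = (ParOf cp A m0 γ L M B).cut := by rw [hZ]; rfl
  have hi0 : iA a a' ≤ Z.i0 := by
    rw [hZ]
    exact (le_max_right _ _).trans (le_max_right _ _)
  have hy : yc a a' ≤ Z.cut (Z.bi l (HighFLx863.hw hM F (yc a a') b)) := by
    rw [hcutZ]
    exact yc_le hA (by have := hok.hi0; omega) (hi0.trans hb1)
  unfold Act
  exact mem_filter.2 ⟨hq, lt_of_le_of_lt hy hlt, h3⟩


end Crest.Agent.R4C.GoodVx20
end

-- ▼ part R4C/VecWt_559
section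

/-!
# Row 4, GW section, vector case: the weight of a pair in the form of `rel_total` (helper559)

`F' = hiFL hM y F`, `G ∈ cores F'`, `N = PM F' G`, `upp y b = G * z`, `upp y c = G * z'`,
`x = cut i` (own scale), `gcd z z' = low x z = low x z'`.

* `kk F' G x z β β' = 1 / (nu0 G * ν_{N_x}(low x z) * gcd β β')` : the kernel of one node;
* `kk_mul` : `gcd ν ν kk = nu0 G * (ν_N z ν_N z' / ν(node))`;
* `bst_low` : the low boost depends on the low parts only;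
* `Ww_anti`, `Ww_le_one`, `Ww_nonneg` : the weight decreases with the cut;
* **`weight_frm`** : 360's `weight_low` in the form `frm`;
* **`pair_weight`** : off `CKyP`, `B1` replaced by `1 + log₂ (u v)`.
-/

set_option autoImplicit false

namespace Crest.Agent.R4C.VecWtx559

open Finset Crest.Agent.R4C.Basex935 Crest.Agent.R4C.FLDefx935 Crest.Agent.R4C.BoostCx972
  Crest.Agent.R4C.CrCoinx935 Crest.Agent.R4C.CrCountx935 Crest.Agent.R4C.Bridgex882
  Crest.Agent.R4C.PrefixMx882 Crest.Agent.R4C.Rulex945 Crest.Agent.R4C.Sharedx11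
  Crest.Agent.R4C.Splitx945 Crest.Agent.R4C.BoostTopx19 Crest.Agent.R4C.BoostAlx100
  Crest.Agent.R4C.Cutx50 Crest.Agent.R4C.PureClsx863 Crest.Agent.R4C.PureL2x232
  Crest.Agent.R4C.Spinex946 Crest.Agent.R4C.KyClsx971
open Crest.Agent.R4C.GWwtx360 (Ww)

/-! ### the kernel of a node -/


/-- the kernel of the node of `z` at the cut `x` -/
noncomputable def kk {M : ℕ} (F : FL M) (G x z β β' : ℕ) : ℝ :=
  1 / (nu0 F G * nu (low x (PM F G)) (low x z) * (Nat.gcd β β' : ℝ))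



/-! ### the low boost -/

/-- the low boost is a function of the low parts -/
theorem bst_low (y M b c : ℕ) :
    BoostRx398.bst (prQ y) M b c =
      BoostRx398.bst (prQ y) (low y M) (low y b) (low y c) := by
  classical
  unfold BoostRx398.bst
  refine prod_congr rfl fun p hp => ?_
  have hpy : p ≤ y := (GWwtx360.mem_prQ.1 hp).1
  rw [fact_low, fact_low, fact_low, if_pos hpy, if_pos hpy, if_pos hpy]

/-! ### the weights -/




/-! ### the pair -/

section pair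

variable {M : ℕ} {F : FL M} {P : Par}




end pair

section par

variable {M : ℕ} {F : FL M} {cp γ L : ℝ} {A m0 : ℕ} {B : Finset ℕ}




end par

end Crest.Agent.R4C.VecWtx559
end

-- ▼ part R4C/VWt_360
section

/-!
# Row 4, GW section, vector case: the last inequality of `TPair` (helper360)

* `Wc_le_VA` : the actual coins of the full word: `Wc F P y (cut i) b ≤ VA Z (Act ..) w j` if `j ≤ i`
  and no nominal coin fails above `cut j`;
* `B1_vec`   : `B1 b c ≤ 8 · 2^((a+a')/4) · offW b · offW c`;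
* `kap2_ge`  : one pair of nodes of the kernel;
* **`tpair_weight`** : the inequality of `TPair`.
-/

set_option autoImplicit false

namespace Crest.Agent.R4C.VWtx360

open Finset Crest.Agent.R4C.Basex935 Crest.Agent.R4C.FLDefx935 Crest.Agent.R4C.BoostCx972
  Crest.Agent.R4C.CrCoinx935 Crest.Agent.R4C.CrCountx935 Crest.Agent.R4C.Bridgex882
  Crest.Agent.R4C.PrefixMx882 Crest.Agent.R4C.Rulex945 Crest.Agent.R4C.Sharedx11
  Crest.Agent.R4C.Splitx945 Crest.Agent.R4C.BoostTopx19 Crest.Agent.R4C.BoostAlx100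
  Crest.Agent.R4C.Cutx50 Crest.Agent.R4C.PureClsx863 Crest.Agent.R4C.Spinex946
  Crest.Agent.R4C.GWdefx982 Crest.Agent.R4C.VecPairx19 Crest.Agent.R4C.VDefx24
open Crest.Agent.R4C.PureL2x232 (hiFL)
open Crest.Agent.R4C.GWwtx360 (Vw Wc weight_pair prod_pf_mono prod_fac_anti VR_mul_le Vw_upp
  log_ratio fac_pos prime_free)
open Crest.Agent.R4C.FamBudx252 (Good VA)

/-! ### products -/

lemma prod_pf_card (S : Finset ℕ) (hS : ∀ p ∈ S, 2 ≤ p) :
    ∏ p ∈ S, pf p ≤ (S.card : ℝ) + 1 := by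
  classical
  revert hS
  refine Finset.induction_on_max S ?_ ?_
  · intro _; simp
  · intro a S ha ih hS
    have haS : a ∉ S := fun h => lt_irrefl a (ha a h)
    rw [prod_insert haS, card_insert_of_notMem haS]
    have h1 := ih fun p hp => hS p (mem_insert_of_mem hp)
    have h2 : 2 ≤ a := hS a (mem_insert_self _ _)
    have h3 : S.card + 2 ≤ a := by
      have h4 : S ⊆ Ico 2 a := fun p hp =>
        mem_Ico.2 ⟨hS p (mem_insert_of_mem hp), ha p hp⟩
      have h5 := card_le_card h4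
      rw [Nat.card_Ico] at h5
      omega
    have h3' : (S.card : ℝ) + 2 ≤ a := by exact_mod_cast h3
    have hc0 : (0 : ℝ) ≤ S.card := Nat.cast_nonneg _
    have h6 : pf a ≤ ((S.card : ℝ) + 2) / (S.card + 1) := by
      unfold pf
      have ha0 : (0 : ℝ) < a := by linarith
      have h7 : (1 - 1 / (a : ℝ))⁻¹ = a / (a - 1) := by
        have : (a : ℝ) - 1 ≠ 0 := by linarith
        field_simp
      rw [h7, div_le_div_iff₀ (by linarith) (by linarith)]
      nlinarith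
    have h8 : 0 ≤ ∏ p ∈ S, pf p := prod_nonneg fun p hp => by
      have h9 : (2 : ℝ) ≤ p := by exact_mod_cast hS p (mem_insert_of_mem hp)
      unfold pf
      have : 1 / (p : ℝ) ≤ 1 := by
        rw [div_le_one (by linarith)]
        linarith
      exact inv_nonneg.2 (by linarith)
    calc pf a * ∏ p ∈ S, pf p ≤ (((S.card : ℝ) + 2) / (S.card + 1)) * ((S.card : ℝ) + 1) :=
          mul_le_mul h6 h1 h8 (by positivity)
      _ = _ := by
        push_cast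
        field_simp
        ring

lemma prod_pf_dvd (m : ℕ) (hm : 0 < m) {S : Finset ℕ} (hS : S ⊆ m.primeFactors) :
    ∏ p ∈ S, pf p ≤ (Nat.log 2 m : ℝ) + 1 := by
  refine (prod_pf_mono (fun p hp => Nat.prime_of_mem_primeFactors hp) hS).trans ?_
  refine (prod_pf_card _ fun p hp => (Nat.prime_of_mem_primeFactors hp).two_le).trans ?_
  have h0 : 2 ^ m.primeFactors.card ≤ m := by
    calc 2 ^ m.primeFactors.card = ∏ _p ∈ m.primeFactors, 2 := by rw [prod_const]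
      _ ≤ ∏ p ∈ m.primeFactors, p :=
          prod_le_prod' fun p hp => (Nat.prime_of_mem_primeFactors hp).two_le
      _ ≤ m := Nat.le_of_dvd hm (Nat.prod_primeFactors_dvd m)
  have h1 : m.primeFactors.card ≤ Nat.log 2 m := Nat.le_log_of_pow_le (by norm_num) h0
  have h2 : (m.primeFactors.card : ℝ) ≤ Nat.log 2 m := by exact_mod_cast h1
  linarith

section main

variable {M : ℕ} {F : FL M} {P : Par}

/-- actual coins: the product over the coins of `b` in `(y, cut i]` is at most the weight -/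
lemma Wc_le_VA (hM : 0 < M) {y G w d i j : ℕ} (hG : G ∈ cores (hiFL hM y F))
    (hw : w ∣ PM (hiFL hM y F) G) (ed : upp y d = G * w) {Z : World}
    (hZN : Z.N = PM (hiFL hM y F) G) (hZc : Z.cut = P.cut) (hcut : Monotone P.cut) (hj : j ≤ i)
    (hgd : Good Z (Act F P Z.N y w d) w j) :
    Wc F P y (P.cut i) d ≤ VA Z (Act F P Z.N y w d) w j := by
  classical
  have hMy : 0 < upp y M := upp_pos y M
  have hN := PM_pos (F := hiFL hM y F) G
  have hG0 : G ≠ 0 := (Nat.pos_of_dvd_of_pos (mem_cores.1 hG).1.1 hMy).ne'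
  unfold VA
  rw [if_pos hgd, hZc]
  unfold Wc Act
  refine prod_fac_anti (fun p hp => prime_free (mem_filter.1 hp).1) ?_
  intro p hp
  simp only [mem_filter, mem_free, hZN] at hp ⊢
  obtain ⟨⟨⟨h2, h3⟩, h4, h5⟩, h6⟩ := hp
  have h7 := (Nat.factorization_le_iff_dvd (mul_ne_zero hG0 hN.ne') hMy.ne').2
    (mul_PM_dvd (F := hiFL hM y F) hMy hG) p
  rw [fact_mul_word hMy hG dvd_rfl, fact_upp, if_pos (by omega)] at h7
  have h8 : d.factorization p = G.factorization p + w.factorization p := by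
    rw [← fact_mul_word hMy hG hw, ← ed, fact_upp, if_pos (by omega)]
  refine ⟨⟨?_, ?_⟩, h4, h6.trans (hcut hj), h5⟩
  · rw [← Nat.support_factorization, Finsupp.mem_support_iff]
    omega
  · omega

/-- `n + 2 ≤ 8 · 2^(n/4)` -/
lemma num_le (n : ℝ) (hn : 0 ≤ n) : n + 2 ≤ 8 * (2 : ℝ) ^ (n / 4) := by
  have h1 : (2 : ℝ) ^ (n / 4) = Real.exp (Real.log 2 * (n / 4)) := by
    rw [← Real.rpow_def_of_pos (by norm_num)]
  have h2 := Real.add_one_le_exp (Real.log 2 * (n / 4))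
  have h3 := Real.log_two_gt_d9
  rw [h1]
  nlinarith

/-- the boost of the differing primes -/
lemma B1_vec (hM : 0 < M) {b c i a a' e X0 : ℕ} (hb : b ∣ M) (hc : c ∣ M)
    (hgood : F.good (P.cut i) b c) (hcl : VCl P i a a' e b c) (hX0 : X0 ≤ P.cut i) :
    PureL2x232.B1 b c ≤ 8 * (2 : ℝ) ^ ((a + a' : ℝ) / 4) *
      (B1Levx52.offW F X0 b * B1Levx52.offW F X0 c) := by
  classical
  set x := P.cut i with hx
  set s := b / Nat.gcd b c with hs
  set s' := c / Nat.gcd b c with hs'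
  have hb0 : 0 < b := Nat.pos_of_dvd_of_pos hb hM
  have hc0 : 0 < c := Nat.pos_of_dvd_of_pos hc hM
  have hg0 : 0 < Nat.gcd b c := Nat.gcd_pos_of_pos_left c hb0
  have hs0 : 0 < s := Nat.div_pos (Nat.le_of_dvd hb0 (Nat.gcd_dvd_left b c)) hg0
  have hs0' : 0 < s' := Nat.div_pos (Nat.le_of_dvd hc0 (Nat.gcd_dvd_right b c)) hg0
  set D := (s * s').primeFactors with hD
  have hDp : ∀ p ∈ D, p.Prime := fun p hp => Nat.prime_of_mem_primeFactors hp
  have e1 : PureL2x232.B1 b c = ∏ p ∈ D, pf p := rfl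
  rw [e1, ← prod_filter_mul_prod_filter_not D (fun p => x < p) pf]
  have h1 : ∏ p ∈ D.filter (fun p => x < p), pf p ≤
      B1Levx52.offW F X0 b * B1Levx52.offW F X0 c := by
    have h2 : ∏ p ∈ D.filter (fun p => x < p), pf p ≤
        B1Levx52.offW F x b * B1Levx52.offW F x c := B1Levx52.B1_le (F := F) hM hb hc hgood
    refine h2.trans (mul_le_mul (B1Levx52.offW_anti hX0 b) (B1Levx52.offW_anti hX0 c) ?_ ?_)
    · linarith [B1Levx52.one_le_offW (F := F) x c]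
    · linarith [B1Levx52.one_le_offW (F := F) X0 b]
  obtain ⟨l1, l2, _⟩ := hcl
  have hu0 : 0 < low x s := low_pos _ _
  have hv0 : 0 < low x s' := low_pos _ _
  have h2 : ∏ p ∈ D.filter (fun p => ¬ x < p), pf p ≤ 8 * (2 : ℝ) ^ ((a + a' : ℝ) / 4) := by
    have hsub : D.filter (fun p => ¬ x < p) ⊆ (low x s * low x s').primeFactors := by
      intro p hp
      rw [mem_filter] at hp
      have hpp := hDp p hp.1
      have hpx : p ≤ x := not_lt.1 hp.2
      have h3 := Nat.dvd_of_mem_primeFactors hp.1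
      rw [Nat.mem_primeFactors]
      refine ⟨hpp, ?_, (Nat.mul_pos hu0 hv0).ne'⟩
      rcases (Nat.Prime.dvd_mul hpp).1 h3 with h4 | h4
      · refine Dvd.dvd.mul_right ?_ _
        rw [hpp.dvd_iff_one_le_factorization hu0.ne', fact_low, if_pos hpx]
        exact hpp.factorization_pos_of_dvd hs0.ne' h4
      · refine Dvd.dvd.mul_left ?_ _
        rw [hpp.dvd_iff_one_le_factorization hv0.ne', fact_low, if_pos hpx]
        exact hpp.factorization_pos_of_dvd hs0'.ne' h4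
    refine (prod_pf_dvd _ (Nat.mul_pos hu0 hv0) hsub).trans ?_
    have h3 : low x s < 2 ^ (a + 1) := by
      rw [← l1]; exact Nat.lt_pow_succ_log_self (by norm_num) _
    have h4 : low x s' < 2 ^ (a' + 1) := by
      rw [← l2]; exact Nat.lt_pow_succ_log_self (by norm_num) _
    have h5 : low x s * low x s' < 2 ^ (a + a' + 2) := by
      calc low x s * low x s' < 2 ^ (a + 1) * 2 ^ (a' + 1) :=
            Nat.mul_lt_mul'' h3 h4
        _ = 2 ^ (a + a' + 2) := by rw [← pow_add]; congr 1; omega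
    have h6 : Nat.log 2 (low x s * low x s') < a + a' + 2 :=
      Nat.log_lt_of_lt_pow (Nat.mul_pos hu0 hv0).ne' h5
    have h7 : (Nat.log 2 (low x s * low x s') : ℝ) + 1 ≤ (a + a' : ℝ) + 2 := by
      have : Nat.log 2 (low x s * low x s') + 1 ≤ a + a' + 2 := h6
      exact_mod_cast this
    exact h7.trans (num_le _ (by positivity))
  have n1 : 0 ≤ ∏ p ∈ D.filter (fun p => ¬ x < p), pf p := prod_nonneg fun p hp =>
    (GWwtx360.pf_pos (hDp p (mem_filter.1 hp).1)).le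
  have n2 : 0 ≤ ∏ p ∈ D.filter (fun p => x < p), pf p := prod_nonneg fun p hp =>
    (GWwtx360.pf_pos (hDp p (mem_filter.1 hp).1)).le
  rw [mul_comm]
  exact mul_le_mul h2 h1 n2 (n1.trans h2)

open Classical in
/-- one pair of nodes of the kernel -/
lemma kap2_ge {Z : World} (hg0 : ∀ ν, 0 ≤ Z.g ν) {R : Node → Node → Prop} {z z' ν ν' : Node}
    {w w' : ℕ} (hν : ν ∈ Z.Nd z) (hν' : ν' ∈ Z.Nd z') (hR : R ν ν')
    (hm : (w ∈ Z.A z ν ∧ w' ∈ Z.S ν') ∨ (w ∈ Z.S ν ∧ w' ∈ Z.A z' ν')) :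
    1 / Z.g ν ≤ kap2 Z R z z' w w' := by
  unfold kap2
  have h0 : ∀ x y : Node, 0 ≤ (if R x y ∧ ((w ∈ Z.A z x ∧ w' ∈ Z.S y) ∨
      (w ∈ Z.S x ∧ w' ∈ Z.A z' y)) then 1 / Z.g x else 0) := by
    intro x y
    split_ifs
    · exact one_div_nonneg.2 (hg0 x)
    · exact le_rfl
  calc 1 / Z.g ν = (if R ν ν' ∧ ((w ∈ Z.A z ν ∧ w' ∈ Z.S ν') ∨
      (w ∈ Z.S ν ∧ w' ∈ Z.A z' ν')) then 1 / Z.g ν else 0) := by rw [if_pos ⟨hR, hm⟩]
    _ ≤ ∑ y ∈ Z.Nd z', (if R ν y ∧ ((w ∈ Z.A z ν ∧ w' ∈ Z.S y) ∨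
      (w ∈ Z.S ν ∧ w' ∈ Z.A z' y)) then 1 / Z.g ν else 0) :=
        single_le_sum (f := fun y => (if R ν y ∧ ((w ∈ Z.A z ν ∧ w' ∈ Z.S y) ∨
          (w ∈ Z.S ν ∧ w' ∈ Z.A z' y)) then 1 / Z.g ν else 0)) (fun y _ => h0 ν y) hν'
    _ ≤ _ := single_le_sum (f := fun x => ∑ y ∈ Z.Nd z', (if R x y ∧ ((w ∈ Z.A z x ∧ w' ∈ Z.S y) ∨
          (w ∈ Z.S x ∧ w' ∈ Z.A z' y)) then 1 / Z.g x else 0))
        (fun x _ => sum_nonneg fun y _ => h0 x y) hν

/-- the constant -/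
noncomputable def CW : ℝ := Real.exp 200 * (Real.exp (22 / Real.log 2) * 2) * 8

lemma CW_pos : 0 < CW := by unfold CW; positivity

set_option maxHeartbeats 1600000 in
open Classical in
/-- **the last inequality of `TPair`** -/
theorem tpair_weight (hM : 0 < M) (hL : 0 < P.L) (hY : ∀ i, P.Y i = 2 ^ i)
    (hthr : ∀ b i, P.thr b i ≤ Real.exp ((P.Y (i - 1) : ℝ) ^ (4 / 5 : ℝ))) {A : ℕ} (hA : 1 ≤ A)
    (hcut : ∀ m, P.cut m = 2 ^ (A * m)) {i a a' e G w w' u v l b c X0 : ℕ} {h : ℤ} (hi : 1 ≤ i)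
    (hV : VP hM F P (yc a a') i G w w' u v l b c h) (hfar : FarA F P i b c h)
    (hcl : VCl P i a a' e b c) (hl : h ∈ Lnk P.γ P.L b c) (hX0 : X0 ≤ P.cut i)
    {Z : World} (hZN : Z.N = PM (hiFL hM (yc a a') F) G) (hZc : Z.cut = P.cut)
    {R : Node → Node → Prop} {z z' ν ν' : Node} (hν : ν ∈ Z.Nd z) (hν' : ν' ∈ Z.Nd z')
    (hR : R ν ν') (hgν : Z.g ν = nu (low (P.cut i) Z.N) (low (P.cut i) w))
    (hm : (w ∈ Z.A z ν ∧ w' ∈ Z.S ν') ∨ (w ∈ Z.S ν ∧ w' ∈ Z.A z' ν'))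
    (hz : z.1 ≤ i) (hz' : z'.1 ≤ i)
    (hG1 : Good Z (Act F P Z.N (yc a a') w b) w z.1)
    (hG2 : Good Z (Act F P Z.N (yc a a') w' c) w' z'.1) :
    boostB M (lamR F P) b c h ≤ CW * (2 : ℝ) ^ ((a + a' : ℝ) / 4) *
      (B1Levx52.offW F X0 b * B1Levx52.offW F X0 c) *
      (kap2 Z R z z' w w' / (VR (hiFL hM (yc a a') F) G * (Nat.gcd w w' : ℝ)) *
        BoostRx398.bst (prQ (yc a a')) (low (yc a a') M) (low (yc a a') b) (low (yc a a') c) *
        min (Wb F P Z (yc a a') z w b) (Wb F P Z (yc a a') z' w' c)) := by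
  set y := yc a a' with hy
  set F' := hiFL hM y F with hF'
  set x := P.cut i with hx
  set N := PM F' G with hNdef
  have hMy : 0 < upp y M := upp_pos y M
  have hN : 0 < N := PM_pos (F := F') G
  have hmono : Monotone P.cut := fun m n hmn => by
    rw [hcut, hcut]
    exact Nat.pow_le_pow_right (by norm_num) (Nat.mul_le_mul_left _ hmn)
  have hx2 : 2 ≤ x := by
    rw [hx, hcut]
    calc 2 = 2 ^ 1 := by norm_num
      _ ≤ 2 ^ (A * i) := Nat.pow_le_pow_right (by norm_num) (Nat.mul_pos hA hi)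
  have hXQ : x ≤ P.cut (2 * i) := hmono (by omega)
  have hLg : P.L ≤ (Nat.gcd b c : ℕ) := by
    have h1 := hfar.lo
    have h2 : (1 : ℝ) ≤ 2 ^ i := one_le_pow₀ (by norm_num)
    nlinarith
  have hb0 : b ≠ 0 := (Nat.pos_of_dvd_of_pos hV.hb hM).ne'
  have hc0 : c ≠ 0 := (Nat.pos_of_dvd_of_pos hV.hc hM).ne'
  have hw0 : 0 < w := Nat.pos_of_dvd_of_pos hV.hw hN
  have heq : ∀ p, p.Prime → y < p → p ≤ x → b.factorization p = c.factorization p := by
    intro p _ hyp hpx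
    have h1 : (low x w').factorization p = (low x w).factorization p := by rw [hV.low_eq]
    rw [fact_low, fact_low, if_pos hpx, if_pos hpx] at h1
    have h2 : (upp y b).factorization p = b.factorization p := by
      rw [fact_upp, if_pos (by omega)]
    have h3 : (upp y c).factorization p = c.factorization p := by
      rw [fact_upp, if_pos (by omega)]
    rw [← h2, ← h3, hV.ub, hV.uc, fact_mul_word hMy hV.hG hV.hw, fact_mul_word hMy hV.hG hV.hw', h1]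
  -- the weight of the pair
  have h1 := weight_pair (F := F) (P := P) (y := y) hM hV.hb hV.hc hL hY hthr hx2 hXQ hfar.good hl
    hfar.al hLg heq
  have hr : Real.log (P.cut (2 * i) : ℕ) / Real.log (x : ℕ) = 2 := by
    rw [hx, hcut, hcut]; exact log_ratio hA hi
  rw [hr] at h1
  have hB1 := B1_vec (F := F) (P := P) hM hV.hb hV.hc hfar.good hcl hX0
  -- the masses
  set g := nu (low x N) (low x w) with hg
  have hlw : low x w ∣ low x N := low_dvd x hN.ne' hV.hw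
  have hgpos : 0 < g := nu_pos (low_pos x _) hlw
  have hnpos : (0 : ℝ) < (low x w : ℕ) := by exact_mod_cast low_pos x w
  have hVR : 0 < VR F' G := by
    unfold VR
    have hR := RR_pos hMy hV.hG
    have h2 : (0 : ℝ) < ((PureClsx863.RR F' G).totient : ℝ) := by
      exact_mod_cast Nat.totient_pos.2 hR
    positivity
  have h2 : VR F' G * ((low x w : ℝ) * g) ≤ Vw M y x b := by
    have h3 := VR_mul_le (x := x) (y := y) hMy hV.hG hV.hw
    rw [← hV.ub, Vw_upp] at h3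
    exact h3
  have hK2 : 1 / g ≤ kap2 Z R z z' w w' := by
    have h3 := kap2_ge (Z := Z) (fun ν => nu_nonneg _ _) hν hν' hR hm
    rw [hgν, hZN] at h3
    exact h3
  -- the coins
  have hW1 := Wc_le_VA (F := F) (P := P) hM hV.hG hV.hw hV.ub hZN hZc hmono hz hG1
  have hW2 := Wc_le_VA (F := F) (P := P) hM hV.hG hV.hw' hV.uc hZN hZc hmono hz' hG2
  set bo := boostB M (lamR F P) b c h with hbo'
  have hbo : 0 ≤ bo := Spinex946.boostB_nonneg M (lamR F P) b c h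
  rw [VecWtx559.bst_low] at h1
  set bs := BoostRx398.bst (prQ y) (low y M) (low y b) (low y c) with hbs
  have hbs0 : 0 ≤ bs := bst_nonneg _ _ _ _
  have hgw : (Nat.gcd w w' : ℝ) = (low x w : ℕ) := by rw [hV.gcd_w]
  set mn := min (Wb F P Z y z w b) (Wb F P Z y z' w' c) with hmn
  have hmin : min (Wc F P y x b) (Wc F P y x c) ≤ mn := min_le_min hW1 hW2
  have hWc0 : 0 ≤ min (Wc F P y x b) (Wc F P y x c) :=
    le_min (GWwtx360.Wc_nonneg _ _ _) (GWwtx360.Wc_nonneg _ _ _)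
  have hmn0 : 0 ≤ mn := hWc0.trans hmin
  set E := Real.exp 200 * (Real.exp (22 / Real.log 2) * 2) with hE
  have hE0 : 0 ≤ E := by positivity
  set T := (2 : ℝ) ^ ((a + a' : ℝ) / 4) * (B1Levx52.offW F X0 b * B1Levx52.offW F X0 c) with hT
  have hB1' : PureL2x232.B1 b c ≤ 8 * T := by rw [hT]; linarith [hB1]
  have hT0 : 0 ≤ 8 * T := (B1_nonneg b c).trans hB1'
  -- `VR n g bo ≤ E 8 T bs mn`
  have h3 : VR F' G * ((low x w : ℝ) * g) * bo ≤ E * (8 * T) * (bs * mn) := by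
    calc VR F' G * ((low x w : ℝ) * g) * bo ≤ Vw M y x b * bo :=
          mul_le_mul_of_nonneg_right h2 hbo
      _ ≤ E * PureL2x232.B1 b c * (bs * min (Wc F P y x b) (Wc F P y x c)) := h1
      _ ≤ E * (8 * T) * (bs * mn) := by
          refine mul_le_mul (mul_le_mul_of_nonneg_left hB1' hE0)
            (mul_le_mul_of_nonneg_left hmin hbs0) (mul_nonneg hbs0 hWc0) (mul_nonneg hE0 hT0)
  have h4 : bo ≤ E * (8 * T) * (bs * mn) * ((1 / g) / (VR F' G * (low x w : ℝ))) := by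
    have h5 : 0 < VR F' G * ((low x w : ℝ) * g) := by positivity
    have h6 : bo ≤ E * (8 * T) * (bs * mn) / (VR F' G * ((low x w : ℝ) * g)) := by
      rw [le_div_iff₀ h5, mul_comm bo]
      exact h3
    refine h6.trans (le_of_eq ?_)
    field_simp
  have h5 : (1 / g) / (VR F' G * (low x w : ℝ)) ≤
      kap2 Z R z z' w w' / (VR F' G * (low x w : ℝ)) :=
    div_le_div_of_nonneg_right hK2 (by positivity)
  have h6 : 0 ≤ E * (8 * T) * (bs * mn) :=
    mul_nonneg (mul_nonneg hE0 hT0) (mul_nonneg hbs0 hmn0)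
  refine (h4.trans (mul_le_mul_of_nonneg_left h5 h6)).trans (le_of_eq ?_)
  rw [hgw, hT, CW, ← hE]
  ring

end main

end Crest.Agent.R4C.VWtx360
end

-- ▼ part R4C/LightKill_473
section

/-!
# Row 4, GW section: two light members are killed (helper473), notes 3754 (1), 3840, 3875 (1)(ii)

Pair `b = g s`, `c = g s'`, linked offset `h`, own scale `2^i` (`2^i L ≤ g`), `F.good (cut i) b c`.
Both members have tree centres of depth `≤ K` at scales `m, m' ≥ i` (NOT the same scale), `3 K² ≤ 2^i`.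

* `gap_zero` : the two centres are the same point: `gap f f' s s' h = 0`.
* `light_kill_left` : a differing prime `r ∣ s'`, `K < r ≤ cut m'`, in an active block of `m`:
  the pair is killed or `Alt F P m b f r`.   `light_kill_right` : the mirror image.
* `light_light` : both, with `K ≤ thr`: at the prime `r` the member missing it uses another fraction
  at a larger scale (the input of the heavy class).
-/

set_option autoImplicit false

namespace Crest.Agent.R4C.LightKillx473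

open Crest.Agent.R4C.FLDefx935 Crest.Agent.R4C.BoostCx972 Crest.Agent.R4C.CrCoinx935
  Crest.Agent.R4C.S7cx14 Crest.Agent.R4C.S7dx14 Crest.Agent.R4C.Pairx14
  Crest.Agent.R4C.PairRx14 Crest.Agent.R4C.Bridgex882 Crest.Agent.R4C.Rulex945

variable {M : ℕ} {F : FL M} {P : Par}

/-- at a cut `x` where the pair is good, `s f` has denominator dividing `k0 x b f` -/
lemma int_of_good {x y g s s' : ℕ} {f : ℚ} (hM : 0 < M) (hb : g * s ∣ M) (hc : g * s' ∣ M)
    (hcop : Nat.Coprime s s') (hx : F.good x (g * s) (g * s')) (hxy : x ≤ y) :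
    ∃ N : ℤ, (s : ℚ) * f * (k0 F y (g * s) f : ℕ) = N := by
  have hb0 : 0 < g * s := Nat.pos_of_dvd_of_pos hb hM
  have hg : 0 < g := Nat.pos_of_mul_pos_right hb0
  have e0 : Nat.gcd (g * s) (g * s') = g := by
    rw [Nat.gcd_mul_left, hcop.gcd_eq_one, mul_one]
  have h1 : g ∣ F.uu y (g * s) := by
    have := FL.good_gcd_dvd_uu hM hb hc (FL.good_mono hxy hx)
    rwa [e0] at this
  obtain ⟨u, hu⟩ := h1
  have h2 := FL.uu_mul_lam (F := F) (x := y) hM hb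
  have h3 : s = u * F.lam y (g * s) := by
    have : g * s = g * (u * F.lam y (g * s)) := by
      conv_lhs => rw [← h2, hu]
      ring
    exact Nat.eq_of_mul_eq_mul_left hg this
  obtain ⟨r, hr⟩ := (isC_k0 (F := F) y (g * s) f).2
  refine ⟨f.num * (r * u), ?_⟩
  have e1 : f * f.den = f.num := Rat.mul_den_eq_num f
  have e2 : ((k0 F y (g * s) f : ℕ) : ℚ) * (F.lam y (g * s) : ℕ) = (f.den : ℚ) * r := by
    exact_mod_cast hr
  calc (s : ℚ) * f * (k0 F y (g * s) f : ℕ)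
      = u * f * (((k0 F y (g * s) f : ℕ) : ℚ) * (F.lam y (g * s) : ℕ)) := by
        have h4 : (s : ℚ) = (u : ℚ) * (F.lam y (g * s) : ℕ) := by exact_mod_cast h3
        rw [h4]; ring
    _ = u * (f * f.den) * r := by rw [e2]; ring
    _ = ((f.num * (r * u) : ℤ) : ℚ) := by rw [e1]; push_cast; ring

/-- displacement against the depth -/
lemma dis_mul_le (hL : 0 < P.L) (m b : ℕ) (f : ℚ) :
    (k0 F (P.cut m) b f : ℝ) * ((b : ℝ) * |P.γ - f|) ≤ dep F P m b f * P.L := by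
  unfold dep
  have h1 := k0_pos' (F := F) (P := P) m b f
  have h2 : (b : ℝ) * |P.γ - f| / P.L ≤ max 1 ((b : ℝ) * |P.γ - f| / P.L) := le_max_right _ _
  have h4 : (b : ℝ) * |P.γ - f| = (b : ℝ) * |P.γ - f| / P.L * P.L := by field_simp
  calc (k0 F (P.cut m) b f : ℝ) * ((b : ℝ) * |P.γ - f|)
      = (k0 F (P.cut m) b f : ℝ) * ((b : ℝ) * |P.γ - f| / P.L) * P.L := by
        conv_lhs => rw [h4]
        ring
    _ ≤ (k0 F (P.cut m) b f : ℝ) * max 1 ((b : ℝ) * |P.γ - f| / P.L) * P.L := by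
        refine mul_le_mul_of_nonneg_right ?_ hL.le
        exact mul_le_mul_of_nonneg_left h2 (by linarith)

/-- **the two centres are the same point** -/
theorem gap_zero {i m m' g s s' : ℕ} {f f' : ℚ} {h : ℤ} {K : ℝ} (hL : 0 < P.L) (hM : 0 < M)
    (hcut : Monotone P.cut) (hb : g * s ∣ M) (hc : g * s' ∣ M) (hcop : Nat.Coprime s s')
    (hx : F.good (P.cut i) (g * s) (g * s')) (him : i ≤ m) (him' : i ≤ m')
    (hg1 : (2 : ℝ) ^ i * P.L ≤ g) (hl : |((s : ℝ) - s') * P.γ + h| < P.L / g)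
    (hd : dep F P m (g * s) f ≤ K) (hd' : dep F P m' (g * s') f' ≤ K)
    (hK : 3 * K ^ 2 ≤ (2 : ℝ) ^ i) : gap f f' s s' h = 0 := by
  have hb0 : 0 < g * s := Nat.pos_of_dvd_of_pos hb hM
  have hg : 0 < g := Nat.pos_of_mul_pos_right hb0
  have hgR : (0 : ℝ) < g := by exact_mod_cast hg
  have h2i : (0 : ℝ) < 2 ^ i := by positivity
  set k := k0 F (P.cut m) (g * s) f with hk
  set k' := k0 F (P.cut m') (g * s') f' with hk'
  have k1 : (1 : ℝ) ≤ k := k0_pos' m (g * s) f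
  have k1' : (1 : ℝ) ≤ k' := k0_pos' m' (g * s') f'
  have kK : (k : ℝ) ≤ K := (k0_le_dep m (g * s) f).trans hd
  have kK' : (k' : ℝ) ≤ K := (k0_le_dep m' (g * s') f').trans hd'
  obtain ⟨N, hN⟩ := int_of_good (f := f) hM hb hc hcop hx (hcut him)
  obtain ⟨N', hN'⟩ := int_of_good (f := f') hM hc hb hcop.symm (FL.good_symm hb hc hx) (hcut him')
  rw [← hk] at hN
  rw [← hk'] at hN'
  -- `k k' gap` is an integer
  have eI : gap f f' s s' h * ((k : ℕ) * (k' : ℕ) : ℚ) = ((N * k' - N' * k + h * (k * k') : ℤ) : ℚ) := by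
    unfold gap
    push_cast
    calc ((s : ℚ) * f - s' * f' + h) * ((k : ℚ) * k')
        = ((s : ℚ) * f * k) * k' - ((s' : ℚ) * f' * k') * k + h * (k * k') := by ring
      _ = _ := by rw [hN, hN']
  set Z : ℤ := N * k' - N' * k + h * (k * k') with hZ
  -- size
  have hgapR : ((gap f f' s s' h : ℚ) : ℝ) =
      (((s : ℝ) - s') * P.γ + h) - (s : ℝ) * (P.γ - f) + (s' : ℝ) * (P.γ - f') := by
    unfold gap
    push_cast
    ring
  have hkp : (0 : ℝ) < (k : ℝ) * k' := by nlinarith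
  have hD := dis_mul_le (F := F) (P := P) hL m (g * s) f
  have hD' := dis_mul_le (F := F) (P := P) hL m' (g * s') f'
  rw [← hk] at hD
  rw [← hk'] at hD'
  push_cast at hD hD'
  have hLg : P.L / g ≤ 1 / 2 ^ i := by
    rw [div_le_div_iff₀ hgR h2i]; linarith
  have hsd : (k : ℝ) * ((s : ℝ) * |P.γ - f|) ≤ K * (1 / 2 ^ i) := by
    have h1 : (k : ℝ) * ((s : ℝ) * |P.γ - f|) = (k : ℝ) * ((g : ℝ) * s * |P.γ - f|) / g := by
      field_simp
    rw [h1]
    calc (k : ℝ) * ((g : ℝ) * s * |P.γ - f|) / g ≤ (K * P.L) / g := by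
          refine div_le_div_of_nonneg_right (hD.trans ?_) hgR.le
          exact mul_le_mul_of_nonneg_right hd hL.le
      _ = K * (P.L / g) := by ring
      _ ≤ K * (1 / 2 ^ i) := mul_le_mul_of_nonneg_left hLg (by linarith)
  have hsd' : (k' : ℝ) * ((s' : ℝ) * |P.γ - f'|) ≤ K * (1 / 2 ^ i) := by
    have h1 : (k' : ℝ) * ((s' : ℝ) * |P.γ - f'|) = (k' : ℝ) * ((g : ℝ) * s' * |P.γ - f'|) / g := by
      field_simp
    rw [h1]
    calc (k' : ℝ) * ((g : ℝ) * s' * |P.γ - f'|) / g ≤ (K * P.L) / g := by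
          refine div_le_div_of_nonneg_right (hD'.trans ?_) hgR.le
          exact mul_le_mul_of_nonneg_right hd' hL.le
      _ = K * (P.L / g) := by ring
      _ ≤ K * (1 / 2 ^ i) := mul_le_mul_of_nonneg_left hLg (by linarith)
  have hZR : (Z : ℝ) = ((gap f f' s s' h : ℚ) : ℝ) * ((k : ℝ) * k') := by
    exact_mod_cast eI.symm
  have hlt : |(Z : ℝ)| < 1 := by
    rw [hZR, hgapR, abs_mul, abs_of_pos hkp]
    have t1 : |(((s : ℝ) - s') * P.γ + h) - (s : ℝ) * (P.γ - f) + (s' : ℝ) * (P.γ - f')| ≤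
        |((s : ℝ) - s') * P.γ + h| + (s : ℝ) * |P.γ - f| + (s' : ℝ) * |P.γ - f'| := by
      calc |(((s : ℝ) - s') * P.γ + h) - (s : ℝ) * (P.γ - f) + (s' : ℝ) * (P.γ - f')|
          ≤ |(((s : ℝ) - s') * P.γ + h) - (s : ℝ) * (P.γ - f)| + |(s' : ℝ) * (P.γ - f')| :=
            abs_add_le _ _
        _ ≤ |((s : ℝ) - s') * P.γ + h| + |(s : ℝ) * (P.γ - f)| + |(s' : ℝ) * (P.γ - f')| := by
            gcongr
            exact abs_sub _ _
        _ = _ := by
            rw [abs_mul, abs_mul, Nat.abs_cast, Nat.abs_cast]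
    have t2 : |((s : ℝ) - s') * P.γ + h| < 1 / 2 ^ i := hl.trans_le hLg
    have K0 : 0 < K := by linarith
    calc |(((s : ℝ) - s') * P.γ + h) - (s : ℝ) * (P.γ - f) + (s' : ℝ) * (P.γ - f')| *
          ((k : ℝ) * k')
        ≤ (|((s : ℝ) - s') * P.γ + h| + (s : ℝ) * |P.γ - f| + (s' : ℝ) * |P.γ - f'|) *
          ((k : ℝ) * k') := mul_le_mul_of_nonneg_right t1 hkp.le
      _ = |((s : ℝ) - s') * P.γ + h| * ((k : ℝ) * k') +
          ((k : ℝ) * ((s : ℝ) * |P.γ - f|)) * k' + ((k' : ℝ) * ((s' : ℝ) * |P.γ - f'|)) * k := by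
          ring
      _ < 1 / 2 ^ i * (K * K) + (K * (1 / 2 ^ i)) * K + (K * (1 / 2 ^ i)) * K := by
          have u1 : |((s : ℝ) - s') * P.γ + h| * ((k : ℝ) * k') < 1 / 2 ^ i * (K * K) := by
            calc |((s : ℝ) - s') * P.γ + h| * ((k : ℝ) * k')
                < 1 / 2 ^ i * ((k : ℝ) * k') := mul_lt_mul_of_pos_right t2 hkp
              _ ≤ 1 / 2 ^ i * (K * K) := by
                  refine mul_le_mul_of_nonneg_left ?_ (by positivity)
                  exact mul_le_mul kK kK' (by linarith) K0.le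
          have u2 : ((k : ℝ) * ((s : ℝ) * |P.γ - f|)) * k' ≤ (K * (1 / 2 ^ i)) * K :=
            mul_le_mul hsd kK' (by linarith) (by positivity)
          have u3 : ((k' : ℝ) * ((s' : ℝ) * |P.γ - f'|)) * k ≤ (K * (1 / 2 ^ i)) * K :=
            mul_le_mul hsd' kK (by linarith) (by positivity)
          linarith
      _ = 3 * K ^ 2 / 2 ^ i := by ring
      _ ≤ 1 := by rw [div_le_one h2i]; exact hK
  have hZ0 : Z = 0 := by
    have : |Z| < 1 := by exact_mod_cast hlt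
    exact Int.abs_lt_one_iff.1 this
  rw [hZ0, Int.cast_zero] at eI
  have hkq : ((k : ℕ) * (k' : ℕ) : ℚ) ≠ 0 := by
    have : (0 : ℚ) < (k : ℚ) * k' := by exact_mod_cast hkp
    exact this.ne'
  rcases mul_eq_zero.1 eI with h0 | h0
  · exact h0
  · exact absurd h0 hkq

/-- common hypotheses of a pair of own scale `2^i` -/
structure LK (F : FL M) (P : Par) (i g s s' : ℕ) (h : ℤ) (K : ℝ) : Prop where
  hL : 0 < P.L
  hM : 0 < M
  hN : (M : ℝ) / P.L ≤ P.N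
  hE : ∀ m, P.m0 ≤ m → 2 * P.E m ^ 3 < 2 ^ m
  hcut : Monotone P.cut
  hb : g * s ∣ M
  hc : g * s' ∣ M
  hcop : Nat.Coprime s s'
  good : F.good (P.cut i) (g * s) (g * s')
  m0 : P.m0 ≤ i
  scl : (2 : ℝ) ^ i * P.L ≤ g
  link : |((s : ℝ) - s') * P.γ + h| < P.L / g
  unk : ¬ killedL (lamR F P) (g * s) (g * s') s s' h
  hK : 3 * K ^ 2 ≤ (2 : ℝ) ^ i

/-- the member `d` has a tree centre of depth `≤ K` at a scale `m ≥ i` -/
structure Lit (F : FL M) (P : Par) (i m d : ℕ) (f : ℚ) (K : ℝ) : Prop where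
  im : i ≤ m
  tc : TC F P m d f
  dep : dep F P m d f ≤ K

theorem LK.gap {i m m' g s s' : ℕ} {f f' : ℚ} {h : ℤ} {K : ℝ} (H : LK F P i g s s' h K)
    (hb : Lit F P i m (g * s) f K) (hc : Lit F P i m' (g * s') f' K) :
    gap f f' s s' h = 0 :=
  gap_zero H.hL H.hM H.hcut H.hb H.hc H.hcop H.good hb.im hc.im H.scl H.link hb.dep hc.dep H.hK

/-- **two light members, `r ∣ s'`** : killed or another fraction is used -/
theorem light_kill_left {i m m' g s s' r : ℕ} {f f' : ℚ} {h : ℤ} {K : ℝ}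
    (H : LK F P i g s s' h K) (hb : Lit F P i m (g * s) f K) (hc : Lit F P i m' (g * s') f' K)
    (hr : r.Prime) (hrs : r ∣ s') (hKr : K < r) (hrm' : r ≤ P.cut m')
    (hact : P.Y (P.blk r) ≤ P.cut m) : Alt F P m (g * s) f r := by
  have h0 := H.gap hb hc
  have hb0 : 0 < g * s := Nat.pos_of_dvd_of_pos H.hb H.hM
  have hc0 : 0 < g * s' := Nat.pos_of_dvd_of_pos H.hc H.hM
  have hg : 0 < g := Nat.pos_of_mul_pos_right hb0
  have hs : 0 < s := Nat.pos_of_mul_pos_left hb0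
  have hs' : 0 < s' := Nat.pos_of_mul_pos_left hc0
  have hnk : ¬ r ∣ k0 F (P.cut m') (g * s') f' := by
    intro hd
    have h1 : (r : ℝ) ≤ k0 F (P.cut m') (g * s') f' := by
      exact_mod_cast Nat.le_of_dvd (k0_pos _ _ _) hd
    have h2 := (k0_le_dep (F := F) (P := P) m' (g * s') f').trans hc.dep
    linarith
  have hal : r ∣ alC (g * s') (g * s) f' f :=
    expl_of_not_dvd H.hM H.hc hg hs H.hcop (isC_k0 (F := F) (P.cut m') (g * s') f') hr hrm' hrs hnk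
  exact alt_left H.hL H.hM H.hN H.hE H.hb (H.m0.trans hb.im) hb.tc hact hr hg hs hs' H.hcop h0
    H.unk hal

/-- **two light members, `r ∣ s`** : killed or another fraction is used -/
theorem light_kill_right {i m m' g s s' r : ℕ} {f f' : ℚ} {h : ℤ} {K : ℝ}
    (H : LK F P i g s s' h K) (hb : Lit F P i m (g * s) f K) (hc : Lit F P i m' (g * s') f' K)
    (hr : r.Prime) (hrs : r ∣ s) (hKr : K < r) (hrm : r ≤ P.cut m)
    (hact : P.Y (P.blk r) ≤ P.cut m') : Alt F P m' (g * s') f' r := by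
  have h0 := H.gap hb hc
  have hb0 : 0 < g * s := Nat.pos_of_dvd_of_pos H.hb H.hM
  have hc0 : 0 < g * s' := Nat.pos_of_dvd_of_pos H.hc H.hM
  have hg : 0 < g := Nat.pos_of_mul_pos_right hb0
  have hs : 0 < s := Nat.pos_of_mul_pos_left hb0
  have hs' : 0 < s' := Nat.pos_of_mul_pos_left hc0
  have hnk : ¬ r ∣ k0 F (P.cut m) (g * s) f := by
    intro hd
    have h1 : (r : ℝ) ≤ k0 F (P.cut m) (g * s) f := by
      exact_mod_cast Nat.le_of_dvd (k0_pos _ _ _) hd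
    have h2 := (k0_le_dep (F := F) (P := P) m (g * s) f).trans hb.dep
    linarith
  have hal : r ∣ alC (g * s) (g * s') f f' :=
    expl_of_not_dvd H.hM H.hb hg hs' H.hcop.symm (isC_k0 (F := F) (P.cut m) (g * s) f) hr hrm hrs
      hnk
  exact alt_right H.hL H.hM H.hN H.hE H.hc (H.m0.trans hc.im) hc.tc hact hr hg hs hs' H.hcop h0
    H.unk hal



end Crest.Agent.R4C.LightKillx473
end

-- ▼ part R4C/GapRule_529
section

/-!
# Row 4, GW section: the dictionary between the rule (grid cuts) and the depth `On` (helper529)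

`F : FL M`, `P : Par` (cuts `P.cut m`), `b ∣ M`; `h m = F.uu (P.cut m) b` = scale of `b` at the index `m`.

* `dpx F γ L x b f` : depth of the fraction `f` at the cut `x` (`dep F P m b f` is the one at `P.cut m`);
  `dpx_mono` : it grows with the cut.
* `OnF F γ L K x b` : some fraction has depth `< K` at the cut `x`;
  `on_iff` : `On K (lam x b * γ) (uu x b / L) ↔ OnF F γ L K x b`;  `OnF.anti` = (O2).
* `uu_const`, `mul_dvd_uu` : `uu` does not change when no excess letter is crossed, and is multiplied by the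
  crossed letters.
* `GapI F P m b` : `m` is a gap index of `b` (`2^m L ≤ uu (cut m) b < 2^(m+1) L`).
* (R1) `live_cut` : an index `m' > i` that is live for `b` has `r ≤ cut m'`, `r` = next letter;
  `fc_on` : a centre used at `q ∈ (cut i, r)` gives `OnF` at every cut `x ≤ cut (m1 r)`, in particular at `r`;
  `coin_of_not_on` : `¬ On` at `r` gives a coin at `(b, q)`.
* (R2) `exists_next` : the next gap index `j`, `r ≤ cut j`, all indices between are not gap indices;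
  `run_le` : the letters of `b` in `(r, cut j]` lie below the cut of the scale of their prefix;
  `elig_of_on`, `fc_of_on` : a fraction of small depth at the cut `cut j'` (any live `j'`) is eligible at all
  `q ≤ cut j'`, hence used, or the member uses another centre (conflict).
-/

set_option autoImplicit false

open Finset
open Crest.Agent.R4C.FLDefx935 Crest.Agent.R4C.Basex935 Crest.Agent.R4C.Cutx50
  Crest.Agent.R4C.S7cx14 Crest.Agent.R4C.Rulex945 Crest.Agent.R4C.NHx656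
  Crest.Agent.R4C.BoostCx972 Crest.Agent.R4C.CrCoinx935

namespace Crest.Agent.R4C.GapRulex529

variable {M : ℕ} {F : FL M}

/-! ### depth at a cut -/

/-- depth of the fraction `f` at the cut `x` -/
noncomputable def dpx (F : FL M) (γ L : ℝ) (x b : ℕ) (f : ℚ) : ℝ :=
  (k0 F x b f : ℝ) * max 1 ((b : ℝ) * |γ - f| / L)

lemma dep_eq (P : Par) (m b : ℕ) (f : ℚ) : dep F P m b f = dpx F P.γ P.L (P.cut m) b f := rfl


/-- `On` in the language of the rule -/
def OnF (F : FL M) (γ L K : ℝ) (x b : ℕ) : Prop := ∃ f : ℚ, dpx F γ L x b f < K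


lemma OnF.mono {γ L K K' : ℝ} {x b : ℕ} (h : OnF F γ L K x b) (hK : K ≤ K') :
    OnF F γ L K' x b := by
  obtain ⟨f, hf⟩ := h
  exact ⟨f, hf.trans_le hK⟩

lemma scale_eq {γ L : ℝ} {x b : ℕ} (hM : 0 < M) (hb : b ∣ M) (f : ℝ) :
    (F.uu x b : ℝ) / L * |(F.lam x b : ℝ) * γ - (F.lam x b : ℝ) * f| = (b : ℝ) * |γ - f| / L := by
  have h1 : (b : ℝ) = (F.uu x b : ℝ) * F.lam x b := by
    exact_mod_cast (FL.uu_mul_lam (F := F) (x := x) hM hb).symm
  have h2 : (0 : ℝ) ≤ F.lam x b := Nat.cast_nonneg _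
  rw [← mul_sub, abs_mul, abs_of_nonneg h2]
  conv_rhs => rw [h1]
  ring

/-- the dictionary -/
theorem on_iff {γ L K : ℝ} {x b : ℕ} (hM : 0 < M) (hb : b ∣ M) :
    On K ((F.lam x b : ℝ) * γ) ((F.uu x b : ℝ) / L) ↔ OnF F γ L K x b := by
  have hl : 0 < F.lam x b := FL.lam_pos x b
  have hlR : (0 : ℝ) < F.lam x b := by exact_mod_cast hl
  constructor
  · rintro ⟨a, k, hk, h⟩
    have hkR : (0 : ℝ) < k := by exact_mod_cast hk
    set f : ℚ := (a : ℚ) / ((k * F.lam x b : ℕ) : ℚ) with hf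
    have hden : f.den ∣ k * F.lam x b := by
      have h1 := Rat.den_dvd a ((k * F.lam x b : ℕ) : ℤ)
      have h2 : Rat.divInt a ((k * F.lam x b : ℕ) : ℤ) = f := by
        rw [hf, Rat.divInt_eq_div]; push_cast; ring
      rw [h2] at h1
      exact_mod_cast h1
    have hk0 : k0 F x b f ≤ k := k0_le ⟨hk, hden⟩
    refine ⟨f, lt_of_le_of_lt ?_ h⟩
    unfold dpx
    have e1 : (F.lam x b : ℝ) * (f : ℝ) = (a : ℝ) / k := by
      rw [hf]
      push_cast
      field_simp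
    have e2 := scale_eq (F := F) (γ := γ) (L := L) (x := x) hM hb (f : ℝ)
    rw [e1] at e2
    rw [← e2]
    exact mul_le_mul_of_nonneg_right (by exact_mod_cast hk0)
      (zero_le_one.trans (le_max_left _ _))
  · rintro ⟨f, h⟩
    obtain ⟨r, hr⟩ := (isC_k0 (F := F) x b f).2
    refine ⟨f.num * r, k0 F x b f, k0_pos x b f, ?_⟩
    unfold dpx at h
    have hkR : (0 : ℝ) < k0 F x b f := by exact_mod_cast k0_pos (F := F) x b f
    have hdR : (f.den : ℝ) ≠ 0 := by exact_mod_cast f.den_pos.ne'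
    have e0 : (k0 F x b f : ℝ) * F.lam x b = (f.den : ℝ) * r := by exact_mod_cast hr
    have e1 : (((f.num * r : ℤ)) : ℝ) / (k0 F x b f : ℝ) = (F.lam x b : ℝ) * (f : ℝ) := by
      rw [div_eq_iff hkR.ne']
      have e3 : (f : ℝ) = (f.num : ℝ) / (f.den : ℝ) := by
        exact_mod_cast (congrArg (fun q : ℚ => (q : ℝ)) (Rat.num_div_den f)).symm
      rw [e3]
      push_cast
      calc (f.num : ℝ) * r = (f.num : ℝ) / f.den * (f.den * r) := by field_simp
        _ = (f.num : ℝ) / f.den * (k0 F x b f * F.lam x b) := by rw [e0]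
        _ = _ := by ring
    rw [e1, scale_eq (F := F) hM hb (f : ℝ)]
    exact h

/-! ### change of the scale with the cut -/

lemma lam_const {x y b : ℕ} (hM : 0 < M) (hb : b ∣ M) (hxy : x ≤ y)
    (h : ∀ p, p.Prime → x < p → p ≤ y → ¬ p ∣ F.lam x b) : F.lam y b = F.lam x b := by
  refine Nat.eq_of_factorization_eq (FL.lam_pos _ _).ne' (FL.lam_pos _ _).ne' fun p => ?_
  by_cases hp : p.Prime
  · by_cases hy : y < p
    · rw [FL.fact_lam hM hb, FL.fact_lam hM hb]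
      unfold FL.lamE
      rw [if_pos hy, if_pos (lt_of_le_of_lt hxy hy)]
    · have h1 : (F.lam y b).factorization p = 0 := by
        rw [FL.fact_lam hM hb]
        unfold FL.lamE
        rw [if_neg hy]
        split_ifs <;> rfl
      rw [h1]
      by_cases hx : x < p
      · exact (Nat.factorization_eq_zero_of_not_dvd (h p hp hx (not_lt.1 hy))).symm
      · rw [FL.fact_lam hM hb]
        unfold FL.lamE
        rw [if_neg hx]
        split_ifs <;> rfl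
  · rw [Nat.factorization_eq_zero_of_not_prime _ hp, Nat.factorization_eq_zero_of_not_prime _ hp]

lemma uu_const {x y b : ℕ} (hM : 0 < M) (hb : b ∣ M) (hxy : x ≤ y)
    (h : ∀ p, p.Prime → x < p → p ≤ y → ¬ p ∣ F.lam x b) : F.uu y b = F.uu x b := by
  have h1 := FL.uu_mul_lam (F := F) (x := y) hM hb
  have h2 := FL.uu_mul_lam (F := F) (x := x) hM hb
  rw [lam_const hM hb hxy h] at h1
  exact Nat.eq_of_mul_eq_mul_right (FL.lam_pos x b) (h1.trans h2.symm)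

/-- the crossed letters multiply `uu` -/
lemma mul_dvd_uu {x y b r : ℕ} (hM : 0 < M) (hb : b ∣ M) (hxy : x ≤ y) (hr : r.Prime)
    (hry : r ≤ y) (hrl : r ∣ F.lam x b) : F.uu x b * r ∣ F.uu y b := by
  obtain ⟨t, ht⟩ := FL.lam_dvd_lam (F := F) (b := b) hxy
  have h1 := FL.uu_mul_lam (F := F) (x := y) hM hb
  have h2 := FL.uu_mul_lam (F := F) (x := x) hM hb
  have h3 : F.uu y b = F.uu x b * t := by
    refine Nat.eq_of_mul_eq_mul_right (FL.lam_pos (F := F) y b) ?_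
    calc F.uu y b * F.lam y b = F.uu x b * F.lam x b := h1.trans h2.symm
      _ = F.uu x b * t * F.lam y b := by rw [ht]; ring
  have h4 : ¬ r ∣ F.lam y b := by
    intro hc
    have := (FL.prime_dvd_lam hM hb hr hc).1
    omega
  have h5 : r ∣ t := by
    rw [ht] at hrl
    exact (hr.dvd_mul.1 hrl).resolve_left h4
  rw [h3]
  exact Nat.mul_dvd_mul_left _ h5

/-! ### gap indices -/


/-- `r` is the next (excess) letter of `b` above the cut `x` -/
structure Nxt (F : FL M) (x b r : ℕ) : Prop where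
  prime : r.Prime
  lt : x < r
  dvd : r ∣ F.lam x b
  no : ∀ p, p.Prime → x < p → p < r → ¬ p ∣ F.lam x b


variable {P : Par}






/-! ### the next gap index -/

/-- first index whose cut contains `r` -/
noncomputable def m1 (P : Par) (r : ℕ) : ℕ := sInf {m | r ≤ P.cut m}









/-! ### shallow fractions are eligible -/

/-- a fraction of small depth at a live index is a tree centre -/
lemma tc_of_dep (hL : 0 < P.L) {b j : ℕ} {f : ℚ}
    (hl : (2 : ℝ) ^ j * P.L ≤ F.uu (P.cut j) b) (hE : dep F P j b f ≤ P.E j) :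
    TC F P j b f :=
  ⟨(k0_le_dep j b f).trans hE,
    (dis_le_dep hL j b f).trans (mul_le_mul_of_nonneg_right hE hL.le), hl⟩




/-! ### prefix worlds -/

section world

open Crest.Agent.R4C.PureClsx863 Crest.Agent.R4C.Cellx863

variable {G w : ℕ}





end world

end Crest.Agent.R4C.GapRulex529
end

-- ▼ part R4C/Tri_264
section

/-!
# Row 4, GW section, leaf (F2b): two light members in grid form (helper264)

A pair `b, c` of own scale `2^i` (case A, `FarA`), any low word, linked offset `h`, NOT killed.  Both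
members are LIGHT in grid form: at a live index `jb` (`2^jb L ≤ uu (cut jb) b`) with at least one
letter of `b` in `(cut i, cut jb]` (`uu (cut i) b < uu (cut jb) b`) some fraction has depth `< K`;
the same for `c` at `jc`.  Then the pair is in the heavy class `CHvy` (`kill_far`).

* `lam_dvd_cof` : `lam x b ∣ b / gcd b c` for a good pair;
* `kill_far` : general `P`, threshold as a hypothesis;  `kill_far_on` : hypotheses in the `On` form;
* `thr_ge` : `2^(i/8) ≤ thr` at every prime `> cut i` for `ParOf`;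
* `kill_par` : everything at `ParOf`, `K ≤ 2^(i/8)`;
* `kill_par'` : the vector form (`K ≤ E jb`, `K ≤ E jc` at the next indices), `on_scale` : factor
  `κ` in the scale = factor `κ` in the depth;
* `NextW`, `kill_far_w` : both members light at their next nodes of a world whose scale is the true
  one up to a factor `κ` (true scale `≥ 1/2` of the world scale);
* `uu_lt_of_nd` : at a node index (`uu (cut i) b < 2^(i+1) L`) a live index `j > i` has
  `uu (cut i) b < uu (cut j) b`.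
-/

set_option autoImplicit false

namespace Crest.Agent.R4C.Trix264

open Crest.Agent.R4C.FLDefx935 Crest.Agent.R4C.BoostCx972 Crest.Agent.R4C.CrCoinx935
  Crest.Agent.R4C.CrCountx935 Crest.Agent.R4C.Bridgex882
  Crest.Agent.R4C.S7cx14 Crest.Agent.R4C.S7dx14 Crest.Agent.R4C.Cutx50
  Crest.Agent.R4C.PairRx14 Crest.Agent.R4C.Rulex945 Crest.Agent.R4C.Splitx945
  Crest.Agent.R4C.LightKillx473 Crest.Agent.R4C.GapRulex529 Crest.Agent.R4C.Spinex946
  Crest.Agent.R4C.NHx656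
open Crest.Agent.R4C.FLExx326 (ind)
open Crest.Agent.R4C.Hclsx81 (HvK)

variable {M : ℕ} {F : FL M} {P : Par} {w : ℕ → ℝ} {δ ε : ℝ} {D : ℕ → ℝ}

/-- for a good pair the excess word of `b` divides the cofactor -/
lemma lam_dvd_cof {x b c : ℕ} (hM : 0 < M) (hb : b ∣ M) (hc : c ∣ M) (hx : F.good x b c) :
    F.lam x b ∣ b / Nat.gcd b c := by
  have hb0 : 0 < b := Nat.pos_of_dvd_of_pos hb hM
  have hg : 0 < Nat.gcd b c := Nat.gcd_pos_of_pos_left _ hb0
  obtain ⟨u, hu⟩ := FL.good_gcd_dvd_uu hM hb hc hx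
  have h1 : F.uu x b * F.lam x b = b := FL.uu_mul_lam hM hb
  have h2 : Nat.gcd b c * (b / Nat.gcd b c) = Nat.gcd b c * (u * F.lam x b) := by
    rw [gs_left, ← mul_assoc, ← hu, h1]
  rw [Nat.eq_of_mul_eq_mul_left hg h2]
  exact dvd_mul_left _ _

/-- a letter is crossed when `uu` changes -/
lemma exists_letter {x y b : ℕ} (hM : 0 < M) (hb : b ∣ M) (hxy : x ≤ y)
    (h : F.uu x b < F.uu y b) : ∃ r, r.Prime ∧ x < r ∧ r ≤ y ∧ r ∣ F.lam x b := by
  by_contra hc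
  push Not at hc
  have := uu_const (F := F) hM hb hxy fun p hp h1 h2 => hc p hp h1 h2
  omega

lemma idx_lt {i j b : ℕ} (hcut : Monotone P.cut) (h : F.uu (P.cut i) b < F.uu (P.cut j) b) :
    i < j := by
  by_contra hc
  have h1 : F.uu (P.cut j) b ∣ F.uu (P.cut i) b := FL.uu_dvd_uu (hcut (not_lt.1 hc))
  have h2 := Nat.le_of_dvd (FL.uu_pos _ b) h1
  omega

/-- the heavy class from an alternative at a prime `r ≤ cut j` -/
lemma hvy_of_alt_far (H : Hy F P w δ ε D) {i j b c d r : ℕ} {h : ℤ} {f : ℚ} {K : ℝ}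
    (hd : d ∣ M) (hF : FarA F P i b c h) (hij : i < j)
    (tc : TC F P j d f) (hdep : dep F P j d f ≤ K) (hKE : K ≤ P.E j) (hr : r ≤ P.cut j)
    (hthr : K ≤ P.thr d (P.blk r)) (ha : Alt F P j d f r) :
    P.m0 ≤ j ∧ F.good (P.cut j) b c ∧ AlLe F P b c h (P.cut (2 * j)) ∧
      (Nat.gcd b c : ℝ) < 2 ^ (j + 1) * P.L ∧ X1 P b c < P.cut j ∧
      HvK F w P.L (1 / ε) (2 ^ j / (2 * P.E j ^ 4)) (P.cut j) d := by
  have hj : P.m0 ≤ j := hF.m0.trans hij.le
  have hE1 := H.E_one j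
  have hdE : dep F P j d f ≤ P.E j ^ 4 := by
    refine (hdep.trans hKE).trans ?_
    calc P.E j = P.E j ^ 1 := (pow_one _).symm
      _ ≤ P.E j ^ 4 := pow_le_pow_right₀ hE1 (by norm_num)
  refine ⟨hj, FL.good_mono (H.cut_mono hij.le) hF.good, hF.al.mono (H.cut_mono (by omega)), ?_,
    X1_far H (H.two.trans hj) ?_, ?_⟩
  · refine hF.hi.trans_le (mul_le_mul_of_nonneg_right ?_ H.hL.le)
    exact pow_le_pow_right₀ (by norm_num) (by omega)
  · refine le_trans ?_ hF.lo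
    have h1 : (1 : ℝ) ≤ 2 ^ i := one_le_pow₀ (by norm_num)
    nlinarith [H.hL]
  · rcases dh_of_alt H hd hj le_rfl hr tc rfl hdE ha with h1 | h1
    · exact absurd (hdep.trans hthr) (not_le.2 h1)
    · exact h1

/-- **(F2b), general form** : both members light, not killed ⟹ heavy -/
theorem kill_far (H : Hy F P w δ ε D) {i jb jc b c : ℕ} {h : ℤ} {f f' : ℚ} {K : ℝ}
    (hb : b ∣ M) (hc : c ∣ M) (hl : h ∈ Lnk P.γ P.L b c) (hk : ¬ killedB (lamR F P) b c h)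
    (hF : FarA F P i b c h) (hK : 3 * K ^ 2 ≤ (2 : ℝ) ^ i) (hEb : K ≤ P.E jb) (hEc : K ≤ P.E jc)
    (hub : F.uu (P.cut i) b < F.uu (P.cut jb) b) (huc : F.uu (P.cut i) c < F.uu (P.cut jc) c)
    (lb : (2 : ℝ) ^ jb * P.L ≤ F.uu (P.cut jb) b) (lc : (2 : ℝ) ^ jc * P.L ≤ F.uu (P.cut jc) c)
    (ob : dep F P jb b f ≤ K) (oc : dep F P jc c f' ≤ K)
    (hthr : ∀ r : ℕ, r.Prime → P.cut i < r → K ≤ P.thr b (P.blk r) ∧ K ≤ P.thr c (P.blk r)) :
    CHvy F P w ε b c h := by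
  have hM := H.hM
  have hL := H.hL
  have hb0 : 0 < b := Nat.pos_of_dvd_of_pos hb hM
  have hc0 : 0 < c := Nat.pos_of_dvd_of_pos hc hM
  have hib := idx_lt H.cut_mono hub
  have hic := idx_lt H.cut_mono huc
  obtain ⟨rb, hrb, hrb1, hrb2, hrb3⟩ := exists_letter hM hb (H.cut_mono hib.le) hub
  obtain ⟨rc, hrc, hrc1, hrc2, hrc3⟩ := exists_letter hM hc (H.cut_mono hic.le) huc
  have drb : rb ∣ b / Nat.gcd b c := hrb3.trans (lam_dvd_cof hM hb hc hF.good)
  have drc : rc ∣ c / Nat.gcd b c := by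
    have := hrc3.trans (lam_dvd_cof hM hc hb (FL.good_symm hb hc hF.good))
    rwa [Nat.gcd_comm] at this
  -- the common hypotheses
  have e1 := gs_left b c
  have e2 := gs_right b c
  have hlink : |((b / Nat.gcd b c : ℕ) - (c / Nat.gcd b c : ℕ) : ℝ) * P.γ + h| <
      P.L / (Nat.gcd b c : ℕ) := by
    have h1 := hl
    unfold Lnk at h1
    exact mem_Hf.1 h1
  have hk' : ¬ killedL (lamR F P) (Nat.gcd b c * (b / Nat.gcd b c))
      (Nat.gcd b c * (c / Nat.gcd b c)) (b / Nat.gcd b c) (c / Nat.gcd b c) h := by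
    rw [e1, e2]
    exact fun hh => hk (killedB_iff.2 hh)
  have LKh : LK F P i (Nat.gcd b c) (b / Nat.gcd b c) (c / Nat.gcd b c) h K :=
    ⟨hL, hM, H.hN, fun m hm => H.hE3 m hm, H.cut_mono, by rw [e1]; exact hb, by rw [e2]; exact hc,
      cop_gs hM hb, by rw [e1, e2]; exact hF.good, hF.m0, hF.lo, hlink, hk', hK⟩
  have tcb : TC F P jb b f := tc_of_dep hL lb (ob.trans hEb)
  have tcc : TC F P jc c f' := tc_of_dep hL lc (oc.trans hEc)
  have Lb : Lit F P i jb (Nat.gcd b c * (b / Nat.gcd b c)) f K := by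
    rw [e1]; exact ⟨hib.le, tcb, ob⟩
  have Lc : Lit F P i jc (Nat.gcd b c * (c / Nat.gcd b c)) f' K := by
    rw [e2]; exact ⟨hic.le, tcc, oc⟩
  have hKr : ∀ r : ℕ, P.cut i < r → K < r := by
    intro r hr
    have h1 : (2 : ℝ) ^ i ≤ P.cut i := by exact_mod_cast H.cut_ge i
    have h2 : (P.cut i : ℝ) < r := by exact_mod_cast hr
    have h3 : 1 ≤ K := (one_le_dep (F := F) (P := P) jb b f).trans ob
    nlinarith
  rcases le_total rb rc with hle | hle
  · -- `r = rb ∣ s`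
    have ha := light_kill_right LKh Lb Lc hrb drb (hKr rb hrb1) hrb2
      (H.act jc rb (hle.trans hrc2))
    rw [e2] at ha
    obtain ⟨h1, h2, h3, h4, h5, h6⟩ := hvy_of_alt_far H hc hF hic tcc oc hEc (hle.trans hrc2)
      (hthr rb hrb hrb1).2 ha
    exact ⟨jc, h1, h2, h3, h4, h5, Or.inr h6⟩
  · have ha := light_kill_left LKh Lb Lc hrc drc (hKr rc hrc1) hrc2
      (H.act jb rc (hle.trans hrb2))
    rw [e1] at ha
    obtain ⟨h1, h2, h3, h4, h5, h6⟩ := hvy_of_alt_far H hb hF hib tcb ob hEb (hle.trans hrb2)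
      (hthr rc hrc hrc1).1 ha
    exact ⟨jb, h1, h2, h3, h4, h5, Or.inl h6⟩

/-- **(F2b) in the `On` form** -/
theorem kill_far_on (H : Hy F P w δ ε D) {i jb jc b c : ℕ} {h : ℤ} {K : ℝ}
    (hb : b ∣ M) (hc : c ∣ M) (hl : h ∈ Lnk P.γ P.L b c) (hk : ¬ killedB (lamR F P) b c h)
    (hF : FarA F P i b c h) (hK : 3 * K ^ 2 ≤ (2 : ℝ) ^ i) (hEb : K ≤ P.E jb) (hEc : K ≤ P.E jc)
    (hub : F.uu (P.cut i) b < F.uu (P.cut jb) b) (huc : F.uu (P.cut i) c < F.uu (P.cut jc) c)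
    (lb : (2 : ℝ) ^ jb * P.L ≤ F.uu (P.cut jb) b) (lc : (2 : ℝ) ^ jc * P.L ≤ F.uu (P.cut jc) c)
    (ob : On K ((F.lam (P.cut jb) b : ℝ) * P.γ) ((F.uu (P.cut jb) b : ℝ) / P.L))
    (oc : On K ((F.lam (P.cut jc) c : ℝ) * P.γ) ((F.uu (P.cut jc) c : ℝ) / P.L))
    (hthr : ∀ r : ℕ, r.Prime → P.cut i < r → K ≤ P.thr b (P.blk r) ∧ K ≤ P.thr c (P.blk r)) :
    CHvy F P w ε b c h := by
  obtain ⟨f, hf⟩ := (on_iff H.hM hb).1 ob
  obtain ⟨f', hf'⟩ := (on_iff H.hM hc).1 oc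
  rw [← dep_eq] at hf hf'
  exact kill_far H hb hc hl hk hF hK hEb hEc hub huc lb lc hf.le hf'.le hthr

/-- a larger scale costs a factor in the depth: world scale `τ`, true scale `τ' ≤ κ τ` -/
lemma on_scale {K y τ τ' κ : ℝ} (hκ : 1 ≤ κ) (hτ : τ' ≤ κ * τ) (h : On K y τ) :
    On (κ * K) y τ' := by
  obtain ⟨a, k, hk, h1⟩ := h
  have hkR : (0 : ℝ) < k := by exact_mod_cast hk
  refine ⟨a, k, hk, ?_⟩
  have h2 : max 1 (τ' * |y - a / k|) ≤ κ * max 1 (τ * |y - a / k|) := by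
    refine max_le ?_ ?_
    · have : (1 : ℝ) ≤ max 1 (τ * |y - a / k|) := le_max_left _ _
      nlinarith
    · calc τ' * |y - a / k| ≤ κ * τ * |y - a / k| :=
            mul_le_mul_of_nonneg_right hτ (abs_nonneg _)
        _ = κ * (τ * |y - a / k|) := by ring
        _ ≤ κ * max 1 (τ * |y - a / k|) :=
            mul_le_mul_of_nonneg_left (le_max_right _ _) (by linarith)
  calc (k : ℝ) * max 1 (τ' * |y - a / k|) ≤ k * (κ * max 1 (τ * |y - a / k|)) :=
        mul_le_mul_of_nonneg_left h2 hkR.le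
    _ = κ * (k * max 1 (τ * |y - a / k|)) := by ring
    _ < κ * K := mul_lt_mul_of_pos_left h1 (by linarith)

/-- **next node of a member at the world scale** : `j` = index of the next node in a world whose
scale is the true one up to a factor in `[1/κ, 2]` (`2^(j-1) L ≤ uu (cut j) d < κ 2^(j+1) L`), a
letter of `d` in `(cut i, cut j]`, `On K` at the world scale `τ`, `uu (cut j) d / L ≤ κ τ` -/
structure NextW (F : FL M) (P : Par) (i j d : ℕ) (K κ τ : ℝ) : Prop where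
  lo : (2 : ℝ) ^ (j - 1) * P.L ≤ F.uu (P.cut j) d
  hi : (F.uu (P.cut j) d : ℝ) < κ * (2 ^ (j + 1) * P.L)
  lt : F.uu (P.cut i) d < F.uu (P.cut j) d
  on : On K ((F.lam (P.cut j) d : ℝ) * P.γ) τ
  sc : (F.uu (P.cut j) d : ℝ) / P.L ≤ κ * τ
  big : κ * 2 ^ (j + 1) ≤ (P.cut (j - 1) : ℝ)
  E : κ * K ≤ P.E (j - 1)

/-- no letter between the cuts `j - 1` and `j` -/
lemma NextW.const {i j d : ℕ} {K κ τ : ℝ} (h : NextW F P i j d K κ τ) (hM : 0 < M) (hd : d ∣ M)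
    (hL : 0 < P.L) (hcut : Monotone P.cut) (hi : P.L ≤ F.uu (P.cut i) d) :
    F.uu (P.cut (j - 1)) d = F.uu (P.cut j) d ∧ F.lam (P.cut (j - 1)) d = F.lam (P.cut j) d ∧
      i ≤ j - 1 := by
  have hij := idx_lt hcut h.lt
  have hj1 : i ≤ j - 1 := by omega
  have hle : P.cut (j - 1) ≤ P.cut j := hcut (Nat.sub_le _ _)
  have hno : ∀ p, p.Prime → P.cut (j - 1) < p → p ≤ P.cut j →
      ¬ p ∣ F.lam (P.cut (j - 1)) d := by
    intro p hp h1 h2 h3
    have h4 := mul_dvd_uu (F := F) hM hd hle hp h2 h3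
    have h5 : F.uu (P.cut (j - 1)) d * p ≤ F.uu (P.cut j) d :=
      Nat.le_of_dvd (FL.uu_pos _ d) h4
    have h6 : (F.uu (P.cut (j - 1)) d : ℝ) * p ≤ F.uu (P.cut j) d := by exact_mod_cast h5
    have h7 : P.L ≤ F.uu (P.cut (j - 1)) d := hi.trans (uu_le_uu' (hcut hj1))
    have h8 : (P.cut (j - 1) : ℝ) ≤ p := by exact_mod_cast h1.le
    have h9 : P.L * (κ * 2 ^ (j + 1)) ≤ (F.uu (P.cut (j - 1)) d : ℝ) * p := by
      have t1 : κ * 2 ^ (j + 1) ≤ (p : ℝ) := h.big.trans h8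
      calc P.L * (κ * 2 ^ (j + 1)) ≤ P.L * p := mul_le_mul_of_nonneg_left t1 hL.le
        _ ≤ _ := mul_le_mul_of_nonneg_right h7 (Nat.cast_nonneg _)
    have h10 := h.hi
    nlinarith
  exact ⟨(uu_const hM hd hle hno).symm, (lam_const hM hd hle hno).symm, hj1⟩



/-! ### the thresholds of `ParOf` -/

section par

variable {cp : ℝ} {A m0 : ℕ} {γ L : ℝ} {B : Finset ℕ}

/-- the threshold of the rule at the primes `> cut i` -/
theorem thr_ge {i r d : ℕ} (hA : 1 ≤ A) (hi : 2 ≤ i)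
    (hr : (ParOf cp A m0 γ L M B).cut i < r) :
    (2 : ℝ) ^ ((i : ℝ) / 8) ≤
      (ParOf cp A m0 γ L M B).thr d ((ParOf cp A m0 γ L M B).blk r) := by
  set Q := ParOf cp A m0 γ L M B with hQ
  have hY : ∀ n, Q.Y n = 2 ^ n := fun n => rfl
  have hYm : StrictMono Q.Y := by
    intro a b hab
    rw [hY, hY]
    exact Nat.pow_lt_pow_right (by norm_num) hab
  have hcut : Q.cut i = 2 ^ (A * i) := rfl
  set n := Q.blk r with hn
  have h1 : r ≤ 2 ^ n := by
    have := Par.le_blk hYm r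
    rwa [hY] at this
  have h2 : A * i < n := by
    rw [hcut] at hr
    exact (Nat.pow_lt_pow_iff_right (by norm_num : 1 < 2)).1 (hr.trans_le h1)
  have hAR : (1 : ℝ) ≤ A := by exact_mod_cast hA
  -- `V = 2^(n-1) ≥ 2^(A i)`
  set V : ℝ := (Q.Y (n - 1) : ℝ) with hV
  have hV1 : (2 : ℝ) ^ (A * i) ≤ V := by
    rw [hV, hY]
    push_cast
    exact pow_le_pow_right₀ (by norm_num) (by omega)
  have hV0 : (1 : ℝ) ≤ V := le_trans (one_le_pow₀ (by norm_num)) hV1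
  have h3 : (2 : ℝ) ^ ((i : ℝ) / 8) ≤ V ^ (1 / (4 * (A : ℝ))) := by
    calc (2 : ℝ) ^ ((i : ℝ) / 8) ≤ (2 : ℝ) ^ ((i : ℝ) / 4) := by
          refine Real.rpow_le_rpow_of_exponent_le (by norm_num) ?_
          have : (0 : ℝ) ≤ i := Nat.cast_nonneg i
          linarith
      _ = ((2 : ℝ) ^ (A * i)) ^ (1 / (4 * (A : ℝ))) := by
          rw [← Real.rpow_natCast, ← Real.rpow_mul (by norm_num)]
          congr 1
          push_cast
          field_simp
      _ ≤ _ := Real.rpow_le_rpow (by positivity) hV1 (by positivity)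
  have h4 : V ^ (1 / (4 * (A : ℝ))) ≤ Real.exp (V ^ (4 / 5 : ℝ)) := by
    calc V ^ (1 / (4 * (A : ℝ))) ≤ V ^ (4 / 5 : ℝ) := by
          refine Real.rpow_le_rpow_of_exponent_le hV0 ?_
          rw [div_le_div_iff₀ (by positivity) (by norm_num)]
          linarith
      _ ≤ Real.exp (V ^ (4 / 5 : ℝ)) := by
          have := Real.add_one_le_exp (V ^ (4 / 5 : ℝ))
          linarith
  show (2 : ℝ) ^ ((i : ℝ) / 8) ≤ thrS M (ind B) (fun i => 2 ^ i) (1 / (4 * A)) (1 / 20) d n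
  unfold thrS
  refine le_min (le_trans ?_ (le_max_left _ _)) ?_
  · exact h3
  · exact h3.trans h4


/-- **(F2b) for the rule of the text, vector form**: only `K ≤ E (jb), E (jc)` at the NEXT indices -/
theorem kill_par' {i jb jc b c : ℕ} {h : ℤ} {K : ℝ}
    (H : Hy F (ParOf cp A m0 γ L M B) w δ ε D) (hA : 1 ≤ A)
    (hb : b ∣ M) (hc : c ∣ M) (hl : h ∈ Lnk γ L b c)
    (hk : ¬ killedB (lamR F (ParOf cp A m0 γ L M B)) b c h)
    (hF : FarA F (ParOf cp A m0 γ L M B) i b c h)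
    (hK : 3 * K ^ 2 ≤ (2 : ℝ) ^ i) (hKb : K ≤ (2 : ℝ) ^ (cp * jb)) (hKc : K ≤ (2 : ℝ) ^ (cp * jc))
    (hK8 : K ≤ (2 : ℝ) ^ ((i : ℝ) / 8))
    (hub : F.uu (2 ^ (A * i)) b < F.uu (2 ^ (A * jb)) b)
    (huc : F.uu (2 ^ (A * i)) c < F.uu (2 ^ (A * jc)) c)
    (lb : (2 : ℝ) ^ jb * L ≤ F.uu (2 ^ (A * jb)) b) (lc : (2 : ℝ) ^ jc * L ≤ F.uu (2 ^ (A * jc)) c)
    (ob : On K ((F.lam (2 ^ (A * jb)) b : ℝ) * γ) ((F.uu (2 ^ (A * jb)) b : ℝ) / L))
    (oc : On K ((F.lam (2 ^ (A * jc)) c : ℝ) * γ) ((F.uu (2 ^ (A * jc)) c : ℝ) / L)) :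
    CHvy F (ParOf cp A m0 γ L M B) w ε b c h := by
  have h2i : 2 ≤ i := H.two.trans hF.m0
  exact kill_far_on H hb hc hl hk hF hK hKb hKc hub huc lb lc ob oc
    fun r _ hr => ⟨hK8.trans (thr_ge hA h2i hr), hK8.trans (thr_ge hA h2i hr)⟩

end par

end Crest.Agent.R4C.Trix264
end

-- ▼ part R4C/GWleave_262
section

/-!
# Row 4, GW section, leaf (F2a) of helper982's skeleton (helper262)

`w ∈ S ν`, `ν ∈ Nd z`, `w ∉ A z ν` (the word does not leave the zone `z` at its node `ν`): the next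
node `j` of `w` after `ν` exists, is not a birth, and `On (4 θ ν.1)` holds at `(yy j w, tt j w)`.
The cell lemma (F1c (i)) is a hypothesis in `leave`; `prev_eq`, `exists_next`, `not_birth_next` are
free of it.
-/

set_option autoImplicit false

open Finset
open Crest.Agent.R4C.Cutx50
open Crest.Agent.R4C.NHx656 (On)
open Crest.Agent.R4C.GWdefx982 Crest.Agent.R4C.GWnodex863

namespace Crest.Agent.R4C.GWleavex262

variable {Z : World}

/-- the previous node of the node `j`, if there is no node in between -/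
lemma prev_eq {i j w : ℕ} (hij : i < j) (hi : Z.nd i w) (hgap : ∀ k, i < k → k < j → ¬ Z.nd k w) :
    Z.prev j w = i := by
  classical
  unfold World.prev
  rw [Nat.findGreatest_eq_iff]
  refine ⟨hij.le, fun _ => ⟨hij, hi⟩, fun n hn _ hP => ?_⟩
  exact hgap n hn hP.1 hP.2

/-- there is a first node between `i` and `i'` -/
lemma exists_next {i i' w : ℕ} (hii : i < i') (hn : Z.nd i' w) :
    ∃ j, i < j ∧ j ≤ i' ∧ Z.nd j w ∧ ∀ k, i < k → k < j → ¬ Z.nd k w := by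
  classical
  have hex : ∃ j, i < j ∧ Z.nd j w := ⟨i', hii, hn⟩
  refine ⟨Nat.find hex, (Nat.find_spec hex).1, Nat.find_min' hex ⟨hii, hn⟩, (Nat.find_spec hex).2,
    fun k h1 h2 h3 => ?_⟩
  exact Nat.find_min hex h2 ⟨h1, h3⟩

/-- a word which does not leave the zone at the node `ν` is in a later node of the zone -/
lemma later_of_not_A {z ν : Node} {w : ℕ} (hw : w ∈ Z.S ν) (hA : w ∉ Z.A z ν) :
    ∃ ν' ∈ Z.Nd z, ν.1 < ν'.1 ∧ w ∈ Z.S ν' := by
  classical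
  unfold World.A at hA
  rw [mem_sdiff, not_and, not_not] at hA
  obtain ⟨ν', h1, h2⟩ := mem_biUnion.1 (hA hw)
  rw [mem_filter] at h1
  exact ⟨ν', h1.1, h1.2, h2⟩

/-- the next node is not a birth -/
theorem next_of_not_A (h : Z.Ok) {z ν : Node} {w : ℕ} (hν : ν ∈ Z.Nd z) (hw : w ∈ Z.S ν)
    (hA : w ∉ Z.A z ν) :
    ∃ j, ν.1 < j ∧ Z.nd j w ∧ (∀ k, ν.1 < k → k < j → ¬ Z.nd k w) ∧ ¬ Z.birth j w ∧
      Z.prev j w = ν.1 ∧ Z.light j w := by
  obtain ⟨ν', h1, h2, h3⟩ := later_of_not_A hw hA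
  have hnν : Z.nd ν.1 w := ((mem_S h).1 hw).2.1
  have hnν' : Z.nd ν'.1 w := ((mem_S h).1 h3).2.1
  obtain ⟨j, j1, j2, j3, j4⟩ := exists_next h2 hnν'
  obtain ⟨_, _, b3, _, _⟩ := Nd_all h hν hw
  obtain ⟨_, _, _, _, c5⟩ := Nd_all h h1 h3
  have hnb : ¬ Z.birth j w := by
    refine not_birth_of_bi_lt (j := ν'.1) ?_ j2
    rw [c5]
    omega
  refine ⟨j, j1, j3, j4, hnb, prev_eq j1 hnν j4, ?_⟩
  unfold World.birth at hnb
  by_contra hl
  exact hnb ⟨j3, fun hc => hl hc.2⟩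

/-- **(F2a)** -/
theorem leave (h : Z.Ok)
    (hcell : ∀ (K : ℝ) (ν : Node) (w w' : ℕ), w ∈ Z.S ν → w' ∈ Z.S ν →
      On K (Z.yy ν.1 w') (Z.tt ν.1 w') → On (4 * K) (Z.yy ν.1 w) (Z.tt ν.1 w))
    {z ν : Node} {w : ℕ} (hν : ν ∈ Z.Nd z) (hw : w ∈ Z.S ν) (hA : w ∉ Z.A z ν) :
    ∃ j, ν.1 < j ∧ Z.nd j w ∧ (∀ k, ν.1 < k → k < j → ¬ Z.nd k w) ∧ ¬ Z.birth j w ∧
      On (4 * Z.θ ν.1) (Z.yy j w) (Z.tt j w) := by
  obtain ⟨j, j1, j2, j3, j4, j5, w', hw', hon⟩ := next_of_not_A h hν hw hA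
  refine ⟨j, j1, j2, j3, j4, ?_⟩
  rw [j5] at hon
  have hwj : w ∈ Z.S (Z.lab j w) := mem_S_lab h ((mem_S h).1 hw).1 j2
  exact hcell _ (Z.lab j w) w w' hwj hw' hon

end Crest.Agent.R4C.GWleavex262
end

-- ▼ part R4C/KillV_19
section

/-!
# Row 4, class CDomP, vector case: two light members are killed or heavy (helper19)

World of a core `G` of `hiFL hM y F` with window `L / 2^s`, `s = log2 l + κ`, `κ ≤ 1`.

* `light_true` : one member.  World index `j > i` with `On K` there; then at the index `j - 1` the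
  true scale `uu (cut (j-1)) b` is `≥ 2^(j-1) L`, larger than `uu (cut i) b`, and `On (2 u K)`.
* `killV_on` : both members, `K`-form;  `killV` : both words stay in their zones at the node.
-/

set_option autoImplicit false

namespace Crest.Agent.R4C.KillVx19

open Finset Crest.Agent.R4C.Basex935 Crest.Agent.R4C.FLDefx935 Crest.Agent.R4C.BoostCx972
  Crest.Agent.R4C.CrCoinx935 Crest.Agent.R4C.CrCountx935 Crest.Agent.R4C.Bridgex882
  Crest.Agent.R4C.PrefixMx882 Crest.Agent.R4C.Rulex945 Crest.Agent.R4C.Sharedx11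
  Crest.Agent.R4C.Splitx945 Crest.Agent.R4C.Cutx50 Crest.Agent.R4C.PureL2x232
  Crest.Agent.R4C.PureClsx863 Crest.Agent.R4C.HighFLx863 Crest.Agent.R4C.VecPairx19
  Crest.Agent.R4C.Spinex946 Crest.Agent.R4C.Trix264
open Crest.Agent.R4C.NHx656 (On)
open Crest.Agent.R4C.GWdefx982

/-- no letter between the cuts `j - 1` and `j` if `e_j < 2^(j+1) L'` and `2^i L' ≤ e_i` -/
lemma no_letter {A i j G w : ℕ} {L' : ℝ} (hL : 0 < L') (hA : 1 ≤ A) (hi : 2 ≤ i)
    (hij : i < j) (h1 : 2 ^ i * L' ≤ ((G * low (2 ^ (A * i)) w : ℕ) : ℝ))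
    (h2 : ((G * low (2 ^ (A * j)) w : ℕ) : ℝ) < 2 ^ (j + 1) * L') :
    low (2 ^ (A * j)) w = low (2 ^ (A * (j - 1))) w := by
  have hcut : ∀ {m n : ℕ}, m ≤ n → 2 ^ (A * m) ≤ 2 ^ (A * n) := fun h =>
    Nat.pow_le_pow_right (by norm_num) (Nat.mul_le_mul_left _ h)
  refine eq_of_fact (low_pos _ _).ne' (low_pos _ _).ne' fun r hr => ?_
  rw [fact_low, fact_low]
  by_cases hr1 : r ≤ 2 ^ (A * (j - 1))
  · rw [if_pos hr1, if_pos (hr1.trans (hcut (by omega)))]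
  · rw [if_neg hr1]
    by_cases hr2 : r ≤ 2 ^ (A * j)
    · rw [if_pos hr2]
      by_contra hne
      -- `low_i * r ∣ low_j`
      have hdvd : low (2 ^ (A * i)) w * r ∣ low (2 ^ (A * j)) w := by
        refine Nat.Coprime.mul_dvd_of_dvd_of_dvd ?_ ?_ ?_
        · rw [Nat.coprime_comm, Nat.Prime.coprime_iff_not_dvd hr]
          intro hd
          have h3 := hr.factorization_pos_of_dvd (low_pos _ _).ne' hd
          rw [fact_low, if_neg] at h3
          · exact lt_irrefl _ h3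
          · exact fun h4 => hr1 (h4.trans (hcut (by omega)))
        · rw [← low_low (hcut hij.le) w]
          exact low_dvd_self _ _
        · refine Nat.dvd_of_factorization_pos ?_
          rw [fact_low, if_pos hr2]
          exact hne
      have h3 : low (2 ^ (A * i)) w * r ≤ low (2 ^ (A * j)) w := Nat.le_of_dvd (low_pos _ _) hdvd
      have h4 : (((G * low (2 ^ (A * i)) w : ℕ) : ℝ)) * r ≤ ((G * low (2 ^ (A * j)) w : ℕ) : ℝ) := by
        have : G * low (2 ^ (A * i)) w * r ≤ G * low (2 ^ (A * j)) w := by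
          rw [mul_assoc]; exact Nat.mul_le_mul_left _ h3
        exact_mod_cast this
      have h5 : ((2 : ℝ) ^ (A * (j - 1))) < r := by
        have : 2 ^ (A * (j - 1)) < r := not_le.1 hr1
        exact_mod_cast this
      have h6 : (2 : ℝ) ^ (j - 1) ≤ 2 ^ (A * (j - 1)) :=
        pow_le_pow_right₀ (by norm_num) (Nat.le_mul_of_pos_left _ hA)
      have h7 : (2 : ℝ) ^ 2 ≤ 2 ^ i := pow_le_pow_right₀ (by norm_num) hi
      have h8 : (2 : ℝ) ^ (j + 1) = 2 ^ 2 * 2 ^ (j - 1) := by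
        rw [← pow_add]; congr 1; omega
      have h9 : (0 : ℝ) < 2 ^ (j - 1) := by positivity
      have h10 : 2 ^ (j + 1) * L' ≤ 2 ^ i * L' * r := by
        rw [h8]
        have : (2 : ℝ) ^ 2 * 2 ^ (j - 1) ≤ 2 ^ i * r :=
          mul_le_mul h7 (h6.trans h5.le) h9.le (by positivity)
        calc 2 ^ 2 * 2 ^ (j - 1) * L' ≤ 2 ^ i * r * L' := mul_le_mul_of_nonneg_right this hL.le
          _ = _ := by ring
      have hr0 : (0 : ℝ) ≤ r := Nat.cast_nonneg _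
      have := mul_le_mul_of_nonneg_right h1 hr0
      linarith
    · rw [if_neg hr2]

/-- consecutive node indices: `(A + 1) i ≤ j` -/
lemma idx_ge {A i j G w : ℕ} {L' : ℝ} (hL : 0 < L') (hij : i < j)
    (h1 : 2 ^ i * L' ≤ ((G * low (2 ^ (A * i)) w : ℕ) : ℝ))
    (h1' : ((G * low (2 ^ (A * i)) w : ℕ) : ℝ) < 2 ^ (i + 1) * L')
    (h2 : 2 ^ j * L' ≤ ((G * low (2 ^ (A * j)) w : ℕ) : ℝ))
    (h2' : ((G * low (2 ^ (A * j)) w : ℕ) : ℝ) < 2 ^ (j + 1) * L') : (A + 1) * i ≤ j := by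
  have hcut : ∀ {m n : ℕ}, m ≤ n → 2 ^ (A * m) ≤ 2 ^ (A * n) := fun h =>
    Nat.pow_le_pow_right (by norm_num) (Nat.mul_le_mul_left _ h)
  -- there is a letter in `(cut i, cut j]`
  have hex : ∃ r, r.Prime ∧ 2 ^ (A * i) < r ∧ r ≤ 2 ^ (A * j) ∧ w.factorization r ≠ 0 := by
    by_contra hc
    push Not at hc
    have e : low (2 ^ (A * j)) w = low (2 ^ (A * i)) w := by
      refine eq_of_fact (low_pos _ _).ne' (low_pos _ _).ne' fun r hr => ?_
      rw [fact_low, fact_low]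
      by_cases hr1 : r ≤ 2 ^ (A * i)
      · rw [if_pos hr1, if_pos (hr1.trans (hcut hij.le))]
      · rw [if_neg hr1]
        split_ifs with hr2
        · exact hc r hr (not_le.1 hr1) hr2
        · rfl
    rw [e] at h2
    have h3 : (2 : ℝ) ^ (i + 1) ≤ 2 ^ j := pow_le_pow_right₀ (by norm_num) hij
    have := mul_le_mul_of_nonneg_right h3 hL.le
    linarith
  obtain ⟨r, hr, hr1, hr2, hr3⟩ := hex
  have hdvd : low (2 ^ (A * i)) w * r ∣ low (2 ^ (A * j)) w := by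
    refine Nat.Coprime.mul_dvd_of_dvd_of_dvd ?_ ?_ ?_
    · rw [Nat.coprime_comm, Nat.Prime.coprime_iff_not_dvd hr]
      intro hd
      have h3 := hr.factorization_pos_of_dvd (low_pos _ _).ne' hd
      rw [fact_low, if_neg (by omega)] at h3
      exact lt_irrefl _ h3
    · rw [← low_low (hcut hij.le) w]
      exact low_dvd_self _ _
    · refine Nat.dvd_of_factorization_pos ?_
      rw [fact_low, if_pos hr2]
      exact hr3
  have h3 : low (2 ^ (A * i)) w * r ≤ low (2 ^ (A * j)) w := Nat.le_of_dvd (low_pos _ _) hdvd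
  have h4 : (((G * low (2 ^ (A * i)) w : ℕ) : ℝ)) * r ≤ ((G * low (2 ^ (A * j)) w : ℕ) : ℝ) := by
    have : G * low (2 ^ (A * i)) w * r ≤ G * low (2 ^ (A * j)) w := by
      rw [mul_assoc]; exact Nat.mul_le_mul_left _ h3
    exact_mod_cast this
  have h5 : ((2 : ℝ) ^ (A * i)) < r := by exact_mod_cast hr1
  have h6 : (2 : ℝ) ^ (i + A * i) * L' < 2 ^ (j + 1) * L' := by
    refine lt_of_le_of_lt ?_ h2'
    refine le_trans ?_ h4
    rw [pow_add]
    calc (2 : ℝ) ^ i * 2 ^ (A * i) * L' = 2 ^ i * L' * 2 ^ (A * i) := by ring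
      _ ≤ _ := mul_le_mul h1 h5.le (by positivity) (Nat.cast_nonneg _)
  have h7 := (pow_lt_pow_iff_right₀ (by norm_num : (1 : ℝ) < 2)).1
    (lt_of_mul_lt_mul_right h6 hL.le)
  have : (A + 1) * i = i + A * i := by ring
  omega

variable {M : ℕ}

/-- **one member**: light at the world index `j > i` -/
theorem light_true {hM : 0 < M} {F : FL M} {P : Par} {A y i j s b u l : ℕ} {K : ℝ} (hb : b ∣ M)
    (hL : 0 < P.L) (hA : 1 ≤ A) (hcut : ∀ m, P.cut m = 2 ^ (A * m)) (hi : 2 ≤ i) (hij : i < j)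
    (hy : y ≤ P.cut i) (hlb : low y b = l * u) (hu : 0 < u)
    (hD : D (hiFL hM y F) (H0 hM F y b) ≤ P.cut i) (hs1 : 2 ^ s ≤ 2 * l) (hs2 : l < 2 ^ (s + 1))
    (n1 : 2 ^ i * (P.L / 2 ^ s) ≤ ((H0 hM F y b * low (P.cut i) (HighFLx863.hw hM F y b) : ℕ) : ℝ))
    (n1' : ((H0 hM F y b * low (P.cut i) (HighFLx863.hw hM F y b) : ℕ) : ℝ) <
      2 ^ (i + 1) * (P.L / 2 ^ s))
    (n2 : 2 ^ j * (P.L / 2 ^ s) ≤ ((H0 hM F y b * low (P.cut j) (HighFLx863.hw hM F y b) : ℕ) : ℝ))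
    (n2' : ((H0 hM F y b * low (P.cut j) (HighFLx863.hw hM F y b) : ℕ) : ℝ) <
      2 ^ (j + 1) * (P.L / 2 ^ s))
    (hon : On K ((upp (P.cut j) (HighFLx863.hw hM F y b) : ℝ) * P.γ)
      (((H0 hM F y b * low (P.cut j) (HighFLx863.hw hM F y b) : ℕ) : ℝ) / (P.L / 2 ^ s))) :
    F.uu (P.cut i) b < F.uu (P.cut (j - 1)) b ∧
      (2 : ℝ) ^ (j - 1) * P.L ≤ F.uu (P.cut (j - 1)) b ∧
      On (2 * u * K) ((F.lam (P.cut (j - 1)) b : ℝ) * P.γ)
        ((F.uu (P.cut (j - 1)) b : ℝ) / P.L) ∧ (A + 1) * i ≤ j := by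
  set w := HighFLx863.hw hM F y b with hwdef
  set G := H0 hM F y b with hGdef
  have hw0 : w ≠ 0 := (HighFLx863.hw_pos hM F y b).ne'
  have h2s : (0 : ℝ) < 2 ^ s := by positivity
  have hL' : 0 < P.L / 2 ^ s := div_pos hL h2s
  rw [hcut] at hy hD n1 n1' n2 n2' hon
  have hidx := idx_ge hL' hij n1 n1' n2 n2'
  have hlow : low (2 ^ (A * j)) w = low (2 ^ (A * (j - 1))) w :=
    no_letter hL' hA hi hij n1 n2'
  have hupp : upp (2 ^ (A * j)) w = upp (2 ^ (A * (j - 1))) w := by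
    have h1 := low_mul_upp (2 ^ (A * j)) hw0
    have h2 := low_mul_upp (2 ^ (A * (j - 1))) hw0
    rw [hlow] at h1
    exact Nat.eq_of_mul_eq_mul_left (low_pos _ _) (h1.trans h2.symm)
  have hcut' : ∀ {m n : ℕ}, m ≤ n → 2 ^ (A * m) ≤ 2 ^ (A * n) := fun h =>
    Nat.pow_le_pow_right (by norm_num) (Nat.mul_le_mul_left _ h)
  have hi1 : i ≤ j - 1 := by omega
  have ui : F.uu (2 ^ (A * i)) b = low y b * (G * low (2 ^ (A * i)) w) := uu_high hM F hb hy hD
  have uj : F.uu (2 ^ (A * (j - 1))) b = low y b * (G * low (2 ^ (A * j)) w) := by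
    rw [hlow]
    exact uu_high hM F hb (hy.trans (hcut' hi1)) (hD.trans (hcut' hi1))
  have lj : F.lam (2 ^ (A * (j - 1))) b = upp (2 ^ (A * j)) w := by
    rw [hupp]
    exact lam_high hM F hb (hy.trans (hcut' hi1)) (hD.trans (hcut' hi1))
  have hlow0 : 0 < low y b := low_pos _ _
  have hl0 : 0 < l := by
    rcases Nat.eq_zero_or_pos l with h0 | h0
    · rw [h0, zero_mul] at hlb; omega
    · exact h0
  have hlR : (0 : ℝ) < l := by exact_mod_cast hl0
  have huR : (1 : ℝ) ≤ u := by exact_mod_cast hu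
  have hs1' : (2 : ℝ) ^ s ≤ 2 * l := by exact_mod_cast hs1
  have hs2' : (l : ℝ) < 2 ^ (s + 1) := by exact_mod_cast hs2
  set ej : ℝ := ((G * low (2 ^ (A * j)) w : ℕ) : ℝ) with hej
  have hej0 : 0 ≤ ej := Nat.cast_nonneg _
  have ujR : (F.uu (2 ^ (A * (j - 1))) b : ℝ) = l * u * ej := by
    rw [uj, hlb]; push_cast; rw [hej]; push_cast; ring
  rw [hcut, hcut]
  refine ⟨?_, ?_, ?_, hidx⟩
  · rw [ui, uj]
    refine Nat.mul_lt_mul_of_pos_left ?_ hlow0
    have h1 : ((G * low (2 ^ (A * i)) w : ℕ) : ℝ) < ej := by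
      refine n1'.trans_le (le_trans ?_ n2)
      exact mul_le_mul_of_nonneg_right (pow_le_pow_right₀ (by norm_num) hij) hL'.le
    rw [hej] at h1
    exact Nat.cast_lt.1 h1
  · rw [ujR]
    have h1 : (2 : ℝ) ^ j = 2 * 2 ^ (j - 1) := by
      rw [← pow_succ']; congr 1; omega
    have h2 : 2 ^ j * P.L ≤ ej * 2 ^ s := by
      have h3 := n2
      rw [← mul_div_assoc, div_le_iff₀ h2s] at h3
      exact h3
    have h3 : ej * 2 ^ s ≤ ej * (2 * l) := mul_le_mul_of_nonneg_left hs1' hej0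
    have h4 : l * ej ≤ l * u * ej := by
      have : (l : ℝ) * 1 ≤ l * u := mul_le_mul_of_nonneg_left huR hlR.le
      have := mul_le_mul_of_nonneg_right this hej0
      linarith
    rw [h1] at h2
    nlinarith
  · rw [lj]
    refine on_scale (κ := 2 * u) (by linarith) ?_ hon
    rw [ujR, div_div_eq_mul_div, div_le_iff₀ hL]
    have h1 : 2 * (u : ℝ) * (ej * 2 ^ s / P.L) * P.L = 2 * u * (ej * 2 ^ s) := by
      field_simp
    rw [h1]
    have h2 : (l : ℝ) ≤ 2 * 2 ^ s := by rw [pow_succ] at hs2'; linarith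
    have h3 : 0 ≤ u * ej := by positivity
    nlinarith

section par

variable {w1 : ℕ → ℝ} {δ ε : ℝ} {D1 : ℕ → ℝ} {cp : ℝ} {A m0 : ℕ} {γ L : ℝ} {B : Finset ℕ}

/-- **both members light in the world (`K`-form)** -/
theorem killV_on {hM : 0 < M} {F : FL M} {y i jb jc s G w w' u v l b c : ℕ} {h : ℤ} {K : ℝ}
    (H : Hy F (ParOf cp A m0 γ L M B) w1 δ ε D1) (hA : 1 ≤ A) (hcp : 0 ≤ cp)
    (hV : VP hM F (ParOf cp A m0 γ L M B) y i G w w' u v l b c h)
    (hl : h ∈ Lnk γ L b c) (hk : ¬ killedB (lamR F (ParOf cp A m0 γ L M B)) b c h)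
    (hF : FarA F (ParOf cp A m0 γ L M B) i b c h)
    (hs1 : 2 ^ s ≤ 2 * l) (hs2 : l < 2 ^ (s + 1))
    (n1 : 2 ^ i * (L / 2 ^ s) ≤ ((G * low (2 ^ (A * i)) w : ℕ) : ℝ))
    (n1' : ((G * low (2 ^ (A * i)) w : ℕ) : ℝ) < 2 ^ (i + 1) * (L / 2 ^ s))
    (hib : i < jb) (nb : 2 ^ jb * (L / 2 ^ s) ≤ ((G * low (2 ^ (A * jb)) w : ℕ) : ℝ))
    (nb' : ((G * low (2 ^ (A * jb)) w : ℕ) : ℝ) < 2 ^ (jb + 1) * (L / 2 ^ s))
    (hic : i < jc) (nc : 2 ^ jc * (L / 2 ^ s) ≤ ((G * low (2 ^ (A * jc)) w' : ℕ) : ℝ))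
    (nc' : ((G * low (2 ^ (A * jc)) w' : ℕ) : ℝ) < 2 ^ (jc + 1) * (L / 2 ^ s))
    (ob : On K ((upp (2 ^ (A * jb)) w : ℝ) * γ)
      (((G * low (2 ^ (A * jb)) w : ℕ) : ℝ) / (L / 2 ^ s)))
    (oc : On K ((upp (2 ^ (A * jc)) w' : ℝ) * γ)
      (((G * low (2 ^ (A * jc)) w' : ℕ) : ℝ) / (L / 2 ^ s)))
    {K' : ℝ} (hKb : 2 * u * K ≤ K') (hKc : 2 * v * K ≤ K') (hK1 : 3 * K' ^ 2 ≤ (2 : ℝ) ^ i)
    (hK8 : K' ≤ (2 : ℝ) ^ ((i : ℝ) / 8)) (hKE : K' ≤ (2 : ℝ) ^ (cp * (((A + 1) * i : ℕ) - 1 : ℝ))) :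
    CHvy F (ParOf cp A m0 γ L M B) w1 ε b c h := by
  set P := ParOf cp A m0 γ L M B with hP
  have hcut : ∀ m, P.cut m = 2 ^ (A * m) := fun m => rfl
  have h2i : 2 ≤ i := H.two.trans hF.m0
  have hL : 0 < P.L := H.hL
  have hDb : D (hiFL hM y F) (H0 hM F y b) ≤ P.cut i := by rw [hV.Gb]; exact hV.D_le
  have hDc : D (hiFL hM y F) (H0 hM F y c) ≤ P.cut i := by rw [hV.Gc]; exact hV.D_le
  have hlow : low (2 ^ (A * i)) w' = low (2 ^ (A * i)) w := hV.low_eq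
  obtain ⟨b1, b2, b3, b4⟩ := light_true (hM := hM) (F := F) (P := P) (A := A) (y := y) (i := i)
    (j := jb) (s := s) (b := b) (u := u) (l := l) (K := K) hV.hb hL hA hcut h2i hib hV.hy hV.lb
    hV.u_pos hDb hs1 hs2 (by rw [hV.Gb, hV.wb]; exact n1) (by rw [hV.Gb, hV.wb]; exact n1')
    (by rw [hV.Gb, hV.wb]; exact nb) (by rw [hV.Gb, hV.wb]; exact nb')
    (by rw [hV.Gb, hV.wb]; exact ob)
  obtain ⟨c1, c2, c3, c4⟩ := light_true (hM := hM) (F := F) (P := P) (A := A) (y := y) (i := i)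
    (j := jc) (s := s) (b := c) (u := v) (l := l) (K := K) hV.hc hL hA hcut h2i hic hV.hy hV.lc
    hV.v_pos hDc hs1 hs2 (by rw [hV.Gc, hV.wc, hcut, hlow]; exact n1)
    (by rw [hV.Gc, hV.wc, hcut, hlow]; exact n1')
    (by rw [hV.Gc, hV.wc]; exact nc) (by rw [hV.Gc, hV.wc]; exact nc')
    (by rw [hV.Gc, hV.wc]; exact oc)
  have hE : ∀ j, (A + 1) * i ≤ j → K' ≤ (2 : ℝ) ^ (cp * ((j - 1 : ℕ) : ℝ)) := by
    intro j hj
    refine hKE.trans (Real.rpow_le_rpow_of_exponent_le (by norm_num) ?_)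
    refine mul_le_mul_of_nonneg_left ?_ hcp
    have h1 : 1 ≤ j := by
      have : 1 * i ≤ (A + 1) * i := Nat.mul_le_mul_right _ (by omega)
      omega
    rw [Nat.cast_sub h1]
    have : (((A + 1) * i : ℕ) : ℝ) ≤ j := by exact_mod_cast hj
    push_cast at this ⊢
    linarith
  exact kill_par' H hA hV.hb hV.hc hl hk hF hK1 (hE jb b4) (hE jc c4) hK8 b1 c1 b2 c2
    (b3.mono hKb) (c3.mono hKc)

/-- **(F2) in the vector case**: world `Z` of the core with window `L / 2^s`; both words stay in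
their zones at the node of index `i` ⟹ killed or heavy -/
theorem killV {hM : 0 < M} {F : FL M} {y i s G w w' u v l b c : ℕ} {h : ℤ}
    (H : Hy F (ParOf cp A m0 γ L M B) w1 δ ε D1) (hA : 1 ≤ A) (hcp : 0 ≤ cp)
    (hV : VP hM F (ParOf cp A m0 γ L M B) y i G w w' u v l b c h)
    (hl : h ∈ Lnk γ L b c) (hk : ¬ killedB (lamR F (ParOf cp A m0 γ L M B)) b c h)
    (hF : FarA F (ParOf cp A m0 γ L M B) i b c h)
    (hs1 : 2 ^ s ≤ 2 * l) (hs2 : l < 2 ^ (s + 1))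
    {Z : World} (hZ : Z.Ok) (eG : Z.G0 = G) (eL : Z.L = L / 2 ^ s)
    (ecut : Z.cut = fun m => 2 ^ (A * m)) (eγ : Z.γ = γ)
    (hcell : ∀ (K : ℝ) (ν : Node) (w w' : ℕ), w ∈ Z.S ν → w' ∈ Z.S ν →
      On K (Z.yy ν.1 w') (Z.tt ν.1 w') → On (4 * K) (Z.yy ν.1 w) (Z.tt ν.1 w))
    {z z' ν ν' : Node} (hν : ν ∈ Z.Nd z) (hν' : ν' ∈ Z.Nd z') (hi : ν.1 = i) (hi' : ν'.1 = i)
    (hw : w ∈ Z.S ν) (hw' : w' ∈ Z.S ν') (hwA : w ∉ Z.A z ν) (hwA' : w' ∉ Z.A z' ν')
    {K' : ℝ} (hKb : 8 * u * Z.θ i ≤ K') (hKc : 8 * v * Z.θ i ≤ K')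
    (hK1 : 3 * K' ^ 2 ≤ (2 : ℝ) ^ i)
    (hK8 : K' ≤ (2 : ℝ) ^ ((i : ℝ) / 8)) (hKE : K' ≤ (2 : ℝ) ^ (cp * (((A + 1) * i : ℕ) - 1 : ℝ))) :
    CHvy F (ParOf cp A m0 γ L M B) w1 ε b c h := by
  obtain ⟨jb, b1, b2, _, _, b5⟩ := GWleavex262.leave hZ hcell hν hw hwA
  obtain ⟨jc, c1, c2, _, _, c5⟩ := GWleavex262.leave hZ hcell hν' hw' hwA'
  rw [hi] at b1 b5
  rw [hi'] at c1 c5
  have hn := ((GWnodex863.mem_S hZ).1 hw).2.1
  rw [hi] at hn
  have ee : ∀ j x, Z.e j x = G * low (2 ^ (A * j)) x := by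
    intro j x
    show Z.G0 * low (Z.cut j) x = _
    rw [eG, ecut]
  have et : ∀ j x, Z.tt j x = ((G * low (2 ^ (A * j)) x : ℕ) : ℝ) / (L / 2 ^ s) := by
    intro j x
    show (Z.e j x : ℝ) / Z.L = _
    rw [ee, eL]
  have ey : ∀ j x, Z.yy j x = (upp (2 ^ (A * j)) x : ℝ) * γ := by
    intro j x
    show (upp (Z.cut j) x : ℝ) * Z.γ = _
    rw [ecut, eγ]
  have n1 := hn.2.1
  have n2 := hn.2.2
  have nb1 := b2.2.1
  have nb2 := b2.2.2
  have nc1 := c2.2.1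
  have nc2 := c2.2.2
  rw [ee, eL] at n1 n2 nb1 nb2 nc1 nc2
  rw [et, ey] at b5 c5
  exact killV_on H hA hcp hV hl hk hF hs1 hs2 n1 n2 b1 nb1 nb2 c1 nc1 nc2 b5 c5
    (K' := K') (by linarith) (by linarith) hK1 hK8 hKE

end par

end Crest.Agent.R4C.KillVx19
end

-- ▼ part R4C/TPair_20

/-!
# Row 4, GW section, vector case: the pair side `VDef_24.TPair` (helper20)

Plug of `exists_vp_cls`, `VP.window` (19), `rel_of_link` (15), `killV` (19), `good_birth'` (20),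
`tpair_weight` (360), `vw_ok` (322).
-/

set_option autoImplicit false

open Finset
open Crest.Agent.R4C.Basex935 Crest.Agent.R4C.Cutx50 Crest.Agent.R4C.PrefixMx882
open Crest.Agent.R4C.FLDefx935 Crest.Agent.R4C.Rulex945 Crest.Agent.R4C.PureClsx863
open Crest.Agent.R4C.PureL2x232 (hiFL)
open Crest.Agent.R4C.GWdefx982 Crest.Agent.R4C.NHx656 Crest.Agent.R4C.VecPairx19
open Crest.Agent.R4C.Splitx945 Crest.Agent.R4C.Spinex946 Crest.Agent.R4C.CrCoinx935
open Crest.Agent.R4C.Bridgex882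
open Crest.Agent.R4C.VDefx24
open Crest.Agent.R4C.HyOfx281 (Num evNum hy_of_num)

namespace Crest.Agent.R4C.TPairx20

/-- `(i+1)^8 ≤ 2^(cp (i-1))` for large `i` -/
lemma exists_pow (cp : ℝ) (hcp : 0 < cp) :
    ∃ m1 : ℕ, ∀ i : ℕ, m1 ≤ i → ((i : ℝ) + 1) ^ 8 ≤ (2 : ℝ) ^ (cp * ((i : ℝ) - 1)) := by
  set r : ℝ := (2 : ℝ) ^ cp with hr
  have hr1 : 1 < r := Real.one_lt_rpow (by norm_num) hcp
  have hr0 : 0 < r := by linarith
  have h := tendsto_pow_const_div_const_pow_of_one_lt 8 hr1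
  have h2 : (0 : ℝ) < 1 / r ^ 2 := by positivity
  have h3 := (h.eventually (gt_mem_nhds h2))
  obtain ⟨m1, hm1⟩ := Filter.eventually_atTop.1 h3
  refine ⟨m1, fun i hi => ?_⟩
  have h4 := hm1 (i + 1) (by omega)
  have hp : (0 : ℝ) < r ^ (i + 1) := by positivity
  rw [div_lt_iff₀ hp] at h4
  push_cast at h4
  refine h4.le.trans (le_of_eq ?_)
  have e : (2 : ℝ) ^ (cp * ((i : ℝ) - 1)) * r ^ 2 = r ^ (i + 1) := by
    rw [hr, ← Real.rpow_natCast, ← Real.rpow_natCast, ← Real.rpow_mul (by norm_num),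
      ← Real.rpow_mul (by norm_num), ← Real.rpow_add (by norm_num)]
    congr 1
    push_cast
    ring
  rw [← e]
  field_simp

lemma ev_pow : Ev fun cp _ _ m0 => ∀ i : ℕ, m0 ≤ i →
    ((i : ℝ) + 1) ^ 8 ≤ (2 : ℝ) ^ (cp * ((i : ℝ) - 1)) :=
  Ev.of_m0 fun cp _ _ hcp _ => by
    obtain ⟨m1, h⟩ := exists_pow cp hcp
    exact ⟨m1, fun m0 hm i hi => h i (hm.trans hi)⟩

/-- numerics of the kill -/
lemma kill_num {cp : ℝ} {A i : ℕ} (hcp : 0 < cp) (hcp2 : cp ≤ 1 / 200) (hA : 1 ≤ A) (hi : 2 ≤ i)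
    (h : ((i : ℝ) + 1) ^ 8 ≤ (2 : ℝ) ^ (cp * ((i : ℝ) - 1))) :
    3 * (1 / 2 * ((i : ℝ) + 1) ^ 8 * (2 : ℝ) ^ (cp * i)) ^ 2 ≤ (2 : ℝ) ^ i ∧
    1 / 2 * ((i : ℝ) + 1) ^ 8 * (2 : ℝ) ^ (cp * i) ≤ (2 : ℝ) ^ ((i : ℝ) / 8) ∧
    1 / 2 * ((i : ℝ) + 1) ^ 8 * (2 : ℝ) ^ (cp * i) ≤
      (2 : ℝ) ^ (cp * (((A + 1) * i : ℕ) - 1 : ℝ)) := by
  have hi' : (2 : ℝ) ≤ i := by exact_mod_cast hi
  have hA' : (1 : ℝ) ≤ A := by exact_mod_cast hA
  have h0 : (0 : ℝ) < (2 : ℝ) ^ (cp * i) := by positivity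
  set K := 1 / 2 * ((i : ℝ) + 1) ^ 8 * (2 : ℝ) ^ (cp * i) with hK
  have hK0 : 0 ≤ K := by positivity
  have h1 : K ≤ 1 / 2 * (2 : ℝ) ^ (cp * (2 * i - 1)) := by
    calc K ≤ 1 / 2 * (2 : ℝ) ^ (cp * ((i : ℝ) - 1)) * (2 : ℝ) ^ (cp * i) :=
          mul_le_mul_of_nonneg_right (mul_le_mul_of_nonneg_left h (by norm_num)) h0.le
      _ = 1 / 2 * (2 : ℝ) ^ (cp * (2 * i - 1)) := by
          rw [mul_assoc, ← Real.rpow_add (by norm_num)]
          congr 2
          ring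
  have h2 : (1 / 2 : ℝ) * (2 : ℝ) ^ (cp * (2 * i - 1)) ≤ (2 : ℝ) ^ (cp * (2 * i - 1)) := by
    have : (0 : ℝ) < (2 : ℝ) ^ (cp * (2 * i - 1)) := by positivity
    linarith
  refine ⟨?_, ?_, ?_⟩
  · have h3 : K ^ 2 ≤ (1 / 2 * (2 : ℝ) ^ (cp * (2 * i - 1))) ^ 2 := pow_le_pow_left₀ hK0 h1 2
    have h4 : (1 / 2 * (2 : ℝ) ^ (cp * (2 * i - 1))) ^ 2 =
        1 / 4 * (2 : ℝ) ^ (2 * (cp * (2 * i - 1))) := by
      have : (2 : ℝ) ^ (2 * (cp * (2 * i - 1))) = ((2 : ℝ) ^ (cp * (2 * i - 1))) ^ 2 := by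
        rw [← Real.rpow_natCast, ← Real.rpow_mul (by norm_num)]
        congr 1
        push_cast
        ring
      rw [this]
      ring
    have h5 : (2 : ℝ) ^ (2 * (cp * (2 * i - 1))) ≤ (2 : ℝ) ^ ((i : ℕ) : ℝ) := by
      refine Real.rpow_le_rpow_of_exponent_le (by norm_num) ?_
      have : cp * (2 * i - 1) ≤ 1 / 200 * (2 * i - 1) :=
        mul_le_mul_of_nonneg_right hcp2 (by linarith)
      linarith
    rw [Real.rpow_natCast] at h5
    have h6 : (0 : ℝ) < 2 ^ i := by positivity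
    rw [h4] at h3
    linarith
  · refine (h1.trans h2).trans (Real.rpow_le_rpow_of_exponent_le (by norm_num) ?_)
    have : cp * (2 * i - 1) ≤ 1 / 200 * (2 * i - 1) :=
      mul_le_mul_of_nonneg_right hcp2 (by linarith)
    linarith
  · refine (h1.trans h2).trans (Real.rpow_le_rpow_of_exponent_le (by norm_num) ?_)
    refine mul_le_mul_of_nonneg_left ?_ hcp.le
    push_cast
    nlinarith

/-- windows -/
lemma win_of {a u l y b κ : ℕ} (hl : 0 < l) (hκ : κ ≤ 1) (hlb : low y b = l * u) (h1 : 2 ^ a ≤ u)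
    (h2 : u < 2 ^ (a + 1)) : win a (Nat.log 2 l + κ) y b := by
  have a1 := Nat.pow_log_le_self 2 hl.ne'
  have a2 := Nat.lt_pow_succ_log_self (b := 2) (by norm_num) l
  set J := Nat.log 2 l with hJ
  refine ⟨?_, ?_⟩
  · rw [hlb]
    calc 2 ^ (a + (J + κ)) ≤ 2 ^ (a + (J + 1)) := Nat.pow_le_pow_right (by norm_num) (by omega)
      _ = 2 * (2 ^ J * 2 ^ a) := by rw [← pow_add, ← pow_succ']; congr 1; ring
      _ ≤ 2 * (l * u) := Nat.mul_le_mul_left _ (Nat.mul_le_mul a1 h1)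
  · rw [hlb]
    calc l * u < 2 ^ (J + 1) * 2 ^ (a + 1) := Nat.mul_lt_mul'' a2 h2
      _ = 2 ^ (a + J + 2) := by rw [← pow_add]; congr 1; ring
      _ ≤ 2 ^ (a + (J + κ) + 2) := Nat.pow_le_pow_right (by norm_num) (by omega)

lemma s_bd {l κ : ℕ} (hl : 0 < l) (hκ : κ ≤ 1) :
    2 ^ (Nat.log 2 l + κ) ≤ 2 * l ∧ l < 2 ^ (Nat.log 2 l + κ + 1) := by
  have a1 := Nat.pow_log_le_self 2 hl.ne'
  have a2 := Nat.lt_pow_succ_log_self (b := 2) (by norm_num) l
  set J := Nat.log 2 l with hJ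
  refine ⟨?_, ?_⟩
  · calc 2 ^ (J + κ) ≤ 2 ^ (J + 1) := Nat.pow_le_pow_right (by norm_num) (by omega)
      _ = 2 * 2 ^ J := by rw [pow_succ']
      _ ≤ _ := Nat.mul_le_mul_left _ a1
  · exact a2.trans_le (Nat.pow_le_pow_right (by norm_num) (by omega))

open Classical in
/-- **target `TPair`** -/
theorem tpair (γ : ℝ) (X0 : ℕ) : TPair γ X0 := by
  refine (((((TBudx322.vw_ok γ).and evNum).and ev_pow).and
    (Ev.le_A fun _ _ => 10)).and (Ev.le_m0 fun _ _ _ => X0)).mono ?_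
  rintro cp η A m0 ⟨⟨⟨⟨hok, hnum⟩, hpow⟩, hA⟩, hX⟩
  have hA10 : 10 ≤ A := by exact_mod_cast hA
  have hXm : X0 ≤ m0 := by exact_mod_cast hX
  have hA1 : 1 ≤ A := by omega
  refine ⟨VWtx360.CW, VWtx360.CW_pos.le, ?_⟩
  intro L M B F hS a a' e b hb c hc _ h hl hk hvc
  obtain ⟨i, hfar, hdom, hpure, huv, hcl, hq⟩ := hvc
  set P := ParOf cp A m0 γ L M B with hP
  have hM := hS.hM
  have hL : 0 < P.L := hS.hL
  have hbM : b ∣ M := hS.dvd hb
  have hcM : c ∣ M := hS.dvd hc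
  have him0 : m0 ≤ i := hfar.m0
  have hi14 : 14 ≤ i := hnum.m0_14.trans him0
  set u := low (P.cut i) (b / Nat.gcd b c) with hu
  set v := low (P.cut i) (c / Nat.gcd b c) with hv
  obtain ⟨hu1, hu2, hv1, hv2, hu3, hv3, h4⟩ := hcl.bounds
  have hup : 0 < u := low_pos _ _
  have hvp : 0 < v := low_pos _ _
  have huvN : u * v < (i + 1) ^ 8 := by
    have : ((u * v : ℕ) : ℝ) < ((i + 1) ^ 8 : ℕ) := by push_cast; exact huv
    exact_mod_cast this
  -- `4 u v ≤ cut i`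
  have h4cut : 4 * (u * v) ≤ P.cut i := by
    show 4 * (u * v) ≤ 2 ^ (A * i)
    have h3 : i + 1 ≤ 2 ^ i := Nat.lt_two_pow_self
    have h4 : (i + 1) ^ 8 ≤ (2 ^ i) ^ 8 := Nat.pow_le_pow_left h3 8
    have h5 : (4 : ℕ) ≤ 2 ^ (2 * i) := by
      calc (4 : ℕ) = 2 ^ 2 := by norm_num
        _ ≤ _ := Nat.pow_le_pow_right (by norm_num) (by omega)
    calc 4 * (u * v) ≤ 2 ^ (2 * i) * (2 ^ i) ^ 8 := Nat.mul_le_mul h5 (huvN.le.trans h4)
      _ = 2 ^ (10 * i) := by rw [← pow_mul, ← pow_add]; congr 1; ring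
      _ ≤ 2 ^ (A * i) := Nat.pow_le_pow_right (by norm_num) (Nat.mul_le_mul_right _ hA10)
  have hV := exists_vp_cls hM F P hbM hcM hL hfar hpure hl hcl h4cut
  change VP hM F P (yc a a') i (HighFLx863.H0 hM F (yc a a') b)
    (HighFLx863.hw hM F (yc a a') b) (HighFLx863.hw hM F (yc a a') c) u v
    (Nat.gcd (low (yc a a') b) (low (yc a a') c)) b c h at hV
  set y := yc a a' with hy
  set l := Nat.gcd (low y b) (low y c) with hlg
  obtain ⟨κ, hκ, hw1, hw2⟩ := hV.window hL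
  have hHc : HighFLx863.H0 hM F y b = HighFLx863.H0 hM F y c := hV.Gc.symm
  refine ⟨hHc, Nat.log 2 l + κ, win_of hV.l_pos hκ hV.lb hu1 hu2,
    win_of hV.l_pos hκ hV.lc hv1 hv2, ?_⟩
  intro Z w w' hZ hwe hwe'
  set s := Nat.log 2 l + κ with hs
  obtain ⟨hs1, hs2⟩ := s_bd hV.l_pos hκ
  rw [← hs] at hs1 hs2
  rw [← hwe, ← hwe'] at hV
  rw [← hwe] at hw1 hw2
  set G := HighFLx863.H0 hM F y b with hG
  have hZok : Z.Ok := by rw [hZ]; exact hok L M B F hS _ a a' _ G hV.hG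
  have eN : Z.N = PM (hiFL hM y F) G := by rw [hZ]; rfl
  have eG : Z.G0 = G := by rw [hZ]; rfl
  have eL : Z.L = L / 2 ^ s := by rw [hZ]; rfl
  have ecut : Z.cut = P.cut := by rw [hZ]; rfl
  have eγ : Z.γ = γ := by rw [hZ]; rfl
  have ei0 : Z.i0 = max P.m0 (max (GWinstx982.iD (hiFL hM y F) P G) (iA a a')) := by rw [hZ]; rfl
  have eθ : ∀ j, Z.θ j = (2 : ℝ) ^ (cp * j) / 16 := by rw [hZ]; intro j; rfl
  have hwN : w ∣ Z.N := by rw [eN]; exact hV.hw
  have hwN' : w' ∣ Z.N := by rw [eN]; exact hV.hw'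
  -- the first index
  have hi0 : Z.i0 ≤ i := by
    rw [ei0]
    refine max_le him0 (max_le (GWinstx982.iD_le hV.D_le) ?_)
    refine Nat.sInf_le ?_
    show 2 ^ (a + a') < (i + 1) ^ 8
    calc 2 ^ (a + a') = 2 ^ a * 2 ^ a' := pow_add _ _ _
      _ ≤ u * v := Nat.mul_le_mul hu1 hv1
      _ < _ := huvN
  -- nodes
  have hnd : Z.nd i w := by
    refine ⟨hi0, ?_, ?_⟩
    · show (2 : ℝ) ^ i * Z.L ≤ ((Z.G0 * low (Z.cut i) w : ℕ) : ℝ)
      rw [eL, eG, ecut]; exact hw1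
    · show ((Z.G0 * low (Z.cut i) w : ℕ) : ℝ) < 2 ^ (i + 1) * Z.L
      rw [eL, eG, ecut]; exact hw2
  have hlow : low (Z.cut i) w = low (Z.cut i) w' := by rw [ecut]; exact hV.low_eq.symm
  have hnd' : Z.nd i w' := (GWnodex863.nd_congr' hlow).1 hnd
  -- the relation
  have htt : Z.tt i w = ((G * low (P.cut i) w : ℕ) : ℝ) / (L / 2 ^ s) := by
    show ((Z.G0 * low (Z.cut i) w : ℕ) : ℝ) / Z.L = _
    rw [eL, eG, ecut]
  have hR : RR Z a a' (Z.lab i w) (Z.lab i w') := by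
    refine RelDegx15.rel_of_link (W := RelDegx15.Cl (2 ^ a) (2 ^ a')) (R := 2) (p := (u, v))
      (h := h) hZok hwN hwN' hnd hlow ?_ ?_
    · refine RelDegx15.mem_Cl.2 ⟨⟨⟨hu1, ?_⟩, hv1, ?_⟩, hV.cop⟩
      · show u < 2 * 2 ^ a
        rw [← pow_succ']; exact hu2
      · show v < 2 * 2 ^ a'
        rw [← pow_succ']; exact hv2
    · have h5 := hV.link
      have ey : ∀ x, Z.yy i x = (upp (P.cut i) x : ℝ) * γ := by
        intro x
        show (upp (Z.cut i) x : ℝ) * Z.γ = _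
        rw [ecut, eγ]
      rw [htt, ey, ey]
      refine h5.le.trans ?_
      set e0 : ℝ := ((G * low (P.cut i) w : ℕ) : ℝ) with he0
      have h2i : (0 : ℝ) < 2 ^ i * (P.L / 2 ^ s) := by positivity
      have he0p : 0 < e0 := lt_of_lt_of_le h2i hw1
      have hl0 : (0 : ℝ) < l := by exact_mod_cast hV.l_pos
      have hsl : (2 : ℝ) ^ s ≤ 2 * l := by exact_mod_cast hs1
      have h2s : (0 : ℝ) < 2 ^ s := by positivity
      have hL' : 0 < L := hS.hL
      show L / ((l : ℝ) * e0) ≤ 2 / (e0 / (L / 2 ^ s))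
      rw [div_div_eq_mul_div, div_le_div_iff₀ (mul_pos hl0 he0p) he0p, mul_div_assoc',
        div_mul_eq_mul_div, le_div_iff₀ h2s]
      have h6 := mul_le_mul_of_nonneg_left hsl (mul_nonneg hL'.le he0p.le)
      linarith
  -- numerics
  have hθi : Z.θ i = (2 : ℝ) ^ (cp * i) / 16 := eθ i
  have hui : (u : ℝ) ≤ ((i : ℝ) + 1) ^ 8 := by
    have : u ≤ (i + 1) ^ 8 := (Nat.le_mul_of_pos_right u hvp).trans huvN.le
    exact_mod_cast this
  have hvi : (v : ℝ) ≤ ((i : ℝ) + 1) ^ 8 := by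
    have : v ≤ (i + 1) ^ 8 := (Nat.le_mul_of_pos_left v hup).trans huvN.le
    exact_mod_cast this
  obtain ⟨k1, k2, k3⟩ := kill_num (A := A) (i := i) hnum.cp_pos hnum.cp_le hA1 (by omega)
    (hpow i him0)
  have hSw := GWnodex863.mem_S_lab hZok hwN hnd
  have hSw' := GWnodex863.mem_S_lab hZok hwN' hnd'
  have hNd := GWnodex863.mem_Nd_zone hZok hwN hnd
  have hNd' := GWnodex863.mem_Nd_zone hZok hwN' hnd'
  have hm : (w ∈ Z.A (Z.zone i w) (Z.lab i w) ∧ w' ∈ Z.S (Z.lab i w')) ∨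
      (w ∈ Z.S (Z.lab i w) ∧ w' ∈ Z.A (Z.zone i w') (Z.lab i w')) := by
    by_contra hcon
    push Not at hcon
    have n1 : w ∉ Z.A (Z.zone i w) (Z.lab i w) := fun h5 => hcon.1 h5 hSw'
    have n2 : w' ∉ Z.A (Z.zone i w') (Z.lab i w') := fun h5 => hcon.2 hSw h5
    refine hq.2.2 (KillVx19.killV (hy_of_num hnum (γ := γ) (B := B) hM hS.hL F) hA1 hnum.cp_pos.le
      hV hl hk hfar hs1 hs2 hZok eG eL ecut eγ
      (fun K ν x x' h1 h2 h3 => GWcellx284.on_cell hZok h1 h2 h3) hNd hNd' rfl rfl hSw hSw' n1 n2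
      (K' := 1 / 2 * ((i : ℝ) + 1) ^ 8 * (2 : ℝ) ^ (cp * i)) ?_ ?_ k1 k2 k3)
    · rw [hθi]
      have h5 : (0 : ℝ) < (2 : ℝ) ^ (cp * i) := by positivity
      nlinarith [mul_le_mul_of_nonneg_right hui h5.le]
    · rw [hθi]
      have h5 : (0 : ℝ) < (2 : ℝ) ^ (cp * i) := by positivity
      nlinarith [mul_le_mul_of_nonneg_right hvi h5.le]
  -- coins
  have hR1 : (1 : ℝ) ≤ 4 * ((i : ℝ) + 1) ^ 8 := by
    have h5 : (1 : ℝ) ≤ ((i : ℝ) + 1) ^ 8 := one_le_pow₀ (by linarith [Nat.cast_nonneg (α := ℝ) i])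
    linarith
  have hwb := win_of (y := y) (b := b) (κ := κ) hV.l_pos hκ hV.lb hu1 hu2
  have hwc := win_of (y := y) (b := c) (κ := κ) hV.l_pos hκ hV.lc hv1 hv2
  rw [← hs] at hwb hwc
  have hcp4 : cp ≤ 1 / 4 := hnum.cp_le.trans (by norm_num)
  have hG1 := GoodVx20.good_birth' (F := F) (B := B) (γ := γ) (m0 := m0) hM hS.hL hA10 hcp4 hbM hZ
    hZok (GoodVx20.win_lo hwb) (GoodVx20.win_hi a' hwb) (l := i) (by rw [← hwe]; exact hnd) hR1
    hq.1
  have hG2 := GoodVx20.good_birth' (F := F) (B := B) (γ := γ) (m0 := m0) hM hS.hL hA10 hcp4 hcM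
    (a := a) (a' := a') (by rw [hZ, hHc]) hZok (GoodVx20.win_lo hwc) (GoodVx20.win_hi' a hwc)
    (l := i) (by rw [← hwe']; exact hnd') hR1 hq.2.1
  rw [← hwe] at hG1
  rw [← hwe'] at hG2
  refine ⟨Z.zone i w, GWnodex863.zone_mem_Zs hZok hwN hnd, Z.zone i w',
    GWnodex863.zone_mem_Zs hZok hwN' hnd', ?_⟩
  have hXi : X0 ≤ P.cut i := by
    have h5 : i ≤ P.cut i := by
      show i ≤ 2 ^ (A * i)
      exact (Nat.lt_two_pow_self (n := i)).le.trans
        (Nat.pow_le_pow_right (by norm_num) (Nat.le_mul_of_pos_left i (by omega)))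
    omega
  exact VWtx360.tpair_weight (P := P) hM hL (fun _ => rfl)
    (fun d j => HyOfx281.thr_le_exp d j) hA1 (fun _ => rfl) (by omega) hV hfar hcl hl hXi eN ecut
    hNd hNd' hR (by rw [← ecut]; rfl) hm (GWnodex863.bi_le i w) (GWnodex863.bi_le i w') hG1 hG2

end Crest.Agent.R4C.TPairx20
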